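import Crest.Agent.T156.ClE1u_49
import Crest.Agent.T156.ClAp_63
import Crest.Agent.T156.LDef_69

-- ▼ part T156/PlGA_49
section

/-!
# Row 156 (helper49): plateau sums with averaged node weights and an upper cut
-/

set_option autoImplicit false
set_option linter.unusedSectionVars false

noncomputable section

namespace Crest.Agent.T156.Alt.G49

open Real Finset
open Crest.Agent.T156.Alt.Md67 Crest.Agent.T156.Alt.E61 Crest.Agent.T156.Alt.C33
open Crest.Agent.T156.Alt.E49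
open Crest.Agent.T156.Alt.Cost41 (aM Phi RW)

theorem abel1 (f z : ℕ → ℝ) {b N : ℕ} (h : b ≤ N) :
    ∑ j ∈ Ioc b N, (f j - f (j - 1)) * (1 - z (j - 1)) =
      ∑ i ∈ Ioc b N, (z i - z (i - 1)) * f i + f N * (1 - z N) - f b * (1 - z b) := by
  induction N, h using Nat.le_induction with
  | base => simp
  | succ N hN ih => rw [sum_Ioc_succ_top hN, sum_Ioc_succ_top hN, ih, Nat.add_sub_cancel]; ring

theorem drop {e w : ℕ → ℝ} {b N : ℕ} {B : ℝ} (h : b ≤ N)
    (H : ∀ j, b ≤ j → j ≤ N → 0 < w j ∧ e j * w j ≤ B)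
    (wm : ∀ j, b ≤ j → j < N → w j ≤ w (j + 1)) (B0 : 0 ≤ B) :
    ∑ j ∈ Ioc b N, (e (j - 1) - e j) * w (j - 1) + e N * w N ≤ B * (1 + log (w N / w b)) := by
  induction N, h using Nat.le_induction with
  | base =>
    obtain ⟨a1, a2⟩ := H b le_rfl le_rfl
    simpa [div_self a1.ne'] using a2
  | succ N hN ih =>
    have i := ih (fun j p q => H j p (by omega)) fun j p q => wm j p (by omega)
    obtain ⟨a1, a2⟩ := H (N + 1) (by omega) le_rfl
    have b1 := (H N hN (by omega)).1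
    have b0 := (H b le_rfl (by omega)).1
    have b2 := wm N hN (by omega)
    have l : 1 - w N / w (N + 1) ≤ log (w (N + 1) / w b) - log (w N / w b) := by
      rw [← log_div (by positivity) (by positivity), div_div_div_cancel_right₀ b0.ne']
      have := one_sub_inv_le_log_of_pos (div_pos a1 b1)
      rwa [inv_div] at this
    have c1 : 0 ≤ 1 - w N / w (N + 1) := sub_nonneg.2 ((div_le_one a1).2 b2)
    have c2 := mul_le_mul_of_nonneg_right a2 c1
    have e1 : e (N + 1) * w (N + 1) * (1 - w N / w (N + 1)) =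
        e (N + 1) * w (N + 1) - e (N + 1) * w N := by field_simp
    rw [sum_Ioc_succ_top hN, Nat.add_sub_cancel]
    linarith [mul_le_mul_of_nonneg_left l B0]

/-- the first index below the distance `u` to the upper end -/
theorem cut (f : ℕ → ℝ) (u : ℝ) {i N : ℕ} (h : i ≤ N) :
    ∃ c, i ≤ c ∧ c ≤ N ∧ (∀ k, i ≤ k → k < c → u ≤ f k) ∧ (c = N ∨ f c < u) := by
  classical
  have ex : ∃ c, i ≤ c ∧ (c = N ∨ f c < u) := ⟨N, h, Or.inl rfl⟩
  refine ⟨Nat.find ex, (Nat.find_spec ex).1, Nat.find_min' ex ⟨h, Or.inl rfl⟩, fun k p q => ?_,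
    (Nat.find_spec ex).2⟩
  exact not_lt.1 fun c => Nat.find_min ex q ⟨p, Or.inr c⟩

/-- plateau data below the cut `Jc` -/
structure Pt2 (S : Sc) (M : Md) (m : ℕ) (a : ℝ) (p : ℕ → ℝ) (l Λ R cm : ℝ) (Jc : ℕ) : Prop where
  J1 : S.J ≤ Jc
  J2 : Jc ≤ S.Jp
  nn : ∀ j, S.J - 1 ≤ j → 0 ≤ p j
  l0 : 0 < l
  cm0 : 0 ≤ cm
  av : ∀ j k, S.J ≤ j → j ≤ k → k < Jc → M.z k - M.z j ≤ ((k : ℝ) - j) * (S.v * p (j - 1))
  co : ∀ k, S.J ≤ k → k < Jc → (M.z k - M.z (S.J - 1)) * l ≤ ((k - (S.J - 1) : ℕ) : ℝ) * S.v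
  dz : ∀ k, S.J ≤ k → k < Jc → M.dz m a k ≤ S.v * p k ∧ M.dz m a k ≤ cm
  Λ0 : 0 ≤ Λ
  up : ∀ i, S.J / 2 + i < S.J - 1 →
    M.rb m a (S.J - 1) - M.rb m a (S.J - 1 - 1 - i) ≤ Λ * (i * S.v + l)
  R : ∑ j ∈ Ioc (S.J - 1) Jc, (M.rb m a j - M.rb m a (j - 1)) * p (j - 1) ≤ R

/-- the rate -/
def rt (S : Sc) : ℝ := 110592 * S.C ^ 14 * gg S 1

variable {S : Sc} {M : Md} {m : ℕ} {a : ℝ} {K : ℕ} (F : Fn S M m a) (hJ : 4 * S.jl ≤ S.J)
include F hJ

theorem ind_sum {i b : ℕ} (h : S.J ≤ i) :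
    ∑ k ∈ Ico i b, M.dz m a k * aM M m a k = ∑ k ∈ Ioc (S.J / 2) (b - 1),
      (if i ≤ k then M.dz m a k else 0) * aM M m a k := by
  have i0 := F.i0; have i1 := F.i1
  simp only [ite_mul, zero_mul]
  rw [← sum_filter]
  refine sum_congr ?_ fun _ _ => rfl
  ext k
  simp only [mem_Ico, mem_filter, mem_Ioc]
  omega

theorem tM_pl {k : ℕ} (k1 : S.J ≤ k) (k2 : k < S.Jp) {x y : ℝ} (hx : M.dz m a k ≤ S.v * x)
    (hy : M.dz m a k ≤ y) : M.dz m a k * tM M m a k ≤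
      2 * S.C * rt S * ((M.rb m a (k + 1) - M.rb m a k) * x) +
        2 * S.C ^ 2 * y * (M.rb m a (k + 1) - M.rb m a k) := by
  have G := F.lg
  have C0 := F.C0; have v0 := F.v0; have σ0 := sg_pos F (S.J / 2); have m' := m0 F
  have i0 := F.i0; have i1 := F.i1; have i4 := F.i4
  have r := rate_top F (i := S.J / 2) (by omega) (by omega) (by omega)
  have x0 : 0 ≤ x := nonneg_of_mul_nonneg_right ((G.dz_nonneg k).trans hx) v0 |> id
  set σ := m * sg S M (S.J / 2) with hσ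
  have d0 : 0 ≤ M.rb m a (k + 1) - M.rb m a k := sub_nonneg.2 (Md67.rb_mono G.m0 k.le_succ)
  have b1 := tM_le G (k := k) (by omega) (σ := σ) (x := 1 / S.C) (by positivity) (by positivity)
    (by rw [div_le_iff₀' C0]; exact F.z_top (by omega)) (sg_le' F (by omega) (by omega) k2)
  refine (mul_le_mul_of_nonneg_left b1 (G.dz_nonneg k)).trans ?_
  have b2 := mul_le_mul_of_nonneg_right hx
    (by positivity : 0 ≤ 2 * S.C / σ * (M.rb m a (k + 1) - M.rb m a k))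
  have b3 := mul_le_mul_of_nonneg_right hy
    (by positivity : 0 ≤ 2 * S.C ^ 2 * (M.rb m a (k + 1) - M.rb m a k))
  have b4 := mul_le_mul_of_nonneg_right r
    (by positivity : 0 ≤ 2 * S.C * ((M.rb m a (k + 1) - M.rb m a k) * x))
  rw [show 2 / (σ * (1 / S.C)) + 2 / (1 / S.C) ^ 2 = 2 * S.C / σ + 2 * S.C ^ 2 by field_simp]
  refine le_trans (le_of_eq (by ring)) ((add_le_add (b2.trans (le_trans (le_of_eq (by ring)) b4))
    b3).trans (le_of_eq (by rw [rt]; ring)))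

/-- constant node weights -/
theorem cst_sum (B : Kb S M K) {i b : ℕ} (h1 : S.J ≤ i) (h2 : i ≤ b) (h3 : b ≤ S.Jp) {p : ℝ}
    (p0 : 0 ≤ p) (hp : ∀ k, i ≤ k → k < b → M.dz m a k ≤ S.v * p) :
    ∑ k ∈ Ico i b, M.dz m a k * aM M m a k ≤ (K + 2) * (2 * (1 + K) * (rt S * p) + S.v * p) ∧
      ∑ k ∈ Ico i b, M.dz m a k * tM M m a k ≤ 2 * S.C * rt S * p + 2 * S.C ^ 2 * (S.v * p) := by
  have G := F.lg
  have C0 := F.C0; have v0 := F.v0; have σ0 := sg_pos F (S.J / 2); have m' := m0 F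
  have i0 := F.i0; have i1 := F.i1; have i3 := F.i3; have i4 := F.i4
  have ρm := Md67.rb_mono (M := M) (a := a) G.m0
  have r := rate_top F (i := S.J / 2) (by omega) (by omega) (by omega)
  have g0 := gg_pos F zero_le_one
  constructor
  · have c1 : ∀ k, k ≤ b - 1 → (if i ≤ k then M.dz m a k else 0) ≤ S.v * p := fun k q => by
      split_ifs with h
      exacts [hp k h (by omega), by positivity]
    rw [ind_sum F hJ h1]
    refine (Cost41.cost G (W := fun _ => S.v * p / sg S M (S.J / 2)) (cm := S.v * p) (K := K) σ0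
      (by omega) (by omega) (fun i p q => sg_le F (by omega) p (by omega))
      (Phi_le F B (by omega) (by omega)) (fun k _ _ => by
        split_ifs
        exacts [G.dz_nonneg k, le_rfl]) (by positivity) (fun k _ q => c1 k q)
      (fun j _ _ => by positivity) fun j k p q r => ?_).trans
      (mul_le_mul_of_nonneg_left (add_le_add ?_ le_rfl) (by positivity))
    · refine (sum_le_card_nsmul _ _ _ fun x hx => c1 x ((mem_Ioc.1 hx).2.trans r)).trans ?_
      rw [Nat.card_Ioc, nsmul_eq_mul, Nat.cast_sub q.le]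
      refine le_trans (le_of_eq ?_) (mul_le_mul_of_nonneg_left
        (Phi_ge F (i := S.J / 2) (by omega) p q.le (by omega)) (by positivity))
      field_simp
    · have q := (RW_top (W := fun _ => S.v * p / sg S M (S.J / 2)) ρm (rb_nonneg G.m0 (S.J / 2))
        (show S.J / 2 ≤ b - 1 by omega) fun _ _ _ => le_rfl).trans
          (mul_le_of_le_one_right (by positivity) (rb_le_one G.m0 _))
      calc _ ≤ 2 / m * ((1 + K) * (S.v * p / sg S M (S.J / 2))) := by gcongr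
        _ = 2 * (1 + K) * (S.v / (m * sg S M (S.J / 2)) * p) := by field_simp
        _ ≤ _ := by rw [rt]; gcongr
  · refine (sum_le_sum fun k hk => tM_pl F hJ (h1.trans (mem_Ico.1 hk).1) ((mem_Ico.1 hk).2.trans_le
      h3) (hp k (mem_Ico.1 hk).1 (mem_Ico.1 hk).2) (hp k (mem_Ico.1 hk).1 (mem_Ico.1 hk).2)).trans ?_
    rw [sum_add_distrib, ← mul_sum, ← mul_sum, ← sum_mul, sum_Ico_sub _ h2]
    have q : M.rb m a b - M.rb m a i ≤ 1 := by
      linarith [rb_le_one (M := M) (a := a) G.m0 b, rb_nonneg (M := M) (a := a) G.m0 i]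
    have : 0 ≤ rt S := by rw [rt]; positivity
    exact add_le_add (mul_le_mul_of_nonneg_left (mul_le_of_le_one_left p0 q) (by positivity))
      (mul_le_of_le_one_right (by positivity) q)

variable {p : ℕ → ℝ} {l Λ R cm : ℝ} {Jc : ℕ} (P : Pt2 S M m a p l Λ R cm Jc)
include P

theorem Pt2.R0 : 0 ≤ R := le_trans (sum_nonneg fun _ hj =>
  mul_nonneg (sub_nonneg.2 (Md67.rb_mono F.lg.m0 (Nat.sub_le _ _)))
    (P.nn _ (by have := (mem_Ioc.1 hj).1; omega))) P.R

theorem pl_tM : ∑ k ∈ Ico S.J Jc, M.dz m a k * tM M m a k ≤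
    2 * S.C * rt S * R + 2 * S.C ^ 2 * cm := by
  have G := F.lg
  have C0 := F.C0; have g0 := gg_pos F zero_le_one; have := P.cm0
  have ρm := Md67.rb_mono (M := M) (a := a) G.m0
  refine (sum_le_sum fun k hk => tM_pl F hJ (mem_Ico.1 hk).1 ((mem_Ico.1 hk).2.trans_le P.J2)
    (P.dz k (mem_Ico.1 hk).1 (mem_Ico.1 hk).2).1 (P.dz k (mem_Ico.1 hk).1 (mem_Ico.1 hk).2).2).trans ?_
  rw [sum_add_distrib, ← mul_sum, ← mul_sum, sum_Ico_sub _ P.J1]
  have e : ∑ k ∈ Ico S.J Jc, (M.rb m a (k + 1) - M.rb m a k) * p k ≤ R := by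
    refine le_trans ?_ P.R
    rw [← Ico_add_one_add_one_eq_Ioc, ← sum_Ico_add']
    exact sum_le_sum_of_subset_of_nonneg (Ico_subset_Ico_left (Nat.sub_le _ 1))
      fun j hj _ => mul_nonneg (sub_nonneg.2 (ρm j.le_succ)) (P.nn _ (mem_Ico.1 hj).1)
  have : 0 ≤ rt S := by rw [rt]; positivity
  refine add_le_add (mul_le_mul_of_nonneg_left e (by positivity))
    (mul_le_of_le_one_right (by positivity) ?_)
  linarith [rb_le_one (M := M) (a := a) G.m0 Jc, rb_nonneg (M := M) (a := a) G.m0 S.J]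

theorem pl_aM (B : Kb S M K) : ∑ k ∈ Ico S.J Jc, M.dz m a k * aM M m a k ≤
    (K + 2) * (2 * (1 + K) * (rt S * (12 * S.C ^ 3 + Λ * (1 + log (1 + S.C ^ 2 / l)) + R)) + cm) := by
  have G := F.lg
  have C0 := F.C0; have v0 := F.v0; have σ0 := sg_pos F (S.J / 2); have m' := m0 F
  have i0 := F.i0; have i1 := F.i1; have i4 := F.i4; have l0 := P.l0
  have J1 := P.J1; have J2 := P.J2; have cm0 := P.cm0
  have ρm := Md67.rb_mono (M := M) (a := a) G.m0
  set σ := sg S M (S.J / 2) with hσ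
  set W : ℕ → ℝ := fun j => S.v / σ *
    if j < S.J then 1 / (((S.J - 1 - j : ℕ) : ℝ) * S.v + l) else p (j - 1) with hW
  have W0 : ∀ j, 0 ≤ W j := fun j => mul_nonneg (by positivity) (by
    split_ifs
    exacts [by positivity, P.nn _ (by omega)])
  have := Cost41.cost G (c := fun k => if S.J ≤ k then M.dz m a k else 0) (W := W)
    (cm := cm) (j0 := S.J / 2) (N := Jc - 1) (K := K) σ0 (by omega) (by omega)
    (fun i p q => sg_le F (by omega) p (by omega)) (Phi_le F B (by omega) (by omega))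
    (fun k _ _ => by
      split_ifs
      exacts [G.dz_nonneg k, le_rfl]) cm0
    (fun k p q => by
      split_ifs with h
      exacts [(P.dz k h (by omega)).2, cm0]) (fun j _ _ => W0 j) fun j k hp q r => by
      refine le_trans ?_ (mul_le_mul_of_nonneg_left (Phi_ge F (i := S.J / 2) (by omega) hp q.le
        (by omega)) (W0 j))
      by_cases h : j < S.J
      · rw [hW]
        simp only [if_pos h]
        rcases lt_or_ge k S.J with hk | hk
        · rw [sum_eq_zero fun i hi => if_neg (by have := (mem_Ioc.1 hi).2; omega)]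
          have : (0 : ℝ) ≤ (k : ℝ) - j := sub_nonneg.2 (Nat.cast_le.2 q.le)
          positivity
        · rw [← sum_Ioc_consecutive _ (show j ≤ S.J - 1 by omega) (show S.J - 1 ≤ k by omega),
            sum_eq_zero fun i hi => if_neg (by have := (mem_Ioc.1 hi).2; omega),
            zero_add, sum_congr rfl fun i hi => if_pos (by have := (mem_Ioc.1 hi).1; omega),
            Md67.sum_dz F.leg (by omega)]
          have b1 : M.z k - M.z (S.J - 1) ≤ 1 := by linarith [G.z1 k, F.z_pos (S.J - 1)]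
          have b2 := P.co k hk (by omega)
          have e : (k : ℝ) - j = ((k - (S.J - 1) : ℕ) : ℝ) + ((S.J - 1 - j : ℕ) : ℝ) := by
            rw [← Nat.cast_add, ← Nat.cast_sub q.le]; congr 1; omega
          have b3 := mul_le_mul_of_nonneg_right b1
            (by positivity : 0 ≤ ((S.J - 1 - j : ℕ) : ℝ) * S.v)
          rw [show S.v / σ * (1 / (((S.J - 1 - j : ℕ) : ℝ) * S.v + l)) * (((k : ℝ) - j) * σ) =
            S.v * ((k : ℝ) - j) / (((S.J - 1 - j : ℕ) : ℝ) * S.v + l) by field_simp,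
            le_div_iff₀ (by positivity), e]
          linarith
      · rw [hW]
        simp only [if_neg h]
        rw [sum_congr rfl fun i hi => if_pos (by have := (mem_Ioc.1 hi).1; omega),
          Md67.sum_dz F.leg q.le]
        refine (P.av j k (by omega) q.le (by omega)).trans (le_of_eq ?_)
        rw [← hσ]; field_simp
  rw [ind_sum F hJ le_rfl]
  refine this.trans (mul_le_mul_of_nonneg_left (add_le_add ?_ le_rfl) (by positivity))
  have r1 : M.rb m a (S.J / 2) * W (S.J / 2) ≤ S.v / σ * (12 * S.C ^ 3) := by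
    refine (mul_le_of_le_one_left (W0 _) (rb_le_one G.m0 _)).trans ?_
    rw [hW]
    simp only [if_pos (show S.J / 2 < S.J by omega)]
    refine mul_le_mul_of_nonneg_left ?_ (by positivity)
    have b1 : (S.J : ℝ) ≤ 4 * ((S.J - 1 - S.J / 2 : ℕ) : ℝ) := by
      exact_mod_cast (by omega : S.J ≤ 4 * (S.J - 1 - S.J / 2))
    have b2 := mul_le_mul_of_nonneg_left (mul_le_mul_of_nonneg_right b1 v0.le)
      (by positivity : 0 ≤ 3 * S.C ^ 3)
    rw [div_le_iff₀ (by positivity)]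
    linarith [F.J_lo, (by positivity : 0 ≤ 12 * S.C ^ 3 * l)]
  have r2 : ∑ j ∈ Ioc (S.J / 2) (S.J - 1), (M.rb m a j - M.rb m a (j - 1)) * W j ≤
      S.v / σ * (Λ * (1 + log (1 + S.C ^ 2 / l))) := by
    have b1 := RW_up (ρ := M.rb m a) (c := S.J / 2) (b := S.J - 1) (by omega) v0.le l0 P.Λ0 P.up
    have b2 : ((S.J - 1 : ℕ) : ℝ) * S.v ≤ S.C ^ 2 := by
      have := (F.s_mem (k := S.J - 1) (by omega)).1
      have := mul_le_mul_of_nonneg_left ((F.sm (show S.J - 1 ≤ S.Jp by omega)).trans F.sT) C0.le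
      linarith
    refine le_trans (le_of_eq ?_) (mul_le_mul_of_nonneg_left (b1.trans
      (mul_le_mul_of_nonneg_left (add_le_add le_rfl (log_le_log (by positivity) (by gcongr))) P.Λ0))
      (by positivity))
    rw [mul_sum]
    refine sum_congr rfl fun j hj => ?_
    rw [hW]
    simp only [if_pos (show j < S.J by have := (mem_Ioc.1 hj).2; omega)]
    ring
  have r3 : ∑ j ∈ Ioc (S.J - 1) (Jc - 1), (M.rb m a j - M.rb m a (j - 1)) * W j ≤ S.v / σ * R := by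
    refine le_trans ?_ (mul_le_mul_of_nonneg_left P.R (by positivity))
    rw [mul_sum]
    refine le_trans (sum_le_sum fun j hj => le_of_eq ?_) (sum_le_sum_of_subset_of_nonneg
      (Ioc_subset_Ioc_right (Nat.sub_le _ 1)) fun j hj _ => mul_nonneg (by positivity)
        (mul_nonneg (sub_nonneg.2 (ρm (Nat.sub_le _ _)))
          (P.nn _ (by have := (mem_Ioc.1 hj).1; omega))))
    rw [hW]
    simp only [if_neg (show ¬ j < S.J by have := (mem_Ioc.1 hj).1; omega)]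
    rw [mul_left_comm]
  have r4 : RW (M.rb m a) W (S.J / 2) (Jc - 1) ≤
      S.v / σ * (12 * S.C ^ 3 + Λ * (1 + log (1 + S.C ^ 2 / l)) + R) := by
    rw [Cost41.RW_split _ _ (show S.J / 2 ≤ S.J - 1 by omega) (show S.J - 1 ≤ Jc - 1 by omega), RW]
    linarith
  have Y0 : 0 ≤ 12 * S.C ^ 3 + Λ * (1 + log (1 + S.C ^ 2 / l)) + R := by
    have := log_nonneg (le_add_of_nonneg_right (by positivity : 0 ≤ S.C ^ 2 / l))
    have := P.Λ0
    have := P.R0 F hJ
    positivity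
  have r5 := mul_le_mul_of_nonneg_right (rate_top F (i := S.J / 2) (by omega) (by omega) (by omega)) Y0
  calc _ ≤ 2 / m * ((1 + K) * (S.v / σ * (12 * S.C ^ 3 + Λ * (1 + log (1 + S.C ^ 2 / l)) + R))) := by
        gcongr
    _ = 2 * (1 + K) * (S.v / (m * σ) * (12 * S.C ^ 3 + Λ * (1 + log (1 + S.C ^ 2 / l)) + R)) := by
        field_simp
    _ ≤ _ := by rw [rt]; gcongr

end Crest.Agent.T156.Alt.G49

end
end

-- ▼ part T156/PlG_49

/-!
# Row 156, block (L): the plateau part of the weak input (helper49)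
-/

set_option autoImplicit false
set_option linter.unusedSectionVars false

noncomputable section

namespace Crest.Agent.T156.Alt.G49

open Real Finset Filter
open Crest.Agent.T156.Alt.Md67 Crest.Agent.T156.Alt.E61 Crest.Agent.T156.Alt.C33
open Crest.Agent.T156.Alt.E49
open Crest.Agent.T156.Alt.Cost41 (aM)
open Crest.Agent.T156.Alt.L69 (LN LP du dl ds mf Rp)

/-- **the plateau sums** -/
def PlG : Prop := CL fun E Λ S M m a =>
  ∀ l0 l V X Lg X2 X3 G0 η Xp Vt Lp G1 u1 u2 j γ Lc ηc τ N, LN E S M l0 l V X Lg X2 X3 G0 η →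
  LP E S M Xp Vt Lg Lp X2 X3 G0 G1 u1 u2 j γ Lc ηc τ η N →
  M.En S m a M.q 2 (M.s S.J / 2) S.C ≤ Xp → 0 ≤ j →
  ∑ k ∈ Icc S.J S.Jp, M.dz m a k * aM M m a k ≤ Λ * G0 ^ 2 ∧
    ∑ k ∈ Ico S.J S.Jp, M.dz m a k * tM M m a k ≤ Λ * G0 ^ 2 ∧ S.w3 1 ≤ Λ * G0 ^ 2

variable {S : Sc} {M : Md} {m : ℕ} {a : ℝ} {K : ℕ}

/-- the a priori frame: `R³` bounds the energy -/
structure Fr (S : Sc) (M : Md) (m : ℕ) (a R γ : ℝ) : Prop extends Fn S M m a where
  hJ : 4 * S.jl ≤ S.J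
  R0 : 0 < R
  R1 : 24 * S.C ^ 5 * R ≤ 1
  vR : S.v ≤ R
  en : M.En S m a M.q 2 (M.s S.J / 2) S.C ≤ R ^ 3
  γ0 : M.s S.Jp - M.s S.J ≤ γ

namespace Fr
variable {R γ : ℝ} (F : Fr S M m a R γ)
include F

theorem sx {lo : ℕ} (h0 : S.j0 ≤ lo) (h : M.s S.J / 2 ≤ M.s (lo + 1)) :
    Ap63.Sx M.z (fun j => M.rb m a j - M.q j) lo S.Jp 2 ≤ R ^ 3 := by
  refine le_trans (sum_le_sum_of_subset_of_nonneg (fun k hk => ?_) fun k _ _ =>
    mul_nonneg (Ap63.w_nn F.leg.zm k) (by positivity)) F.en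
  obtain ⟨p, q⟩ := mem_Ioc.1 hk
  exact mem_filter.2 ⟨mem_Ioc.2 ⟨by omega, q⟩, h.trans (F.sm p), (F.sm q).trans F.sT⟩

theorem sx1 : Ap63.Sx M.z (fun j => M.rb m a j - M.q j) (S.J - 1) S.Jp 2 ≤ R ^ 3 := by
  have i1 := F.i1; have i2 := F.i2
  refine F.sx (by omega) ?_
  rw [Nat.sub_add_cancel (by omega)]
  linarith [F.s_nonneg S.J]

theorem γn : 0 ≤ γ := (sub_nonneg.2 (F.sm F.i3)).trans F.γ0

theorem q_pl {k : ℕ} (h1 : S.J ≤ k) (h2 : k ≤ S.Jp) : M.q S.J ≤ M.q k ∧ M.q k ≤ M.q S.J + γ :=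
  ⟨F.toCl.q_mono h1 (h2.trans F.i4.le), by
    linarith [Ap63.q_slow F.toCl h1 h2, F.sm h2, F.γ0]⟩

theorem CR : 4 * S.C * R ≤ 1 ∧ R ≤ 1 := by
  have a1 := mul_le_mul_of_nonneg_right (le_self_pow₀ F.C1 (show 5 ≠ 0 by norm_num)) F.R0.le
  have a2 := mul_le_mul_of_nonneg_right F.C1 F.R0.le
  have := F.R0; have := F.R1
  constructor <;> linarith

theorem lag {i : ℕ} (hi : i < S.J) (h : 12 * S.C ^ 5 * (((S.J : ℝ) - i) * S.v) ≤ 1) :
    M.q i - M.rb m a i ≤ 3 * S.C * R := by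
  have C0 := F.C0; have C1 := F.C1; have v0 := F.v0; have R0 := F.R0
  have i1 := F.i1; have i3 := F.i3; have hJ := F.hJ
  have ρm := Md67.rb_mono (M := M) (a := a) F.lg.m0
  obtain ⟨t, t1, t2⟩ : ∃ t : ℕ, R ≤ t * S.v ∧ t * S.v ≤ 2 * R := by
    refine ⟨⌈R / S.v⌉₊, (div_le_iff₀ v0).1 (Nat.le_ceil _), ?_⟩
    have := mul_le_mul_of_nonneg_right (Nat.ceil_lt_add_one (by positivity : 0 ≤ R / S.v)).le v0.le
    rw [add_mul, div_mul_cancel₀ _ v0.ne'] at this
    linarith [F.vR]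
  have x0 : 0 ≤ ((S.J : ℝ) - i + t) * S.v :=
    mul_nonneg (add_nonneg (sub_nonneg.2 (Nat.cast_le.2 hi.le)) (Nat.cast_nonneg t)) v0.le
  have a1 : 6 * S.C ^ 5 * (((S.J : ℝ) - i + t) * S.v) ≤ 1 := by
    linarith [mul_le_mul_of_nonneg_left t2 (by positivity : 0 ≤ 6 * S.C ^ 5), F.R1]
  have a2 : 2 * S.C ^ 2 * (((S.J : ℝ) - i + t) * S.v) ≤ S.J * S.v :=
    le_of_mul_le_mul_left (by linarith [F.J_lo]) (by positivity : 0 < 3 * S.C ^ 3)
  have a3 : 2 * ((S.J : ℝ) - i + t) ≤ S.J := le_of_mul_le_mul_right (by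
    linarith [mul_le_mul_of_nonneg_right (one_le_pow₀ (n := 2) C1) x0]) v0
  have a4 : S.J + 2 * t ≤ 2 * i := by
    have : (S.J : ℝ) + 2 * t ≤ 2 * i := by linarith
    exact_mod_cast this
  have e : ((i - t : ℕ) : ℝ) = i - t := Nat.cast_sub (by omega)
  have a5 : M.s S.J / 2 ≤ M.s (i - t + 1) := by
    have b1 := (F.toCl.s_tel (i := i - t) (j := S.J) (by omega) le_rfl).2
    have b2 := (F.s_mem (k := S.J) le_rfl).1
    rw [e] at b1
    have b3 : 2 * (((S.J : ℝ) - (i - t)) * (S.C * S.v)) ≤ M.s S.J :=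
      le_of_mul_le_mul_left (by linarith) C0
    linarith [F.sm (Nat.le_succ (i - t))]
  by_contra c
  rw [not_le] at c
  have CR : 0 < S.C * R := by positivity
  have b1 := (Ap63.blk_le (y := fun j => M.rb m a j - M.q j) (lo := i - t) (hi := S.Jp) F.leg.zm
    le_rfl (Nat.sub_le i t) (by omega) (ρ := M.q i - M.rb m a i - 2 * (S.C * R)) (by linarith)
    (fun j p q => le_trans (by
      have c1 := Ap63.q_slow F.toCl q (by omega)
      have c2 := (F.toCl.s_tel q hi.le).2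
      have c3 : (i : ℝ) - j ≤ t := by
        have : (i : ℝ) ≤ j + t := by exact_mod_cast (by omega : i ≤ j + t)
        linarith
      have c4 := mul_le_mul_of_nonneg_right c3 (by positivity : 0 ≤ S.C * S.v)
      have c5 := mul_le_mul_of_nonneg_left t2 C0.le
      linarith [ρm q]) (neg_le_abs _)) 2).trans (F.sx (by omega) a5)
  have b2 := (F.toCl.z_tel (i := i - t) (j := i) (by omega) (Nat.sub_le _ _) hi).1
  rw [e, sub_sub_cancel, mul_div_assoc'] at b2
  have b3 := (div_le_div_of_nonneg_right t1 C0.le).trans b2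
  have b4 : (S.C * R) ^ 2 < (M.q i - M.rb m a i - 2 * (S.C * R)) ^ 2 :=
    pow_lt_pow_left₀ (by linarith) CR.le two_ne_zero
  have b5 := (mul_lt_mul_of_pos_right b4 (div_pos R0 C0)).trans_le
    ((mul_le_mul_of_nonneg_left b3 (sq_nonneg _)).trans b1)
  rw [show (S.C * R) ^ 2 * (R / S.C) = S.C * R ^ 3 by field_simp] at b5
  linarith [mul_le_mul_of_nonneg_right C1 (pow_pos R0 3).le]

theorem lead : M.rb m a (S.J - 1) - M.q S.J ≤ γ + S.C * R := by
  have C0 := F.C0; have C1 := F.C1; have R0 := F.R0; have i3 := F.i3; have i2 := F.i2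
  have ρm := Md67.rb_mono (M := M) (a := a) F.lg.m0
  by_contra c
  rw [not_le] at c
  have CR : 0 < S.C * R := by positivity
  have b1 := (Ap63.blk_le (y := fun j => M.rb m a j - M.q j) (lo := S.J - 1) (hi := S.Jp) F.leg.zm
    le_rfl (show S.J - 1 ≤ S.Jp by omega) le_rfl (ρ := M.rb m a (S.J - 1) - M.q S.J - γ)
    (by linarith) (fun j p q => le_trans (by
      linarith [(F.q_pl (k := j) (by omega) q).2, ρm p.le]) (le_abs_self _)) 2).trans F.sx1
  rw [F.top _ le_rfl] at b1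
  have b4 : (S.C * R) ^ 2 < (M.rb m a (S.J - 1) - M.q S.J - γ) ^ 2 :=
    pow_lt_pow_left₀ (by linarith) CR.le two_ne_zero
  have b5 := (mul_lt_mul_of_pos_right b4 (one_div_pos.2 C0)).trans_le
    ((mul_le_mul_of_nonneg_left (show 1 / S.C ≤ 1 - M.z (S.J - 1) by linarith [F.atom.2])
      (sq_nonneg _)).trans b1)
  rw [show (S.C * R) ^ 2 * (1 / S.C) = S.C * R ^ 2 by field_simp] at b5
  have b6 : R ^ 3 ≤ R ^ 2 := pow_le_pow_of_le_one R0.le F.CR.2 (by norm_num)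
  linarith [mul_le_mul_of_nonneg_right C1 (pow_pos R0 2).le]

theorem rise {i : ℕ} (hi : i < S.J) : M.rb m a (S.J - 1) - M.rb m a i ≤
    12 * S.C ^ 5 * (((S.J : ℝ) - i) * S.v) + (4 * S.C * R + γ) := by
  have C0 := F.C0; have R0 := F.R0; have v0 := F.v0; have g := F.γn
  have CR : 0 < S.C * R := by positivity
  rcases le_total (12 * S.C ^ 5 * (((S.J : ℝ) - i) * S.v)) 1 with h | h
  · have a1 := Ap63.q_slow F.toCl hi.le F.i3
    have a2 := (F.toCl.s_tel hi.le le_rfl).2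
    have a3 := mul_le_mul_of_nonneg_right (le_self_pow₀ F.C1 (show 5 ≠ 0 by norm_num))
      (mul_nonneg (sub_nonneg.2 (Nat.cast_le.2 hi.le : (i : ℝ) ≤ S.J)) v0.le)
    have a4 := mul_nonneg (pow_pos C0 5).le
      (mul_nonneg (sub_nonneg.2 (Nat.cast_le.2 hi.le : (i : ℝ) ≤ S.J)) v0.le)
    linarith [F.lag hi h, F.lead]
  · linarith [rb_le_one (M := M) (a := a) F.lg.m0 (S.J - 1), rb_nonneg (M := M) (a := a) F.lg.m0 i]

/-- the lag on the plateau -/
theorem lagp {j : ℕ} (h1 : S.J - 1 ≤ j) (h2 : j ≤ S.Jp) :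
    max (M.q S.J - M.rb m a j) 0 ≤ 4 * S.C * R ∧
      max (M.q S.J - M.rb m a j) 0 ^ 2 * (M.z j - M.z (S.J - 1)) ≤ R ^ 3 := by
  have C0 := F.C0; have R0 := F.R0; have v0 := F.v0; have i2 := F.i2
  have ρm := Md67.rb_mono (M := M) (a := a) F.lg.m0
  constructor
  · refine max_le ?_ (by positivity)
    have e : (S.J : ℝ) - (S.J - 1 : ℕ) = 1 := by rw [Nat.cast_sub (by omega)]; simp
    have a1 := F.lag (i := S.J - 1) (by omega) (by
      rw [e]; linarith [mul_le_mul_of_nonneg_left F.vR (by positivity : 0 ≤ 12 * S.C ^ 5), F.R1,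
        (by positivity : 0 ≤ S.C ^ 5 * R)])
    have a2 := Ap63.q_slow F.toCl (Nat.sub_le S.J 1) F.i3
    have a3 := (F.toCl.s_tel (Nat.sub_le S.J 1) le_rfl).2
    rw [e] at a3
    linarith [mul_le_mul_of_nonneg_left F.vR C0.le, ρm h1]
  · exact (Ap63.blk_le (y := fun j => M.rb m a j - M.q j) (lo := S.J - 1) (hi := S.Jp) F.leg.zm
      le_rfl h1 h2 (le_max_right _ _) (fun i p q => max_le (le_trans (by
        linarith [(F.q_pl (k := i) (by omega) (q.trans h2)).1, ρm q]) (neg_le_abs _))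
        (abs_nonneg _)) 2).trans F.sx1

theorem mean : ∑ i ∈ Ioc (S.J - 1) S.Jp, (M.z i - M.z (i - 1)) * max (M.rb m a i - M.q S.J) 0 ≤
    √(R ^ 3) + γ := by
  have i2 := F.i2; have i3 := F.i3; have g := F.γn
  have z1 : M.z S.Jp - M.z (S.J - 1) ≤ 1 := by linarith [F.leg.z1 S.Jp, F.z_pos (S.J - 1)]
  have a1 := (Ap63.Sx_one (y := fun j => M.rb m a j - M.q j) F.leg.zm
    (show S.J - 1 ≤ S.Jp by omega) z1).trans (sqrt_le_sqrt F.sx1)
  have a2 := mul_le_of_le_one_left g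
    ((Ap63.tel M.z (show S.J - 1 ≤ S.Jp by omega)).trans_le z1)
  refine le_trans ?_ (add_le_add a1 a2)
  rw [Ap63.Sx, sum_mul, ← sum_add_distrib]
  refine sum_le_sum fun i hi => ?_
  rw [← mul_add, pow_one]
  refine mul_le_mul_of_nonneg_left (max_le ?_ (by positivity)) (Ap63.w_nn F.leg.zm i)
  linarith [(F.q_pl (k := i) (by have := (mem_Ioc.1 hi).1; omega) (mem_Ioc.1 hi).2).2,
    le_abs_self (M.rb m a i - M.q i)]

/-- the weighted rise on the plateau -/
theorem rsum {p w : ℕ → ℝ} {α κ B L : ℝ} {Jc : ℕ} (J1 : S.J ≤ Jc) (J2 : Jc ≤ S.Jp) (α0 : 0 ≤ α)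
    (κ0 : 0 ≤ κ) (B0 : 0 ≤ B) (hp : ∀ j, p j ≤ α * (1 - M.z j) ∧ p j ≤ κ * w j)
    (H : ∀ j, S.J - 1 ≤ j → j ≤ S.Jp → 0 < w j ∧ max (M.q S.J - M.rb m a j) 0 * w j ≤ B)
    (wm : ∀ j, S.J - 1 ≤ j → w j ≤ w (j + 1)) (hL : log (w Jc / w (S.J - 1)) ≤ L) :
    ∑ j ∈ Ioc (S.J - 1) Jc, (M.rb m a j - M.rb m a (j - 1)) * p (j - 1) ≤
      α * (√(R ^ 3) + γ) + κ * (B * (1 + L)) := by
  have ρm := Md67.rb_mono (M := M) (a := a) F.lg.m0
  set f := fun j => max (M.rb m a j - M.q S.J) 0 with hf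
  set e := fun j => max (M.q S.J - M.rb m a j) 0 with he
  have fm : ∀ j, 0 ≤ f j - f (j - 1) := fun j =>
    sub_nonneg.2 (max_le_max_right _ (by linarith [ρm (Nat.sub_le j 1)]))
  have em : ∀ j, 0 ≤ e (j - 1) - e j := fun j =>
    sub_nonneg.2 (max_le_max_right _ (by linarith [ρm (Nat.sub_le j 1)]))
  have fe : ∀ j, f j - e j = M.rb m a j - M.q S.J := fun j => by
    have := max_zero_sub_max_neg_zero_eq_self (M.rb m a j - M.q S.J)
    rwa [neg_sub] at this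
  have a1 := abel1 f M.z (show S.J - 1 ≤ S.Jp by omega)
  rw [F.top _ le_rfl, sub_self, mul_zero, add_zero] at a1
  have a2 : ∑ j ∈ Ioc (S.J - 1) Jc, (f j - f (j - 1)) * (1 - M.z (j - 1)) ≤ √(R ^ 3) + γ := by
    refine (sum_le_sum_of_subset_of_nonneg (Ioc_subset_Ioc_right J2) fun j _ _ =>
      mul_nonneg (fm j) (sub_nonneg.2 (F.leg.z1 _))).trans (a1.trans_le ?_)
    have : 0 ≤ f (S.J - 1) * (1 - M.z (S.J - 1)) :=
      mul_nonneg (le_max_right _ _) (sub_nonneg.2 (F.leg.z1 _))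
    linarith [F.mean]
  have a3 := drop (e := e) (w := w) (show S.J - 1 ≤ Jc by omega) (fun j p q => H j p (q.trans J2))
    (fun j p _ => wm j p) B0
  have a4 : 0 ≤ e Jc * w Jc := mul_nonneg (le_max_right _ _) (H Jc (by omega) J2).1.le
  have a5 : ∑ j ∈ Ioc (S.J - 1) Jc, (e (j - 1) - e j) * w (j - 1) ≤ B * (1 + L) := by
    linarith [mul_le_mul_of_nonneg_left hL B0]
  refine le_trans ?_ (add_le_add (mul_le_mul_of_nonneg_left a2 α0) (mul_le_mul_of_nonneg_left a5 κ0))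
  rw [mul_sum, mul_sum, ← sum_add_distrib]
  refine sum_le_sum fun j _ => ?_
  have b1 := mul_le_mul_of_nonneg_left (hp (j - 1)).1 (fm j)
  have b2 := mul_le_mul_of_nonneg_left (hp (j - 1)).2 (em j)
  have b3 : M.rb m a j - M.rb m a (j - 1) = f j - f (j - 1) + (e (j - 1) - e j) := by
    linarith [fe j, fe (j - 1)]
  rw [b3]
  linarith

end Fr

/-- the shells below the cut -/
structure Me (S : Sc) (M : Md) (lm : ℝ) (Jc : ℕ) : Prop where
  J1 : S.J ≤ Jc
  J2 : Jc ≤ S.Jp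
  l0 : 0 < lm
  l4 : 4 * (S.C * S.v) ≤ lm
  hl : ∀ k, S.J ≤ k → k < Jc → lm ≤ S.den (M.z (k - 1)) * ds M S k

/-- the weights of the lag -/
structure Br (S : Sc) (M : Md) (m : ℕ) (a R γ κ B G : ℝ) (w : ℕ → ℝ) (Jc K : ℕ) : Prop where
  κ0 : 0 < κ
  B0 : 0 ≤ B
  H : ∀ j, S.J - 1 ≤ j → j ≤ S.Jp → 0 < w j ∧ max (M.q S.J - M.rb m a j) 0 * w j ≤ B
  wm : ∀ j, S.J - 1 ≤ j → w j ≤ w (j + 1)
  rat : ∀ j, S.J ≤ j → j < Jc → w j ≤ 2 * w (j - 1)
  av : ∀ j k, S.J - 1 ≤ j → j ≤ k → k < Jc → M.z k - M.z j ≤ ((k : ℝ) - j) * (S.v * (κ * w j))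
  lg : log (w Jc / w (S.J - 1)) ≤ K
  n1 : gg S 1 * (κ * B) ≤ 8 * S.C ^ 2 * G
  n2 : gg S 1 * (κ * w (S.J - 1) * (28 * S.C ^ 5 * R + γ)) ≤ 56 * S.C ^ 6 * G
  n3 : κ * w (S.J - 1) ≤ 4 * S.C * S.n ^ 3

theorem dz_den (h : Cl S M) {k : ℕ} (h1 : S.J ≤ k) (h2 : k < S.Jp) {x y : ℝ} (y0 : 0 ≤ y)
    (hx : x ≤ S.den (M.z (k - 1)) * y) : (M.z k - M.z (k - 1)) * x ≤ S.C * S.v * y := by
  linarith [mul_le_mul_of_nonneg_left hx (Ap63.w_nn h.leg.zm k),
    mul_le_mul_of_nonneg_right (h.plat k h1 h2).2 y0]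

section me
variable {R γ lm : ℝ} {Jc : ℕ} (F : Fr S M m a R γ) (H : Me S M lm Jc)
include F H

theorem Me.dz {k : ℕ} (h1 : S.J ≤ k) (h2 : k < Jc) :
    (M.z k - M.z (k - 1)) * lm ≤ S.C * S.v * ds M S k ∧ 4 * (M.z k - M.z (k - 1)) ≤ ds M S k := by
  have d0 : 0 ≤ ds M S k := (pos_of_mul_pos_right (H.l0.trans_le (H.hl k h1 h2)) (F.den0 _).le).le
  have a1 := dz_den F.toCl h1 (h2.trans_le H.J2) d0 (H.hl k h1 h2)
  refine ⟨a1, le_of_mul_le_mul_right ?_ H.l0⟩
  linarith [mul_le_mul_of_nonneg_right H.l4 d0]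

theorem Me.av {j k : ℕ} (h1 : S.J - 1 ≤ j) (h2 : j ≤ k) (h3 : k < Jc) :
    M.z k - M.z j ≤ ((k : ℝ) - j) * (S.v * (S.C / lm * (1 - M.z j))) := by
  have C0 := F.C0; have v0 := F.v0; have l0 := H.l0; have i2 := F.i2
  rw [← Ap63.tel M.z h2]
  refine (sum_le_card_nsmul _ _ (S.v * (S.C / lm * (1 - M.z j))) fun i hi => ?_).trans_eq
    (by rw [Nat.card_Ioc, nsmul_eq_mul, Nat.cast_sub h2])
  obtain ⟨p, q⟩ := mem_Ioc.1 hi
  have a1 := (H.dz F (k := i) (by omega) (by omega)).1.trans (mul_le_mul_of_nonneg_left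
    ((min_le_right _ _).trans (show du M i ≤ 1 - M.z j from
      sub_le_sub_left (F.leg.zm (by omega)) 1)) (by positivity))
  rw [show S.v * (S.C / lm * (1 - M.z j)) = S.C * S.v * (1 - M.z j) / lm by ring, le_div_iff₀ l0]
  exact a1

theorem pt2 {κ B G : ℝ} {w : ℕ → ℝ} (b : Br S M m a R γ κ B G w Jc K) :
    Pt2 S M m a (fun j => min (2 * (S.C / lm) * (1 - M.z j)) (2 * κ * w j))
      (1 / (κ * w (S.J - 1))) (12 * S.C ^ 5 + κ * w (S.J - 1) * (28 * S.C ^ 5 * R + γ))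
      (2 * (S.C / lm) * (√(R ^ 3) + γ) + 2 * κ * (B * (1 + K))) (S.C * S.v / lm) Jc := by
  have C0 := F.C0; have v0 := F.v0; have l0 := H.l0; have i2 := F.i2; have i3 := F.i3
  have κ0 := b.κ0; have R0 := F.R0; have g := F.γn; have J2 := H.J2
  have w0 := (b.H _ le_rfl (by omega)).1
  have wp : ∀ j, S.J - 1 ≤ j → 0 < w j := fun j hj => by
    induction j, hj using Nat.le_induction with
    | base => exact w0
    | succ j hj ih => exact ih.trans_le (b.wm j hj)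
  have z1 : ∀ j, 0 ≤ 1 - M.z j := fun j => sub_nonneg.2 (F.leg.z1 j)
  refine ⟨H.J1, J2, fun j hj => le_min (by have := z1 j; positivity) (by have := wp j hj; positivity),
    by positivity, by positivity, fun j k p q r => ?_, fun k p q => ?_, fun k p q => ?_,
    by positivity, fun i hi => ?_, F.rsum H.J1 J2 (by positivity) (by positivity) b.B0
      (fun j => ⟨min_le_left _ _, min_le_right _ _⟩) b.H b.wm b.lg⟩
  · have t0 : (0 : ℝ) ≤ (k : ℝ) - j := sub_nonneg.2 (Nat.cast_le.2 q)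
    rw [mul_min_of_nonneg _ _ v0.le, mul_min_of_nonneg _ _ t0]
    refine le_min ((H.av F (by omega) q r).trans ?_) ((b.av j k (by omega) q r).trans ?_)
    · have a1 := mul_le_mul_of_nonneg_left (show 1 - M.z j ≤ 2 * (1 - M.z (j - 1)) by
        linarith [F.leg.zm (Nat.sub_le j 1), z1 (j - 1)]) (by positivity : 0 ≤ S.C / lm)
      exact mul_le_mul_of_nonneg_left (mul_le_mul_of_nonneg_left (by linarith) v0.le) t0
    · have a1 := mul_le_mul_of_nonneg_left (b.rat j p (by omega)) κ0.le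
      exact mul_le_mul_of_nonneg_left (mul_le_mul_of_nonneg_left (by linarith) v0.le) t0
  · rw [mul_one_div, div_le_iff₀ (by positivity), Nat.cast_sub (by omega), mul_assoc]
    exact b.av _ k le_rfl (by omega) q
  · have e : (k : ℝ) - (k - 1 : ℕ) = 1 := by rw [Nat.cast_sub (by omega)]; simp
    have a1 := H.av F (j := k - 1) (by omega) (Nat.sub_le k 1) q
    have a2 := b.av (k - 1) k (by omega) (Nat.sub_le k 1) q
    rw [e, one_mul] at a1 a2
    obtain ⟨a3, a4⟩ := H.dz F p q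
    have a5 : ds M S k ≤ 1 - M.z (k - 1) := min_le_right _ _
    rw [dz_up F.leg (by omega), mul_min_of_nonneg _ _ v0.le]
    refine ⟨le_min (a1.trans ?_) (a2.trans ?_), ?_⟩
    · have := mul_le_mul_of_nonneg_left (show 1 - M.z (k - 1) ≤ 2 * (1 - M.z k) by
        linarith [z1 (k - 1)]) (by positivity : 0 ≤ S.C / lm)
      exact mul_le_mul_of_nonneg_left (by linarith) v0.le
    · have a6 := b.wm (k - 1) (by omega)
      rw [Nat.sub_add_cancel (by omega)] at a6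
      have := mul_le_mul_of_nonneg_left a6 κ0.le
      have := mul_pos κ0 (wp k (by omega))
      exact mul_le_mul_of_nonneg_left (by linarith) v0.le
    · rw [le_div_iff₀ l0]
      exact a3.trans (mul_le_of_le_one_right (by positivity) (by linarith [F.z_pos (k - 1)]))
  · have a1 := F.rise (i := S.J - 1 - 1 - i) (by omega)
    have e : (S.J : ℝ) - (S.J - 1 - 1 - i : ℕ) = i + 2 := by
      rw [show S.J - 1 - 1 - i = S.J - (i + 2) by omega, Nat.cast_sub (by omega)]; push_cast; ring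
    rw [e] at a1
    have a2 := mul_le_mul_of_nonneg_left F.vR (by positivity : 0 ≤ 24 * S.C ^ 5)
    have a3 := mul_le_mul_of_nonneg_right (le_self_pow₀ F.C1 (show 5 ≠ 0 by norm_num)) R0.le
    have a4 : κ * w (S.J - 1) * (28 * S.C ^ 5 * R + γ) * (1 / (κ * w (S.J - 1))) =
        28 * S.C ^ 5 * R + γ := by field_simp
    have a5 : 0 ≤ κ * w (S.J - 1) * (28 * S.C ^ 5 * R + γ) * (i * S.v) := by positivity
    have a6 : 0 ≤ 12 * S.C ^ 5 * (1 / (κ * w (S.J - 1))) := by positivity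
    linarith

omit H in
/-- bounded density -/
theorem br_d {d G : ℝ} (J2 : Jc ≤ S.Jp) (d0 : 0 < d) (dn : 1 ≤ S.n ^ 3 * d)
    (hd : ∀ k, S.J ≤ k → k < Jc → d ≤ S.den (M.z (k - 1))) (hG : gg S 1 * (R + γ) ≤ d * G) :
    Br S M m a R γ (S.C / d) (4 * S.C * R) G (fun _ => 1) Jc K := by
  have C0 := F.C0; have C1 := F.C1; have v0 := F.v0; have R0 := F.R0; have g := F.γn
  have i2 := F.i2; have g0 := gg_pos F.toFn zero_le_one
  have G0 : 0 ≤ G := (pos_of_mul_pos_right (lt_of_lt_of_le (by positivity) hG) d0.le).le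
  refine ⟨by positivity, by positivity, fun j p q => ⟨one_pos, by
    rw [mul_one]; exact (F.lagp p q).1⟩, fun _ _ => le_rfl, fun _ _ _ => by norm_num,
    fun j k p q r => ?_, by simp, ?_, ?_, ?_⟩
  · rw [← Ap63.tel M.z q]
    refine (sum_le_card_nsmul _ _ (S.v * (S.C / d * 1)) fun i hi => ?_).trans_eq
      (by rw [Nat.card_Ioc, nsmul_eq_mul, Nat.cast_sub q])
    obtain ⟨p', q'⟩ := mem_Ioc.1 hi
    rw [show S.v * (S.C / d * 1) = S.C * S.v * 1 / d by ring, le_div_iff₀ d0]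
    exact dz_den F.toCl (by omega) (by omega) zero_le_one
      (by rw [mul_one]; exact hd i (by omega) (by omega))
  · rw [show gg S 1 * (S.C / d * (4 * S.C * R)) = 4 * S.C ^ 2 * (gg S 1 * R) / d by ring,
      div_le_iff₀ d0]
    linarith [mul_le_mul_of_nonneg_left hG (by positivity : 0 ≤ 8 * S.C ^ 2),
      (by positivity : 0 ≤ S.C ^ 2 * (gg S 1 * R)), (by positivity : 0 ≤ S.C ^ 2 * (gg S 1 * γ))]
  · rw [show gg S 1 * (S.C / d * 1 * (28 * S.C ^ 5 * R + γ)) =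
      S.C * (gg S 1 * (28 * S.C ^ 5 * R + γ)) / d by ring, div_le_iff₀ d0]
    linarith [mul_le_mul_of_nonneg_left hG (by positivity : 0 ≤ 56 * S.C ^ 6),
      (by positivity : 0 ≤ S.C ^ 6 * (gg S 1 * R)), (by positivity : 0 ≤ S.C ^ 6 * (gg S 1 * γ)),
      mul_le_mul_of_nonneg_right (le_self_pow₀ C1 (show 6 ≠ 0 by norm_num))
        (by positivity : 0 ≤ gg S 1 * γ)]
  · rw [mul_one, div_le_iff₀ d0]
    linarith [mul_le_mul_of_nonneg_left dn C0.le, (by positivity : 0 ≤ S.C * S.n ^ 3 * d)]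

omit F H in
theorem inv_step {s t c b : ℝ} (s0 : 0 < s) (h : s ≤ t) (b0 : 0 < b)
    (hc : (t ^ 2 - s ^ 2) * b ≤ c * s ^ 3) : 1 / s - 1 / t ≤ c / (2 * b) := by
  have t0 := s0.trans_le h
  have d0 := sub_nonneg.2 h
  rw [div_sub_div _ _ s0.ne' t0.ne', div_le_div_iff₀ (by positivity) (by positivity)]
  refine le_of_mul_le_mul_right ?_ (pow_pos s0 2)
  have a1 := mul_le_mul_of_nonneg_right hc t0.le
  have a2 : 2 * s ^ 2 ≤ (t + s) * t := by nlinarith
  linarith [mul_le_mul_of_nonneg_left a2 (mul_nonneg d0 b0.le)]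

/-- the density `y^{-3/2}` -/
theorem br_a {b G : ℝ} (u0 : 0 < S.u0) (u1 : S.u0 ≤ 1) (b0 : 0 < b) (bn : 1 ≤ S.n ^ 3 * b)
    (hb : ∀ k, S.J ≤ k → k < Jc → b ^ 2 ≤ S.den (M.z (k - 1)) ^ 2 * dl M S k ^ 3)
    (hG : gg S 1 * (√(R ^ 3) + γ + √S.u0 * R) ≤ b * G) (g1 : γ ≤ 1)
    (hK : 2 ≤ 2 ^ K * √(R ^ 3)) :
    Br S M m a R γ (2 * S.C / b) (2 * √(R ^ 3) + 4 * S.C * R * √S.u0) G
      (fun j => √(M.z j - M.z (S.J - 1) + S.u0 + R ^ 3)) Jc K := by
  have C0 := F.C0; have C1 := F.C1; have v0 := F.v0; have R0 := F.R0; have g := F.γn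
  have i2 := F.i2; have g0 := gg_pos F.toFn zero_le_one; have J1 := H.J1; have J2 := H.J2
  obtain ⟨R4, R1⟩ := F.CR
  have X0 : 0 < R ^ 3 := by positivity
  have X1 : R ^ 3 ≤ 1 := pow_le_one₀ R0.le R1
  have zm : ∀ j, S.J - 1 ≤ j → 0 ≤ M.z j - M.z (S.J - 1) := fun j h => sub_nonneg.2 (F.leg.zm h)
  have z1 : ∀ j, M.z j - M.z (S.J - 1) ≤ 1 := fun j => by linarith [F.leg.z1 j, F.z_pos (S.J - 1)]
  set x := √(R ^ 3) with hx
  set y := √S.u0 with hy
  have x0 : 0 < x := sqrt_pos.2 X0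
  have y0 : 0 < y := sqrt_pos.2 u0
  have x2 : x ^ 2 = R ^ 3 := sq_sqrt X0.le
  have y2 : y ^ 2 = S.u0 := sq_sqrt u0.le
  have x1 : x ≤ 1 := sqrt_le_one.2 X1
  have y1 : y ≤ 1 := sqrt_le_one.2 u1
  have w1 : √(M.z (S.J - 1) - M.z (S.J - 1) + S.u0 + R ^ 3) ≤ y + x :=
    sqrt_le_iff.2 ⟨by positivity, by nlinarith [mul_pos x0 y0]⟩
  have G0 : 0 ≤ G := (pos_of_mul_pos_right (lt_of_lt_of_le (by positivity) hG) b0.le).le
  refine ⟨by positivity, by positivity, fun j p q => ⟨sqrt_pos.2 (by linarith [zm j p]), ?_⟩,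
    fun j _ => sqrt_le_sqrt (by linarith [F.leg.zm j.le_succ]), fun j p q => ?_,
    fun j k p q r => ?_, ?_, ?_, ?_, ?_⟩
  · obtain ⟨a1, a2⟩ := F.lagp p q
    have e0 : 0 ≤ max (M.q S.J - M.rb m a j) 0 := le_max_right _ _
    set e := max (M.q S.J - M.rb m a j) 0
    refine (sq_le_sq₀ (by positivity) (by positivity)).1 ?_
    rw [mul_pow, sq_sqrt (by linarith [zm j p])]
    have a3 := mul_le_mul_of_nonneg_right (pow_le_pow_left₀ e0 a1 2) u0.le
    have a4 := mul_le_mul_of_nonneg_right (pow_le_one₀ (n := 2) e0 (a1.trans R4)) X0.le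
    have a5 : 0 ≤ x * (S.C * R * y) := by positivity
    have a6 : (2 * x + 4 * S.C * R * y) ^ 2 =
        4 * R ^ 3 + 16 * (x * (S.C * R * y)) + (4 * S.C * R) ^ 2 * S.u0 := by
      rw [← x2, ← y2]; ring
    linarith
  · have a1 := (H.dz F p q).2.trans (min_le_left _ _)
    have a2 := zm (j - 1) (by omega)
    rw [dl] at a1
    refine sqrt_le_iff.2 ⟨by positivity, ?_⟩
    rw [mul_pow, sq_sqrt (by linarith)]
    linarith
  · set s := fun i => √(M.z i - M.z (S.J - 1) + S.u0) with hs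
    have s0 : ∀ i, S.J - 1 ≤ i → 0 < s i := fun i h => sqrt_pos.2 (by linarith [zm i h])
    have s2 : ∀ i, S.J - 1 ≤ i → s i ^ 2 = M.z i - M.z (S.J - 1) + S.u0 := fun i h =>
      sq_sqrt (by linarith [zm i h])
    have sm : ∀ i k, i ≤ k → s i ≤ s k := fun i k h => sqrt_le_sqrt (by linarith [F.leg.zm h])
    have a1 : 1 / s j - 1 / s k ≤ ((k : ℝ) - j) * (S.C * S.v / (2 * b)) := by
      have t := Ap63.tel (fun i => -(1 / s i)) q
      rw [show 1 / s j - 1 / s k = -(1 / s k) - -(1 / s j) by ring, ← t]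
      refine (sum_le_card_nsmul _ _ (S.C * S.v / (2 * b)) fun i hi => ?_).trans_eq
        (by rw [Nat.card_Ioc, nsmul_eq_mul, Nat.cast_sub q])
      obtain ⟨p', q'⟩ := mem_Ioc.1 hi
      have c0 := s0 (i - 1) (by omega)
      have c1 : b ≤ S.den (M.z (i - 1)) * s (i - 1) ^ 3 := by
        refine (sq_le_sq₀ b0.le (mul_nonneg (F.den0 _).le (by positivity))).1 ?_
        rw [mul_pow, ← pow_mul, show 3 * 2 = 2 * 3 from rfl, pow_mul, s2 _ (by omega)]
        exact hb i (by omega) (by omega)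
      have c2 := dz_den F.toCl (k := i) (by omega) (by omega) (by positivity) c1
      have c3 := inv_step c0 (sm _ i (Nat.sub_le i 1)) b0 (c := S.C * S.v) (by
        rw [s2 i (by omega), s2 (i - 1) (by omega)]; linarith)
      linarith
    have sj := s0 j p
    have sk := s0 k (by omega)
    have a2 : M.z k - M.z j = (1 / s j - 1 / s k) * (s j * (s k * (s j + s k))) := by
      rw [show M.z k - M.z j = s k ^ 2 - s j ^ 2 by rw [s2 j p, s2 k (by omega)]; ring]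
      field_simp; ring
    have a3 : s k * (s j + s k) ≤ 4 := by
      nlinarith [mul_le_mul_of_nonneg_left (sm j k q) sk.le, s2 k (by omega), z1 k]
    have a4 : s j ≤ √(M.z j - M.z (S.J - 1) + S.u0 + R ^ 3) := sqrt_le_sqrt (by linarith)
    have t0 : (0 : ℝ) ≤ (k : ℝ) - j := sub_nonneg.2 (Nat.cast_le.2 q)
    calc _ = _ := a2
      _ ≤ ((k : ℝ) - j) * (S.C * S.v / (2 * b)) *
          (√(M.z j - M.z (S.J - 1) + S.u0 + R ^ 3) * 4) := by gcongr
      _ = _ := by ring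
  · have p1 : 0 < √(M.z (S.J - 1) - M.z (S.J - 1) + S.u0 + R ^ 3) := sqrt_pos.2 (by linarith)
    refine log_le_K (div_pos (sqrt_pos.2 (by linarith [zm Jc (by omega)])) p1) ?_
    rw [div_le_iff₀ p1]
    refine le_trans (sqrt_le_iff.2 ⟨zero_le_two, by linarith [z1 Jc]⟩) (hK.trans ?_)
    exact mul_le_mul_of_nonneg_left (sqrt_le_sqrt (by linarith)) (by positivity)
  · rw [show gg S 1 * (2 * S.C / b * (2 * x + 4 * S.C * R * y)) =
      (4 * S.C * (gg S 1 * x) + 8 * S.C ^ 2 * (gg S 1 * (y * R))) / b by ring, div_le_iff₀ b0]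
    linarith [mul_le_mul_of_nonneg_left hG (by positivity : 0 ≤ 8 * S.C ^ 2),
      (by positivity : 0 ≤ S.C ^ 2 * (gg S 1 * x)), (by positivity : 0 ≤ S.C ^ 2 * (gg S 1 * γ)),
      mul_le_mul_of_nonneg_right (le_self_pow₀ C1 two_ne_zero) (by positivity : 0 ≤ gg S 1 * x)]
  · have a1 : (y + x) * (28 * S.C ^ 5 * R + γ) ≤ 28 * S.C ^ 5 * (x + γ + y * R) := by
      have c1 := mul_le_mul_of_nonneg_left R1 (by positivity : 0 ≤ 28 * S.C ^ 5 * x)
      have c2 := mul_le_mul_of_nonneg_right (add_le_add y1 x1) g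
      have c3 := mul_le_mul_of_nonneg_right (one_le_pow₀ (n := 5) C1) g
      linarith
    calc _ ≤ gg S 1 * (2 * S.C / b * (y + x) * (28 * S.C ^ 5 * R + γ)) := by gcongr
      _ = 2 * S.C / b * gg S 1 * ((y + x) * (28 * S.C ^ 5 * R + γ)) := by ring
      _ ≤ 2 * S.C / b * gg S 1 * (28 * S.C ^ 5 * (x + γ + y * R)) := by gcongr
      _ = 56 * S.C ^ 6 / b * (gg S 1 * (x + γ + y * R)) := by ring
      _ ≤ 56 * S.C ^ 6 / b * (b * G) := by gcongr
      _ = _ := by field_simp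
  · calc _ ≤ 2 * S.C / b * 2 := mul_le_mul_of_nonneg_left (w1.trans (by linarith)) (by positivity)
      _ ≤ _ := by
        rw [div_mul_eq_mul_div, div_le_iff₀ b0]
        linarith [mul_le_mul_of_nonneg_left bn C0.le]

end me

/-- the constant -/
def DP (C : ℝ) : ℝ := 2 * (110592 * C ^ 14 * 200 * C ^ 7) + 8 * C ^ 2 + 4 * C

theorem gg1 (S : Sc) : S.w3 1 = gg S 1 := by simp [Sc.w3, gg]

theorem fin_num {C K r G Y Z c1 c2 : ℝ} (C1 : 1 ≤ C) (K0 : 0 ≤ K) (G0 : 0 ≤ G) (r0 : 0 ≤ r)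
    (hY : Y ≤ r * (1 + K) * G) (hZ : Z ≤ r * G) (h1 : c1 ≤ G) (h2 : c2 ≤ G) :
    (K + 2) * (2 * (1 + K) * Y + c1) + (K + 2) * (2 * (1 + K) * Z + c2) + G * 4 ≤
      (2 * r + 8) * (K + 2) ^ 4 * G := by
  have a1 := mul_le_mul_of_nonneg_left hY (by positivity : 0 ≤ (K + 2) * (2 * (1 + K)))
  have a2 := mul_le_mul_of_nonneg_left hZ (by positivity : 0 ≤ (K + 2) * (2 * (1 + K)))
  have a3 := mul_le_mul_of_nonneg_left h1 (by positivity : 0 ≤ K + 2)
  have a4 := mul_le_mul_of_nonneg_left h2 (by positivity : 0 ≤ K + 2)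
  have b1 : (K + 2) * (1 + K) * (K + 2) ≤ (K + 2) ^ 4 := by
    rw [show (K + 2) ^ 4 = (K + 2) * ((K + 2) * (K + 2)) * (K + 2) by ring]
    gcongr; nlinarith
  have b2 : K + 2 ≤ (K + 2) ^ 4 := le_self_pow₀ (by linarith) (by norm_num)
  linarith [mul_le_mul_of_nonneg_right b1 (mul_nonneg r0 G0), mul_le_mul_of_nonneg_right b2 G0,
    mul_nonneg K0 G0]

set_option maxHeartbeats 800000 in
theorem main {E l0 l V X Lg X2 X3 G0 Xp Vt Lp G1 u1 u2 j γ Lc ηc τ N : ℝ} {η : ℝ → ℝ}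
    (B : Big S M m a K) (hA : 6 ≤ S.A) (hE : (24 * S.C ^ 5) ^ 3 ≤ E)
    (n : LN E S M l0 l V X Lg X2 X3 G0 η)
    (p : LP E S M Xp Vt Lg Lp X2 X3 G0 G1 u1 u2 j γ Lc ηc τ η N)
    (en : M.En S m a M.q 2 (M.s S.J / 2) S.C ≤ Xp) (j0 : 0 ≤ j) :
    ∑ k ∈ Icc S.J S.Jp, M.dz m a k * aM M m a k ≤ DP S.C * (K + 2) ^ 4 * G0 ^ 2 ∧
      ∑ k ∈ Ico S.J S.Jp, M.dz m a k * tM M m a k ≤ DP S.C * (K + 2) ^ 4 * G0 ^ 2 ∧
      gg S 1 ≤ 4 * S.C * G0 ^ 2 := by
  have F := B.toFn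
  have L := F.lg
  have C0 := F.C0; have C1 := F.C1; have v0 := F.v0; have n1 := F.n1; have F1 := F.F1
  have i0 := F.i0; have i1 := F.i1; have i2 := F.i2; have i3 := F.i3; have i4 := F.i4
  have n3 : (3 : ℝ) ≤ S.n := by exact_mod_cast F.n3
  have K0 : (0 : ℝ) ≤ K := Nat.cast_nonneg K
  have c5 : S.C ^ 2 ≤ S.C ^ 5 := pow_le_pow_right₀ C1 (by norm_num)
  have c2 : S.C ≤ S.C ^ 2 := le_self_pow₀ C1 two_ne_zero
  have E4 : 24 * S.C ^ 5 ≤ E := (le_self_pow₀ (by linarith) three_ne_zero).trans hE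
  have E1 : 1 ≤ E := by linarith
  obtain ⟨X0, X1⟩ := p.Xp0
  obtain ⟨u12, u21⟩ := p.u1b
  have ue0 : 0 ≤ S.ue := (sub_nonneg.2 (L.z1 _)).trans F.last
  have u10 : 0 ≤ u1 := ue0.trans p.u1a
  have u1C : 24 * S.C * u1 ≤ 1 := by
    linarith only [mul_le_mul (show 24 * S.C ≤ E by linarith only [E4, c5, c2]) u12 u10
      (zero_le_one.trans E1), u21]
  have γn : 0 ≤ γ := (sub_nonneg.2 (F.sm i3)).trans p.γ0
  have γ1 : γ ≤ 1 := (le_mul_of_one_le_left γn E1).trans p.γ1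
  have sj : 0 < M.s S.jl := (pos_of_mul_pos_right (lt_of_lt_of_le
    (mul_pos (Nat.cast_pos.2 (by omega)) v0) (F.s_mem (k := S.jl) (by omega)).1) C0.le)
  have l0p : 0 < l0 := (mul_pos (zero_lt_one.trans_le E1) sj).trans_le n.l0s
  have lp : 0 < l := l0p.trans_le n.l0l
  have l1 : l ≤ 1 := (le_mul_of_one_le_left lp.le E1).trans n.l1
  have hJ : 4 * S.jl ≤ S.J := by
    have a1 := (F.s_mem (k := S.jl) (by omega)).1
    have a2 := mul_le_mul_of_nonneg_right E4 sj.le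
    have a3 := mul_le_mul_of_nonneg_left a1 (by positivity : 0 ≤ 12 * S.C ^ 3)
    have a4 := mul_le_mul_of_nonneg_right (pow_le_pow_right₀ C1 (show 4 ≤ 5 by norm_num)) sj.le
    have : 4 * (S.jl : ℝ) * (3 * S.C ^ 3 * S.v) ≤ S.J * (3 * S.C ^ 3 * S.v) := by
      linarith only [a2, a3, a4, F.J_lo, n.l0s, n.l0l, l1, (by positivity : 0 ≤ S.C ^ 5 * M.s S.jl)]
    exact_mod_cast le_of_mul_le_mul_right this (by positivity)
  have Fn' : S.F ≤ S.n := by
    have m0 := F.ms_pos l0p.le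
    have l01 := n.l0l.trans l1
    have := n.l0w.trans (pow_le_one₀ l0p.le l01)
    rw [Sc.w3, div_le_one (by positivity), mul_assoc] at this
    exact this.trans (mul_le_of_le_one_right (by positivity)
      (mul_le_one₀ l01 m0.le (F.ms_le_one l0)))
  have kb := B.kb Fn' n.HJ
  have mf1 : ∀ t, 0 ≤ t → 0 < mf S t ∧ mf S t ≤ 1 := fun t ht =>
    ⟨div_pos (F.ms_pos ht) F.F0, (div_le_one F.F0).2 ((F.ms_le_one t).trans F1)⟩
  have G00 : 0 ≤ G0 := u10.trans p.g0p.1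
  set G := G0 ^ 2 with hG
  have Gn : 0 ≤ G := sq_nonneg _
  have G1' : G ≤ 1 := by
    have a1 := (le_mul_of_one_le_left (by positivity) E1).trans
      (n.G04.trans (pow_le_one₀ (mf1 l lp.le).1.le (mf1 l lp.le).2))
    rw [show G0 ^ 4 = G ^ 2 by rw [hG]; ring] at a1
    exact (sq_le_one_iff₀ Gn).1 a1
  set R := Xp ^ ((1 : ℝ) / 3) with hR
  have R0 : 0 < R := rpow_pos_of_pos X0 _
  have R3 : R ^ 3 = Xp := by
    rw [hR, ← rpow_natCast, ← rpow_mul X0.le]; norm_num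
  have R1 : 24 * S.C ^ 5 * R ≤ 1 := by
    refine (pow_le_one_iff_of_nonneg (by positivity) three_ne_zero).1 ?_
    rw [mul_pow, R3]
    exact (mul_le_mul_of_nonneg_right hE X0.le).trans X1
  have R1' : R ≤ 1 := by
    linarith only [R1, mul_le_mul_of_nonneg_right (show 1 ≤ 24 * S.C ^ 5 by
      linarith only [C1, c2, c5]) R0.le]
  have g0 := gg_pos F zero_le_one
  have ng : 1 ≤ S.n * gg S 1 := by
    have := F.ms_pos zero_le_one
    rw [gg, mul_div_assoc', le_div_iff₀ (by positivity), one_mul]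
    exact mul_le_mul_of_nonneg_left ((F.ms_le_one 1).trans F1) (by positivity)
  have nR : 1 ≤ S.n * R := by
    have V0 := n.V0
    have cl0 : 0 ≤ L69.cl S V l0 :=
      add_nonneg (mul_nonneg (zero_le_one.trans (le_max_left _ _)) l0p.le) V0
    have x2 : 0 ≤ X2 := le_trans (by positivity) n.x2a
    have x3 : 0 ≤ X3 := le_trans (by positivity) n.x3a
    have Lc0 : 0 < Lc := lt_of_lt_of_le (by positivity) (n.Lg0.trans p.Lc1.1)
    have w0 := F.w3_pos one_pos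
    have th : 0 < S.θ := F.ms_pos zero_le_one
    obtain ⟨a1, -⟩ := p.ηc1 _ rfl
    have a2 : 1 / (S.n : ℝ) ≤ ηc := le_trans (le_add_of_nonneg_left (by positivity)) a1
    have a3 : ηc / mf S 1 ≤ R := (le_add_of_nonneg_left (by positivity)).trans (p.τ0.trans p.τ1)
    rw [div_le_iff₀ (mf1 1 zero_le_one).1] at a3
    rw [← div_le_iff₀' (by positivity)]
    exact a2.trans (a3.trans (mul_le_of_le_one_right R0.le (mf1 1 zero_le_one).2))
  have x0 : 0 < √Xp := sqrt_pos.2 X0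
  have nx : 1 ≤ S.n ^ 2 * √Xp := by
    have : R ^ 2 ≤ √Xp := le_sqrt_of_sq_le (by
      rw [← R3, ← pow_mul]; exact pow_le_pow_of_le_one R0.le R1' (by norm_num))
    calc (1 : ℝ) ≤ (S.n * R) ^ 2 := one_le_pow₀ nR
      _ = S.n ^ 2 * R ^ 2 := by ring
      _ ≤ _ := mul_le_mul_of_nonneg_left this (by positivity)
  have ngx : 1 ≤ S.n ^ 3 * (gg S 1 * √Xp) := by
    linarith only [one_le_mul_of_one_le_of_one_le ng nx]
  have v4 : S.n ^ 3 * (4 * (S.C * S.v)) ≤ 1 := by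
    have a1 := (mul_le_mul_of_nonneg_left (pow_le_pow_right₀ n1 hA) v0.le).trans F.v2
    have a2 : S.C ^ 2 ≤ S.n := (pow_le_pow_right₀ C1 (by norm_num)).trans B.C3
    have a3 : 4 * S.C ^ 2 ≤ S.n ^ 3 := by
      nlinarith only [a2, n3, mul_le_mul n3 n3 (by norm_num) (by positivity)]
    refine le_of_mul_le_mul_right ?_ (by positivity : (0 : ℝ) < S.n ^ 3)
    linarith only [a3, mul_le_mul_of_nonneg_left a1 (by positivity : 0 ≤ 4 * S.C)]
  have vx : 4 * (S.C * S.v) ≤ gg S 1 * √Xp :=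
    le_of_mul_le_mul_left (v4.trans ngx) (by positivity)
  have vR : S.v ≤ R := by
    refine le_of_mul_le_mul_left (le_trans ?_ nR) (by positivity : (0 : ℝ) < S.n)
    refine le_trans ?_ v4
    exact mul_le_mul (le_self_pow₀ n1 three_ne_zero) (by
      linarith only [v0, mul_le_mul_of_nonneg_right C1 v0.le]) v0.le (by positivity)
  have Fr' : Fr S M m a R γ := ⟨F, hJ, R0, R1, vR, R3 ▸ en, p.γ0⟩
  obtain ⟨lm, lm0, hl, gl⟩ := p.g0c
  rw [gg1, ← hR, ← hG] at gl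
  have u0 := p.u0
  have gl' : gg S 1 * (√Xp + γ) ≤ lm * G := le_trans (mul_le_mul_of_nonneg_left
    (by linarith only [u10, mul_pos u0 R0]) g0.le) gl
  have gx : gg S 1 * √Xp ≤ lm * G := le_trans (mul_le_mul_of_nonneg_left
    (le_add_of_nonneg_right γn) g0.le) gl'
  have lmG := mul_le_of_le_one_right lm0.le G1'
  obtain ⟨Jc, J1, J2, hc, hc'⟩ := cut (du M) u1 i3
  have dJ : du M S.Jp ≤ S.ue := F.last
  have me : Me S M lm Jc := ⟨J1, J2, lm0, vx.trans (gx.trans lmG),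
    fun k a b => hl k a (by omega) (hc k a b)⟩
  have gG : gg S 1 ≤ 4 * S.C * G := by
    have y0 : 0 < 1 / S.C := by positivity
    have y1 : 24 * u1 ≤ 1 / S.C := by rw [le_div_iff₀ C0]; linarith only [u1C]
    have y2 : 1 / S.C ≤ du M S.J := by rw [du]; linarith only [F.atom.2]
    obtain ⟨c, c1, c2, c3, c4⟩ := cut (du M) (du M S.J - 1 / S.C / 4) i3
    have c5 : du M c ≤ du M S.J - 1 / S.C / 4 := by
      rcases c4 with rfl | c4
      · linarith only [dJ, p.u1a, y0, y1, y2]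
      · exact c4.le
    have c6 : S.J < c := lt_of_le_of_ne c1 fun e => by rw [← e] at c5; linarith only [c5, y0]
    have c7 := c3 (c - 1) (by omega) (by omega)
    have c8 : c - 1 < Jc := by
      rcases hc' with rfl | h
      · omega
      · refine not_le.1 fun e => ?_
        have : du M (c - 1) ≤ du M Jc := sub_le_sub_left (L.zm (by omega)) 1
        linarith only [this, h, c7, y0, y1, y2]
    have c9 := (me.dz Fr' (k := c - 1) (by omega) c8).2.trans (min_le_right _ _)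
    have d1 : 1 / S.C / 4 ≤ du M c := by
      have e : du M c = du M (c - 1) - (M.z (c - 1) - M.z (c - 1 - 1)) := by rw [du, du]; ring
      linarith only [c9, c7, y2, y0, e]
    have d2 : 1 / S.C / 4 ≤ ds M S c := le_min (by
      rw [du, du] at c5; rw [dl]; linarith only [c5, u0]) d1
    have d3 := p.g0p.2 c c1 c2 (by linarith only [d1, y1, u10])
    have d4 : 0 ≤ Rp M S Xp Vt γ c / S.den (M.z (c - 1)) := div_nonneg (add_nonneg (add_nonneg
      (sqrt_nonneg _) (le_min p.Vt0 (sqrt_nonneg _))) γn) (F.den0 _).le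
    rw [gg1] at d3
    have d5 := (mul_le_mul_of_nonneg_left (d2.trans (le_add_of_nonneg_left d4)) g0.le).trans d3
    rw [div_div, mul_one_div, div_le_iff₀ (by positivity)] at d5
    linarith only [d5]
  have K8 : 9 * (S.n : ℝ) ^ 4 ≤ 2 ^ K := by
    refine le_trans ?_ ((pow_le_pow_right₀ n1 (show 2 + 4 ≤ S.A + 4 by omega)).trans B.hK')
    rw [pow_add]
    exact mul_le_mul_of_nonneg_right (by nlinarith only [n3]) (by positivity)
  have n4 : (S.n : ℝ) ^ 2 ≤ S.n ^ 4 := pow_le_pow_right₀ n1 (by norm_num)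
  have bd : ∀ d, 0 < d → (∀ k, S.J ≤ k → k < Jc → d ≤ S.den (M.z (k - 1))) →
      gg S 1 * (R + γ) ≤ d * G → ∃ κ B w, Br S M m a R γ κ B G w Jc K := fun d d0 hd hG => by
    refine ⟨_, _, _, br_d Fr' J2 d0 ?_ hd hG⟩
    have a1 : gg S 1 * R ≤ d := ((mul_le_mul_of_nonneg_left (le_add_of_nonneg_right γn) g0.le).trans
      hG).trans (mul_le_of_le_one_right d0.le G1')
    calc (1 : ℝ) ≤ S.n * gg S 1 * (S.n * R) := one_le_mul_of_one_le_of_one_le ng nR
      _ = S.n ^ 2 * (gg S 1 * R) := by ring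
      _ ≤ _ := mul_le_mul (pow_le_pow_right₀ n1 (by norm_num)) a1 (by positivity) (by positivity)
  obtain ⟨κ, B', w, br⟩ : ∃ κ B w, Br S M m a R γ κ B G w Jc K := by
    rcases p.g0d with ⟨b, b0, hb, gb⟩ | ⟨d, d0, hd, gd⟩
    · rw [gg1, ← hR, ← hG] at gb
      rcases le_total S.u0 1 with h | h
      · refine ⟨_, _, _, br_a Fr' me u0 h b0 ?_ (fun k a c => hb k a (by omega) (hc k a c))
          (by rwa [R3]) γ1 ?_⟩
        · refine ngx.trans (mul_le_mul_of_nonneg_left (le_trans ?_ (gb.trans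
            (mul_le_of_le_one_right b0.le G1'))) (by positivity))
          exact mul_le_mul_of_nonneg_left (by
            linarith only [γn, (by positivity : 0 ≤ √S.u0 * R)]) g0.le
        · rw [R3]
          linarith only [nx, mul_le_mul_of_nonneg_right (show 2 * (S.n : ℝ) ^ 2 ≤ 2 ^ K by
            linarith only [K8, n4, (by positivity : (0 : ℝ) ≤ S.n ^ 4)]) x0.le]
      · refine bd lm lm0 (fun k a c => (me.hl k a c).trans (mul_le_of_le_one_right (F.den0 _).le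
          ((min_le_right _ _).trans (sub_le_self 1 (F.z_pos _).le)))) (le_trans
            (mul_le_mul_of_nonneg_left ?_ g0.le) gl)
        linarith only [x0, u10, mul_le_mul_of_nonneg_right h R0.le]
    · rw [gg1, ← hR, ← hG] at gd
      exact bd d d0 (fun k a c => hd k a (by omega) (hc k a c)) gd
  have P := pt2 Fr' me br
  have s1 := pl_aM F hJ P kb
  have t1 := pl_tM F hJ P
  rw [R3] at s1 t1
  obtain ⟨Je, e1, e2, e3, e4⟩ : ∃ Je, Jc ≤ Je ∧ Je ≤ S.Jp ∧ du M Je ≤ G ∧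
      ∀ k, Jc ≤ k → k < Je → M.dz m a k ≤ S.v * (S.C * G / gg S 1) := by
    rcases p.g0e with h | ⟨h, h'⟩
    · refine ⟨Jc, le_rfl, J2, le_trans ?_ h, fun k a b => absurd a (not_le.2 b)⟩
      rcases hc' with rfl | h
      exacts [dJ.trans p.u1a, h.le]
    · obtain ⟨c, c1, c2, c3, c4⟩ := cut (du M) S.ue J2
      refine ⟨c, c1, c2, le_trans ?_ h, fun k a b => ?_⟩
      · rcases c4 with rfl | h
        exacts [dJ, h.le]
      · have a1 := h' k (by omega) (by omega) (c3 k a b) (lt_of_le_of_lt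
          (sub_le_sub_left (L.zm (by omega)) 1 : du M k ≤ du M Jc) (hc'.resolve_left (by omega)))
        rw [gg1, mul_comm] at a1
        rw [dz_up F.leg (by omega), show S.v * (S.C * G / gg S 1) = S.C * S.v * G / gg S 1 by ring,
          le_div_iff₀ g0]
        exact dz_den F.toCl (by omega) (by omega) Gn a1
  obtain ⟨s2, t2⟩ := cst_sum F hJ kb (J1.trans e1 |> fun _ => J1) e1 e2 (by positivity) e4
  have mj := mj_u4 (M := M) (a := a) L.m0
  have u4 : ∀ k, E61.u4 M m a k ^ 2 ≤ 4 := fun k => by nlinarith only [mj.u0 k]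
  have s3 : ∀ f : ℕ → ℝ, (∀ k ≤ S.Jp, f k ≤ 4) →
      ∑ k ∈ Ico Je (S.Jp + 1), M.dz m a k * f k ≤ G * 4 := fun f hf => by
    refine (sum_le_sum fun k hk => mul_le_mul_of_nonneg_left
      (hf k (by have := (mem_Ico.1 hk).2; omega)) (L.dz_nonneg k)).trans ?_
    rw [← sum_mul, show Ico Je (S.Jp + 1) = Ioc (Je - 1) S.Jp by
      ext k; simp only [mem_Ico, mem_Ioc]; omega, Md67.sum_dz F.leg (by omega), F.top _ le_rfl]
    exact mul_le_mul_of_nonneg_right e3 (by norm_num)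
  have w0 := (br.H _ le_rfl (by omega)).1
  have κ0 := br.κ0
  have lgK : log (1 + S.C ^ 2 / (1 / (κ * w (S.J - 1)))) ≤ K := by
    refine log_le_K (by positivity) ?_
    rw [one_div, div_inv_eq_mul]
    have a1 := mul_le_mul_of_nonneg_left br.n3 (by positivity : 0 ≤ S.C ^ 2)
    have a2 := mul_le_mul_of_nonneg_right B.C3 (by positivity : (0 : ℝ) ≤ S.n ^ 3)
    linarith only [a1, a2, K8, one_le_pow₀ (n := 4) n1]
  have c7 : ∀ i ≤ 7, S.C ^ i * G ≤ S.C ^ 7 * G := fun i hi =>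
    mul_le_mul_of_nonneg_right (pow_le_pow_right₀ C1 hi) Gn
  have q1 : gg S 1 * (2 * (S.C / lm) * (√Xp + γ) + 2 * κ * (B' * (1 + K))) ≤
      18 * S.C ^ 2 * (1 + K) * G := by
    have a1 : gg S 1 * (2 * (S.C / lm) * (√Xp + γ)) ≤ 2 * S.C * G := by
      rw [show gg S 1 * (2 * (S.C / lm) * (√Xp + γ)) = 2 * S.C * (gg S 1 * (√Xp + γ)) / lm by ring,
        div_le_iff₀ lm0]
      linarith only [mul_le_mul_of_nonneg_left gl' (by positivity : 0 ≤ 2 * S.C)]
    linarith only [a1, mul_le_mul_of_nonneg_right br.n1 (by positivity : 0 ≤ 2 * (1 + (K : ℝ))),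
      mul_le_mul_of_nonneg_right c2 Gn, (by positivity : 0 ≤ S.C ^ 2 * K * G)]
  have q2 : gg S 1 * (12 * S.C ^ 3 + (12 * S.C ^ 5 + κ * w (S.J - 1) * (28 * S.C ^ 5 * R + γ)) *
      (1 + log (1 + S.C ^ 2 / (1 / (κ * w (S.J - 1))))) +
      (2 * (S.C / lm) * (√Xp + γ) + 2 * κ * (B' * (1 + K)))) ≤ 200 * S.C ^ 7 * (1 + K) * G := by
    have a1 := mul_le_mul_of_nonneg_left (add_le_add_left lgK 1) (by positivity :
      0 ≤ gg S 1 * (12 * S.C ^ 5 + κ * w (S.J - 1) * (28 * S.C ^ 5 * R + γ)))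
    have a2 := mul_le_mul_of_nonneg_right br.n2 (by positivity : 0 ≤ 1 + (K : ℝ))
    have a3 := mul_le_mul_of_nonneg_left gG (by positivity : 0 ≤ 12 * S.C ^ 5 * (1 + K))
    have a4 := mul_le_mul_of_nonneg_left gG (by positivity : 0 ≤ 12 * S.C ^ 3)
    linarith only [a1, a2, a3, a4, q1, c7 4 (by norm_num), (by positivity : 0 ≤ S.C ^ 7 * G),
      (by positivity : 0 ≤ S.C ^ 7 * K * G),
      mul_le_mul_of_nonneg_right (c7 6 (by norm_num)) (by positivity : 0 ≤ 1 + (K : ℝ)),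
      mul_le_mul_of_nonneg_right (c7 2 (by norm_num)) (by positivity : 0 ≤ 1 + (K : ℝ))]
  have q3 : S.C * S.v / lm ≤ G := by
    rw [div_le_iff₀' lm0]; linarith only [vx, gx, mul_pos C0 v0]
  have q4 : S.v * (S.C * G / gg S 1) ≤ G := by
    rw [mul_div_assoc', div_le_iff₀ g0]
    linarith only [mul_le_mul_of_nonneg_right (B.v_gg zero_le_one) Gn]
  have q5 : rt S * (S.C * G / gg S 1) = 110592 * S.C ^ 14 * (S.C * G) := by
    rw [rt]; field_simp
  have c14 : 0 ≤ 110592 * S.C ^ 14 := by positivity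
  have k4 : 1 + (K : ℝ) ≤ (K + 2) ^ 4 :=
    le_trans (by linarith only []) (le_self_pow₀ (by linarith only [K0]) (by norm_num))
  refine ⟨?_, ?_, gG⟩
  · rw [← Ico_add_one_right_eq_Icc, ← sum_Ico_consecutive _ (J1.trans e1) (by omega),
      ← sum_Ico_consecutive _ J1 e1]
    refine (add_le_add (add_le_add s1 s2) (s3 _ fun k hk =>
      (aM_le_u L mj (by omega)).trans (u4 k))).trans ((fin_num
        (r := 110592 * S.C ^ 14 * 200 * S.C ^ 7) C1 K0 Gn (by positivity) ?_ ?_ q3 q4).trans ?_)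
    · rw [rt, mul_assoc (110592 * S.C ^ 14)]
      exact (mul_le_mul_of_nonneg_left q2 c14).trans_eq (by ring)
    · rw [q5]
      linarith only [mul_le_mul_of_nonneg_left (c7 1 (by norm_num)) c14,
        (by positivity : 0 ≤ S.C ^ 14 * (S.C ^ 7 * G))]
    · refine mul_le_mul_of_nonneg_right (mul_le_mul_of_nonneg_right ?_ (by positivity)) Gn
      rw [DP]; linarith only [C1, c2]
  · rw [← sum_Ico_consecutive _ (J1.trans e1) e2, ← sum_Ico_consecutive _ J1 e1]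
    have t3 := (sum_le_sum_of_subset_of_nonneg (Ico_subset_Ico_right S.Jp.le_succ) fun k _ _ =>
      mul_nonneg (L.dz_nonneg k) (tM_nn k)).trans (s3 (tM M m a) fun k hk => by
        have := (Vn_le_u L.m0 mj (show k < M.N by omega)).trans (u4 k)
        rw [Vn_eq] at this
        linarith only [this, vM_nn (M := M) (m := m) (a := a) k])
    rw [mul_assoc (2 * S.C), q5] at t2
    rw [rt] at t1
    have a1 := mul_le_mul_of_nonneg_left q1 (by positivity : 0 ≤ 2 * S.C * (110592 * S.C ^ 14))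
    have a2 := mul_le_mul_of_nonneg_left q3 (by positivity : 0 ≤ 2 * S.C ^ 2)
    have a3 := mul_le_mul_of_nonneg_left q4 (by positivity : 0 ≤ 2 * S.C ^ 2)
    have a4 := mul_le_mul_of_nonneg_left k4 (mul_nonneg (show 0 ≤ DP S.C by
      rw [DP]; positivity) Gn)
    rw [DP] at a4 ⊢
    linarith only [t1, t2, t3, a1, a2, a3, a4, mul_le_mul_of_nonneg_right C1 Gn,
      mul_le_mul_of_nonneg_left (c7 2 (by norm_num)) c14,
      mul_le_mul_of_nonneg_left (c7 3 (by norm_num)) (mul_nonneg c14 (by positivity : 0 ≤ 1 + (K : ℝ))),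
      (by positivity : 0 ≤ S.C ^ 14 * (S.C ^ 7 * G)), (by positivity : 0 ≤ S.C ^ 14 * (S.C ^ 7 * G) * K),
      (by positivity : 0 ≤ S.C ^ 2 * G), (by positivity : 0 ≤ S.C ^ 2 * G * K),
      (by positivity : 0 ≤ S.C * G * K)]

theorem plG : PlG := fun C => by
  filter_upwards [eventually_ge_atTop 6] with A hA ε hε η hη
  filter_upwards [ev_big C (DP C) (show 3 ≤ A by omega) hη, Pre29.ev_K ((24 * C ^ 5) ^ 3) hε] with n
    hK hE S M b1 b2 b3 h m a I l0 l V X Lg X2 X3 G0 η' Xp Vt Lp G1 u1 u2 j γ Lc ηc τ N c p en j0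
  obtain ⟨K, hK, B⟩ := hK
  replace B := B S M b1 b2 b3 h m a I
  subst b1 b2
  obtain ⟨a1, a2, a3⟩ := main B hA hE c p en j0
  have e := mul_le_mul_of_nonneg_right hK (sq_nonneg G0)
  refine ⟨a1.trans e, a2.trans e, (gg1 S).trans_le (a3.trans (le_trans
    (mul_le_mul_of_nonneg_right ?_ (sq_nonneg G0)) e))⟩
  have C0 := B.C0
  refine le_trans ?_ (le_mul_of_one_le_right (by rw [DP]; positivity)
    (one_le_pow₀ (by linarith [(Nat.cast_nonneg K : (0 : ℝ) ≤ K)])))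
  rw [DP]
  exact le_add_of_nonneg_left (by positivity)

/-- the same from the a priori bounds -/
theorem plG' : CL fun E Λ S M m a =>
    ∀ l0 l V X Lg X2 X3 G0 η Xp Vt Lp G1 u1 u2 j γ Lc ηc τ N l0' X',
    LN E S M l0 l V X Lg X2 X3 G0 η → LP E S M Xp Vt Lg Lp X2 X3 G0 G1 u1 u2 j γ Lc ηc τ η N →
    L69.Ap S M m a l0' X' Xp Vt u1 j →
    ∑ k ∈ Icc S.J S.Jp, M.dz m a k * aM M m a k ≤ Λ * G0 ^ 2 ∧
      ∑ k ∈ Ico S.J S.Jp, M.dz m a k * tM M m a k ≤ Λ * G0 ^ 2 ∧ S.w3 1 ≤ Λ * G0 ^ 2 :=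
  fun C => (plG C).mono fun _ H ε hε η hη => (H ε hε η hη).mono fun _ H S M b1 b2 b3 h m a I
    l0 l V X Lg X2 X3 G0 η' Xp Vt Lp G1 u1 u2 j γ Lc ηc τ N _ _ c p q =>
    H S M b1 b2 b3 h m a I l0 l V X Lg X2 X3 G0 η' Xp Vt Lp G1 u1 u2 j γ Lc ηc τ N c p q.top
      (le_trans (by positivity) q.j0)

end Crest.Agent.T156.Alt.G49

end
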