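import Crest.Agent.T156.SzW_61
import Crest.Agent.T156.PlG_49
import Crest.Agent.T156.ClSzC_61
import Crest.Agent.T156.LDefX_64
import Crest.Agent.T156.NdD_22

-- ▼ part T156/SzV4_49
section

/-!
# Row 156, block (L): the truncated quartic sum on the top window (helper49)
-/

set_option autoImplicit false
set_option linter.unusedSectionVars false

noncomputable section

namespace Crest.Agent.T156.Alt.V49

open Real Finset Filter
open Crest.Agent.T156.Alt.E61 Crest.Agent.T156.Alt.Md67 Crest.Agent.T156.Alt.C33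
open Crest.Agent.T156.Alt.Sz9 Crest.Agent.T156.Alt.Sz9.W61 Crest.Agent.T156.Alt.L69
open Crest.Agent.T156.Env96

/-- **(SzV4)** -/
def SzV4 : Prop := CL fun E Λ S M m a =>
  ∀ l0 l V X Lg X2 X3 G0 η Xp Vt Lp G1 u1 u2 j γ Lc ηc τ N t0 Y U,
  LN E S M l0 l V X Lg X2 X3 G0 η → LP E S M Xp Vt Lg Lp X2 X3 G0 G1 u1 u2 j γ Lc ηc τ η N →
  Phi M S m a ≤ X → L4 S V X t0 S.C Y → t0 ≤ S.C → 0 ≤ U →
  ∑ k ∈ (range S.J).filter fun k => 2 * S.J ≤ 3 * k, M.dz m a k * min (u4 M m a k) U ^ 4 ≤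
    Λ * (Y + w1 S 1 ^ ((3 : ℝ) / 2) * U ^ ((7 : ℝ) / 2) + γ ^ ((15 : ℝ) / 7))

theorem tail {v δ : ℝ} (v0 : 0 < v) (d0 : 0 < δ) (n : ℕ) :
    ∑ j ∈ range n, v / (((j : ℝ) + 1) * v + δ) ^ 2 ≤ 1 / δ - 1 / (n * v + δ) := by
  induction n with
  | zero => simp
  | succ n ih =>
    rw [sum_range_succ]
    push_cast
    have : v / (((n : ℝ) + 1) * v + δ) ^ 2 ≤ 1 / (n * v + δ) - 1 / ((n + 1) * v + δ) := by
      rw [div_sub_div _ _ (by positivity) (by positivity), show 1 * (((n : ℝ) + 1) * v + δ) -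
        (n * v + δ) * 1 = v by ring, sq]
      gcongr; linarith
    linarith

theorem tail' {v δ : ℝ} (v0 : 0 < v) (d0 : 0 < δ) (n : ℕ) :
    ∑ k ∈ range n, v / (((n : ℝ) - k) * v + δ) ^ 2 ≤ 1 / δ := by
  have := tail v0 d0 n
  rw [← sum_range_reflect] at this
  refine le_trans (le_of_eq (sum_congr rfl fun k hk => ?_)) (this.trans (sub_le_self _
    (by positivity)))
  rw [Nat.sub_sub, Nat.cast_sub (by have := mem_range.1 hk; omega)]
  push_cast; ring

theorem rp_id {w U : ℝ} (w0 : 0 < w) (U0 : 0 ≤ U) :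
    w * √(w * U) * U ^ 3 = w ^ ((3 : ℝ) / 2) * U ^ ((7 : ℝ) / 2) := by
  rw [sqrt_eq_rpow, mul_rpow w0.le U0, show (3 : ℝ) / 2 = 1 + 1 / 2 by norm_num, rpow_add w0,
    rpow_one, show (7 : ℝ) / 2 = 1 / 2 + (3 : ℕ) by norm_num, rpow_add_natCast' U0 (by norm_num)]
  ring

variable {S : Sc} {M : Md} {m : ℕ} {a lam : ℝ}

set_option maxHeartbeats 800000 in
theorem core (X : Kw lam S M m a) (Rv : Rev S M) {R γ w U : ℝ} (H : G49.Fr S M m a R γ)
    (γR : γ ≤ R) (en : M.En S m a M.q 2 0 S.C ≤ R ^ 3) (w0 : 0 < w) (hw : w ^ 3 = S.w3 1)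
    (U0 : 0 < U) :
    ∑ k ∈ (range S.J).filter fun k => 2 * S.J ≤ 3 * k, M.dz m a k * min (u4 M m a k) U ^ 4 ≤
      10 ^ 13 * S.C ^ 12 * lam ^ 4 * (w ^ 4 + w * √(w * U) * (R ^ 3 + U ^ 3)) := by
  have F := X.fn
  have h := F.toCl
  have L := F.lg
  have C1 := F.C1; have C0 := F.C0; have v0 := F.v0; have l2 := X.l2
  have lg := X.lg1; have lg2 := X.lg2; have R0 := H.R0; have hJ := H.hJ
  have i0 := F.i0; have i1 := F.i1; have i2 := F.i2; have i3 := F.i3; have i4 := F.i4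
  have c : ∀ {i j : ℕ}, i ≤ j → S.C ^ i ≤ S.C ^ j := fun e => pow_le_pow_right₀ C1 e
  have dzb : ∀ i, S.J / 2 ≤ i → i < S.J → S.v / S.C ≤ M.dz m a i ∧ M.dz m a i ≤ S.C * S.v :=
    fun i a1 a2 => E49.dz_mem F (by omega) a2
  have hd : ∀ y, S.J / 2 < y → y < S.J → S.v ≤ S.C ^ 3 * M.dz m a y := fun y a1 a2 =>
    ((div_le_iff₀' C0).1 (dzb y a1.le a2).1).trans (mul_le_mul_of_nonneg_right
      (le_self_pow₀ C1 (by norm_num)) (L.dz_nonneg _))
  have hq : ∀ k, S.J / 2 ≤ k → k < S.J - 1 →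
      0 ≤ M.q (k + 1) - M.q k ∧ M.q (k + 1) - M.q k ≤ S.C * S.v := fun k _ a2 =>
    ⟨sub_nonneg.2 (h.q_mono k.le_succ (by omega)),
      (Ap63.q_slow h k.le_succ (by omega)).trans (h.ss k (by omega)).2⟩
  have vR := mul_le_mul_of_nonneg_left H.vR C0.le
  have CR := mul_le_mul_of_nonneg_right (le_self_pow₀ C1 two_ne_zero) R0.le
  have RC := mul_le_mul_of_nonneg_right C1 R0.le
  rw [Ap63.En_eq h] at en
  have da : |M.rb m a (S.J / 2) - M.q (S.J / 2)| ≤ 16 * S.C ^ 2 * R :=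
    (del_le F R0.le H.CR.2 en (k := S.J / 2) (by omega) (by omega)).trans (by linarith)
  have db : |M.rb m a (S.J - 1) - M.q (S.J - 1)| ≤ 16 * S.C ^ 2 * R := by
    have e : (S.J : ℝ) - (S.J - 1 : ℕ) = 1 := by rw [Nat.cast_sub (by omega)]; simp
    have a1 := H.lag (i := S.J - 1) (by omega) (by
      rw [e]; linarith [mul_le_mul_of_nonneg_left H.vR (by positivity : 0 ≤ 12 * S.C ^ 5), H.R1,
        (by positivity : 0 ≤ S.C ^ 5 * R)])
    have a2 := (Ap63.q_slow h (Nat.sub_le S.J 1) i3).trans (h.s_tel (Nat.sub_le S.J 1) le_rfl).2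
    rw [e] at a2
    exact abs_le.2 ⟨by linarith, by linarith [H.lead]⟩
  set s := (range S.J).filter fun k => 2 * S.J ≤ 3 * k with hs
  have mem : ∀ k ∈ s, k < S.J ∧ 2 * S.J ≤ 3 * k := fun k hk => by simpa [hs] using hk
  set g := w * √(w * U) with hg
  have g0 : 0 < g := by positivity
  have g2 : g ^ 2 = w ^ 3 * U := by rw [hg, mul_pow, sq_sqrt (by positivity)]; ring
  set δ := 2 * lam ^ 2 * g / U with hδ
  have δ0 : 0 < δ := by positivity
  set t := fun k : ℕ => min (U * δ ^ 2 / (((S.J : ℝ) - k) * S.v) ^ 2) U with ht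
  have x0 : ∀ k ∈ s, 0 < ((S.J : ℝ) - k) * S.v := fun k hk =>
    mul_pos (sub_pos.2 (Nat.cast_lt.2 (mem k hk).1)) v0
  have t0 : ∀ k, 0 ≤ t k := fun k => le_min (by positivity) U0.le
  have p8 : ∀ i : ℕ, (1 : ℝ) ≤ 8 ^ i := fun i => one_le_pow₀ (by norm_num)
  have k3 : 3 * S.C ≤ 27 * S.C ^ 3 := by linarith [le_self_pow₀ C1 three_ne_zero]
  have pt : ∀ k ∈ s, ∀ i : ℕ, max (min (u4 M m a k) U - t k) 0 ≤ lam * (4 ^ i * (9 * S.C ^ 2 * w) +
      ev (M.rb m a) (8 ^ i * (27 * S.C ^ 3) * S.v) (S.J / 2) (S.J - 1) k) := fun k hk i => by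
    have e0 := ev_nonneg (f := M.rb m a) (c := 8 ^ i * (27 * S.C ^ 3) * S.v) (a := S.J / 2)
      (b := S.J - 1) (k := k)
    have x := x0 k hk
    refine max_le ?_ (by positivity)
    have a1 := X.cut Rv (by omega) (J' := S.J) (d := ((S.J : ℝ) - k) * S.v / (2 * log S.n))
      (κ := 8 ^ i * (27 * S.C ^ 3)) (w := 4 ^ i * (9 * S.C ^ 2 * w)) (mem k hk).2
      (by have := (mem k hk).1; omega) (one_le_mul_of_one_le_of_one_le (p8 i) (by linarith)) e0
      (by positivity) (by positivity) (by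
        have e : ((8 : ℝ) ^ i) ^ 2 = (4 ^ i) ^ 3 := by
          rw [← pow_mul, ← pow_mul, mul_comm i, mul_comm i, pow_mul, pow_mul]; norm_num
        rw [← hw, mul_pow (8 ^ i : ℝ), e]; ring)
      (fun j p q => (cone (f := M.rb m a) (c := 8 ^ i * (27 * S.C ^ 3) * S.v) (k := k) p
        (show j ≤ S.J - 1 by omega)).trans_eq (by ring)) hd (le_of_eq (by field_simp))
    have a2 : lam * (S.w3 1 / (((S.J : ℝ) - k) * S.v / (2 * log S.n)) ^ 2) ≤
        U * δ ^ 2 / (((S.J : ℝ) - k) * S.v) ^ 2 := by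
      rw [show U * δ ^ 2 = 4 * lam ^ 2 * (lam * lam) * w ^ 3 by
        rw [hδ, div_pow, mul_pow, g2]; field_simp; ring, ← hw,
        show lam * (w ^ 3 / (((S.J : ℝ) - k) * S.v / (2 * log S.n)) ^ 2) =
          4 * log S.n ^ 2 * (lam * 1) * w ^ 3 / (((S.J : ℝ) - k) * S.v) ^ 2 by field_simp; ring]
      gcongr; linarith
    rcases min_choice (U * δ ^ 2 / (((S.J : ℝ) - k) * S.v) ^ 2) U with e | e
    · rw [ht]; simp only [e]
      linarith [min_le_left (u4 M m a k) U]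
    · rw [ht]; simp only [e]
      exact (sub_nonpos.2 (min_le_right _ _)).trans (by positivity)
  obtain ⟨-, -, r4⟩ := cake3 s (w := M.dz m a) (u := fun k => max (min (u4 M m a k) U - t k) 0)
    (lam := lam) (α := 9 * S.C ^ 2 * w) (D := U) (X := 1) (Y := 20000 * S.C ^ 4 * R ^ 3)
    (e := fun i k => ev (M.rb m a) (8 ^ i * (27 * S.C ^ 3) * S.v) (S.J / 2) (S.J - 1) k)
    (fun k _ => L.dz_nonneg k) (fun k _ => le_max_right _ _) (by linarith) (by positivity)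
    (by positivity) ((L.sum_dz_le s).trans (sub_le_self 1 L.a0)) pt
    (fun k _ => (max_le (by linarith [min_le_right (u4 M m a k) U, t0 k]) U0.le).trans
      ((le_add_of_nonneg_left (by positivity)).trans
        (le_mul_of_one_le_left (by positivity) (by linarith))))
    (fun i => by
      have p := p8 i
      have s1 := sum_sq (f := M.rb m a) (c := 8 ^ i * (27 * S.C ^ 3) * S.v)
        (show S.J / 2 ≤ S.J - 1 by omega) (by positivity) (by positivity) (by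
          linarith [mul_le_mul_of_nonneg_right (k3.trans (le_mul_of_one_le_left (by positivity) p))
            v0.le]) (fun k _ _ => Md67.rb_mono L.m0 k.le_succ) hq da db
      have s2 : S.v * ∑ k ∈ Icc (S.J / 2) (S.J - 1), (M.rb m a k - M.q k) ^ 2 ≤ S.C * R ^ 3 := by
        rw [Ap63.Sx_two] at en
        refine le_trans ?_ (mul_le_mul_of_nonneg_left ((sum_le_sum_of_subset_of_nonneg
          (s := Icc (S.J / 2) (S.J - 1)) (fun j hj => by
            have := mem_Icc.1 hj; exact mem_Ioc.2 ⟨by omega, by omega⟩) fun j _ _ =>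
              mul_nonneg (Ap63.w_nn F.leg.zm j) (sq_nonneg _)).trans en) C0.le)
        rw [mul_sum, mul_sum]
        refine sum_le_sum fun k hk => ?_
        have := (dzb k (mem_Icc.1 hk).1 (by have := (mem_Icc.1 hk).2; omega)).1
        rw [div_le_iff₀' C0, dz_up F.leg (by have := (mem_Icc.1 hk).1; omega)] at this
        rw [← mul_assoc]
        exact mul_le_mul_of_nonneg_right this (sq_nonneg _)
      have s3 : 2 * (16 * S.C ^ 2 * R) ^ 3 + 4 * (S.C * S.v) *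
          ∑ k ∈ Icc (S.J / 2) (S.J - 1), (M.rb m a k - M.q k) ^ 2 ≤ 8200 * S.C ^ 6 * R ^ 3 := by
        linarith [mul_le_mul_of_nonneg_left s2 C0.le, (by positivity : 0 ≤ S.C ^ 6 * R ^ 3),
          mul_le_mul_of_nonneg_right (c (show 2 ≤ 6 by norm_num)) (pow_pos R0 3).le]
      calc _ ≤ ∑ k ∈ s, S.C * S.v *
            ev (M.rb m a) (8 ^ i * (27 * S.C ^ 3) * S.v) (S.J / 2) (S.J - 1) k ^ 2 :=
            sum_le_sum fun k hk => mul_le_mul_of_nonneg_right
              (dzb k (by have := mem k hk; omega) (mem k hk).1).2 (sq_nonneg _)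
        _ ≤ S.C * S.v * (56 / (8 ^ i * (27 * S.C ^ 3) * S.v) * (8200 * S.C ^ 6 * R ^ 3)) := by
            rw [← mul_sum]
            refine mul_le_mul_of_nonneg_left (le_trans (sum_le_sum_of_subset_of_nonneg
              (fun j hj => mem_Icc.2 (by have := mem j hj; omega)) fun _ _ _ => sq_nonneg _)
              (s1.trans (mul_le_mul_of_nonneg_left s3 (by positivity)))) (by positivity)
        _ = 459200 / 27 * S.C ^ 4 * R ^ 3 / 8 ^ i := by field_simp; ring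
        _ ≤ _ := by gcongr; norm_num)
  have r5 : ∑ k ∈ s, M.dz m a k * t k ^ 4 ≤ 8 * S.C * lam ^ 2 * (g * U ^ 3) := by
    have a1 : ∀ k ∈ s, M.dz m a k * t k ^ 4 ≤
        4 * S.C * U ^ 4 * δ ^ 2 * (S.v / (((S.J : ℝ) - k) * S.v + δ) ^ 2) := fun k hk => by
      have x := x0 k hk
      have b1 : t k ≤ 4 * U * δ ^ 2 / (((S.J : ℝ) - k) * S.v + δ) ^ 2 := by
        rcases le_total (((S.J : ℝ) - k) * S.v) δ with e | e
        · refine (min_le_right _ _).trans ?_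
          rw [le_div_iff₀ (by positivity)]
          linarith [mul_le_mul_of_nonneg_left (pow_le_pow_left₀ (by positivity)
            (show ((S.J : ℝ) - k) * S.v + δ ≤ 2 * δ by linarith) 2) U0.le]
        · refine (min_le_left _ _).trans ?_
          rw [div_le_div_iff₀ (by positivity) (by positivity)]
          linarith [mul_le_mul_of_nonneg_left (pow_le_pow_left₀ (by positivity)
            (show ((S.J : ℝ) - k) * S.v + δ ≤ 2 * (((S.J : ℝ) - k) * S.v) by linarith) 2)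
            (by positivity : 0 ≤ U * δ ^ 2)]
      calc M.dz m a k * t k ^ 4 = M.dz m a k * (t k ^ 3 * t k) := by ring
        _ ≤ S.C * S.v * (U ^ 3 * (4 * U * δ ^ 2 / (((S.J : ℝ) - k) * S.v + δ) ^ 2)) :=
          mul_le_mul (dzb k (by have := mem k hk; omega) (mem k hk).1).2 (mul_le_mul
            (pow_le_pow_left₀ (t0 k) (min_le_right _ _) 3) b1 (t0 k) (by positivity))
            (by have := t0 k; positivity) (by positivity)
        _ = _ := by ring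
    refine (sum_le_sum a1).trans ?_
    rw [← mul_sum]
    refine (mul_le_mul_of_nonneg_left ((sum_le_sum_of_subset_of_nonneg (filter_subset _ _)
      fun k _ _ => by positivity).trans (tail' v0 δ0 S.J)) (by positivity)).trans (le_of_eq ?_)
    rw [hδ]; field_simp; ring
  have r6 : ∑ k ∈ s, M.dz m a k * min (u4 M m a k) U ^ 4 ≤
      8 * ∑ k ∈ s, M.dz m a k * max (min (u4 M m a k) U - t k) 0 ^ 4 +
        8 * ∑ k ∈ s, M.dz m a k * t k ^ 4 := by
    rw [mul_sum, mul_sum, ← sum_add_distrib]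
    refine sum_le_sum fun k _ => ?_
    have a1 := pow_le_pow_left₀ (le_min (u4_nn k) U0.le) (show min (u4 M m a k) U ≤
      max (min (u4 M m a k) U - t k) 0 + t k by
        linarith [le_max_left (min (u4 M m a k) U - t k) 0]) 4
    have a2 := add_pow_le (le_max_right (min (u4 M m a k) U - t k) 0) (t0 k) 4
    rw [show (2 : ℝ) ^ (4 - 1) = 8 by norm_num] at a2
    linarith [mul_le_mul_of_nonneg_left (a1.trans a2) (L.dz_nonneg k)]
  have r7 : √(9 * S.C ^ 2 * w * U) = 3 * S.C * √(w * U) := by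
    rw [show 9 * S.C ^ 2 * w * U = (3 * S.C) ^ 2 * (w * U) by ring, sqrt_mul (by positivity),
      sqrt_sq (by positivity)]
  rw [r7] at r4
  have l4 : lam ^ 2 ≤ lam ^ 4 := pow_le_pow_right₀ (by linarith) (by norm_num)
  have b1 := mul_le_mul_of_nonneg_right (c (show 8 ≤ 12 by norm_num))
    (by positivity : 0 ≤ lam ^ 4 * w ^ 4)
  have b2 := mul_le_mul_of_nonneg_right (c (show 7 ≤ 12 by norm_num))
    (by positivity : 0 ≤ lam ^ 4 * (g * R ^ 3))
  have b3 := mul_le_mul_of_nonneg_right (mul_le_mul (le_self_pow₀ C1 (show 12 ≠ 0 by norm_num)) l4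
    (by positivity) (by positivity)) (by positivity : 0 ≤ g * U ^ 3)
  have e4 : lam ^ 4 * (16 * (1 * (9 * S.C ^ 2 * w) ^ 4) + 8192 * (9 * S.C ^ 2 * w *
      (3 * S.C * √(w * U)) * (20000 * S.C ^ 4 * R ^ 3))) = 104976 * (S.C ^ 8 * (lam ^ 4 * w ^ 4)) +
        4423680000 * (S.C ^ 7 * (lam ^ 4 * (g * R ^ 3))) := by rw [hg]; ring
  rw [e4] at r4
  linarith only [r4, r5, r6, b1, b2, b3, (by positivity : 0 ≤ S.C ^ 12 * (lam ^ 4 * w ^ 4)),
    (by positivity : 0 ≤ S.C ^ 12 * (lam ^ 4 * (g * R ^ 3))),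
    (by positivity : 0 ≤ S.C ^ 12 * lam ^ 4 * (g * U ^ 3))]

theorem young {w U R : ℝ} (w0 : 0 < w) (U0 : 0 ≤ U) (R0 : 0 ≤ R) :
    w * √(w * U) * R ^ 3 ≤ w * √(w * U) * U ^ 3 + w * √(w * R) * R ^ 3 := by
  rcases le_total U R with h | h
  · exact le_add_of_nonneg_of_le (by positivity) (by gcongr)
  · exact le_add_of_le_of_nonneg (by gcongr) (by positivity)

/-- **`SzV4`** -/
theorem szV4 : SzV4 := by
  refine of_kw (fun C => 10 ^ 15 * C ^ 22) 5 fun E lam Λ S M m a K b1 b2 b3 l0 l V X Lg X2 X3 G0 η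
    Xp Vt Lp G1 u1 u2 j γ Lc ηc τ N t0 Y U n p phi l4 ht U0 => ?_
  have F := K.fn
  have h := F.toCl
  have C1 := F.C1; have C0 := F.C0; have v0 := F.v0; have l2 := K.l2; have X0 := n.X0
  have i0 := F.i0; have i1 := F.i1; have i2 := F.i2; have i3 := F.i3
  have c : ∀ {i j : ℕ}, i ≤ j → S.C ^ i ≤ S.C ^ j := fun e => pow_le_pow_right₀ C1 e
  have hE := b1.trans b2
  have c22 : 1 ≤ S.C ^ 22 := one_le_pow₀ C1
  have E1 : 1 ≤ E := by linarith
  have γn : 0 ≤ γ := (sub_nonneg.2 (F.sm i3)).trans p.γ0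
  have γ1 : γ ≤ 1 := (le_mul_of_one_le_left γn E1).trans p.γ1
  have X1 : X ≤ 1 := (le_mul_of_one_le_left X0.le E1).trans n.X1
  have W0 := F.w3_pos one_pos
  set w := w1 S 1 with hw
  have w0 : 0 < w := rpow_pos_of_pos W0 _
  have w3 : w ^ 3 = S.w3 1 := rp3 W0.le
  have τ0 : 0 < τ := (Odd.pow_pos_iff (by decide)).1 (W0.trans_le p.tw)
  have w1' : w ≤ 1 := by
    refine (pow_le_one_iff_of_nonneg w0.le three_ne_zero).1 (w3.trans_le (p.tw.trans
      ((pow_le_pow_left₀ τ0.le p.τ1 3).trans ?_)))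
    rw [rp3 p.Xp0.1.le]
    exact (le_mul_of_one_le_left p.Xp0.1.le E1).trans p.Xp0.2
  have vw : S.v ≤ S.C ^ 2 * w := B61.v_le_w F one_pos C1
  have sj := F.s_nonneg S.jl
  have hJ : 4 * S.jl ≤ S.J := by
    have a1 := (F.s_mem (k := S.jl) (by omega)).1
    have a2 := mul_le_mul_of_nonneg_right hE sj
    have l0p : 0 ≤ l0 := (mul_nonneg (by linarith) sj).trans n.l0s
    have l1 := (le_mul_of_one_le_left (l0p.trans n.l0l) E1).trans n.l1
    have a3 := mul_le_mul_of_nonneg_left a1 (by positivity : 0 ≤ 12 * S.C ^ 3)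
    have a4 := mul_le_mul_of_nonneg_right (c (show 4 ≤ 22 by norm_num)) sj
    have : 4 * (S.jl : ℝ) * (3 * S.C ^ 3 * S.v) ≤ S.J * (3 * S.C ^ 3 * S.v) := by
      linarith only [a2, a3, a4, F.J_lo, n.l0s, n.l0l, l1, (by positivity : 0 ≤ S.C ^ 22 * M.s S.jl)]
    exact_mod_cast le_of_mul_le_mul_right this (by positivity)
  set x := X ^ ((1 : ℝ) / 3) with hx
  have x0 : 0 < x := rpow_pos_of_pos X0 _
  have x3 : x ^ 3 = X := rp3 X0.le
  set R := max x (max S.v γ) with hR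
  have xR : x ≤ R := le_max_left _ _
  have en : M.En S m a M.q 2 0 S.C ≤ R ^ 3 :=
    phi.trans (x3.symm.trans_le (pow_le_pow_left₀ x0.le xR 3))
  have R1 : 24 * S.C ^ 5 * R ≤ 1 := by
    rw [hR, mul_max_of_nonneg _ _ (by positivity), mul_max_of_nonneg _ _ (by positivity)]
    refine max_le ?_ (max_le ?_ ?_)
    · refine (pow_le_one_iff_of_nonneg (by positivity) three_ne_zero).1 ?_
      rw [mul_pow, x3]
      refine le_trans (mul_le_mul_of_nonneg_right (le_trans ?_ hE) X0.le) n.X1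
      linarith only [c (show 15 ≤ 22 by norm_num), c22]
    · refine le_of_mul_le_mul_right ?_ h.N0
      linarith only [mul_le_mul_of_nonneg_left F.vn (show 0 ≤ 24 * S.C ^ 5 by positivity), K.cn,
        (by positivity : 0 ≤ S.C ^ 6)]
    · refine le_trans (mul_le_mul_of_nonneg_right (le_trans ?_ hE) γn) p.γ1
      linarith only [c (show 5 ≤ 22 by norm_num), c22]
  have H : G49.Fr S M m a R γ := ⟨F, hJ, x0.trans_le xR, R1,
    (le_max_left _ _).trans (le_max_right _ _), le_trans (sum_le_sum_of_subset_of_nonneg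
      (fun i hi => mem_filter.2 ⟨(mem_filter.1 hi).1, h.s_nn i, (mem_filter.1 hi).2.2⟩)
      fun i _ _ => mul_nonneg (Ap63.w_nn h.leg.zm i) (by positivity)) en, p.γ0⟩
  have y := l4 S.C ht le_rfl
  have cl1 : S.C ≤ cl S V S.C :=
    (le_mul_of_one_le_left C0.le (le_max_left _ _)).trans (le_add_of_nonneg_right n.V0)
  rw [min_eq_left (X1.trans (one_le_pow₀ (C1.trans cl1)))] at y
  have WC := F.w3_pos C0
  have ww : w ≤ S.C * ws S V S.C := by
    rw [ws, ← mul_assoc, mul_div_cancel₀ _ C0.ne']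
    refine le_trans ?_ (mul_le_mul_of_nonneg_right cl1 (by positivity))
    refine le_of_pow_le_pow_left₀ three_ne_zero (by positivity) ?_
    rw [mul_pow, rp3 WC.le, w3]
    refine le_trans ?_ (mul_le_mul_of_nonneg_right (le_self_pow₀ C1 three_ne_zero) WC.le)
    have := F.ms_pos C0.le; have := h.N0; have := F.F0
    rw [Sc.w3, Sc.w3, show S.C * (S.F / (S.n * S.C * S.ms S.C)) = S.F / (S.n * 1 * S.ms S.C) by
      field_simp]
    gcongr; exact F.ms1 _
  have s0 : 0 < ws S V S.C := pos_of_mul_pos_right (w0.trans_le ww) C0.le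
  set s := ws S V S.C
  rw [show (7 : ℝ) / 6 = 1 / 3 * (7 / 2) by norm_num, rpow_mul X0.le, ← hx, ← rp_id s0 x0.le] at y
  have y1 : 0 ≤ S.C * s ^ 4 := by positivity
  have y2 : 0 ≤ s * √(s * x) * x ^ 3 := by positivity
  have y3 : w ^ 4 ≤ S.C ^ 3 * Y := (pow_le_pow_left₀ w0.le ww 4).trans (by
    linarith only [mul_le_mul_of_nonneg_left (show S.C * s ^ 4 ≤ Y by linarith only [y, y2])
      (pow_pos C0 3).le])
  have y4 : w * √(w * x) * x ^ 3 ≤ S.C ^ 2 * Y := by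
    have a1 : √(w * x) ≤ S.C * √(s * x) := sqrt_le_iff.2 ⟨by positivity, by
      rw [mul_pow, sq_sqrt (by positivity), ← mul_assoc]
      exact mul_le_mul_of_nonneg_right (ww.trans (mul_le_mul_of_nonneg_right
        (le_self_pow₀ C1 two_ne_zero) s0.le)) x0.le⟩
    calc _ ≤ S.C * s * (S.C * √(s * x)) * x ^ 3 := by gcongr
      _ = S.C ^ 2 * (s * √(s * x) * x ^ 3) := by ring
      _ ≤ _ := mul_le_mul_of_nonneg_left (by linarith only [y, y1]) (by positivity)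
  have Y0 : 0 ≤ Y := by linarith only [y, y1, y2]
  have g0 : 0 ≤ γ ^ ((15 : ℝ) / 7) := by positivity
  have y5 : w * √(w * R) * R ^ 3 ≤ S.C ^ 10 * Y + γ ^ ((15 : ℝ) / 7) := by
    rcases max_choice x (max S.v γ) with e | e <;> rw [hR, e]
    · exact le_add_of_le_of_nonneg (y4.trans (mul_le_mul_of_nonneg_right (c (by norm_num)) Y0)) g0
    rcases max_choice S.v γ with e | e <;> rw [e]
    · refine le_add_of_le_of_nonneg ?_ g0
      have a1 : √(w * S.v) ≤ S.C * w := sqrt_le_iff.2 ⟨by positivity, by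
        linarith only [mul_le_mul_of_nonneg_left vw w0.le]⟩
      calc _ ≤ 1 * (S.C * w) * (S.C ^ 2 * w) ^ 3 := by gcongr
        _ = S.C ^ 7 * w ^ 4 := by ring
        _ ≤ S.C ^ 7 * (S.C ^ 3 * Y) := by gcongr
        _ = _ := by ring
    · refine le_add_of_nonneg_of_le (by positivity) ?_
      calc _ ≤ 1 * 1 * γ ^ 3 := by
            gcongr; exact sqrt_le_one.2 (mul_le_one₀ w1' γn γ1)
        _ = γ ^ ((3 : ℕ) : ℝ) := by rw [rpow_natCast]; ring
        _ ≤ _ := rpow_le_rpow_of_exponent_ge' γn γ1 (by norm_num) (by norm_num)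
  rw [← rp_id w0 U0]
  have u0 : 0 ≤ w * √(w * U) * U ^ 3 := by positivity
  rcases U0.eq_or_lt with rfl | U1
  · rw [sum_eq_zero fun k _ => by rw [min_eq_right (u4_nn k)]; simp]
    exact mul_nonneg (le_trans (by positivity) b3) (by positivity)
  refine (core K p.rev H ((le_max_right _ _).trans (le_max_right _ _)) en w0 w3 U1).trans
    (le_trans ?_ (mul_le_mul_of_nonneg_right b3 (by positivity)))
  have a1 := young w0 U0 H.R0.le
  have c10 : 1 ≤ S.C ^ 10 := one_le_pow₀ C1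
  calc _ ≤ 10 ^ 13 * S.C ^ 12 * lam ^ 4 * (2 * S.C ^ 10 *
        (Y + w * √(w * U) * U ^ 3 + γ ^ ((15 : ℝ) / 7))) := by
        refine mul_le_mul_of_nonneg_left ?_ (by positivity)
        linarith only [a1, y3, y5, mul_le_mul_of_nonneg_right (c (show 3 ≤ 10 by norm_num)) Y0,
          mul_le_mul_of_nonneg_right c10 u0, mul_le_mul_of_nonneg_right c10 g0, g0]
    _ = 2 * 10 ^ 13 * S.C ^ 22 * lam ^ 4 * (Y + w * √(w * U) * U ^ 3 + γ ^ ((15 : ℝ) / 7)) := by ring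
    _ ≤ _ := by
        rw [pow_succ' lam 4]
        gcongr
        linarith only [b1, c22]

end Crest.Agent.T156.Alt.V49

end
end

-- ▼ part T156/Q4A_49

/-!
# Row 156, block (L): the capped quartic sum over the sloped nodes (helper49)
-/

set_option autoImplicit false
set_option linter.unusedSectionVars false

noncomputable section

namespace Crest.Agent.T156.Alt.V49

open Real Finset Filter
open Crest.Agent.T156.Alt.E61 Crest.Agent.T156.Alt.Md67 Crest.Agent.T156.Alt.C33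
open Crest.Agent.T156.Alt.Sz9 Crest.Agent.T156.Alt.L69

/-- **the capped quartic sum** -/
def Q4 : Prop := CL fun E Λ S M m a =>
  ∀ l0 l V X Lg X2 X3 G0 η Xp Vt V2 Lp G1 u1 u2 j γ Lc ηc τ N' N lam K t0 t1 Y,
  LN E S M l0 l V X Lg X2 X3 G0 η → LP E S M Xp Vt Lg Lp X2 X3 G0 G1 u1 u2 j γ Lc ηc τ η N' →
  LC E S M Xp Vt V2 Lg Lp X2 G0 G1 u1 u2 j γ ηc τ η N → Phi M S m a ≤ X → 1 ≤ lam →
  (∀ k ≤ S.Jp, M.rb m a k ≤ lam * cl S V (max (M.z k) l0)) → 1 ≤ K → l0 ≤ t0 →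
  L4 S V X t0 (min t1 S.C) Y → 0 ≤ Y →
  ∑ y ∈ (range S.J).filter fun y => t0 ≤ M.s y ∧ M.s y ≤ t1,
    M.dz m a y * min (u4 M m a y ^ 2) (K * Nd22.U S (Lg * cr S (M.s y)) (M.s y) ^ 2) ^ 2 ≤
    Λ * lam ^ 5 * K ^ 2 * (Y + if 1 ≤ 8 * S.C ^ 5 * t1 then N else 0) ∧ 0 ≤ N

variable {S : Sc} {M : Md} {m : ℕ} {a E l0 l V X Lg X2 X3 G0 Xp Vt V2 Lp G1 u1 u2 j γ Lc ηc τ N'
  N : ℝ} {η : ℝ → ℝ}

theorem cr1 (S : Sc) (t : ℝ) : 1 ≤ cr S t := le_max_left _ _

/-- the costs pay `η 1 ^ 2` and `γ ^ (15 / 7)` -/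
theorem pay (F : Fn S M m a) (E1 : 1 ≤ E) (n : LN E S M l0 l V X Lg X2 X3 G0 η)
    (p : LP E S M Xp Vt Lg Lp X2 X3 G0 G1 u1 u2 j γ Lc ηc τ η N')
    (c : LC E S M Xp Vt V2 Lg Lp X2 G0 G1 u1 u2 j γ ηc τ η N) (l0p : 0 < l0) :
    Lg ^ 2 * (Lg * cr S 1) ^ 3 * w1 S 1 ^ 5 ≤ N ∧ γ ^ ((15 : ℝ) / 7) ≤ N ∧ 1 ≤ Lg := by
  have V0 := n.V0; have X0 := n.X0; have Xp0 := p.Xp0.1; have Vt0 := p.Vt0; have V20 := c.v2.1
  have lp : 0 < l := l0p.trans_le n.l0l
  have l1 : l ≤ 1 := (le_mul_of_one_le_left lp.le E1).trans n.l1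
  have Lg1 : 1 ≤ Lg := (one_le_mul_of_one_le_of_one_le E1 (one_le_pow₀ F.F1)).trans n.Lg0
  have Lp1 := p.Lp1.1
  have cl0 : 0 ≤ cl S V l0 := l0p.le.trans (C61.cl_ge V0 l0p.le)
  have x2 : 0 ≤ X2 := le_trans (by positivity) n.x2a
  have x3 : 0 ≤ X3 := le_trans (by positivity) n.x3a
  have u10 : 0 ≤ u1 := ((sub_nonneg.2 (F.leg.z1 _)).trans F.last).trans p.u1a
  have u20 := u10.trans p.u1b.1
  have G00 : 0 ≤ G0 := u10.trans p.g0p.1
  have γn : 0 ≤ γ := (sub_nonneg.2 (F.sm F.i3)).trans p.γ0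
  have th : 0 < S.θ := F.ms_pos zero_le_one
  have W0 := F.w3_pos one_pos
  have c1 := cr1 S 1
  have n1 := F.n1
  have w0 : 0 < w1 S 1 := rpow_pos_of_pos W0 _
  have uw0 : 0 < uw S Lg 1 := by unfold uw; positivity
  have mn : 0 ≤ min (S.ms 1 / 1) 1 := le_min (div_nonneg th.le zero_le_one) zero_le_one
  have e1 : √(Lg * cr S 1 * gg S 1) * uw S Lg 1 ≤ η 1 := by
    refine le_trans ?_ (n.ηb 1 l1 F.C1)
    have a1 : 0 ≤ √(Lg * cr S 1 * gg S 1) * √X2 + (G0 + X2) * (uw S Lg 1 + √X2) := by positivity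
    have a2 : 0 ≤ uw S Lg 1 ^ 3 + uw S Lg 1 ^ 2 * min (S.ms 1 / 1) 1 + X3 + 1 / S.n := by positivity
    linarith
  have η0 : 0 ≤ η 1 := le_trans (by positivity) e1
  have mf1 : 0 ≤ mf S 1 ∧ mf S 1 ≤ 1 :=
    ⟨(div_pos th F.F0).le, (div_le_one F.F0).2 ((F.ms_le_one 1).trans F.F1)⟩
  have η1 : η 1 ≤ 1 := (le_mul_of_one_le_left η0 E1).trans ((n.th1 1 l1 F.C1).trans
    (rpow_le_one mf1.1 mf1.2 (by norm_num)))
  have np : 0 ≤ Np M S Xp Vt γ u1 Lp 2 := add_nonneg u10 (sum_nonneg fun k _ =>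
    mul_nonneg (Ap63.w_nn F.leg.zm k) (add_nonneg (sq_nonneg _) (le_min (by positivity)
      (mul_nonneg (sqrt_nonneg _) (rpow_nonneg (add_nonneg (add_nonneg (sqrt_nonneg _)
        (le_min Vt0 (sqrt_nonneg _))) γn) _)))))
  have e2 : η 1 ^ 2 ≤ N := by
    refine le_trans ?_ (c.c1' _ rfl)
    have a1 : η 1 ≤ η 1 + G0 ^ 2 + Np M S Xp Vt γ u1 Lp 2 + X2 * (Xp ^ ((1 : ℝ) / 3) + V2) := by
      linarith [(by positivity : 0 ≤ G0 ^ 2 + X2 * (Xp ^ ((1 : ℝ) / 3) + V2))]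
    refine le_min (le_trans ?_ (rpow_le_rpow η0 a1 (by norm_num))) ((pow_le_pow_left₀ η0 a1 2).trans
      (le_div_self (sq_nonneg _) th (F.ms_le_one 1)))
    rw [← rpow_natCast]
    exact rpow_le_rpow_of_exponent_ge' η0 η1 (by norm_num) (by norm_num)
  refine ⟨le_trans (le_of_eq ?_) ((pow_le_pow_left₀ (by positivity) e1 2).trans e2),
    le_trans (le_add_of_nonneg_left (by positivity)) c.c4, Lg1⟩
  have g : gg S 1 = w1 S 1 ^ 3 := by rw [w1, rp3 W0.le]; simp [Sc.w3, gg]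
  rw [mul_pow (√_), g, sq_sqrt (by positivity), uw, ← w1]
  ring

/-- the cap on the top window -/
theorem cap (F : Fn S M m a) (Lg1 : 1 ≤ Lg) {y : ℕ} (h0 : S.jl ≤ y) (h1 : y < S.J)
    (h : S.J ≤ 8 * y) : Nd22.U S (Lg * cr S (M.s y)) (M.s y) ≤
      170 * S.C ^ 6 * ((Lg * cr S 1) ^ ((1 : ℝ) / 3)) ^ 2 * w1 S 1 := by
  have C0 := F.C0; have C1 := F.C1; have F0 := F.F0; have n1 := F.n1
  have z := (E49.z_top F h0 h1 h).2
  have s0 : 0 < M.s y := pos_of_mul_pos_right (one_pos.trans_le z) (by positivity)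
  have W0 := F.w3_pos one_pos
  have Wy := F.w3_pos s0
  have c1 := cr1 S 1
  have cy := cr1 S (M.s y)
  have my := F.ms_pos s0.le
  have a1 : cr S (M.s y) ≤ 9 * S.C ^ 3 * cr S 1 := by
    have c9 : 1 ≤ 9 * S.C ^ 3 := by linarith [one_le_pow₀ (n := 3) C1]
    refine max_le (one_le_mul_of_one_le_of_one_le c9 c1) (le_trans ?_
      (mul_le_mul_of_nonneg_left (le_max_right _ _) (by positivity)))
    have m1 := F.ms_pos zero_le_one
    refine le_of_pow_le_pow_left₀ three_ne_zero (by positivity) ?_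
    rw [mul_pow, rp3 (by positivity), rp3 (by positivity), div_le_iff₀ (by positivity)]
    have b1 := mul_le_mul (mul_le_mul_of_nonneg_left (F.ms1 (M.s y)) F0.le)
      (one_le_pow₀ (n := 2) z) zero_le_one (mul_pos F0 m1).le
    have b2 := mul_le_mul_of_nonneg_right (pow_le_pow_right₀ C1 (show 8 ≤ 9 by norm_num))
      (by positivity : 0 ≤ S.F * S.ms 1 * M.s y ^ 2)
    rw [Sc.θ] at b1
    linarith [(by positivity : 0 ≤ S.C ^ 9 * (S.F * S.ms 1 * M.s y ^ 2))]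
  have a2 : S.w3 (M.s y) ≤ 55296 * S.C ^ 12 * S.w3 1 := by
    have b1 := mul_le_mul z (E49.gg_top F h0 h1 h) (E49.gg_pos F s0.le).le (by positivity)
    rw [one_mul, show E49.gg S (M.s y) = M.s y * S.w3 (M.s y) by
      unfold E49.gg Sc.w3; field_simp, ← G49.gg1] at b1
    exact le_of_mul_le_mul_left (by linarith) s0
  refine le_of_pow_le_pow_left₀ three_ne_zero (by unfold w1; positivity) ?_
  rw [Nd22.U, w1, w1, mul_pow, mul_pow, mul_pow, rp3 Wy.le, rp3 W0.le, rp23 (by positivity),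
    ← pow_mul, show 2 * 3 = 3 * 2 from rfl, pow_mul, rp3 (by positivity)]
  calc _ ≤ (Lg * (9 * S.C ^ 3 * cr S 1)) ^ 2 * (55296 * S.C ^ 12 * S.w3 1) := by gcongr
    _ = 4478976 * S.C ^ 18 * (Lg * cr S 1) ^ 2 * S.w3 1 := by ring
    _ ≤ 4913000 * S.C ^ 18 * (Lg * cr S 1) ^ 2 * S.w3 1 := by gcongr; norm_num
    _ = _ := by ring

theorem q4 : Q4 := fun C => by
  filter_upwards [szU C, szV4 C, eventually_ge_atTop 2] with A H1 H2 hA ε hε η' hη
  have h2 : 0 < η' / 2 := by positivity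
  filter_upwards [H1 ε hε _ h2, H2 ε hε _ h2, Pre29.ev_K ((24 * C ^ 4) ^ 3) hε,
    Pre29.ev_K (10 ^ 10 * C ^ 24) h2, ev_fn C hA] with n H1 H2 hE hD hF S M b1 b2 b3 h m a I l0 l V
    X Lg X2 X3 G0 η Xp Vt V2 Lp G1 u1 u2 j γ Lc ηc τ N' N lam K t0 t1 Y c p lc phi l1 cru K1 ht l4 Y0
  have F := hF S M b1 b2 b3 h m a I
  replace H1 := H1 S M b1 b2 b3 h m a I
  replace H2 := H2 S M b1 b2 b3 h m a I
  subst b1 b3
  have e2 : (S.n : ℝ) ^ η' = (S.n : ℝ) ^ (η' / 2) * (S.n : ℝ) ^ (η' / 2) := by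
    rw [← rpow_add h.N0, add_halves]
  rw [e2]
  generalize (S.n : ℝ) ^ (η' / 2) = Λ at *
  generalize (S.n : ℝ) ^ ε = E at *
  have C1 := F.C1; have C0 := F.C0; have v0 := F.v0; have X0 := c.X0; have V0 := c.V0
  have i0 := F.i0; have i1 := F.i1; have i2 := F.i2; have i3 := F.i3; have i4 := F.i4
  have c24 : 1 ≤ S.C ^ 24 := one_le_pow₀ C1
  have c4 : 1 ≤ 24 * S.C ^ 4 := by linarith [one_le_pow₀ (n := 4) C1]
  have E4 := (le_self_pow₀ c4 three_ne_zero).trans hE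
  have E1 : 1 ≤ E := c4.trans E4
  have Λ0 : 0 < Λ := by linarith
  have sj : 0 < M.s S.jl := (pos_of_mul_pos_right (lt_of_lt_of_le
    (mul_pos (Nat.cast_pos.2 (by omega)) v0) (F.s_mem (k := S.jl) (by omega)).1) C0.le)
  have l0p : 0 < l0 := (mul_pos (zero_lt_one.trans_le E1) sj).trans_le c.l0s
  have l0E := (mul_le_mul_of_nonneg_left c.l0l (zero_le_one.trans E1)).trans c.l1
  have X1 : X ≤ 1 := (le_mul_of_one_le_left X0.le E1).trans c.X1
  obtain ⟨N1, N2, Lg1⟩ := pay F E1 c p lc l0p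
  have γn : 0 ≤ γ := (sub_nonneg.2 (F.sm i3)).trans p.γ0
  have N0 : 0 ≤ N := le_trans (by positivity) N2
  refine ⟨?_, N0⟩
  have cf := C61.cf_cl h l0p V0 l1 c.l0s c.l0w l0E cru
  have ws0 : ∀ t, 0 < t → 0 ≤ ws S V t := fun t t0 => by
    have := t0.le.trans (C61.cl_ge (S := S) V0 t0.le); have := F.w3_pos t0
    unfold ws; positivity
  have s1 := (H1 l0 X _ cf phi X0 X1 t0 t1 (lam ^ 5 * Y) ht (by positivity)).2.2 fun t a1 a2 a3 => by
    have t0' := l0p.trans_le (ht.trans a1)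
    have w0 := ws0 t t0'
    have c0 := t0'.le.trans (C61.cl_ge (S := S) V0 t0'.le)
    refine le_trans ?_ (mul_le_mul_of_nonneg_left (l4 t a1 (le_min a2 a3)) (by positivity))
    rw [C61.wc_cl, mul_add]
    refine add_le_add (le_trans (le_of_eq (by ring)) (mul_le_mul_of_nonneg_right
      (pow_le_pow_right₀ l1 (show 4 ≤ 5 by norm_num)) (by positivity : 0 ≤ t * ws S V t ^ 4))) ?_
    have b1 : min X ((lam * cl S V t) ^ 3) ≤ lam ^ 3 * min X (cl S V t ^ 3) := by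
      rw [mul_min_of_nonneg _ _ (by positivity), mul_pow]
      exact min_le_min (le_mul_of_one_le_left X0.le (one_le_pow₀ l1)) le_rfl
    refine (mul_le_mul_of_nonneg_left (rpow_le_rpow (by positivity) b1 (by norm_num))
      (by positivity)).trans (le_of_eq ?_)
    rw [mul_rpow (by positivity) w0, mul_rpow (by positivity) (by positivity), ← rpow_natCast lam 3,
      ← rpow_mul (by positivity), mul_mul_mul_comm, ← rpow_add (by positivity),
      ← rpow_natCast lam 5]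
    norm_num
  have f0 : ∀ y, 0 ≤ min (u4 M m a y ^ 2) (K * Nd22.U S (Lg * cr S (M.s y)) (M.s y) ^ 2) :=
    fun y => le_min (sq_nonneg _) (by positivity)
  rw [← sum_filter_add_sum_filter_not _ fun y => y + y / 3 < S.J]
  have s2 : ∑ y ∈ ((range S.J).filter fun y => t0 ≤ M.s y ∧ M.s y ≤ t1).filter
      fun y => y + y / 3 < S.J, M.dz m a y *
      min (u4 M m a y ^ 2) (K * Nd22.U S (Lg * cr S (M.s y)) (M.s y) ^ 2) ^ 2 ≤ Λ * (lam ^ 5 * Y) := by
    refine le_trans ((sum_le_sum fun y _ => mul_le_mul_of_nonneg_left ((pow_le_pow_left₀ (f0 y)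
      (min_le_left _ _) 2).trans_eq (by ring)) (F.lg.dz_nonneg y)).trans
      (sum_le_sum_of_subset_of_nonneg (fun y hy => ?_) fun y _ _ =>
        mul_nonneg (F.lg.dz_nonneg y) (by have := u4_nn (M := M) (m := m) (a := a) y; positivity))) s1
    simp only [Bk, mem_filter, mem_range] at hy ⊢
    exact ⟨⟨by omega, hy.2⟩, hy.1.2⟩
  have l5 : 1 ≤ lam ^ 5 := one_le_pow₀ l1
  have k2 : 1 ≤ K ^ 2 := one_le_pow₀ K1
  have if0 : 0 ≤ if 1 ≤ 8 * S.C ^ 5 * t1 then N else 0 := by split_ifs; exacts [N0, le_rfl]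
  rcases (((range S.J).filter fun y => t0 ≤ M.s y ∧ M.s y ≤ t1).filter
    fun y => ¬ y + y / 3 < S.J).eq_empty_or_nonempty with e | ⟨y0, hy0⟩
  · rw [e, sum_empty, add_zero]
    refine s2.trans ?_
    calc Λ * (lam ^ 5 * Y) = Λ * 1 * lam ^ 5 * 1 * (Y + 0) := by ring
      _ ≤ _ := by gcongr; linarith
  simp only [mem_filter, mem_range] at hy0
  obtain ⟨⟨y1, y2, y3⟩, y4⟩ := hy0
  have hJ : 4 * S.jl ≤ S.J := by
    have a1 := (F.s_mem (k := S.jl) (by omega)).1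
    have a2 := mul_le_mul_of_nonneg_right E4 sj.le
    have a3 := mul_le_mul_of_nonneg_left a1 (by positivity : 0 ≤ 12 * S.C ^ 3)
    have a4 := (le_mul_of_one_le_left l0p.le E1).trans l0E
    have : 4 * (S.jl : ℝ) * (3 * S.C ^ 3 * S.v) ≤ S.J * (3 * S.C ^ 3 * S.v) := by
      linarith only [a2, a3, a4, F.J_lo, c.l0s, (by positivity : 0 ≤ S.C ^ 4 * M.s S.jl)]
    exact_mod_cast le_of_mul_le_mul_right this (by positivity)
  set t := M.s y0 with htt
  have t4 : 1 ≤ 6 * S.C ^ 4 * t := by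
    have a1 : (S.J : ℝ) ≤ 2 * y0 := by exact_mod_cast (by omega : S.J ≤ 2 * y0)
    have a2 := mul_le_mul_of_nonneg_left (F.s_mem y1.le).1 (by positivity : 0 ≤ 6 * S.C ^ 3)
    linarith only [F.J_lo, a2, mul_le_mul_of_nonneg_right a1 (by positivity : 0 ≤ 3 * S.C ^ 3 * S.v)]
  have tp : 0 < t := pos_of_mul_pos_right (one_pos.trans_le t4) (by positivity)
  have tC : t ≤ S.C := h.s_le_C (by omega)
  rw [if_pos (by
    have a1 := mul_le_mul (pow_le_pow_right₀ C1 (show 4 ≤ 5 by norm_num)) y3 tp.le (by positivity)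
    linarith only [a1, t4, (by positivity : 0 ≤ S.C ^ 4 * t)])]
  have y5 := l4 t y2 (le_min y3 tC)
  rw [min_eq_left (by
    have a1 := pow_le_pow_left₀ tp.le (C61.cl_ge (S := S) V0 tp.le) 3
    have a2 := (mul_le_mul_of_nonneg_right hE X0.le).trans c.X1
    have a3 : 1 ≤ (24 * S.C ^ 4 * t) ^ 3 := one_le_pow₀ (by
      linarith only [t4, (by positivity : 0 ≤ S.C ^ 4 * t)])
    rw [mul_pow] at a3
    exact (le_of_mul_le_mul_left (a2.trans a3) (by positivity)).trans a1)] at y5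
  have wt := ws0 t tp
  have wC := ws0 _ C0
  have ww : ws S V S.C ≤ 2 * ws S V t := by
    have a1 := cf.dbl t S.C (ht.trans y2) tC
    simp only [mul_div_assoc] at a1
    have a2 : cl S V S.C / S.C ≤ 2 * (cl S V t / t) :=
      le_of_mul_le_mul_left (by linarith only [a1]) (zero_lt_one.trans_le l1)
    have a3 := tp.le.trans (C61.cl_ge (S := S) V0 tp.le)
    rw [ws, ws, ← mul_assoc]
    exact mul_le_mul a2 (rpow_le_rpow (F.w3_pos C0).le (w3_anti F tp tC) (by norm_num))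
      (rpow_nonneg (F.w3_pos C0).le _) (by positivity)
  set k := √K with hk
  have k1 : 1 ≤ k := one_le_sqrt.2 K1
  have kk : k ^ 2 = K := sq_sqrt (by linarith)
  set z := (Lg * cr S 1) ^ ((1 : ℝ) / 3) with hz
  have c1 := cr1 S 1
  have z3 : z ^ 3 = Lg * cr S 1 := rp3 (by positivity)
  have z1 : 1 ≤ z := one_le_rpow (one_le_mul_of_one_le_of_one_le Lg1 c1) (by norm_num)
  set w := w1 S 1 with hw
  have w0 : 0 < w := rpow_pos_of_pos (F.w3_pos one_pos) _
  have s3 := H2 l0 l V X Lg X2 X3 G0 η Xp Vt Lp G1 u1 u2 j γ Lc ηc τ N' S.C (96 * S.C ^ 5 * Y)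
    (k * (170 * S.C ^ 6 * z ^ 2 * w)) c p phi (fun r r1 r2 => by
      rw [le_antisymm r2 r1]
      have a1 : S.C * ws S V S.C ^ 4 ≤ 96 * S.C ^ 5 * (t * ws S V t ^ 4) := by
        have b1 := mul_le_mul_of_nonneg_left (pow_le_pow_left₀ wC ww 4) C0.le
        linarith only [b1, mul_le_mul_of_nonneg_right t4 (by positivity : 0 ≤ 16 * S.C * ws S V t ^ 4)]
      have a2 : ws S V S.C ^ ((3 : ℝ) / 2) ≤ 96 * S.C ^ 5 * ws S V t ^ ((3 : ℝ) / 2) := by
        refine (rpow_le_rpow wC ww (by norm_num)).trans ?_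
        rw [mul_rpow zero_le_two wt]
        refine mul_le_mul_of_nonneg_right ((rpow_le_rpow_of_exponent_le one_le_two
          (show (3 : ℝ) / 2 ≤ (2 : ℕ) by norm_num)).trans ?_) (by positivity)
        rw [rpow_natCast]; linarith only [one_le_pow₀ (n := 5) C1]
      have c0 := C0.le.trans (C61.cl_ge (S := S) V0 C0.le)
      have a3 := mul_le_mul a2 (rpow_le_rpow (by positivity) (min_le_left X (cl S V S.C ^ 3))
        (show (0 : ℝ) ≤ 7 / 6 by norm_num)) (by positivity) (by positivity)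
      linarith only [a1, a3, mul_le_mul_of_nonneg_left y5 (by positivity : 0 ≤ 96 * S.C ^ 5)])
    le_rfl (by positivity)
  have s4 : w ^ ((3 : ℝ) / 2) * (k * (170 * S.C ^ 6 * z ^ 2 * w)) ^ ((7 : ℝ) / 2) ≤
      170 ^ 4 * S.C ^ 24 * K ^ 2 * N := by
    rw [← rp_id w0 (by positivity)]
    have c6 : 1 ≤ k * (170 * S.C ^ 6) :=
      one_le_mul_of_one_le_of_one_le k1 (by linarith only [one_le_pow₀ (n := 6) C1])
    have a1 : √(w * (k * (170 * S.C ^ 6 * z ^ 2 * w))) ≤ k * (170 * S.C ^ 6) * z * w :=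
      sqrt_le_iff.2 ⟨by positivity, by
        linarith only [mul_le_mul_of_nonneg_left c6
          (by positivity : 0 ≤ k * (170 * S.C ^ 6) * z ^ 2 * w ^ 2)]⟩
    have a2 : z ^ 7 * w ^ 5 ≤ N := le_trans (mul_le_mul_of_nonneg_right ((pow_le_pow_right₀ z1
      (show 7 ≤ 3 * 3 by norm_num)).trans (by
        rw [pow_mul, z3]; exact le_mul_of_one_le_left (by positivity) (one_le_pow₀ Lg1)))
      (by positivity)) N1
    calc _ ≤ w * (k * (170 * S.C ^ 6) * z * w) * (k * (170 * S.C ^ 6 * z ^ 2 * w)) ^ 3 := by gcongr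
      _ = 170 ^ 4 * S.C ^ 24 * (k ^ 2) ^ 2 * (z ^ 7 * w ^ 5) := by ring
      _ ≤ _ := by rw [kk]; gcongr
  have s5 : ∑ y ∈ ((range S.J).filter fun y => t0 ≤ M.s y ∧ M.s y ≤ t1).filter
      fun y => ¬ y + y / 3 < S.J, M.dz m a y *
      min (u4 M m a y ^ 2) (K * Nd22.U S (Lg * cr S (M.s y)) (M.s y) ^ 2) ^ 2 ≤
      ∑ y ∈ (range S.J).filter fun y => 2 * S.J ≤ 3 * y, M.dz m a y *
        min (u4 M m a y) (k * (170 * S.C ^ 6 * z ^ 2 * w)) ^ 4 := by
    refine (sum_le_sum fun y hy => mul_le_mul_of_nonneg_left ?_ (F.lg.dz_nonneg y)).trans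
      (sum_le_sum_of_subset_of_nonneg (fun y hy => ?_) fun y _ _ =>
        mul_nonneg (F.lg.dz_nonneg y) (by positivity))
    all_goals simp only [mem_filter, mem_range] at hy ⊢
    · have a1 := cap F Lg1 (y := y) (by omega) hy.1.1 (by omega)
      have a0 : 0 ≤ Nd22.U S (Lg * cr S (M.s y)) (M.s y) := by
        have := cr1 S (M.s y)
        exact mul_nonneg (by positivity) (rpow_nonneg (by
          have := (F.ms_pos (F.s_nonneg y)).le; have := F.s_nonneg y; have := F.F0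
          unfold Sc.w3; positivity) _)
      rw [show 4 = 2 * 2 from rfl, pow_mul]
      refine pow_le_pow_left₀ (f0 y) ?_ 2
      rcases min_choice (u4 M m a y) (k * (170 * S.C ^ 6 * z ^ 2 * w)) with e | e <;> rw [e]
      · exact min_le_left _ _
      · refine (min_le_right _ _).trans ?_
        rw [mul_pow, kk]
        gcongr
    · exact ⟨hy.1.1, by omega⟩
  have c5 : S.C ^ 5 ≤ S.C ^ 24 := pow_le_pow_right₀ C1 (by norm_num)
  calc _ ≤ Λ * (lam ^ 5 * Y) + Λ * (96 * S.C ^ 5 * Y + 170 ^ 4 * S.C ^ 24 * K ^ 2 * N + N) :=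
        add_le_add s2 (s5.trans (s3.trans (by gcongr)))
    _ = Λ * (1 * lam ^ 5 * 1 * Y + 96 * S.C ^ 5 * 1 * 1 * Y +
          (170 ^ 4 * S.C ^ 24 * 1 * K ^ 2 * N + 1 * 1 * 1 * N)) := by ring
    _ ≤ Λ * (S.C ^ 24 * lam ^ 5 * K ^ 2 * Y + 96 * S.C ^ 24 * lam ^ 5 * K ^ 2 * Y +
          (170 ^ 4 * S.C ^ 24 * lam ^ 5 * K ^ 2 * N + S.C ^ 24 * lam ^ 5 * K ^ 2 * N)) := by gcongr
    _ ≤ Λ * (10 ^ 10 * S.C ^ 24 * (lam ^ 5 * K ^ 2 * (Y + N))) := by
        refine mul_le_mul_of_nonneg_left ?_ Λ0.le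
        linarith only [(by positivity : 0 ≤ S.C ^ 24 * lam ^ 5 * K ^ 2 * Y),
          (by positivity : 0 ≤ S.C ^ 24 * lam ^ 5 * K ^ 2 * N)]
    _ ≤ Λ * (Λ * (lam ^ 5 * K ^ 2 * (Y + N))) := by gcongr
    _ = _ := by ring

end Crest.Agent.T156.Alt.V49

end
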