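import Crest.Agent.T156.R1J_60

/-!
# Row 156 (helper60): the `J`-lemma of the tested stage, site form
-/

set_option autoImplicit false

noncomputable section

namespace Crest.Agent.T156.Cas.R1J

open Finset
open Crest.Agent.T157.E Crest.Agent.T157.Casc Crest.Agent.T157.SL
open Crest.ProbabilityR.SpinGlassDynamics (spin)

/-! ### multilinearity -/

theorem sk_mem (K : ℕ) {f : ℕ → ℝ} (h : f 0 = 0) : sk f ∈ Mul55.Ok Bool K :=
  ⟨by funext a b; simp [sk, h], f K / 2, fun y => by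
    rw [sk, ← sq, One15.spin_sq, mul_one]⟩

theorem sk_lin (a b : ℝ) (f g : ℕ → ℝ) :
    sk (fun j => a * f j + b * g j) = a • sk f + b • sk g := by
  funext j x y
  simp only [sk, Pi.add_apply, Pi.smul_apply, smul_eq_mul]
  ring

theorem sm_W (T : List (Lv Bool)) (k : ℕ) : Mul55.SM (Mul55.Ok Bool T.length) fun U =>
    twoF k (fun a b => spin a * spin b) (WdO T U (TEf (fun _ => 1) T 0)) :=
  Mul55.sm_WdO One15.w1 T 0 (Φ := twoF k fun a b => spin a * spin b) fun _ _ _ _ e => e _ _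

variable {T : List (Lv Bool)} {k : ℕ}

theorem W_lin (a b : ℝ) (f g : ℕ → ℝ) (fs : List (ℕ → ℝ)) :
    W T k ((fun j => a * f j + b * g j) :: fs) = a * W T k (f :: fs) + b * W T k (g :: fs) := by
  simp only [W, List.map_cons, sk_lin]
  exact (sm_W T k).lin a b _ _ _

theorem W_perm {fs gs : List (ℕ → ℝ)} (p : fs.Perm gs) (h : ∀ f ∈ fs, f 0 = 0) :
    W T k fs = W T k gs :=
  (sm_W T k).perm (p.map sk) fun S hS => by
    obtain ⟨f, hf, rfl⟩ := List.mem_map.1 hS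
    exact sk_mem _ (h f hf)

theorem W_swap {f g : ℕ → ℝ} (hf : f 0 = 0) (hg : g 0 = 0) : W T k [f, g] = W T k [g, f] :=
  W_perm (List.Perm.swap _ _ _) (by simp [hf, hg])

theorem ind_zero (hk : 0 < k) : ind k 0 = 0 := if_neg hk.ne

theorem off_zero (k : ℕ) {f : ℕ → ℝ} (h : f 0 = 0) : off k f 0 = 0 := by simp [off, h]

theorem off_self (k : ℕ) (f : ℕ → ℝ) : off k f k = 0 := if_pos rfl

theorem split_eq (k : ℕ) (f : ℕ → ℝ) : f = fun j => f k * ind k j + 1 * off k f j := by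
  funext j
  by_cases h : j = k <;> simp [ind, off, h]

/-- the first letter split at the node -/
theorem W_split (f : ℕ → ℝ) (fs : List (ℕ → ℝ)) :
    W T k (f :: fs) = f k * W T k (ind k :: fs) + W T k (off k f :: fs) := by
  conv_lhs => rw [split_eq k f]
  rw [W_lin, one_mul]

/-- two letters split at the node -/
theorem W_two {f g : ℕ → ℝ} (hf : f 0 = 0) (hg : g 0 = 0) :
    W T k [f, g] = g k * W T k [ind k, f] + f k * J T g k + W T k [off k f, off k g] := by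
  rw [W_swap hf hg, W_split g, W_swap (off_zero k hg) hf, W_split f (fs := [off k g]), J]
  ring

theorem W_sq (hk : 0 < k) {h : ℕ → ℝ} (h0 : h 0 = 0) : W T k [h, h] =
    h k ^ 2 * W T k [ind k, ind k] + 2 * (h k * J T h k) + W T k [off k h, off k h] := by
  rw [W_two h0 h0, W_swap (ind_zero hk) h0, W_split h,
    W_swap (off_zero k h0) (ind_zero hk), J]
  ring

theorem J_add (hk : 0 < k) {g h : ℕ → ℝ} (hg : g 0 = 0) (h0 : h 0 = 0) :
    J T (fun j => g j + h j) k = J T g k + J T h k := by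
  have e : off k (fun j => g j + h j) = fun j => 1 * off k g j + 1 * off k h j := by
    funext j
    by_cases hj : j = k <;> simp [off, hj]
  rw [J, J, J, W_swap (ind_zero hk) (off_zero k (by simp [hg, h0])), e, W_lin,
    W_swap (off_zero k hg) (ind_zero hk), W_swap (off_zero k h0) (ind_zero hk), one_mul, one_mul]

/-! ### frame-free part -/

theorem tele_abs {F b : ℕ → ℝ} {i0 i1 : ℕ} (hb : ∀ i, i0 ≤ i → i < i1 → |F (i + 1) - F i| ≤ b i)
    {i j : ℕ} (hi : i0 ≤ i) (hij : i ≤ j) (hj : j ≤ i1) :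
    |F j - F i| ≤ ∑ u ∈ Ico i0 i1, b u := by
  rw [← sum_Ico_sub F hij]
  refine (abs_sum_le_sum_abs _ _).trans ((sum_le_sum fun u hu =>
    hb u (hi.trans (mem_Ico.1 hu).1) ((mem_Ico.1 hu).2.trans_le hj)).trans
      (sum_le_sum_of_subset_of_nonneg (Ico_subset_Ico hi hj) fun u hu _ =>
        (abs_nonneg _).trans (hb u (mem_Ico.1 hu).1 (mem_Ico.1 hu).2)))

theorem tele_osc {F b : ℕ → ℝ} {i0 i1 : ℕ} (hb : ∀ i, i0 ≤ i → i < i1 → |F (i + 1) - F i| ≤ b i)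
    {i j : ℕ} (hi : i ∈ Icc i0 i1) (hj : j ∈ Icc i0 i1) :
    |F j - F i| ≤ ∑ u ∈ Ico i0 i1, b u := by
  rcases le_total i j with h | h
  · exact tele_abs hb (mem_Icc.1 hi).1 h (mem_Icc.1 hj).2
  · rw [abs_sub_comm]
    exact tele_abs hb (mem_Icc.1 hj).1 h (mem_Icc.1 hi).2

/-- **a signed weight of total mass zero reads the slope** -/
theorem slope_read {N Jv σ ω h a b : ℕ → ℝ} {i0 i1 k : ℕ} (hk : k ∈ Icc i0 i1)
    (hσ : ∀ i, σ i ≤ σ (i + 1))
    (ha : ∀ i, i0 ≤ i → i < i1 → |N (i + 1) - N i - (σ (i + 1) - σ i) * Jv i| ≤ a i)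
    (hb : ∀ i, i0 ≤ i → i < i1 → |Jv (i + 1) - Jv i| ≤ b i) (h0 : ∑ j ∈ Icc i0 i1, ω j = 0) :
    |∑ j ∈ Icc i0 i1, ω j * (N j + h j * Jv j) - Jv k * ∑ j ∈ Icc i0 i1, ω j * (σ j + h j)| ≤
      (∑ j ∈ Icc i0 i1, |ω j|) * (∑ u ∈ Ico i0 i1, a u + (σ i1 - σ i0) * ∑ u ∈ Ico i0 i1, b u) +
        (∑ j ∈ Icc i0 i1, |ω j| * |h j|) * ∑ u ∈ Ico i0 i1, b u := by
  set B := ∑ u ∈ Ico i0 i1, b u with hB
  have hi := (mem_Icc.1 hk).1.trans (mem_Icc.1 hk).2
  have key : ∀ j ∈ Icc i0 i1, |(N j - Jv k * σ j) - (N i0 - Jv k * σ i0)| ≤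
      ∑ u ∈ Ico i0 i1, a u + (σ i1 - σ i0) * B := fun j hj => by
    have := tele_abs (F := fun i => N i - Jv k * σ i) (b := fun i => a i + (σ (i + 1) - σ i) * B)
      (i0 := i0) (i1 := i1) (fun i h1 h2 => by
        have e1 := abs_le.1 (ha i h1 h2)
        have e2 : |(σ (i + 1) - σ i) * (Jv i - Jv k)| ≤ (σ (i + 1) - σ i) * B := by
          rw [abs_mul, abs_of_nonneg (sub_nonneg.2 (hσ i))]
          exact mul_le_mul_of_nonneg_left (tele_osc hb hk (mem_Icc.2 ⟨h1, h2.le⟩))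
            (sub_nonneg.2 (hσ i))
        have e3 := abs_le.1 e2
        rw [abs_le]
        constructor <;> nlinarith [e1.1, e1.2, e3.1, e3.2]) le_rfl (mem_Icc.1 hj).1 (mem_Icc.1 hj).2
    rwa [sum_add_distrib, ← sum_mul, sum_Ico_sub σ hi] at this
  have e : ∑ j ∈ Icc i0 i1, ω j * (N j + h j * Jv j) - Jv k * ∑ j ∈ Icc i0 i1, ω j * (σ j + h j) =
      ∑ j ∈ Icc i0 i1, (ω j * ((N j - Jv k * σ j) - (N i0 - Jv k * σ i0)) +
        ω j * h j * (Jv j - Jv k)) + (∑ j ∈ Icc i0 i1, ω j) * (N i0 - Jv k * σ i0) := by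
    rw [mul_sum, ← sum_sub_distrib, sum_mul, ← sum_add_distrib]
    exact sum_congr rfl fun j _ => by ring
  rw [e, h0, zero_mul, add_zero, sum_mul, sum_mul, ← sum_add_distrib]
  refine (abs_sum_le_sum_abs _ _).trans (sum_le_sum fun j hj => (abs_add_le _ _).trans
    (add_le_add ?_ ?_))
  · rw [abs_mul]
    exact mul_le_mul_of_nonneg_left (key j hj) (abs_nonneg _)
  · rw [abs_mul, abs_mul]
    exact mul_le_mul_of_nonneg_left (tele_osc hb hk hj) (by positivity)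

/-! ### the site form -/

theorem ex_mono' (hM : Mono 0 T) : Monotone (ex T) := monotone_nat_of_le_succ fun j =>
  sub_nonneg.1 (dm_nonneg hM (j + 1))

theorem Nd.anti {i j : ℕ} {p : ℝ} (H : Nd T j p) (h0 : 0 < i) (hij : i ≤ j) : Nd T i p :=
  ⟨H.r1, H.mono, h0, hij.trans_lt H.kK, H.p0,
    (min_le_min_left _ (add_le_add (ex_mono' H.mono hij) (H.r1.tm_mono hij))).trans H.par⟩

theorem n1_nonneg (hM : Mono 0 T) (f : ℕ → ℝ) : 0 ≤ n1 T f :=
  sum_nonneg fun j _ => mul_nonneg (dm_nonneg hM j) (abs_nonneg _)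

theorem lo_nonneg (hM : Mono 0 T) (k : ℕ) (f : ℕ → ℝ) : 0 ≤ lo T k f :=
  sum_nonneg fun j _ => mul_nonneg (dm_nonneg hM j) (abs_nonneg _)

theorem hi_nonneg (hM : Mono 0 T) (k : ℕ) (f : ℕ → ℝ) : 0 ≤ hi T k f :=
  sum_nonneg fun j _ => mul_nonneg (dm_nonneg hM j) (abs_nonneg _)

theorem n1_mono (hM : Mono 0 T) {f g : ℕ → ℝ} (h : ∀ j, |f j| ≤ |g j|) : n1 T f ≤ n1 T g :=
  sum_le_sum fun j _ => mul_le_mul_of_nonneg_left (h j) (dm_nonneg hM j)

theorem abs_off (k : ℕ) (f : ℕ → ℝ) (j : ℕ) : |off k f j| ≤ |f j| := by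
  unfold off
  split_ifs
  exacts [by simp, le_rfl]

theorem abs_off2 (k : ℕ) (f g : ℕ → ℝ) (j : ℕ) : |off k f j * off k g j| ≤ |f j * g j| := by
  rw [abs_mul, abs_mul]
  exact mul_le_mul (abs_off k f j) (abs_off k g j) (abs_nonneg _) (abs_nonneg _)

theorem n1_off (hM : Mono 0 T) (k : ℕ) (f : ℕ → ℝ) : n1 T (off k f) ≤ n1 T f :=
  n1_mono hM (abs_off k f)

theorem n1_ind (hk : k ≤ T.length) : n1 T (ind k) = dm T 0 k := by
  rw [n1, sum_eq_single k (fun j _ h => by simp [ind, h]) fun h => absurd (mem_range.2 (by omega)) h]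
  simp [ind]

theorem hi_mono (hM : Mono 0 T) (k : ℕ) {f g : ℕ → ℝ} (h : ∀ j, |f j| ≤ |g j|) :
    hi T k f ≤ hi T k g :=
  sum_le_sum fun j _ => mul_le_mul_of_nonneg_left (h j) (dm_nonneg hM j)

theorem hi_le (hM : Mono 0 T) (k : ℕ) (f : ℕ → ℝ) : hi T k f ≤ n1 T f :=
  sum_le_sum_of_subset_of_nonneg (fun j hj => mem_range.2 (by have := mem_Ioc.1 hj; omega))
    fun j _ _ => mul_nonneg (dm_nonneg hM j) (abs_nonneg _)

theorem lo_mono (hM : Mono 0 T) {i k : ℕ} (hik : i ≤ k) {f g : ℕ → ℝ} (h : ∀ j, |f j| ≤ |g j|) :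
    lo T i f ≤ lo T k g :=
  (sum_le_sum fun j _ => mul_le_mul_of_nonneg_left (h j) (dm_nonneg hM j)).trans
    (sum_le_sum_of_subset_of_nonneg (range_mono hik)
      fun j _ _ => mul_nonneg (dm_nonneg hM j) (abs_nonneg _))


/-- a window of nodes with mesh `ms` and a signed weight of total mass zero -/
structure Wn (T : List (Lv Bool)) (i0 i1 : ℕ) (p ms : ℝ) (ω : ℕ → ℝ) : Prop where
  i0p : 0 < i0
  nd : Nd T i1 p
  mass : ∑ j ∈ Icc i0 i1, ω j = 0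
  st : ∀ i, i0 ≤ i → i < i1 →
    Ker15.tm T (i + 1) - Ker15.tm T i + dm T 0 i + dm T 0 (i + 1) ≤ ms
  ms1 : ∀ j ∈ Icc i0 i1, dm T 0 j ≤ ms

/-- local `L¹` norm -/
def gl (T : List (Lv Bool)) (i0 i1 : ℕ) (h : ℕ → ℝ) : ℝ := ∑ j ∈ Icc i0 i1, dm T 0 j * |h j|

/-- oscillation of `J` on the window -/
def osc (T : List (Lv Bool)) (i0 i1 : ℕ) (h : ℕ → ℝ) : ℝ := gl T i0 i1 h +
  (Ker15.tm T i1 - Ker15.tm T i0 + ∑ j ∈ Icc i0 i1, dm T 0 j) * n1 T h

/-- the error of the `J`-lemma -/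
def jE (T : List (Lv Bool)) (i0 i1 : ℕ) (p ms : ℝ) (ω h : ℕ → ℝ) : ℝ :=
  (∑ j ∈ Icc i0 i1, |ω j|) * ((p + ms) * gl T i0 i1 h +
      (Ker15.tm T i1 - Ker15.tm T i0) * (ms * n1 T h + osc T i0 i1 h) +
      (p * (n1 T h * n1 T h) + p * n1 T (fun j => h j * h j) + lo T i1 fun j => h j * h j)) +
    (∑ j ∈ Icc i0 i1, |ω j| * |h j|) * (osc T i0 i1 h + p * ms) +
    (p + ms) * ∑ j ∈ Icc i0 i1, |ω j| * h j ^ 2

theorem sum_adj {i0 i1 : ℕ} {g : ℕ → ℝ} (hg : ∀ j, 0 ≤ g j) :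
    ∑ u ∈ Ico i0 i1, (g u + g (u + 1)) ≤ 2 * ∑ j ∈ Icc i0 i1, g j := by
  rw [sum_add_distrib, two_mul, sum_Ico_add' g i0 i1 1]
  exact add_le_add (sum_le_sum_of_subset_of_nonneg Ico_subset_Icc_self fun j _ _ => hg j)
    (sum_le_sum_of_subset_of_nonneg (fun j hj => by
      have := mem_Ico.1 hj
      exact mem_Icc.2 ⟨by omega, by omega⟩) fun j _ _ => hg j)

/-- **`J`-lemma, site form** -/
theorem jsite (s1 : S1) (s2 : S2) (s3 : S3) (s5 : S5) : ∃ C : ℝ, 1 ≤ C ∧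
    ∀ (T : List (Lv Bool)) (i0 i1 : ℕ) (p ms : ℝ) (ω : ℕ → ℝ), Wn T i0 i1 p ms ω →
    ∀ h : ℕ → ℝ, h 0 = 0 → ∀ k ∈ Icc i0 i1,
      (∀ j ∈ Icc i0 i1, |J T h j - J T h k| ≤ C * osc T i0 i1 h) ∧
      |∑ j ∈ Icc i0 i1, ω j * (W T j [h] + W T j [h, h] / 2 - h j * G T j) -
        J T h k * ∑ j ∈ Icc i0 i1, ω j * (Ker15.tm T j + h j)| ≤ C * jE T i0 i1 p ms ω h := by
  obtain ⟨C1, c1, h1⟩ := s1
  obtain ⟨C2, c2, h2⟩ := s2
  obtain ⟨C3, c3, h3⟩ := s3
  obtain ⟨C5, c5, h5⟩ := s5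
  refine ⟨C1 + C2 + C3 + 2 * C5, by linarith, fun T i0 i1 p ms ω H h h0 k hk => ?_⟩
  have hM := H.nd.mono
  have p0 := H.nd.p0.le
  have hi := (mem_Icc.1 hk).1.trans (mem_Icc.1 hk).2
  have ms0 : 0 ≤ ms := (dm_nonneg hM k).trans (H.ms1 k hk)
  have n0 := n1_nonneg hM h
  have tmm : ∀ i, Ker15.tm T i ≤ Ker15.tm T (i + 1) := fun i => H.nd.r1.tm_mono i.le_succ
  have l0 : 0 ≤ Ker15.tm T i1 - Ker15.tm T i0 := sub_nonneg.2 (H.nd.r1.tm_mono hi)
  have g0 : ∀ j, 0 ≤ dm T 0 j * |h j| := fun j => mul_nonneg (dm_nonneg hM j) (abs_nonneg _)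
  have gl0 : 0 ≤ gl T i0 i1 h := sum_nonneg fun j _ => g0 j
  have xz0 : 0 ≤ ∑ j ∈ Icc i0 i1, dm T 0 j := sum_nonneg fun j _ => dm_nonneg hM j
  have os0 : 0 ≤ osc T i0 i1 h := add_nonneg gl0 (mul_nonneg (add_nonneg l0 xz0) n0)
  have st := fun i (a : i0 ≤ i) (b : i < i1) => h5 T i p (H.i0p.trans_le a)
    (H.nd.anti i.succ_pos b) h h0 _ rfl
  have hb := fun i a b => (st i a b).2
  have ha : ∀ i, i0 ≤ i → i < i1 → |NL T h (i + 1) - NL T h i -
      (Ker15.tm T (i + 1) - Ker15.tm T i) * J T h i| ≤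
      C5 * ((p + ms) * (dm T 0 i * |h i| + dm T 0 (i + 1) * |h (i + 1)|) +
        (Ker15.tm T (i + 1) - Ker15.tm T i) * (ms * n1 T h)) := fun i a b => by
    refine (st i a b).1.trans ?_
    have e1 := H.st i a b
    have e2 := sub_nonneg.2 (tmm i)
    have e3 : Ker15.tm T (i + 1) - Ker15.tm T i ≤ ms := by
      linarith [dm_nonneg hM i, dm_nonneg hM (i + 1)]
    have e4 := add_nonneg (g0 i) (g0 (i + 1))
    gcongr
  have sb : ∑ u ∈ Ico i0 i1, C5 * (dm T 0 u * |h u| + dm T 0 (u + 1) * |h (u + 1)| +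
      (Ker15.tm T (u + 1) - Ker15.tm T u + dm T 0 u + dm T 0 (u + 1)) * n1 T h) ≤
      2 * C5 * osc T i0 i1 h := by
    simp only [add_assoc (Ker15.tm T _ - _)]
    rw [← mul_sum, sum_add_distrib, ← sum_mul, sum_add_distrib (f := fun u =>
      Ker15.tm T (u + 1) - Ker15.tm T u), sum_Ico_sub _ hi, mul_comm 2 C5, mul_assoc]
    refine mul_le_mul_of_nonneg_left ?_ (by linarith)
    have a1 := sum_adj (i0 := i0) (i1 := i1) g0
    have a2 := mul_le_mul_of_nonneg_right (sum_adj (i0 := i0) (i1 := i1) (dm_nonneg hM)) n0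
    have a3 := mul_nonneg l0 n0
    rw [osc, gl]
    nlinarith
  have sa : ∑ u ∈ Ico i0 i1, C5 * ((p + ms) * (dm T 0 u * |h u| + dm T 0 (u + 1) * |h (u + 1)|) +
      (Ker15.tm T (u + 1) - Ker15.tm T u) * (ms * n1 T h)) ≤
      2 * C5 * ((p + ms) * gl T i0 i1 h + (Ker15.tm T i1 - Ker15.tm T i0) * (ms * n1 T h)) := by
    rw [← mul_sum, sum_add_distrib, ← sum_mul, ← mul_sum, sum_Ico_sub _ hi, mul_comm 2 C5, mul_assoc]
    refine mul_le_mul_of_nonneg_left ?_ (by linarith)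
    have a1 := mul_le_mul_of_nonneg_left (sum_adj (i0 := i0) (i1 := i1) g0) (add_nonneg p0 ms0)
    have a3 := mul_nonneg l0 (mul_nonneg ms0 n0)
    rw [gl]
    nlinarith
  refine ⟨fun j hj => ((tele_osc hb hk hj).trans sb).trans
    (mul_le_mul_of_nonneg_right (by linarith) os0), ?_⟩
  have k1 := slope_read (h := h) hk tmm ha hb H.mass
  set Q := p * (n1 T h * n1 T h) + p * n1 T (fun j => h j * h j) + lo T i1 fun j => h j * h j
    with hQ
  have Q0 : 0 ≤ Q := add_nonneg (add_nonneg (by positivity) (mul_nonneg p0 (n1_nonneg hM _)))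
    (lo_nonneg hM _ _)
  have k2 : |∑ j ∈ Icc i0 i1, ω j * (W T j [h] + W T j [h, h] / 2 - h j * G T j) -
      ∑ j ∈ Icc i0 i1, ω j * (NL T h j + h j * J T h j)| ≤
      C1 * ((∑ j ∈ Icc i0 i1, |ω j| * |h j|) * (p * ms)) +
        C3 * ((p + ms) * ∑ j ∈ Icc i0 i1, |ω j| * h j ^ 2) + C2 * ((∑ j ∈ Icc i0 i1, |ω j|) * Q) := by
    rw [← sum_sub_distrib, sum_mul, sum_mul, mul_sum, mul_sum, mul_sum, mul_sum, ← sum_add_distrib,
      ← sum_add_distrib]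
    refine (abs_sum_le_sum_abs _ _).trans (sum_le_sum fun j hj => ?_)
    have j0 := H.i0p.trans_le (mem_Icc.1 hj).1
    have N := H.nd.anti j0 (mem_Icc.1 hj).2
    have hd := H.ms1 j hj
    have b1 := h1 T j p N (ind j) (ind_zero j0)
    have b3 := h3 T j p N (ind j) (ind_zero j0)
    have b2 := h2 T j p N _ _ (off_zero j h0) (off_zero j h0) (off_self j h) (off_self j h)
    rw [n1_ind N.kK.le, show ind j j = 1 from if_pos rfl] at b1 b3
    rw [one_mul] at b1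
    rw [abs_one, mul_one] at b3
    replace b1 : |W T j [ind j] - G T j| ≤ C1 * (p * ms) := b1.trans (by gcongr)
    replace b3 : |W T j [ind j, ind j]| ≤ C3 * (p + ms) := b3.trans (by gcongr)
    replace b2 : |W T j [off j h, off j h]| ≤ C2 * Q := by
      refine b2.trans ?_
      have a1 := mul_le_mul (n1_off hM j h) (n1_off hM j h) (n1_nonneg hM _) n0
      have a2 := (hi_mono hM j (abs_off2 j h h)).trans (hi_le hM j _)
      have a3 := lo_mono hM (mem_Icc.1 hj).2 (abs_off2 j h h)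
      rw [hQ]
      gcongr
    rw [← mul_sub, W_sq j0 h0, W_split h, NL, abs_mul, show ∀ a b c d e f g : ℝ,
      a * b + c + (a ^ 2 * d + 2 * (a * e) + f) / 2 - a * g - (c + a * e) =
        a * (b - g) + a ^ 2 / 2 * d + f / 2 from fun a b c d e f g => by ring]
    have c1' : |h j * (W T j [ind j] - G T j)| ≤ |h j| * (C1 * (p * ms)) := by
      rw [abs_mul]; gcongr
    have c3' : |h j ^ 2 / 2 * W T j [ind j, ind j]| ≤ h j ^ 2 * (C3 * (p + ms)) := by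
      rw [abs_mul, abs_of_nonneg (by positivity : 0 ≤ h j ^ 2 / 2)]
      exact mul_le_mul (by nlinarith [sq_nonneg (h j)]) b3 (abs_nonneg _) (sq_nonneg _)
    have c2' : |W T j [off j h, off j h] / 2| ≤ C2 * Q := by
      rw [abs_div, abs_two]
      linarith [abs_nonneg (W T j [off j h, off j h])]
    have := mul_le_mul_of_nonneg_left (((abs_add_le _ _).trans (add_le_add_left (abs_add_le _ _)
      _)).trans (add_le_add (add_le_add c1' c3') c2')) (abs_nonneg (ω j))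
    refine this.trans_eq ?_
    ring
  have w0 : 0 ≤ ∑ j ∈ Icc i0 i1, |ω j| := sum_nonneg fun j _ => abs_nonneg _
  have w1 : 0 ≤ ∑ j ∈ Icc i0 i1, |ω j| * |h j| := sum_nonneg fun j _ => by positivity
  have w2 : 0 ≤ ∑ j ∈ Icc i0 i1, |ω j| * h j ^ 2 := sum_nonneg fun j _ => by positivity
  have k3 := k1.trans (add_le_add (mul_le_mul_of_nonneg_left (add_le_add sa
    (mul_le_mul_of_nonneg_left sb l0)) w0) (mul_le_mul_of_nonneg_left sb w1))
  refine ((abs_sub_le _ _ _).trans (add_le_add k2 k3)).trans ?_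
  rw [jE, ← hQ]
  generalize ∑ j ∈ Icc i0 i1, |ω j| = w at *
  generalize ∑ j ∈ Icc i0 i1, |ω j| * |h j| = wh at *
  generalize ∑ j ∈ Icc i0 i1, |ω j| * h j ^ 2 = w2' at *
  generalize Ker15.tm T i1 - Ker15.tm T i0 = l at *
  have t1 : 0 ≤ w * ((p + ms) * gl T i0 i1 h) := by positivity
  have t2 : 0 ≤ w * (l * (ms * n1 T h)) := by positivity
  have t3 : 0 ≤ w * (l * osc T i0 i1 h) := by positivity
  have t4 : 0 ≤ w * Q := by positivity
  have t5 : 0 ≤ wh * osc T i0 i1 h := by positivity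
  have t6 : 0 ≤ wh * (p * ms) := by positivity
  have t7 : 0 ≤ (p + ms) * w2' := by positivity
  have z1 : 0 ≤ C1 := by linarith
  have z2 : 0 ≤ C2 := by linarith
  have z3 : 0 ≤ C3 := by linarith
  have z5 : 0 ≤ C5 := by linarith
  nlinarith [mul_nonneg z1 t1, mul_nonneg z1 t2, mul_nonneg z1 t3, mul_nonneg z1 t4,
    mul_nonneg z1 t5, mul_nonneg z1 t7, mul_nonneg z2 t1, mul_nonneg z2 t2, mul_nonneg z2 t3,
    mul_nonneg z2 t5, mul_nonneg z2 t6, mul_nonneg z2 t7, mul_nonneg z3 t1, mul_nonneg z3 t2,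
    mul_nonneg z3 t3, mul_nonneg z3 t4, mul_nonneg z3 t5, mul_nonneg z3 t6, mul_nonneg z5 t4,
    mul_nonneg z5 t6, mul_nonneg z5 t7]

end Crest.Agent.T156.Cas.R1J

end
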