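import Crest.Agent.T156.AltP1_3
import Crest.Agent.T156.Rs_13
import Crest.Agent.T156.PMer_97
import Crest.Agent.T156.PrH_28
import Crest.Agent.T156.FamDerB_77
import Crest.Agent.T156.AltPG_3
import Crest.Agent.T156.R1AlgB_77
import Crest.Agent.T156.StartGB_56
import Crest.Agent.T156.TestDef_82

-- ▼ part T156/Grd_92
section

/-!
Row 156 (helper92): the GRADED displacement shape of docs/T156_19G.md, leaf S9.
`gr σ t = t - (√t - σ)₊²`, `wG κ σ Y t = κ gr σ t (1 - sm (t / Y - 1))`, mass `mG κ σ T = κ T gr σ T`.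
-/

set_option autoImplicit false

noncomputable section

namespace Crest.Agent.T156.Alt.Grd92

open MeasureTheory Real Set Filter Topology
open Crest.Agent.R339.B Crest.Agent.R339.Var Crest.Agent.T157.Pf
open Crest.Agent.T156.Pp Crest.Agent.T156.Pr Crest.Agent.T156.Pr.Fam3 Crest.Agent.T156.Alt.Rs13

/-- `t` below `σ²`, `2 σ √t - σ²` above -/
def gr (σ t : ℝ) : ℝ := t - max 0 (√t - σ) ^ 2
/-- its derivative in `σ` -/
def dgr (σ t : ℝ) : ℝ := 2 * max 0 (√t - σ)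

variable {σ σ' s t κ Y r : ℝ}

theorem gr_lo (hσ : 0 ≤ σ) (h : t ≤ σ ^ 2) : gr σ t = t := by
  have : √t ≤ σ := (sqrt_le_sqrt h).trans_eq (sqrt_sq hσ)
  unfold gr; rw [max_eq_left (by linarith)]; ring

theorem gr_hi (hσ : 0 ≤ σ) (h : σ ^ 2 ≤ t) : gr σ t = 2 * σ * √t - σ ^ 2 := by
  have a : σ ≤ √t := (sqrt_sq hσ).symm.trans_le (sqrt_le_sqrt h)
  have b := sq_sqrt ((sq_nonneg σ).trans h)
  unfold gr; rw [max_eq_right (by linarith)]; nlinarith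

theorem gr_zero (hσ : 0 ≤ σ) : gr σ 0 = 0 := gr_lo hσ (sq_nonneg σ)

theorem gr_le (σ t : ℝ) : gr σ t ≤ t := by unfold gr; nlinarith [sq_nonneg (max 0 (√t - σ))]


theorem min_le_gr (hσ : 0 ≤ σ) (t : ℝ) : min t (σ * √t) ≤ gr σ t := by
  rcases le_total t (σ ^ 2) with h | h
  · rw [gr_lo hσ h]; exact min_le_left _ _
  · have a : σ ≤ √t := (sqrt_sq hσ).symm.trans_le (sqrt_le_sqrt h)
    rw [gr_hi hσ h]
    exact (min_le_right _ _).trans (by nlinarith)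


theorem gr_nn (hσ : 0 ≤ σ) (ht : 0 ≤ t) : 0 ≤ gr σ t :=
  (le_min ht (mul_nonneg hσ (sqrt_nonneg t))).trans (min_le_gr hσ t)


/-- monotone with slope at most one -/
theorem gr_sub (hσ : 0 ≤ σ) (h : s ≤ t) : 0 ≤ gr σ t - gr σ s ∧ gr σ t - gr σ s ≤ t - s := by
  have m := sqrt_le_sqrt h
  have s0 := sqrt_nonneg s
  constructor
  · rcases le_total t (σ ^ 2) with a | a
    · rw [gr_lo hσ a, gr_lo hσ (h.trans a)]; linarith
    · have a' : σ ≤ √t := (sqrt_sq hσ).symm.trans_le (sqrt_le_sqrt a)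
      rw [gr_hi hσ a]
      rcases le_total s (σ ^ 2) with b | b
      · rw [gr_lo hσ b]; nlinarith
      · rw [gr_hi hσ b]; nlinarith
  · have : max 0 (√s - σ) ^ 2 ≤ max 0 (√t - σ) ^ 2 :=
      pow_le_pow_left₀ (le_max_left _ _) (max_le_max le_rfl (by linarith)) 2
    unfold gr; linarith

theorem gr_mono (hσ : 0 ≤ σ) : Monotone (gr σ) := fun _ _ h => by linarith [(gr_sub hσ h).1]


/-- `gr σ t / t` decreases -/
theorem gr_conc (hσ : 0 ≤ σ) (hs : 0 ≤ s) (h : s ≤ t) : s * gr σ t ≤ t * gr σ s := by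
  rcases le_total s (σ ^ 2) with b | b
  · rw [gr_lo hσ b]; nlinarith [gr_le σ t]
  · have a' : σ ≤ √s := (sqrt_sq hσ).symm.trans_le (sqrt_le_sqrt b)
    have m := sqrt_le_sqrt h
    have e1 := sq_sqrt hs
    have e2 := sq_sqrt (hs.trans h)
    rw [gr_hi hσ b, gr_hi hσ (b.trans h)]
    generalize √s = x at *
    generalize √t = y at *
    subst e1 e2
    have : 0 ≤ σ * (y - x) * (x * (y - σ) + y * (x - σ)) := by
      have : 0 ≤ x := hσ.trans a'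
      have : 0 ≤ y := this.trans m
      have : 0 ≤ y - σ := by linarith
      have : 0 ≤ x - σ := by linarith
      have : 0 ≤ y - x := by linarith
      positivity
    nlinarith


theorem gr_mul (hσ : 0 ≤ σ) (ht : 0 ≤ t) {a : ℝ} (ha : 1 ≤ a) : gr σ (a * t) ≤ a * gr σ t := by
  rcases ht.eq_or_lt with e | e
  · rw [← e, mul_zero, gr_zero hσ, mul_zero]
  · have := gr_conc hσ ht (le_mul_of_one_le_left ht ha)
    exact le_of_mul_le_mul_left (by linarith) e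


/-! ### dependence on `σ` -/

theorem dgr_nn (σ t : ℝ) : 0 ≤ dgr σ t := mul_nonneg zero_le_two (le_max_left _ _)

theorem dgr_lo (hσ : 0 ≤ σ) (h : t ≤ σ ^ 2) : dgr σ t = 0 := by
  have : √t ≤ σ := (sqrt_le_sqrt h).trans_eq (sqrt_sq hσ)
  unfold dgr; rw [max_eq_left (by linarith), mul_zero]

theorem dgr_hi (hσ : 0 ≤ σ) (h : σ ^ 2 ≤ t) : dgr σ t = 2 * (√t - σ) := by
  have a : σ ≤ √t := (sqrt_sq hσ).symm.trans_le (sqrt_le_sqrt h)
  unfold dgr; rw [max_eq_right (by linarith)]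


/-- logarithmic derivative at most one -/
theorem mul_dgr_le (hσ : 0 ≤ σ) (ht : 0 ≤ t) : σ * dgr σ t ≤ gr σ t := by
  rcases le_total t (σ ^ 2) with h | h
  · rw [dgr_lo hσ h, mul_zero]; exact gr_nn hσ ht
  · rw [dgr_hi hσ h, gr_hi hσ h]; nlinarith






theorem gr_monoS (h : σ ≤ σ') (t : ℝ) : gr σ t ≤ gr σ' t := by
  have : max 0 (√t - σ') ^ 2 ≤ max 0 (√t - σ) ^ 2 :=
    pow_le_pow_left₀ (le_max_left _ _) (max_le_max le_rfl (by linarith)) 2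
  unfold gr; linarith

/-- `gr σ t / σ` decreases in `σ` -/
theorem gr_concS (hσ : 0 ≤ σ) (h : σ ≤ σ') (ht : 0 ≤ t) : σ * gr σ' t ≤ σ' * gr σ t := by
  have h' := hσ.trans h
  have e := sq_sqrt ht
  have x0 := sqrt_nonneg t
  rcases le_total t (σ ^ 2) with a | a
  · rw [gr_lo hσ a]; nlinarith [gr_le σ' t, gr_nn h' ht]
  · have a' : σ ≤ √t := (sqrt_sq hσ).symm.trans_le (sqrt_le_sqrt a)
    rw [gr_hi hσ a]
    rcases le_total t (σ' ^ 2) with b | b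
    · have b' : √t ≤ σ' := (sqrt_le_sqrt b).trans_eq (sqrt_sq h')
      rw [gr_lo h' b]
      generalize √t = x at *
      subst e
      have : 0 ≤ σ * (x * (σ' - x) + σ' * (x - σ)) := by
        have : 0 ≤ σ' - x := by linarith
        have : 0 ≤ x - σ := by linarith
        positivity
      nlinarith
    · rw [gr_hi h' b]
      nlinarith [mul_nonneg (mul_nonneg hσ h') (sub_nonneg.2 h)]


/-! ### the shape and its mass -/

/-- the graded shape -/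
def wG (κ σ Y t : ℝ) : ℝ := κ * gr σ t * (1 - sm (t / Y - 1))
/-- its derivative in `σ` -/
def dwG (κ σ Y t : ℝ) : ℝ := κ * dgr σ t * (1 - sm (t / Y - 1))
/-- the mass at the level `T` -/
def mG (κ σ T : ℝ) : ℝ := κ * T * gr σ T
/-- the mass function: flat below `r` and above `Y` -/
def msG (κ σ r Y t : ℝ) : ℝ := mG κ σ (max r (min t Y))

theorem cut_nn (Y t : ℝ) : 0 ≤ 1 - sm (t / Y - 1) := sub_nonneg.2 (sm_le _)
theorem cut_le (Y t : ℝ) : 1 - sm (t / Y - 1) ≤ 1 := by linarith [sm_nn (t / Y - 1)]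
theorem cut_hi (hY : 0 < Y) (h : 2 * Y ≤ t) : 1 - sm (t / Y - 1) = 0 := by
  rw [sm_one (by rw [le_sub_iff_add_le, le_div_iff₀ hY]; linarith), sub_self]

theorem wG_hi (hY : 0 < Y) (h : 2 * Y ≤ t) : wG κ σ Y t = 0 := by
  unfold wG; rw [cut_hi hY h, mul_zero]
theorem wG_nn (hκ : 0 ≤ κ) (hσ : 0 ≤ σ) (ht : 0 ≤ t) : 0 ≤ wG κ σ Y t :=
  mul_nonneg (mul_nonneg hκ (gr_nn hσ ht)) (cut_nn Y t)
theorem wG_le (hκ : 0 ≤ κ) (hσ : 0 ≤ σ) (ht : 0 ≤ t) : wG κ σ Y t ≤ κ * gr σ t :=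
  mul_le_of_le_one_right (mul_nonneg hκ (gr_nn hσ ht)) (cut_le Y t)





theorem dwG_nn (hκ : 0 ≤ κ) (σ Y t : ℝ) : 0 ≤ dwG κ σ Y t :=
  mul_nonneg (mul_nonneg hκ (dgr_nn σ t)) (cut_nn Y t)



theorem mul_dwG_le (hκ : 0 ≤ κ) (hσ : 0 ≤ σ) (ht : 0 ≤ t) : σ * dwG κ σ Y t ≤ wG κ σ Y t := by
  have := mul_le_mul_of_nonneg_right (mul_le_mul_of_nonneg_left (mul_dgr_le hσ ht) hκ) (cut_nn Y t)
  unfold dwG wG; linarith

theorem wG_monoS (hκ : 0 ≤ κ) (h : σ ≤ σ') (Y t : ℝ) : wG κ σ Y t ≤ wG κ σ' Y t :=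
  mul_le_mul_of_nonneg_right (mul_le_mul_of_nonneg_left (gr_monoS h t) hκ) (cut_nn Y t)

theorem mG_nn (hκ : 0 ≤ κ) (hσ : 0 ≤ σ) (ht : 0 ≤ t) : 0 ≤ mG κ σ t :=
  mul_nonneg (mul_nonneg hκ ht) (gr_nn hσ ht)


theorem mG_mono (hκ : 0 ≤ κ) (hσ : 0 ≤ σ) (hs : 0 ≤ s) (h : s ≤ t) : mG κ σ s ≤ mG κ σ t :=
  mul_le_mul (mul_le_mul_of_nonneg_left h hκ) (gr_mono hσ h) (gr_nn hσ hs)
    (mul_nonneg hκ (hs.trans h))

theorem mG_mul (hκ : 0 ≤ κ) (hσ : 0 ≤ σ) (ht : 0 ≤ t) {a : ℝ} (ha : 1 ≤ a) :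
    mG κ σ (a * t) ≤ a ^ 2 * mG κ σ t := by
  have := mul_le_mul_of_nonneg_left (gr_mul hσ ht ha) (show 0 ≤ κ * (a * t) by positivity)
  unfold mG; linarith

theorem mG_two (hκ : 0 ≤ κ) (hσ : 0 ≤ σ) (ht : 0 ≤ t) : mG κ σ (2 * t) ≤ 4 * mG κ σ t := by
  linarith [mG_mul hκ hσ ht one_le_two]

/-- `mG / t²` decreases -/
theorem mG_conc (hκ : 0 ≤ κ) (hσ : 0 ≤ σ) (hs : 0 ≤ s) (h : s ≤ t) :
    s ^ 2 * mG κ σ t ≤ t ^ 2 * mG κ σ s := by
  have := mul_le_mul_of_nonneg_left (gr_conc hσ hs h)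
    (show 0 ≤ κ * s * t from mul_nonneg (mul_nonneg hκ hs) (hs.trans h))
  unfold mG; linarith


theorem mG_le (hκ : 0 ≤ κ) (ht : 0 ≤ t) : mG κ σ t ≤ κ * t ^ 2 := by
  have := mul_le_mul_of_nonneg_left (gr_le σ t) (mul_nonneg hκ ht)
  unfold mG; linarith




theorem mG_monoS (hκ : 0 ≤ κ) (h : σ ≤ σ') (ht : 0 ≤ t) : mG κ σ t ≤ mG κ σ' t :=
  mul_le_mul_of_nonneg_left (gr_monoS h t) (mul_nonneg hκ ht)

theorem mG_concS (hκ : 0 ≤ κ) (hσ : 0 ≤ σ) (h : σ ≤ σ') (ht : 0 ≤ t) :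
    σ * mG κ σ' t ≤ σ' * mG κ σ t := by
  have := mul_le_mul_of_nonneg_left (gr_concS hσ h ht) (mul_nonneg hκ ht)
  unfold mG; linarith





theorem msG_ge (hκ : 0 ≤ κ) (hσ : 0 ≤ σ) (hr : 0 ≤ r) (Y t : ℝ) : mG κ σ r ≤ msG κ σ r Y t :=
  mG_mono hκ hσ hr (le_max_left _ _)

theorem msG_ge' (hκ : 0 ≤ κ) (hσ : 0 ≤ σ) (hY : 0 ≤ Y) (ht : 0 ≤ t) (r : ℝ) :
    mG κ σ (min t Y) ≤ msG κ σ r Y t := mG_mono hκ hσ (le_min ht hY) (le_max_right _ _)

theorem msG_nn (hκ : 0 ≤ κ) (hσ : 0 ≤ σ) (hr : 0 ≤ r) (Y t : ℝ) : 0 ≤ msG κ σ r Y t :=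
  (mG_nn hκ hσ hr).trans (msG_ge hκ hσ hr Y t)


theorem msG_top (hr : r ≤ Y) (h : Y ≤ t) : msG κ σ r Y t = mG κ σ Y := by
  unfold msG; rw [min_eq_right h, max_eq_right hr]

theorem msG_low (h : t ≤ r) : msG κ σ r Y t = mG κ σ r := by
  unfold msG; rw [max_eq_left ((min_le_left _ _).trans h)]


theorem msG_mono (hκ : 0 ≤ κ) (hσ : 0 ≤ σ) (hr : 0 ≤ r) (Y : ℝ) : Monotone (msG κ σ r Y) :=
  fun _ _ h => mG_mono hκ hσ (hr.trans (le_max_left _ _)) (max_le_max le_rfl (min_le_min h le_rfl))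

theorem msG_le (hκ : 0 ≤ κ) (hσ : 0 ≤ σ) (hr : 0 ≤ r) (h : r ≤ Y) (t : ℝ) :
    msG κ σ r Y t ≤ mG κ σ Y :=
  mG_mono hκ hσ (hr.trans (le_max_left _ _)) (max_le h (min_le_right _ _))

theorem msG_mul (hκ : 0 ≤ κ) (hσ : 0 ≤ σ) (hr : 0 ≤ r) (hY : 0 ≤ Y) {a : ℝ} (ha : 1 ≤ a)
    (h : t ≤ a * s) : msG κ σ r Y t ≤ a ^ 2 * msG κ σ r Y s := by
  have m0 : 0 ≤ max r (min s Y) := hr.trans (le_max_left _ _)
  refine le_trans (mG_mono hκ hσ (hr.trans (le_max_left _ _)) ?_) (mG_mul hκ hσ m0 ha)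
  refine max_le ((le_mul_of_one_le_left hr ha).trans
    (mul_le_mul_of_nonneg_left (le_max_left _ _) (by linarith))) (le_trans ?_
    (mul_le_mul_of_nonneg_left (le_max_right _ _) (by linarith)))
  rw [mul_min_of_nonneg _ _ (by linarith : 0 ≤ a)]
  exact min_le_min h (le_mul_of_one_le_left hY ha)

theorem msG_two (hκ : 0 ≤ κ) (hσ : 0 ≤ σ) (hr : 0 ≤ r) (hY : 0 ≤ Y) (h : t ≤ 2 * s) :
    msG κ σ r Y t ≤ 4 * msG κ σ r Y s := by linarith [msG_mul hκ hσ hr hY one_le_two h]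


end Crest.Agent.T156.Alt.Grd92

end
end

-- ▼ part T156/GrdB_92
section

/-!
# Row 156, graded family: `σ`-derivatives of the reference data and octave comparisons (helper92)
-/

set_option autoImplicit false
set_option linter.unusedSectionVars false

noncomputable section

namespace Crest.Agent.T156.Alt.GB92

open MeasureTheory Real Set Filter Topology
open Crest.Agent.R339.B Crest.Agent.R339.Var Crest.Agent.T157.Pf
open Crest.Agent.T156.Pr Crest.Agent.T156.Alt.Grd92 Crest.Agent.T156.Alt.Md77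

/-- time, overlap, `G` and replicon coefficient of the reference node `i` -/
def sG (p : Pm) (i : ℕ) (σ : ℝ) : ℝ := sig p.v (p.omG σ) i
def qG (p : Pm) (i : ℕ) (σ : ℝ) : ℝ := Gam (p.lG σ) (sG p i σ)
def gG (p : Pm) (i : ℕ) (σ : ℝ) : ℝ := GG (p.lG σ) (sG p i σ)
def eG (p : Pm) (i : ℕ) (σ : ℝ) : ℝ := ee (p.lG σ) (p.epsG σ) (sG p i σ)

theorem omG_eq (p : Pm) (σ : ℝ) (j : ℕ) : p.omG σ j = wG p.κ σ p.ye (j * p.v) := rfl
theorem msG_eq (p : Pm) (σ t : ℝ) : p.msG σ t = Grd92.msG p.κ σ p.r p.ye t := rfl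
theorem muG_eq (p : Pm) (σ : ℝ) : p.muG σ = mG p.κ σ p.ye := rfl
theorem epsG_eq (p : Pm) (σ : ℝ) : p.epsG σ = mG p.κ σ p.r := rfl

/-- the hypotheses on the parameters -/
structure Hy (p : Pm) (c0 C0 : ℝ) : Prop where
  base : Base (p.β ^ 2) c0 C0 (C0 / (p.n : ℝ) ^ p.A) p.v p.J p.z
  C1 : 1 ≤ C0
  κ0 : 0 ≤ p.κ
  κ1 : p.κ ≤ 1 / 8
  r0 : 0 < p.r
  ry : p.r ≤ p.ye
  y1 : 2 * p.ye ≤ 1
  yJ : 2 * p.ye ≤ p.J * p.v
  ηr2 : C0 / (p.n : ℝ) ^ p.A ≤ p.r ^ 2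

namespace Hy

variable {p : Pm} {c0 C0 σ : ℝ} (h : Hy p c0 C0)
include h

theorem v0 : 0 < p.v := h.base.v_pos
theorem y0 : 0 < p.ye := h.r0.trans_le h.ry

theorem ηr : C0 / (p.n : ℝ) ^ p.A ≤ p.r :=
  h.ηr2.trans (pow_le_of_le_one h.r0.le (by linarith [h.ry, h.y1, h.y0]) two_ne_zero)

theorem op : OP p (Ioi 0) p.omG (omG' p) p.epsG (2 * p.ye) :=
  op_gst p h.v0 h.base.lab h.κ0 h.κ1 h.y0 h.yJ

theorem om (hσ : 0 < σ) : Om p.v (2 * p.ye) (1 / 2) (p.omG σ) := h.op.hom σ hσ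

theorem s_nn (hσ : 0 < σ) (i : ℕ) : 0 ≤ sG p i σ := (h.om hσ).sig_nn h.v0 le_rfl i
theorem s_le (hσ : 0 < σ) (i : ℕ) : sG p i σ ≤ i * p.v := (h.om hσ).sig_le i
theorem s_ge (hσ : 0 < σ) (i : ℕ) : i * p.v ≤ 2 * sG p i σ := by
  linarith [(h.om hσ).sig_ge h.v0 le_rfl i, show sG p i σ = sig p.v (p.omG σ) i from rfl]

theorem ms_nn (hσ : 0 ≤ σ) (t : ℝ) : 0 ≤ p.msG σ t := msG_nn h.κ0 hσ h.r0.le _ _
theorem mu_nn (hσ : 0 ≤ σ) : 0 ≤ p.muG σ := mG_nn h.κ0 hσ h.y0.le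
theorem eps_nn (hσ : 0 ≤ σ) : 0 ≤ p.epsG σ := mG_nn h.κ0 hσ h.r0.le
theorem ms_le (hσ : 0 ≤ σ) (t : ℝ) : p.msG σ t ≤ p.muG σ := msG_le h.κ0 hσ h.r0.le h.ry t
theorem eps_le (hσ : 0 ≤ σ) (t : ℝ) : p.epsG σ ≤ p.msG σ t := msG_ge h.κ0 hσ h.r0.le _ t
theorem mu_le : p.muG σ ≤ 1 / 8 := by
  refine (mG_le h.κ0 h.y0.le).trans ?_
  have : p.ye ^ 2 ≤ 1 := pow_le_one₀ h.y0.le (by linarith [h.y1, h.y0])
  exact (mul_le_of_le_one_right h.κ0 this).trans h.κ1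

/-- the mass at the node time and at the grid time are comparable -/
theorem ms_s (hσ : 0 < σ) (i : ℕ) : p.msG σ (sG p i σ) ≤ p.msG σ (i * p.v) ∧
    p.msG σ (i * p.v) ≤ 4 * p.msG σ (sG p i σ) :=
  ⟨msG_mono h.κ0 hσ.le h.r0.le _ (h.s_le hσ i), msG_two h.κ0 hσ.le h.r0.le h.y0.le (h.s_ge hσ i)⟩

theorem mG_min (hσ : 0 ≤ σ) {t : ℝ} (ht : 0 ≤ t) :
    mG p.κ σ (min t (2 * p.ye)) ≤ 4 * p.msG σ t := by
  have y0 := h.y0
  have m0 : 0 ≤ min t p.ye := le_min ht y0.le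
  refine (mG_mono h.κ0 hσ (le_min ht (by linarith)) (t := 2 * min t p.ye) ?_).trans
    ((mG_two h.κ0 hσ m0).trans ?_)
  · rw [mul_min_of_nonneg _ _ zero_le_two]
    exact min_le_min (by linarith) le_rfl
  · linarith [msG_ge' h.κ0 hσ y0.le ht p.r, msG_eq p σ t]

/-- `muG t² ≤ msG t` below `ye` -/
theorem mu_sq (hσ : 0 ≤ σ) {t : ℝ} (ht : 0 ≤ t) (hy : t ≤ p.ye) : p.muG σ * t ^ 2 ≤ p.msG σ t := by
  have a := mG_conc h.κ0 hσ ht hy
  have b : p.ye ^ 2 ≤ 1 := pow_le_one₀ h.y0.le (by linarith [h.y1, h.y0])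
  have c := mul_le_of_le_one_left (mG_nn h.κ0 hσ ht) b
  have d := msG_ge' h.κ0 hσ h.y0.le ht p.r
  rw [min_eq_left hy] at d
  rw [muG_eq, msG_eq]
  linarith

theorem mu_sq' (hσ : 0 ≤ σ) {t T : ℝ} (ht : 0 ≤ t) (hT : t ≤ T) (h1 : 1 ≤ T) :
    p.muG σ * t ^ 2 ≤ T ^ 2 * p.msG σ t := by
  rcases le_total t p.ye with a | a
  · exact (h.mu_sq hσ ht a).trans (le_mul_of_one_le_left (h.ms_nn hσ t) (one_le_pow₀ h1))
  · rw [msG_eq, msG_top h.ry a, mul_comm]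
    exact mul_le_mul_of_nonneg_right (pow_le_pow_left₀ ht hT 2) (h.mu_nn hσ)

/-- `t om(t) ≤ 4 msG t` -/
theorem mul_om (hσ : 0 ≤ σ) (i : ℕ) : i * p.v * p.omG σ i ≤ 4 * p.msG σ (i * p.v) := by
  have t0 : 0 ≤ (i : ℝ) * p.v := by have := h.v0; positivity
  rcases le_total (i * p.v) (2 * p.ye) with a | a
  · refine le_trans ?_ (h.mG_min hσ t0)
    rw [min_eq_left a, omG_eq]
    have := mul_le_mul_of_nonneg_left (wG_le (Y := p.ye) h.κ0 hσ t0) t0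
    unfold mG; linarith
  · rw [omG_eq, wG_hi h.y0 a, mul_zero]
    linarith [h.ms_nn hσ (i * p.v)]

/-- `r om(t) ≤ 4 msG t` -/
theorem r_om (hσ : 0 ≤ σ) (i : ℕ) : p.r * p.omG σ i ≤ 4 * p.msG σ (i * p.v) := by
  have t0 : 0 ≤ (i : ℝ) * p.v := by have := h.v0; positivity
  rcases le_total p.r (i * p.v) with a | a
  · exact (mul_le_mul_of_nonneg_right a (wG_nn h.κ0 hσ t0)).trans (h.mul_om hσ i)
  · have b := (wG_le (Y := p.ye) h.κ0 hσ t0).trans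
      (mul_le_mul_of_nonneg_left (gr_mono hσ a) h.κ0)
    have c := mul_le_mul_of_nonneg_left b h.r0.le
    have d := h.eps_le hσ (i * p.v)
    have e := h.ms_nn hσ (i * p.v)
    rw [epsG_eq, mG] at d
    rw [omG_eq]; linarith

theorem om'_nn (σ : ℝ) (j : ℕ) : 0 ≤ omG' p σ j := dwG_nn h.κ0 _ _ _

theorem mul_om' (hσ : 0 ≤ σ) (j : ℕ) : σ * omG' p σ j ≤ p.omG σ j :=
  mul_dwG_le h.κ0 hσ (by have := h.v0; positivity)

theorem mul_eps' (hσ : 0 ≤ σ) : 0 ≤ deriv p.epsG σ ∧ σ * deriv p.epsG σ ≤ p.epsG σ := by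
  rw [(hasDerivAt_epsG p σ).deriv]
  have a := mul_nonneg h.κ0 h.r0.le
  refine ⟨mul_nonneg a (dgr_nn σ p.r), ?_⟩
  have := mul_le_mul_of_nonneg_left (mul_dgr_le hσ h.r0.le) a
  rw [epsG_eq, mG]
  unfold dgr at this
  linarith

/-- **weighted masses below a level** -/
theorem sum_cut (hσ : 0 ≤ σ) {T B : ℝ} (hT : 0 ≤ T) (hB : 0 ≤ B) {c : ℕ → ℝ} (N : ℕ)
    (h1 : ∀ j : ℕ, j * p.v ≤ T → c j ≤ B) (h2 : ∀ j : ℕ, T < j * p.v → c j * p.omG σ j ≤ 0) :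
    ∑ j ∈ Finset.range N, dm p.z j * (c (j + 1) * p.omG σ (j + 1)) ≤ C0 * B * mG p.κ σ T := by
  have v0 := h.v0
  have C1 := h.C1
  have g0 : 0 ≤ p.κ * gr σ T := mul_nonneg h.κ0 (gr_nn hσ hT)
  have k : ∀ j ∈ Finset.range N, dm p.z j * (c (j + 1) * p.omG σ (j + 1)) ≤
      if j ∈ Finset.range ⌊T / p.v⌋₊ then C0 * (p.v * (B * (p.κ * gr σ T))) else 0 := fun j _ => by
    have t0 : 0 ≤ ((j + 1 : ℕ) : ℝ) * p.v := by positivity
    have o0 : 0 ≤ p.omG σ (j + 1) := wG_nn h.κ0 hσ t0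
    have d0 := h.base.lab.dm_nn j
    split_ifs with a
    · have a' : ((j + 1 : ℕ) : ℝ) * p.v ≤ T := by
        rw [← le_div_iff₀ v0]
        exact (Nat.le_floor_iff (div_nonneg hT v0.le)).1 (Finset.mem_range.1 a)
      have b := (Fam3.dm_cmp h.base (j := j) (x := B * p.omG σ (j + 1)) (mul_nonneg hB o0)
        fun q => by
          rw [omG_eq, wG_hi h.y0 (h.yJ.trans (mul_le_mul_of_nonneg_right (by exact_mod_cast q) v0.le)),
            mul_zero]).2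
      refine (mul_le_mul_of_nonneg_left (mul_le_mul_of_nonneg_right (h1 _ a') o0) d0).trans
        (b.trans ?_)
      have := (wG_le (Y := p.ye) h.κ0 hσ t0).trans (mul_le_mul_of_nonneg_left (gr_mono hσ a') h.κ0)
      rw [← omG_eq] at this
      gcongr
    · refine mul_nonpos_of_nonneg_of_nonpos d0 (h2 _ ?_)
      rw [← div_lt_iff₀ v0]
      exact (Nat.floor_lt (div_nonneg hT v0.le)).1 (by simpa [Nat.lt_succ_iff] using a)
  refine (Finset.sum_le_sum k).trans ?_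
  rw [Finset.sum_ite_mem, Finset.sum_const, nsmul_eq_mul]
  have c1 : ((Finset.range N ∩ Finset.range ⌊T / p.v⌋₊).card : ℝ) ≤ T / p.v := by
    refine le_trans ?_ (Nat.floor_le (div_nonneg hT v0.le))
    exact_mod_cast (Finset.card_le_card Finset.inter_subset_right).trans_eq (Finset.card_range _)
  refine (mul_le_mul_of_nonneg_right c1 (by positivity)).trans (le_of_eq ?_)
  unfold mG
  field_simp

theorem Dw_le (hσ : 0 ≤ σ) {c : ℕ → ℝ} (hc : ∀ j, 0 ≤ c j) (N : ℕ) : σ * Dw p.z N c (omG' p σ) ≤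
    ∑ j ∈ Finset.range N, dm p.z j * (c (j + 1) * p.omG σ (j + 1)) := by
  rw [Dw, Finset.mul_sum]
  refine Finset.sum_le_sum fun j _ => ?_
  rw [abs_of_nonneg (h.om'_nn σ _)]
  have := mul_le_mul_of_nonneg_left (mul_le_mul_of_nonneg_left (h.mul_om' hσ (j + 1)) (hc (j + 1)))
    (h.base.lab.dm_nn j)
  linarith

theorem Dw_nn {c : ℕ → ℝ} (hc : ∀ j, 0 ≤ c j) (N : ℕ) (f : ℕ → ℝ) : 0 ≤ Dw p.z N c f :=
  Finset.sum_nonneg fun j _ => mul_nonneg (h.base.lab.dm_nn j) (mul_nonneg (hc _) (abs_nonneg _))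

/-- weights bounded by `B` on the support -/
theorem Dw_top (hσ : 0 ≤ σ) {c : ℕ → ℝ} (hc : ∀ j, 0 ≤ c j) {B : ℝ} (hB : 0 ≤ B)
    (h1 : ∀ j : ℕ, j * p.v ≤ 2 * p.ye → c j ≤ B) (N : ℕ) :
    σ * Dw p.z N c (omG' p σ) ≤ 4 * C0 * B * p.muG σ := by
  have y0 := h.y0
  refine (h.Dw_le hσ hc N).trans ((h.sum_cut hσ (by linarith) hB N h1 fun j a => by
    rw [omG_eq, wG_hi y0 a.le, mul_zero]).trans ?_)
  have := mul_le_mul_of_nonneg_left (mG_two h.κ0 hσ y0.le) (mul_nonneg (by linarith [h.C1]) hB :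
    0 ≤ C0 * B)
  rw [muG_eq]; linarith

/-- weights bounded by `B` and supported below the level `t` -/
theorem Dw_low (hσ : 0 ≤ σ) {c : ℕ → ℝ} (hc : ∀ j, 0 ≤ c j) {B t : ℝ} (hB : 0 ≤ B) (ht : 0 ≤ t)
    (h1 : ∀ j : ℕ, c j ≤ B) (h2 : ∀ j : ℕ, t < j * p.v → c j = 0) (N : ℕ) :
    σ * Dw p.z N c (omG' p σ) ≤ 4 * C0 * B * p.msG σ t := by
  have y0 := h.y0
  refine (h.Dw_le hσ hc N).trans ((h.sum_cut hσ (T := min t (2 * p.ye)) (le_min ht (by linarith)) hB N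
    (fun j _ => h1 j) fun j a => ?_).trans ?_)
  · rcases min_lt_iff.1 a with b | b
    · rw [h2 j b, zero_mul]
    · rw [omG_eq, wG_hi y0 b.le, mul_zero]
  · have := mul_le_mul_of_nonneg_left (h.mG_min hσ ht) (mul_nonneg (by linarith [h.C1]) hB :
      0 ≤ C0 * B)
    linarith

theorem Dw_one (hσ : 0 ≤ σ) (N : ℕ) : σ * Dw p.z N 1 (omG' p σ) ≤ 4 * C0 * p.muG σ := by
  simpa using h.Dw_top hσ (c := 1) (fun _ => zero_le_one) zero_le_one (fun _ _ => le_rfl) N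

theorem Dw_min (hσ : 0 < σ) {s : ℝ} (hs : 0 ≤ s) (N : ℕ) :
    σ * Dw p.z N (fun j => min (sig p.v (p.omG σ) j) s) (omG' p σ) ≤
      4 * C0 * min s (2 * p.ye) * p.muG σ :=
  h.Dw_top hσ.le (fun j => le_min (h.s_nn hσ j) hs) (le_min hs (by linarith [h.y0]))
    (fun j a => le_min (min_le_right _ _) ((min_le_left _ _).trans ((h.s_le hσ j).trans a))) N

theorem Dw_K2 (hσ : 0 < σ) (i N : ℕ) :
    σ * Dw p.z N (K2 (sig p.v (p.omG σ)) i) (omG' p σ) ≤ 4 * C0 * p.muG σ := by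
  simpa using h.Dw_top hσ.le (c := K2 (sig p.v (p.omG σ)) i) (fun j => by
    unfold K2; split_ifs; exacts [h.s_nn hσ j, zero_le_one]) zero_le_one (fun j a => by
    unfold K2; split_ifs; exacts [(h.s_le hσ j).trans (a.trans h.y1), le_rfl]) N

theorem okN (hσ : 0 < σ) (M : ℕ) : Ok (lo p.z p.v (p.omG σ) (p.J + M)) ∧
    TT (lo p.z p.v (p.omG σ) (p.J + M)) = sG p (p.J + M) σ :=
  have a := (areaS p.z (sig p.v (p.omG σ)) (p.J + M) (h.base.lab.up (Nat.le_add_right _ _))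
    (h.om hσ).sig0 ((h.om hσ).sm h.v0 le_rfl)).1
  ⟨a.1, a.2.1⟩

theorem s_mono (hσ : 0 < σ) {i j : ℕ} (hij : i ≤ j) : sG p i σ ≤ sG p j σ :=
  ((h.om hσ).sm h.v0 le_rfl).monotone hij

theorem s_J (hσ : 0 < σ) : sG p p.J σ = p.J * p.v := (h.om hσ).sig_eq h.yJ

theorem unit (hσ : 0 < σ) {i : ℕ} (hi : i ≤ p.J + p.Nr) : (0 ≤ gG p i σ ∧ gG p i σ ≤ 1) ∧
    0 ≤ AA (p.lG σ) (sG p i σ) ∧ AA (p.lG σ) (sG p i σ) ≤ 1 := by
  obtain ⟨o, e⟩ := h.okN hσ p.Nr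
  obtain ⟨C, -, hO⟩ := Pp.Ode3.odeS (TT (p.lG σ))
  obtain ⟨-, -, -, a⟩ := hO _ o le_rfl
  obtain ⟨-, -, -, a1, a2, a3, a4, -⟩ := a (sG p i σ) ⟨h.s_nn hσ i, e ▸ h.s_mono hσ hi⟩
  exact ⟨⟨a1, a2⟩, a3, a4⟩

theorem lvr_le (hσ : 0 < σ) {i : ℕ} (hi : i ≤ p.J) (r : ℝ) (r0 : 0 ≤ r) (hr : r < sG p i σ) :
    lvr 1 (p.lG σ) r ≤ 2 * C0 * r + C0 / (p.n : ℝ) ^ p.A := by
  obtain ⟨j, -, a, -, e⟩ := PP3.cell_om h.base (h.om hσ) le_rfl h.yJ r0
    (hr.trans_le ((h.s_mono hσ hi).trans_eq (h.s_J hσ)))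
  rw [Pm.lG, e]
  have b := mul_le_mul_of_nonneg_left ((h.s_ge hσ j).trans (mul_le_mul_of_nonneg_left a zero_le_two))
    (show 0 ≤ C0 by linarith [h.C1])
  linarith [h.base.lin j]


theorem ms_hi {i : ℕ} (hi : p.J ≤ i) : p.msG σ (i * p.v) = p.muG σ :=
  msG_top h.ry (le_trans (by linarith [h.y0]) (h.op.hi hi))

/-! octaves -/

theorem ms_oct {σ' : ℝ} (hσ : 0 < σ) (h1 : σ ≤ σ') (h2 : σ' ≤ 2 * σ) (t : ℝ) :
    p.msG σ t ≤ p.msG σ' t ∧ p.msG σ' t ≤ 2 * p.msG σ t := by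
  have m0 : 0 ≤ max p.r (min t p.ye) := h.r0.le.trans (le_max_left _ _)
  refine ⟨mG_monoS h.κ0 h1 m0, le_of_mul_le_mul_left ((mG_concS h.κ0 hσ.le h1 m0).trans ?_) hσ⟩
  have := mul_le_mul_of_nonneg_right h2 (h.ms_nn hσ.le t)
  rw [msG_eq, Grd92.msG] at this ⊢
  linarith

theorem mu_oct {σ' : ℝ} (hσ : 0 < σ) (h1 : σ ≤ σ') (h2 : σ' ≤ 2 * σ) :
    p.muG σ ≤ p.muG σ' ∧ p.muG σ' ≤ 2 * p.muG σ := by
  simpa only [h.ms_hi le_rfl] using h.ms_oct hσ h1 h2 (p.J * p.v)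

theorem om_oct {σ' : ℝ} (hσ : 0 < σ) (h1 : σ ≤ σ') (h2 : σ' ≤ 2 * σ) (i : ℕ) :
    p.omG σ i ≤ p.omG σ' i ∧ p.omG σ' i ≤ 2 * p.omG σ i := by
  have t0 : 0 ≤ (i : ℝ) * p.v := by have := h.v0; positivity
  refine ⟨wG_monoS h.κ0 h1 _ _, ?_⟩
  have a : gr σ' (i * p.v) ≤ 2 * gr σ (i * p.v) :=
    le_of_mul_le_mul_left ((gr_concS hσ.le h1 t0).trans (by
      linarith [mul_le_mul_of_nonneg_right h2 (gr_nn hσ.le t0)])) hσ
  have := mul_le_mul_of_nonneg_right (mul_le_mul_of_nonneg_left a h.κ0) (cut_nn p.ye (i * p.v))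
  rw [omG_eq, omG_eq, wG, wG]
  linarith

theorem c1_q {i : ℕ} (hi : i ≤ p.J + p.Nr) : Cas.D28.C1 (Ioi 0) (qG p i) := h.op.np.c1_Gam p.z hi
theorem c1_g {i : ℕ} (hi : i ≤ p.J + p.Nr) : Cas.D28.C1 (Ioi 0) (gG p i) := h.op.np.c1_GG p.z hi
theorem c1_e {i : ℕ} (hi : i ≤ p.J + p.Nr) : Cas.D28.C1 (Ioi 0) (eG p i) :=
  h.op.np.c1_ee h.op.labN h.op.ce hi
theorem c1_b : Cas.D28.C1 (Ioi 0) p.bG := h.op.c1_b

end Hy

/-- integration over an octave -/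
theorem oct {f : ℝ → ℝ} (hf : Cas.D28.C1 (Ioi 0) f) {σ σ' B : ℝ} (hσ : 0 < σ) (h1 : σ ≤ σ')
    (h2 : σ' ≤ 2 * σ) (hb : ∀ t ∈ Icc σ σ', t * |deriv f t| ≤ B) : |f σ' - f σ| ≤ B := by
  have B0 : 0 ≤ B := le_trans (by positivity) (hb σ ⟨le_rfl, h1⟩)
  have := (convex_Icc σ σ').norm_image_sub_le_of_norm_deriv_le (f := f) (C := B / σ)
    (fun t ht => (hf.der (show t ∈ Ioi 0 from hσ.trans_le ht.1)).differentiableAt)
    (fun t ht => by
      rw [Real.norm_eq_abs, le_div_iff₀ hσ, mul_comm]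
      exact (mul_le_mul_of_nonneg_right ht.1 (abs_nonneg _)).trans (hb t ht))
    ⟨le_rfl, h1⟩ ⟨h1, le_rfl⟩
  rw [Real.norm_eq_abs, Real.norm_eq_abs, abs_of_nonneg (sub_nonneg.2 h1)] at this
  refine this.trans ?_
  rw [div_mul_eq_mul_div, div_le_iff₀ hσ]
  exact mul_le_mul_of_nonneg_left (by linarith) B0

/-- the slope of `G` at a node, crude form -/
theorem Gl_bd (T : ℝ) : ∃ C : ℝ, 1 ≤ C ∧ ∀ (p : Pm) (c0 C0 σ : ℝ), Hy p c0 C0 → p.β ^ 2 ≤ T →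
    0 < σ → ∀ i ≤ p.J + p.Nr, σ * |Gl p.z (p.lG σ) i (sG p i σ) * omG' p σ i| ≤
      C * C0 * p.msG σ (i * p.v) := by
  obtain ⟨C, c1, hO⟩ := Pp.Ode3.odeS T
  refine ⟨4 * C + 16, by linarith, fun p c0 C0 σ h hT hσ i hi => ?_⟩
  have m0 := h.ms_nn hσ.le (i * p.v)
  have C1 := h.C1
  have v0 := h.v0
  rcases le_total p.J i with a | a
  · rw [h.op.om'_hi hσ a, mul_zero, abs_zero, mul_zero]
    positivity
  obtain ⟨o, e⟩ := h.okN hσ 0
  rw [add_zero] at o e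
  have m : sG p i σ ∈ Icc 0 (TT (lo p.z p.v (p.omG σ) p.J)) := ⟨h.s_nn hσ i, e ▸ h.s_mono hσ a⟩
  obtain ⟨-, -, -, b⟩ := hO _ o (by rw [e, h.s_J hσ]; exact h.base.hi.trans hT)
  obtain ⟨-, -, -, -, -, -, -, -, b1, b2, b3, -⟩ := b _ m
  have en : NN (p.lG σ) (sG p i σ) = NN (lo p.z p.v (p.omG σ) p.J) (sG p i σ) :=
    PP3.ext_NN h.base.lab ((h.om hσ).sm v0 le_rfl) o p.Nr m.2
  obtain ⟨-, a3, a4⟩ := h.unit hσ hi
  have z0 : 0 ≤ p.z (i - 1) := h.base.lab.pos.le.trans (h.base.lab.mono (Nat.zero_le _))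
  have z1 : p.z (i - 1) ≤ C0 * (i * p.v) + p.r := by
    refine (h.base.lin _).trans (add_le_add ?_ h.ηr)
    gcongr
    exact Nat.sub_le i 1
  have s1 := h.s_le hσ i
  have g : |Gl p.z (p.lG σ) i (sG p i σ)| ≤ (C + 2 * C0) * (i * p.v) + 2 * p.r := by
    have q1 := mul_le_mul_of_nonneg_left s1 (show 0 ≤ C by linarith)
    have q2 := mul_le_of_le_one_right z0 a4
    have q3 := mul_nonneg z0 a3
    have q4 : 0 ≤ C0 * (i * p.v) := by positivity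
    have q5 : 0 ≤ C * (i * p.v) := by positivity
    have := h.r0
    rw [Gl, en, abs_le]
    constructor <;> linarith
  have o0 : 0 ≤ p.omG σ i := (h.om hσ).nn i
  rw [abs_mul, abs_of_nonneg (h.om'_nn σ i), mul_left_comm]
  refine (mul_le_mul g (h.mul_om' hσ.le i) (mul_nonneg hσ.le (h.om'_nn σ i))
    ((abs_nonneg _).trans g)).trans ?_
  have q1 := mul_le_mul_of_nonneg_left (h.mul_om hσ.le i) (show 0 ≤ C + 2 * C0 by linarith)
  have q2 := h.r_om hσ.le i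
  have q3 := mul_le_mul_of_nonneg_right C1 m0
  have q4 := mul_le_mul_of_nonneg_left q3 (show 0 ≤ C by linarith)
  linarith

/-- **derivatives along the graded path** -/
theorem der (T : ℝ) (hT1 : 1 ≤ T) : ∃ K : ℝ, 1 ≤ K ∧ ∀ (p : Pm) (c0 C0 σ : ℝ), Hy p c0 C0 →
    p.β ^ 2 ≤ T → 0 < σ →
    (3 / 4 ≤ p.bG σ ∧ p.bG σ ≤ K ∧ σ * |deriv p.bG σ| ≤ K * C0 * p.muG σ) ∧ ∀ i ≤ p.J + p.Nr,
      σ * |deriv (qG p i) σ + gG p i σ * omG' p σ i| ≤
        K * C0 * min (sG p i σ) (2 * p.ye) * p.muG σ ∧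
      σ * |deriv (gG p i) σ| ≤ K * C0 * p.muG σ ∧
      deriv (eG p i) σ = -deriv p.bG σ * gG p i σ - p.bG σ * deriv (gG p i) σ ∧
      (i ≤ p.J → σ * |deriv (eG p i) σ| ≤
        K * C0 ^ 2 * (p.msG σ (i * p.v) + p.muG σ * |eG p i σ - p.epsG σ|)) := by
  obtain ⟨C, c1, hC⟩ := node_der T
  obtain ⟨D, d1, hD⟩ := ee_der T
  obtain ⟨G, g1, hG⟩ := Gl_bd T
  have T2 : 1 ≤ T ^ 2 := one_le_pow₀ hT1
  have DG : 0 ≤ D * G := by positivity
  have DT : D ≤ D * T ^ 2 := le_mul_of_one_le_right (by linarith) T2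
  obtain ⟨K, hK⟩ : ∃ K, K = 4 * C + G + D * G + 14 * D + 20 * (D * T ^ 2) := ⟨_, rfl⟩
  refine ⟨K, by linarith, fun p c0 C0 σ h hT hσ => ?_⟩
  have o := h.op
  have hJ : p.J * p.v ≤ T := h.base.hi.trans hT
  have C1 := h.C1
  have μ0 := h.mu_nn hσ.le
  have e0 := h.eps_nn hσ.le
  have e1 := (h.eps_le hσ.le 0).trans (h.ms_le hσ.le 0)
  obtain ⟨e2, e3⟩ := h.mul_eps' hσ.le
  obtain ⟨⟨b1, b2, b3⟩, hE⟩ := hD _ _ _ p.z _ _ p.epsG o.np o.labN (fun _ => o.tp) hJ o.ce σ hσ e0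
    (by linarith [h.mu_le (σ := σ)])
  rw [Dw_neg, abs_of_nonneg e2] at b3
  have Cμ : p.muG σ ≤ C0 * p.muG σ := le_mul_of_one_le_left μ0 C1
  have w1 : σ * (Dw p.z (p.J + p.Nr) 1 (omG' p σ) + deriv p.epsG σ) ≤ 5 * (C0 * p.muG σ) := by
    linarith [h.Dw_one hσ.le (p.J + p.Nr)]
  have up : ∀ {k x : ℝ}, k ≤ K → 0 ≤ x → k * x ≤ K * x := fun a b => mul_le_mul_of_nonneg_right a b
  refine ⟨⟨b1, b2.trans (by linarith), ?_⟩, fun i hi => ?_⟩
  · have a1 := mul_le_mul_of_nonneg_left b3 hσ.le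
    have a2 := mul_le_mul_of_nonneg_left w1 (show 0 ≤ D by linarith)
    have a3 := up (k := 5 * D) (x := C0 * p.muG σ) (by linarith) (by linarith)
    exact a1.trans (by linarith)
  obtain ⟨n1, n2, -⟩ := hC _ _ _ p.z _ _ o.np o.labN (fun _ => o.tp) hJ σ hσ i hi
  rw [Dw_neg, mul_neg, sub_neg_eq_add] at n1 n2
  have gl := hG p c0 C0 σ h hT hσ i hi
  have m0 := h.ms_nn hσ.le (i * p.v)
  have m1 := h.ms_le hσ.le (i * p.v)
  have s0 := h.s_nn hσ i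
  refine ⟨?_, ?_, (hE i hi).1, fun hiJ => ?_⟩
  · have a1 := mul_le_mul_of_nonneg_left n1 hσ.le
    have a2 := mul_le_mul_of_nonneg_left (h.Dw_min hσ s0 (p.J + p.Nr)) (show 0 ≤ C by linarith)
    have a3 := up (k := 4 * C) (x := C0 * min (sG p i σ) (2 * p.ye) * p.muG σ) (by linarith)
      (by have := le_min s0 (show 0 ≤ 2 * p.ye by linarith [h.y0]); positivity)
    refine a1.trans ?_
    change σ * (C * Dw p.z (p.J + p.Nr) (fun j => min (sig p.v (p.omG σ) j) (sG p i σ)) _) ≤ _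
    linarith
  · have a1 := mul_le_mul_of_nonneg_left n2 hσ.le
    have a2 := mul_le_mul_of_nonneg_left (h.Dw_K2 hσ i (p.J + p.Nr)) (show 0 ≤ C by linarith)
    have a3 := up (k := 4 * C + G) (x := C0 * p.muG σ) (by linarith) (by linarith)
    have a4 := mul_le_mul_of_nonneg_left m1 (show 0 ≤ G * C0 by positivity)
    have a5 := mul_le_mul_of_nonneg_left (abs_sub (deriv (gG p i) σ +
      Gl p.z (p.lG σ) i (sG p i σ) * omG' p σ i) (Gl p.z (p.lG σ) i (sG p i σ) * omG' p σ i)) hσ.le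
    rw [add_sub_cancel_right] at a5
    change σ * |deriv (gG p i) σ + Gl p.z (p.lG σ) i (sG p i σ) * omG' p σ i| ≤ _ at a1
    linarith
  have sJ : sG p i σ ≤ p.J * p.v := (h.s_mono hσ hiJ).trans_eq (h.s_J hσ)
  have η0 := h.base.eta_nn
  have q := (hE i hi).2 (2 * C0) _ (by linarith) η0 sJ (h.lvr_le hσ hiJ)
  rw [Dw_neg, abs_of_nonneg e2] at q
  obtain ⟨c, hc⟩ : ∃ c : ℕ → ℝ, c = fun j => if j < i then AA (p.lG σ) (sG p j σ) else 0 := ⟨_, rfl⟩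
  have cb : ∀ j, 0 ≤ c j ∧ c j ≤ 1 := fun j => by
    rw [hc]
    beta_reduce
    split_ifs with a
    · exact (h.unit hσ (a.le.trans hi)).2
    · norm_num
  have w2 := h.Dw_low hσ.le (fun j => (cb j).1) zero_le_one (t := i * p.v)
    (by have := h.v0; positivity) (fun j => (cb j).2) (fun j a => by
      rw [hc]
      exact if_neg (not_lt.2 (by exact_mod_cast (lt_of_mul_lt_mul_right a h.v0.le).le))) (p.J + p.Nr)
  have w3 := h.Dw_nn (fun j => (cb j).1) (p.J + p.Nr) (omG' p σ)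
  have e : ∑ j ∈ Finset.range (p.J + p.Nr), dm p.z j * (c (j + 1) * -omG' p σ (j + 1)) =
      -Dw p.z (p.J + p.Nr) c (omG' p σ) := by
    rw [Dw, ← Finset.sum_neg_distrib]
    exact Finset.sum_congr rfl fun j _ => by rw [abs_of_nonneg (h.om'_nn σ _)]; ring
  rw [hc] at e
  change |deriv (eG p i) σ - deriv p.epsG σ + p.bG σ * (Gl p.z (p.lG σ) i (sG p i σ) * -omG' p σ i +
    2 * ∑ j ∈ Finset.range (p.J + p.Nr), dm p.z j *
      ((if j + 1 < i then AA (p.lG σ) (sG p (j + 1) σ) else 0) * -omG' p σ (j + 1)))| ≤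
    D * (Dw p.z (p.J + p.Nr) 1 (omG' p σ) + deriv p.epsG σ) * ((1 + 2 * C0) * sG p i σ ^ 2 +
      C0 / (p.n : ℝ) ^ p.A * sG p i σ + |eG p i σ - p.epsG σ|) at q
  rw [e, ← hc] at q
  change 3 / 4 ≤ p.bG σ at b1
  change p.bG σ ≤ D at b2
  have k1 := (h.mu_sq' hσ.le s0 (sJ.trans hJ) hT1).trans
    (mul_le_mul_of_nonneg_left (h.ms_s hσ i).1 (by linarith))
  have k2 : p.muG σ * p.r ^ 2 ≤ p.msG σ (i * p.v) := by
    refine (h.mu_sq hσ.le h.r0.le h.ry).trans ?_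
    rw [msG_eq, msG_low le_rfl]
    exact h.eps_le hσ.le _
  have k3 : C0 / (p.n : ℝ) ^ p.A * sG p i σ ≤ p.r ^ 2 + sG p i σ ^ 2 := by
    have := mul_le_mul_of_nonneg_right h.ηr s0
    nlinarith [sq_nonneg (p.r - sG p i σ), mul_nonneg h.r0.le s0]
  have e4 := h.eps_le hσ.le (i * p.v)
  generalize deriv (eG p i) σ = x at *
  generalize Gl p.z (p.lG σ) i (sG p i σ) = gl' at *
  generalize Dw p.z (p.J + p.Nr) c (omG' p σ) = W at *
  generalize Dw p.z (p.J + p.Nr) 1 (omG' p σ) + deriv p.epsG σ = W1 at *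
  generalize p.msG σ (i * p.v) = m at *
  have u0 := abs_nonneg (eG p i σ - p.epsG σ)
  generalize |eG p i σ - p.epsG σ| = u at *
  generalize sG p i σ = s at *
  have R0 : 0 ≤ (1 + 2 * C0) * s ^ 2 + C0 / (p.n : ℝ) ^ p.A * s + u := by positivity
  have k4 : p.muG σ * ((1 + 2 * C0) * s ^ 2 + C0 / (p.n : ℝ) ^ p.A * s + u) ≤
      4 * C0 * (T ^ 2 * m) + m + p.muG σ * u := by
    have a1 := mul_le_mul_of_nonneg_left k3 μ0
    have a2 := mul_le_mul_of_nonneg_left k1 (show 0 ≤ 2 + 2 * C0 by linarith)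
    have a3 := mul_le_mul_of_nonneg_right C1 (show 0 ≤ T ^ 2 * m by positivity)
    linarith
  have k5 := mul_le_mul_of_nonneg_left q hσ.le
  have k6 := mul_le_mul_of_nonneg_right (mul_le_mul_of_nonneg_left w1 (show 0 ≤ D by linarith)) R0
  have k7 := mul_le_mul_of_nonneg_left k4 (show 0 ≤ 5 * (D * C0) by positivity)
  have k8 : σ * |p.bG σ * (gl' * -omG' p σ i + 2 * -W)| ≤ D * (G * C0 * m + 8 * C0 * m) := by
    rw [abs_mul, abs_of_nonneg (show 0 ≤ p.bG σ by linarith), mul_left_comm]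
    refine mul_le_mul b2 ?_ (by positivity) (by linarith)
    have a1 : |gl' * -omG' p σ i + 2 * -W| ≤ |gl' * omG' p σ i| + 2 * W := by
      refine (abs_add_le _ _).trans (le_of_eq ?_)
      rw [mul_neg, abs_neg, mul_neg, abs_neg, abs_of_nonneg (show 0 ≤ 2 * W by linarith)]
    have := mul_le_mul_of_nonneg_left a1 hσ.le
    linarith
  have k9 : |x| ≤ |x - deriv p.epsG σ + p.bG σ * (gl' * -omG' p σ i + 2 * -W)| + deriv p.epsG σ +
      |p.bG σ * (gl' * -omG' p σ i + 2 * -W)| := by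
    have a1 := abs_le.1 (le_refl |x - deriv p.epsG σ + p.bG σ * (gl' * -omG' p σ i + 2 * -W)|)
    have a2 := abs_le.1 (le_refl |p.bG σ * (gl' * -omG' p σ i + 2 * -W)|)
    rw [abs_le]
    constructor <;> linarith [a1.1, a1.2, a2.1, a2.2]
  have k10 := mul_le_mul_of_nonneg_left k9 hσ.le
  have C2 : C0 ≤ C0 ^ 2 := le_self_pow₀ C1 two_ne_zero
  have f1 := mul_le_mul_of_nonneg_right C2 m0
  have f2 := mul_le_mul_of_nonneg_right C1 m0
  have f3 := mul_le_mul_of_nonneg_left f1 DG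
  have f4 := mul_le_mul_of_nonneg_left f1 (show 0 ≤ D by linarith)
  have f5 := mul_le_mul_of_nonneg_right d1 (show 0 ≤ C0 ^ 2 * m by positivity)
  have f6 := mul_le_mul_of_nonneg_right C2 (show 0 ≤ 5 * D * (p.muG σ * u) by positivity)
  have f7 := up (k := 5 * D) (x := C0 ^ 2 * (p.muG σ * u)) (by linarith) (by positivity)
  have f8 := up (k := D * G + 14 * D + 20 * (D * T ^ 2)) (x := C0 ^ 2 * m) (by linarith)
    (by positivity)
  linarith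

theorem sO_eq {p : Pm} {c0 C0 σ : ℝ} (h : Hy p c0 C0) (hσ : 0 < σ) {P : Pl} (hg : P.γ = 0) (k : ℕ) :
    p.sO P (p.omG σ) k = sG p (nu p P k) σ := h.op.sO_eq hg hσ k


theorem ph_eq {p : Pm} {c0 C0 σ : ℝ} (h : Hy p c0 C0) (hσ : 0 < σ) {P : Pl} (hg : P.γ = 0) (k : ℕ) :
    ph p P p.omG (omG' p) p.epsG σ k = -(eG p (nu p P k) σ * omG' p σ (nu p P k)) - p.bG σ *
      (deriv (qG p (nu p P k)) σ + gG p (nu p P k) σ * omG' p σ (nu p P k)) := by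
  rw [ph, h.op.dom_eq hσ P, h.op.dq_eq hg hσ, bo_gst]
  change _ - p.bG σ * deriv (qG p (nu p P k)) σ = -((1 - p.bG σ * gG p (nu p P k) σ) * _) - _
  ring

theorem om_nu {p : Pm} {c0 C0 σ : ℝ} (h : Hy p c0 C0) (hσ : 0 < σ) (P : Pl) (k : ℕ) :
    p.omG σ (nu p P k) = p.omG σ k := by
  unfold nu
  split_ifs with a
  · rfl
  · rw [(h.om hσ).supp _ (h.op.hi (Nat.le_add_right _ _)), (h.om hσ).supp _ (h.op.hi (by omega))]

/-- **`σ`-derivatives of the graded profiles, and octave comparisons** -/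
def PD (C : ℝ) (p : Pm) : Prop := ∀ σ, p.MemG σ →
  (OP p (Ioi 0) p.omG (omG' p) p.epsG (2 * p.ye) ∧
    (∀ j, 0 ≤ omG' p σ j ∧ σ * omG' p σ j ≤ p.omG σ j ∧
      max p.r (j * p.v) * p.omG σ j ≤ 4 * p.msG σ (j * p.v)) ∧
    (∀ N, σ * Dw p.z N 1 (omG' p σ) ≤ C * p.muG σ) ∧
    (∀ (N : ℕ) (c : ℕ → ℝ) (t : ℝ), 0 ≤ t → (∀ j, 0 ≤ c j ∧ c j ≤ 1) →
      (∀ j : ℕ, t < j * p.v → c j = 0) → σ * Dw p.z N c (omG' p σ) ≤ C * p.msG σ t) ∧
    σ * |deriv p.bG σ| ≤ C * p.muG σ) ∧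
  (∀ i ≤ p.J + p.Nr,
    σ * |deriv (qG p i) σ + gG p i σ * omG' p σ i| ≤ C * (min (sG p i σ) p.ye * p.muG σ) ∧
    σ * |deriv (qG p i) σ| ≤ p.omG σ i + C * (min (sG p i σ) p.ye * p.muG σ) ∧
    σ * |deriv (gG p i) σ| ≤ C * p.muG σ ∧
    σ * |deriv (eG p i) σ| ≤ C * p.msG σ (sG p i σ) ∧
    σ * |deriv p.bG σ + p.bG σ ^ 2 * deriv (gG p i) σ| ≤ C * p.msG σ (sG p i σ)) ∧
  (∀ P : Pl, P.γ = 0 → ∀ k ≤ p.NP P, σ * |ph p P p.omG (omG' p) p.epsG σ k| ≤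
    C * (p.msG σ (p.sO P (p.omG σ) k) * p.omG σ k + min (p.sO P (p.omG σ) k) p.ye * p.muG σ)) ∧
  ∀ σ', p.OctR σ σ' →
    (p.muG σ ≤ p.muG σ' ∧ p.muG σ' ≤ 2 * p.muG σ ∧ |p.bG σ' - p.bG σ| ≤ C * p.muG σ ∧
      (∀ t, p.msG σ t ≤ p.msG σ' t ∧ p.msG σ' t ≤ 2 * p.msG σ t) ∧
      ∀ i, p.omG σ i ≤ p.omG σ' i ∧ p.omG σ' i ≤ 2 * p.omG σ i) ∧
    ∀ i ≤ p.J + p.Nr,
      |qG p i σ' - qG p i σ| ≤ 2 * p.omG σ i + C * (min (i * p.v) p.ye * p.muG σ) ∧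
      |gG p i σ' - gG p i σ| ≤ C * p.muG σ ∧ |eG p i σ' - eG p i σ| ≤ C * p.msG σ (i * p.v)

set_option maxHeartbeats 1000000 in
theorem pD (β : ℝ) (hβ : 1 < β) : Cst β PD := by
  intro c0 C0 hc0 hC0
  have hb : 1 ≤ β ^ 2 := one_le_pow₀ hβ.le
  obtain ⟨K, K1, hK⟩ := der (β ^ 2) hb
  obtain ⟨E, E1, hE⟩ := p1G β hβ c0 C0 hc0 hC0
  obtain ⟨X, hX⟩ : ∃ X, X = K * C0 ^ 2 := ⟨_, rfl⟩
  have X1 : K * C0 ≤ X := hX ▸ mul_le_mul_of_nonneg_left (le_self_pow₀ hC0 two_ne_zero) (by linarith)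
  have X2 : C0 ≤ K * C0 := le_mul_of_one_le_left (by linarith) K1
  have X3 : K ≤ K * C0 := le_mul_of_one_le_right (by linarith) hC0
  obtain ⟨D, hD⟩ : ∃ D, D = X * (5 + E) := ⟨_, rfl⟩
  have XE : X ≤ X * E := le_mul_of_one_le_right (by linarith) E1
  have EX : E ≤ X * E := le_mul_of_one_le_left (by linarith) (by linarith)
  have D1 : 6 * X ≤ D := by rw [hD]; linarith
  have KD : D ≤ K * D := le_mul_of_one_le_left (by linarith) K1
  have KK : K * D ≤ K * (K * D) := mul_le_mul_of_nonneg_left KD (by linarith)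
  obtain ⟨C, hC⟩ : ∃ C, C = 2 * (K * (K * D)) := ⟨_, rfl⟩
  refine ⟨C, by linarith, fun A hA c hc hc' => ?_⟩
  filter_upwards [PP3.ev_small β c0 C0 hA hc hc' (show (0 : ℝ) < 1 / 2 by norm_num), hE A hA c hc hc']
    with n hS hP p hβ' hn hA' hc'' hp σ0 hσ0
  have S := hS p hβ' hn hA' hc'' hp
  have G := hP p hβ' hn hA' hc'' hp
  clear hS hP
  subst hβ'
  obtain ⟨σ00, κ0, r0, ry, κ1, yJ⟩ := (G σ0 hσ0).1
  have h : Hy p c0 C0 := ⟨hp.base, hC0, κ0.le, by linarith, r0, ry, by linarith [S.ye], yJ, by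
    have a := mul_le_of_le_one_left (sq_nonneg p.r) (show p.κ ≤ 1 by linarith)
    have b := hp.base.eta_nn
    linarith [S.ηv, S.μκ, hp.base.v_pos]⟩
  have y0 := h.y0
  have up : ∀ {k x : ℝ}, k ≤ C → 0 ≤ x → k * x ≤ C * x := fun a b => mul_le_mul_of_nonneg_right a b
  have key : ∀ σ, p.MemG σ → σ * |deriv p.bG σ| ≤ X * p.muG σ ∧ ∀ i ≤ p.J + p.Nr,
      σ * |deriv (qG p i) σ + gG p i σ * omG' p σ i| ≤ 2 * X * (min (sG p i σ) p.ye * p.muG σ) ∧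
      σ * |deriv (qG p i) σ| ≤ p.omG σ i + 2 * X * (min (sG p i σ) p.ye * p.muG σ) ∧
      σ * |deriv (gG p i) σ| ≤ X * p.muG σ ∧
      σ * |deriv (eG p i) σ| ≤ K * D * p.msG σ (sG p i σ) ∧
      σ * |deriv p.bG σ + p.bG σ ^ 2 * deriv (gG p i) σ| ≤ C * p.msG σ (sG p i σ) ∧
      |eG p i σ| * p.omG σ i ≤ E * (p.msG σ (sG p i σ) * p.omG σ i) := fun σ hm => by
    obtain ⟨⟨hσ, -⟩, -, -, g4, -⟩ := G σ hm
    obtain ⟨⟨b1, b2, b3⟩, hi⟩ := hK p c0 C0 σ h le_rfl hσ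
    have μ0 := h.mu_nn hσ.le
    have μ1 := h.mu_le (σ := σ)
    have xμ := mul_le_mul_of_nonneg_right X1 μ0
    refine ⟨b3.trans xμ, fun i hN => ?_⟩
    obtain ⟨a1, a2, a3, a4⟩ := hi i hN
    have s0 := h.s_nn hσ i
    have m0 := h.ms_nn hσ.le (sG p i σ)
    obtain ⟨⟨u0, u1⟩, -⟩ := h.unit hσ hN
    have q1 : σ * |deriv (qG p i) σ + gG p i σ * omG' p σ i| ≤
        2 * X * (min (sG p i σ) p.ye * p.muG σ) := by
      have a : min (sG p i σ) (2 * p.ye) ≤ 2 * min (sG p i σ) p.ye := by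
        rw [mul_min_of_nonneg _ _ zero_le_two]
        exact min_le_min (by linarith) le_rfl
      have b := mul_le_mul X1 a (le_min s0 (by linarith)) (by linarith)
      linarith [mul_le_mul_of_nonneg_right b μ0]
    have q2 : σ * |deriv (qG p i) σ| ≤ p.omG σ i + 2 * X * (min (sG p i σ) p.ye * p.muG σ) := by
      have a := mul_le_mul_of_nonneg_left (abs_sub (deriv (qG p i) σ + gG p i σ * omG' p σ i)
        (gG p i σ * omG' p σ i)) hσ.le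
      rw [add_sub_cancel_right, abs_of_nonneg (mul_nonneg u0 (h.om'_nn σ i))] at a
      have b := mul_le_mul_of_nonneg_left (mul_le_of_le_one_left (h.om'_nn σ i) u1) hσ.le
      linarith [h.mul_om' hσ.le i]
    have id2 : deriv p.bG σ + p.bG σ ^ 2 * deriv (gG p i) σ =
        deriv p.bG σ * eG p i σ - p.bG σ * deriv (eG p i) σ := by
      rw [a3]
      change _ = deriv p.bG σ * (1 - p.bG σ * gG p i σ) - _
      ring
    have b0 : 0 ≤ p.bG σ := by linarith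
    refine ⟨q1, q2, a2.trans xμ, ?_⟩
    rcases le_total i p.J with a | a
    · obtain ⟨e1, e2, -⟩ := g4 (sG p i σ) ⟨s0, (h.s_mono hσ a).trans_eq (h.s_J hσ)⟩
      have e0 : 0 ≤ eG p i σ := le_trans (by positivity) e1
      change eG p i σ ≤ _ at e2
      have e3 := h.eps_le hσ.le (sG p i σ)
      have e4 := h.eps_nn hσ.le
      have Em := mul_le_mul_of_nonneg_right E1 m0
      have e5 : |eG p i σ - p.epsG σ| ≤ E * p.msG σ (sG p i σ) := by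
        rw [abs_le]; constructor <;> linarith
      have e6 := (mul_le_of_le_one_left (abs_nonneg _) (show p.muG σ ≤ 1 by linarith)).trans e5
      have e7 : σ * |deriv (eG p i) σ| ≤ D * p.msG σ (sG p i σ) := by
        have := mul_le_mul_of_nonneg_left (add_le_add (h.ms_s hσ i).2 e6) (show 0 ≤ X by linarith)
        have := mul_le_mul_of_nonneg_right (show 0 ≤ X by linarith) m0
        rw [hD]
        linarith [hX ▸ a4 a]
      refine ⟨e7.trans (mul_le_mul_of_nonneg_right KD m0), ?_, ?_⟩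
      · rw [id2]
        have c1 := mul_le_mul_of_nonneg_left (abs_sub (deriv p.bG σ * eG p i σ)
          (p.bG σ * deriv (eG p i) σ)) hσ.le
        rw [abs_mul, abs_mul, abs_of_nonneg e0, abs_of_nonneg b0] at c1
        have c2 := mul_le_mul ((b3.trans xμ).trans (mul_le_of_le_one_right (by linarith)
          (show p.muG σ ≤ 1 by linarith))) e2 e0 (by linarith)
        have c3 := mul_le_mul b2 e7 (by positivity) (by linarith)
        have c4 := up (k := X * E + K * D) (by linarith) m0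
        linarith
      · rw [abs_of_nonneg e0, ← mul_assoc]
        exact mul_le_mul_of_nonneg_right e2 ((h.om hσ).nn i)
    · have e : p.msG σ (sG p i σ) = p.muG σ :=
        msG_top h.ry (le_trans (by linarith) ((h.s_J hσ).symm.trans_le (h.s_mono hσ a)))
      rw [e, (h.om hσ).supp i (h.op.hi a), mul_zero, mul_zero, mul_zero]
      have c0' := mul_le_mul b2 (a2.trans xμ) (by positivity) (by linarith)
      have KX : K * X ≤ K * D / 6 := by linarith [mul_le_mul_of_nonneg_left D1 (show 0 ≤ K by linarith)]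
      have XK : X ≤ K * X := le_mul_of_one_le_left (by linarith) K1
      refine ⟨?_, ?_, le_rfl⟩
      · rw [a3]
        have c1 := mul_le_mul_of_nonneg_left (abs_sub (-deriv p.bG σ * gG p i σ)
          (p.bG σ * deriv (gG p i) σ)) hσ.le
        rw [abs_mul, abs_mul, abs_neg, abs_of_nonneg u0, abs_of_nonneg b0] at c1
        have c2 := mul_le_of_le_one_right (mul_nonneg hσ.le (abs_nonneg (deriv p.bG σ))) u1
        have c3 := mul_le_mul_of_nonneg_right (show X + K * X ≤ K * D by linarith) μ0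
        linarith
      · have c1 := mul_le_mul_of_nonneg_left (abs_add_le (deriv p.bG σ)
          (p.bG σ ^ 2 * deriv (gG p i) σ)) hσ.le
        rw [abs_mul, abs_of_nonneg (sq_nonneg (p.bG σ))] at c1
        have c2 := mul_le_mul b2 c0' (by positivity) (by linarith)
        have c3 := up (k := X + K * (K * X)) (by
          linarith [mul_le_mul_of_nonneg_left KX (show 0 ≤ K by linarith)]) μ0
        linarith
  have hσ := σ00
  obtain ⟨k1, k2⟩ := key σ0 hσ0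
  have μ0 := h.mu_nn hσ.le
  have mn : ∀ {t : ℝ}, 0 ≤ t → 0 ≤ min t p.ye * p.muG σ0 := fun a => mul_nonneg (le_min a y0.le) μ0
  refine ⟨⟨h.op, fun j => ⟨h.om'_nn _ j, h.mul_om' hσ.le j, ?_⟩, fun N => (h.Dw_one hσ.le N).trans
    (up (by linarith) μ0), fun N c t ht hc h2 => (h.Dw_low hσ.le (fun j => (hc j).1) zero_le_one ht
    (fun j => (hc j).2) h2 N).trans (up (by linarith) (h.ms_nn hσ.le t)), k1.trans
    (up (by linarith) μ0)⟩, fun i hi => ?_, fun P hg k hk => ?_, fun σ' ho => ?_⟩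
  · rcases le_total p.r (j * p.v) with a | a
    · rw [max_eq_right a]; exact h.mul_om hσ.le j
    · rw [max_eq_left a]; exact h.r_om hσ.le j
  · obtain ⟨a1, a2, a3, a4, a5, -⟩ := k2 i hi
    have := up (k := 2 * X) (by linarith) (mn (h.s_nn hσ i))
    exact ⟨a1.trans this, by linarith, a3.trans (up (by linarith) μ0),
      a4.trans (up (by linarith) (h.ms_nn hσ.le _)), a5⟩
  · obtain ⟨a1, -, -, -, -, a6⟩ := k2 _ (nu_le p P hk)
    obtain ⟨⟨b1, b2, -⟩, -⟩ := hK p c0 C0 σ0 h le_rfl hσ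
    rw [ph_eq h hσ hg, sO_eq h hσ hg, ← om_nu h hσ P k]
    generalize nu p P k = i at *
    have c1 := mul_le_mul_of_nonneg_left (abs_sub (-(eG p i σ0 * omG' p σ0 i))
      (p.bG σ0 * (deriv (qG p i) σ0 + gG p i σ0 * omG' p σ0 i))) hσ.le
    rw [abs_neg, abs_mul, abs_mul, abs_of_nonneg (h.om'_nn σ0 i),
      abs_of_nonneg (show 0 ≤ p.bG σ0 by linarith)] at c1
    have c2 := mul_le_mul_of_nonneg_left (h.mul_om' hσ.le i) (abs_nonneg (eG p i σ0))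
    have c3 := mul_le_mul b2 a1 (by positivity) (by linarith)
    have c4 := up (k := K * (2 * X)) (by
      linarith [mul_le_mul_of_nonneg_left D1 (show 0 ≤ K by linarith)]) (mn (h.s_nn hσ i))
    have c5 := up (k := E) (by linarith)
      (mul_nonneg (h.ms_nn hσ.le (sG p i σ0)) ((h.om hσ).nn i))
    linarith
  obtain ⟨o0, o1, o2, o3⟩ := ho
  have mem : ∀ t ∈ Icc σ0 σ', p.MemG t ∧ 0 < t ∧ t ≤ 2 * σ0 := fun t ht =>
    ⟨⟨o0.trans ht.1, ht.2.trans o3⟩, hσ.trans_le ht.1, ht.2.trans o2⟩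
  have mu : ∀ t ∈ Icc σ0 σ', X * p.muG t ≤ C * p.muG σ0 := fun t ht => by
    have := mul_le_mul_of_nonneg_left (h.mu_oct hσ ht.1 (mem t ht).2.2).2 (show 0 ≤ X by linarith)
    linarith [up (k := 2 * X) (by linarith) μ0]
  refine ⟨⟨(h.mu_oct hσ o1 o2).1, (h.mu_oct hσ o1 o2).2, oct h.c1_b hσ o1 o2 fun t ht =>
    (key t (mem t ht).1).1.trans (mu t ht), h.ms_oct hσ o1 o2, h.om_oct hσ o1 o2⟩, fun i hi =>
    ⟨oct (h.c1_q hi) hσ o1 o2 fun t ht => ((key t (mem t ht).1).2 i hi).2.1.trans ?_,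
    oct (h.c1_g hi) hσ o1 o2 fun t ht => ((key t (mem t ht).1).2 i hi).2.2.1.trans (mu t ht),
    oct (h.c1_e hi) hσ o1 o2 fun t ht => ((key t (mem t ht).1).2 i hi).2.2.2.1.trans ?_⟩⟩
  · obtain ⟨-, t0, t2⟩ := mem t ht
    have t1 : 0 ≤ (i : ℝ) * p.v := by have := h.v0; positivity
    have a := mul_le_mul (min_le_min (h.s_le t0 i) (le_refl p.ye)) (h.mu_oct hσ ht.1 t2).2
      (h.mu_nn t0.le) (le_min t1 y0.le)
    have b := mul_le_mul_of_nonneg_left a (show 0 ≤ 2 * X by linarith)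
    linarith [(h.om_oct hσ ht.1 t2 i).2, up (k := 4 * X) (by linarith) (mn t1)]
  · obtain ⟨-, t0, t2⟩ := mem t ht
    have a := mul_le_mul_of_nonneg_left ((h.ms_s t0 i).1.trans (h.ms_oct hσ ht.1 t2 _).2)
      (show 0 ≤ K * D by linarith)
    linarith [up (k := 2 * (K * D)) (by linarith) (h.ms_nn hσ.le (i * p.v))]

end Crest.Agent.T156.Alt.GB92

end
end

-- ▼ part T156/R1Top_77

/-!
# Row 156 (helper77): one octave of the tested path from the test head and seven budgets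
-/

set_option autoImplicit false
set_option linter.unusedSectionVars false

noncomputable section

namespace Crest.Agent.T156.Alt.R77

open Real Set Filter Topology
open Crest.Agent.T156.Cas Crest.Agent.T156.Cas.C40 Crest.Agent.T156.Alt.Alg77
open Crest.Agent.T156.Alt.CIn12 Crest.Agent.T156.Alt.Md67

/-- a point of an octave, two root tilts and a size -/
structure Cx (p : Pm) (σ σ' : ℝ) (P : Pl) (t a a' Q : ℝ) (m : ℕ) : Prop where
  oct : p.OctR σ σ'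
  pl : p.PlG (p.muG σ) P
  t0 : σ ≤ t
  t1 : t ≤ σ'
  win : Win p.n p.s p.ga a a'
  Q0 : 0 ≤ Q
  wt : WT p.n (p.gst P '' Icc σ σ') a a' Q
  m1 : p.n ≤ m
  m2 : m ≤ 2 * p.n

/-- the budget -/
def Bud (p : Pm) (Q : ℝ) : ℝ := (p.n : ℝ) ^ ((1 : ℝ) / 6) * (Q * p.s ^ 2 + p.s ^ 5)

/-- the test datum of the member `t` -/
abbrev Dd (p : Pm) (P : Pl) (t : ℝ) (m : ℕ) (a : ℝ) (E : CIn12.Ev) : CD :=
  cdf (p.gst P t) m a (p.gst P t).q (p.jf + 1) (sv p t) E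

/-- no envelopes -/
def E0 : CIn12.Ev := ⟨0, 0, 0, 0, 0, 0, 0, 0, 0⟩

/-- the datum without envelopes -/
abbrev D0 (p : Pm) (P : Pl) (t : ℝ) (m : ℕ) (a : ℝ) : CD := Dd p P t m a E0

/-- the test density in cascade indices -/
abbrev fd (p : Pm) (t : ℝ) : ℕ → ℝ := fc (p.jf + 1) (sv p t)

/-- `F` is within the budget -/
def Lf (F : Pm → Pl → ℝ → ℕ → ℝ → ℝ → ℝ) (δ : ℝ) (p : Pm) : Prop :=
  ∀ σ σ' P t a a' Q m, Cx p σ σ' P t a a' Q m → t * (m * |F p P t m a a'|) ≤ δ * Bud p Q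

/-- admissible envelopes with a small error -/
def ErrR (δ : ℝ) (p : Pm) : Prop := ∀ σ σ' P t a a' Q m, Cx p σ σ' P t a a' Q m →
  ∀ x, x = a ∨ x = a' → ∃ E : CIn12.Ev, (Dd p P t m x E).Ok (p.β ^ 2) ∧
    t * (m * (Dd p P t m x E).Err) ≤ δ * Bud p Q

/-- the root atom -/
def LoR : ℝ → Pm → Prop := Lf fun p P t m a a' =>
  c2lo (D0 p P t m a) (deriv p.bG t) * (S0 (p.gst P t) m a' - S0 (p.gst P t) m a)

/-- the low words -/
def LwR : ℝ → Pm → Prop := Lf fun p P t m a a' => lw (D0 p P t m a') - lw (D0 p P t m a)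

/-- the local quadratic term -/
def C2R : ℝ → Pm → Prop := Lf fun p P t m a a' => (D0 p P t m a).I fun j =>
  c2 (D0 p P t m a) (fd p t) (deriv p.bG t) j * ((D0 p P t m a').u 2 j - (D0 p P t m a).u 2 j)

/-- the linear residual -/
def LinR : ℝ → Pm → Prop := Lf fun p P t m a a' => (D0 p P t m a).I fun j =>
  lin (D0 p P t m a) (fd p t) (sh (bq p P t)) j * ((D0 p P t m a').del j - (D0 p P t m a).del j)

/-- the off-diagonal quadratic term -/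
def PhiR : ℝ → Pm → Prop := Lf fun p P t m a a' => (D0 p P t m a).I fun j =>
  phi (D0 p P t m a) (D0 p P t m a') (fd p t) j * ((D0 p P t m a').del j - (D0 p P t m a).del j)

/-- the local cubic term -/
def C3R : ℝ → Pm → Prop := Lf fun p P t m a a' => (D0 p P t m a).I fun j =>
  c3 (D0 p P t m a) (fd p t) j * ((D0 p P t m a').u3 j - (D0 p P t m a).u3 j)

theorem Rs_ev (p : Pm) (P : Pl) (t : ℝ) (m : ℕ) (a : ℝ) (E : CIn12.Ev) :
    Rs (Dd p P t m a E) = Rs (D0 p P t m a) := rfl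

theorem Bud_nonneg {p : Pm} {Q : ℝ} (hs : 0 ≤ p.s) (hQ : 0 ≤ Q) : 0 ≤ Bud p Q := by
  unfold Bud
  positivity

theorem mo_Lf (F : Pm → Pl → ℝ → ℕ → ℝ → ℝ → ℝ) : Mo fun δ p => 0 ≤ p.s → Lf F δ p :=
  fun _ _ _ _ h H hs σ σ' P t a a' Q m c =>
    (H hs σ σ' P t a a' Q m c).trans (mul_le_mul_of_nonneg_right h (Bud_nonneg hs c.Q0))

theorem mo_Err : Mo fun δ p => 0 ≤ p.s → ErrR δ p := fun _ _ _ _ h H hs σ σ' P t a a' Q m c x hx =>
  (H hs σ σ' P t a a' Q m c x hx).imp fun _ e =>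
    ⟨e.1, e.2.trans (mul_le_mul_of_nonneg_right h (Bud_nonneg hs c.Q0))⟩

theorem Cx.mem {p : Pm} {σ σ' t a a' Q : ℝ} {P : Pl} {m : ℕ} (c : Cx p σ σ' P t a a' Q m) :
    p.MemG t := ⟨c.oct.1.trans c.t0, c.t1.trans c.oct.2.2.2⟩

theorem Cx.oct' {p : Pm} {σ σ' t a a' Q : ℝ} {P : Pl} {m : ℕ} (c : Cx p σ σ' P t a a' Q m) :
    p.OctR σ t := ⟨c.oct.1, c.t0, c.t1.trans c.oct.2.2.1, c.mem.2⟩

variable {β c0 C0 c η K : ℝ} {A : ℕ} {p : Pm}

theorem Nr_pos (H : Reg β c0 C0 A c η K p) : 0 < p.Nr := by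
  refine Nat.pos_of_ne_zero fun e => ?_
  have := H.Nr_bds.1
  have a : (2 : ℝ) ≤ A := by exact_mod_cast H.A2
  rw [e, Nat.cast_zero, zero_mul] at this
  nlinarith [H.log1]

theorem top_gst (H : Reg β c0 C0 A c η K p) (P : Pl) (t : ℝ) (hj : p.jf < p.J) :
    Top (p.gst P t) := by
  have := Nr_pos H
  refine ⟨show 0 < p.NP P by unfold Pm.NP; omega, ?_⟩
  show p.zP P (max (p.NP P - 1) p.jf) = 1
  unfold Pm.zP Pm.NP Pm.Jp
  rw [if_neg (by omega), if_neg (by omega)]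

/-- **one octave** -/
theorem octG_of (hβ : 1 < β) (hT : HT) (h1 : Gain β ErrR) (h2 : Gain β LoR) (h3 : Gain β LwR)
    (h4 : Gain β C2R) (h5 : Gain β LinR) (h6 : Gain β PhiR) (h7 : Gain β C3R) : Gain β OctG := by
  obtain ⟨C, hC, hT⟩ := hT (β ^ 2)
  have k1 := (h1.mono fun _ p _ _ H (_ : 0 ≤ p.s) => H).sml 2 mo_Err
  have k2 := (h2.mono fun _ p _ _ H (_ : 0 ≤ p.s) => H).sml 2 (mo_Lf _)
  have k3 := (h3.mono fun _ p _ _ H (_ : 0 ≤ p.s) => H).sml 2 (mo_Lf _)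
  have k4 := (h4.mono fun _ p _ _ H (_ : 0 ≤ p.s) => H).sml 2 (mo_Lf _)
  have k5 := (h5.mono fun _ p _ _ H (_ : 0 ≤ p.s) => H).sml 2 (mo_Lf _)
  have k6 := (h6.mono fun _ p _ _ H (_ : 0 ≤ p.s) => H).sml 2 (mo_Lf _)
  have k7 := (h7.mono fun _ p _ _ H (_ : 0 ≤ p.s) => H).sml 2 (mo_Lf _)
  refine Sml.gain (Sml.glue' hβ ((((((((k1.and k2).and k3).and k4).and k5).and k6).and k7).and
    (legG hβ)).and (GB92.pD β hβ).sml) 2 one_pos 40 ?_)
  intro c0 C0 A c η _ _ _ _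
  refine ⟨C + 6, fun p H _ _ hη ⟨⟨⟨⟨⟨⟨⟨⟨g1, g2⟩, g3⟩, g4⟩, g5⟩, g6⟩, g7⟩, gL⟩, _, _, _, gD⟩
    σ σ' P o hP => ?_⟩
  have hs := H.s0.le
  have M0 := (Gr29.oct_mem o).1
  have op := (gD σ M0).1.1
  have s0 := H.σ0 M0
  have hj : p.jf < p.J := by
    have a1 := St56.jf_le H (by exact_mod_cast hη)
    have a2 := op.hY
    have a3 := H.r_le_ye
    have a4 := H.r0
    exact_mod_cast lt_of_mul_lt_mul_right (show (p.jf : ℝ) * p.v < p.J * p.v by linarith) H.v0.le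
  have hj' : p.jf < p.NP P := by unfold Pm.NP; omega
  have leg : ∀ t ∈ Icc σ σ', (p.gst P t).Leg p.am ∧ p.bG t ≤ p.β ^ 2 := fun t ht => by
    have o' : p.OctR σ t := ⟨o.1, ht.1, ht.2.trans o.2.2.1, ht.2.trans o.2.2.2⟩
    have := gL t _ P (Gr29.oct_mem o').2 (H.μ0_le_muG M0) (H.oct_mu o').1 hP
    exact ⟨Leg_mono this.1 (by linarith [H.am0]), this.2.2.1⟩
  set Λ := (p.n : ℝ) ^ η with hΛ
  have hΛ0 : 0 < Λ := H.Λ0
  refine (Md77.go_gst op (P := P) (ε := (C + 6) * Λ⁻¹ ^ 2) hP.ok.g (by have := H.n3; omega) hs hj' s0 o.2.1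
    (by positivity) leg fun a a' Q w hQ hW m m1 m2 t ht => ?_).mono82 hs ?_
  · have cx : Cx p σ σ' P t a a' Q m := ⟨o, hP, ht.1.le, ht.2.le, w, hQ, hW, m1, m2⟩
    have t0 : 0 ≤ t := (s0.trans ht.1).le
    have e := alg_gst (leg t (Ioo_subset_Icc_self ht)).1 (top_gst H P t hj) hj' (D0 p P t m a)
      (D0 p P t m a') rfl rfl
    have r : ∀ x, x = a ∨ x = a' → t * (m * |Rs (D0 p P t m x)|) ≤ C * (Λ⁻¹ ^ 2 * Bud p Q) :=
      fun x hx => by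
        obtain ⟨E, ok, er⟩ := g1 hs σ σ' P t a a' Q m cx x hx
        have : |Rs (D0 p P t m x)| ≤ C * (Dd p P t m x E).Err :=
          (Rs_ev p P t m x E) ▸ hT (Dd p P t m x E) (H.hβ ▸ ok) rfl
        calc _ ≤ t * (m * (C * (Dd p P t m x E).Err)) := by gcongr
          _ = C * (t * (m * (Dd p P t m x E).Err)) := by ring
          _ ≤ _ := by gcongr
    have r1 := r a (.inl rfl)
    have r2 := r a' (.inr rfl)
    have b2 := g2 hs σ σ' P t a a' Q m cx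
    have b3 := g3 hs σ σ' P t a a' Q m cx
    have b4 := g4 hs σ σ' P t a a' Q m cx
    have b5 := g5 hs σ σ' P t a a' Q m cx
    have b6 := g6 hs σ σ' P t a a' Q m cx
    have b7 := g7 hs σ σ' P t a a' Q m cx
    have b0 : 0 ≤ Λ⁻¹ ^ 2 * Bud p Q := mul_nonneg (by positivity) (Bud_nonneg hs hQ)
    simp only [CD.I, mul_add, add_mul, Finset.sum_add_distrib] at e
    simp only [CD.I] at b4 b5 b6 b7
    rw [e]
    generalize Rs (D0 p P t m a') = x1 at *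
    generalize Rs (D0 p P t m a) = x2 at *
    have key : ∀ x3 x4 x5 x6 x7 x8 : ℝ, t * (m * |(x1 - x2) / 2 + x3 + x4 / 2 + (x5 + (x6 + x7) + x8)|) ≤
        (t * (m * |x1|) + t * (m * |x2|)) / 2 + t * (m * |x3|) + t * (m * |x4|) / 2 +
          t * (m * |x5|) + t * (m * |x6|) + t * (m * |x7|) + t * (m * |x8|) :=
      fun x3 x4 x5 x6 x7 x8 => by
        have : |(x1 - x2) / 2 + x3 + x4 / 2 + (x5 + (x6 + x7) + x8)| ≤
            (|x1| + |x2|) / 2 + |x3| + |x4| / 2 + |x5| + |x6| + |x7| + |x8| := by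
          rw [abs_le]
          constructor <;> linarith [le_abs_self x1, le_abs_self x2, le_abs_self x3, le_abs_self x4,
            le_abs_self x5, le_abs_self x6, le_abs_self x7, le_abs_self x8, neg_abs_le x1,
            neg_abs_le x2, neg_abs_le x3, neg_abs_le x4, neg_abs_le x5, neg_abs_le x6,
            neg_abs_le x7, neg_abs_le x8]
        calc _ ≤ t * (m * ((|x1| + |x2|) / 2 + |x3| + |x4| / 2 + |x5| + |x6| + |x7| + |x8|)) := by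
              gcongr
          _ = _ := by ring
    refine (key _ _ _ _ _ _).trans ?_
    change _ ≤ (C + 6) * Λ⁻¹ ^ 2 * Bud p Q
    linarith
  · have l2 : log (σ' / σ) ≤ 1 := by
      refine (log_le_sub_one_of_pos (div_pos (s0.trans_le o.2.1) s0)).trans ?_
      rw [sub_le_iff_le_add, div_le_iff₀ s0]
      linarith [o.2.2.1]
    have : C + 6 ≤ Λ := H.K_le
    calc (C + 6) * Λ⁻¹ ^ 2 * log (σ' / σ) ≤ (C + 6) * Λ⁻¹ ^ 2 * 1 := by gcongr
      _ ≤ Λ * Λ⁻¹ ^ 2 * 1 := by gcongr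
      _ = Λ⁻¹ := by field_simp

end Crest.Agent.T156.Alt.R77

end
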