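import Crest.Agent.T156.PCmp_3
import Crest.Agent.T156.PArea_50
import Crest.Agent.T156.PRef_81
import Crest.Agent.T156.Top_31
import Crest.Agent.T156.PrU_28
import Crest.Agent.T156.Spl_27
import Crest.Agent.T156.FamSq_28
import Crest.Agent.T156.AltP1_3
import Crest.Agent.T156.Twin_20
import Crest.Agent.T156.PMer_97
import Crest.Agent.T156.R2c_85

-- ▼ part T156/PExp_50
section

/-!
Row 156 (helper50): small-time expansions of the one-site moments for every admissible list, node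
sums, and the site constants (Mu), (A), (B), (E) of docs/T156_40C.md, docs/T156_58.md.
-/

set_option autoImplicit false

namespace Crest.Agent.T156.Pr.Exp50

open MeasureTheory Filter Topology Set
open Crest.Agent.R164.GC Crest.Agent.R339.B Crest.Agent.R339.Var Crest.Agent.T157.Pf
open Crest.Agent.T156.Pp Crest.Agent.T156.Pp.Ode3

noncomputable section

variable {l : List (ℝ × ℝ)} {t u : ℝ}

/-- `∫_0^t zh f` -/
def Iz (l : List (ℝ × ℝ)) (f : ℝ → ℝ) (t : ℝ) : ℝ := ∫ s in (0 : ℝ)..t, lvr 1 l s * f s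
/-- `∫_0^t zh` -/
def Z1 (l : List (ℝ × ℝ)) : ℝ → ℝ := Iz l fun _ => 1
/-- `∫_0^t s zh(s) ds` -/
def M1 (l : List (ℝ × ℝ)) : ℝ → ℝ := Iz l fun s => s
/-- `∫_0^t zh d(Γ²)` -/
def J2 (l : List (ℝ × ℝ)) : ℝ → ℝ := Iz l fun s => 2 * Pr.Gam l s * GG l s
/-- `E Φ_xx(t, X_t)` -/
def XX (l : List (ℝ × ℝ)) (t : ℝ) : ℝ := Pr.Et l t (Pr.Dk 1 l t)
/-- `χ_x = E [Φ_xx + x Φ_x²] = 1 - ∫_x^1 Γ` -/
def cx (l : List (ℝ × ℝ)) (x t : ℝ) : ℝ := XX l t + x * Pr.Gam l t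
/-- `∫_0^x q² dx` -/
def I2 (l : List (ℝ × ℝ)) (x t : ℝ) : ℝ := x * Pr.Gam l t ^ 2 - J2 l t


theorem Iz_zero (l : List (ℝ × ℝ)) (f : ℝ → ℝ) : Iz l f 0 = 0 := by simp [Iz]

theorem Iz_cont (h : AP l) {f : ℝ → ℝ} (hf : ContinuousOn f (Icc 0 (TT l))) :
    ContinuousOn (Iz l f) (Icc 0 (TT l)) := by
  have := intervalIntegral.continuousOn_primitive_interval' (a := 0)
    (ii_lvr_mul h.adm hf ⟨le_rfl, h.TT_nn⟩ ⟨h.TT_nn, le_rfl⟩) left_mem_uIcc
  rwa [uIcc_of_le h.TT_nn] at this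

theorem Iz_rder (h : AP l) {f : ℝ → ℝ} (hf : ContinuousOn f (Icc 0 (TT l))) (h0 : 0 ≤ t)
    (h1 : t < TT l) : HasDerivWithinAt (Iz l f) (lvr 1 l t * f t) (Ici t) t := by
  obtain ⟨e, _, a1, _, _, _, _, _, a7⟩ := PhiT_local one_pos h.adm h0 h1
  refine intervalIntegral.integral_hasDerivWithinAt_right (t := Ioi t)
    (ii_lvr_mul h.adm hf ⟨le_rfl, h.TT_nn⟩ ⟨h0, h1.le⟩) ⟨Ioc t (TT l), Ioc_mem_nhdsGT h1,
      (ii_lvr_mul h.adm hf ⟨h0, h1.le⟩ ⟨h.TT_nn, le_rfl⟩).1.aestronglyMeasurable⟩ ?_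
  refine ContinuousWithinAt.mul ?_
    ((hf t ⟨h0, h1.le⟩).mono_of_mem_nhdsWithin (Icc_mem_nhdsGT_of_mem ⟨h0, h1⟩))
  refine (continuousWithinAt_const (b := lvr 1 l t)).congr_of_eventuallyEq ?_ rfl
  filter_upwards [Ioo_mem_nhdsGT a1] with r hr
  exact a7 r ⟨hr.1.le, hr.2⟩

theorem mvt0 {φ φ' : ℝ → ℝ} {T K : ℝ} (h0 : 0 ≤ t) (hT : t ≤ T) (hc : ContinuousOn φ (Icc 0 T))
    (hd : ∀ r, 0 ≤ r → r < T → HasDerivWithinAt φ (φ' r) (Ici r) r)
    (hb : ∀ r, 0 ≤ r → r < t → |φ' r| ≤ K) : |φ t - φ 0| ≤ K * t := by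
  have := abs_sub_le_of_rder (C := K) hc (fun r hr => hd r hr.1 hr.2) ⟨le_rfl, h0.trans hT⟩ ⟨h0, hT⟩
    fun r hr => by
      rw [min_eq_left h0, max_eq_right h0] at hr
      exact hb r hr.1 hr.2
  rwa [sub_zero, abs_of_nonneg h0] at this

/-- time `t` and tilts before `t` are of size `u ≤ 1` -/
structure Sm (l : List (ℝ × ℝ)) (t u : ℝ) : Prop where
  t0 : 0 ≤ t
  tT : t ≤ TT l
  tu : t ≤ u
  u1 : u ≤ 1
  hz : ∀ s, 0 ≤ s → s < t → lvr 1 l s ≤ u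

theorem Sm.mono (h : Sm l t u) {s : ℝ} (h0 : 0 ≤ s) (h1 : s < t) : Sm l s u :=
  ⟨h0, h1.le.trans h.tT, h1.le.trans h.tu, h.u1, fun r a b => h.hz r a (b.trans h1)⟩

theorem Sm.u0 (h : Sm l t u) : 0 ≤ u := h.t0.trans h.tu

theorem rd_id (r : ℝ) : HasDerivWithinAt (fun s : ℝ => s) 1 (Ici r) r := hasDerivWithinAt_id r _

section est
variable (h : AP l) (hs : Sm l t u)
include h hs

theorem Iz_le {f : ℝ → ℝ} (hf : ContinuousOn f (Icc 0 (TT l))) {K : ℝ}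
    (hK : ∀ r, 0 ≤ r → r < t → |f r| ≤ K) : |Iz l f t| ≤ u * K * t := by
  have := mvt0 (K := u * K) hs.t0 hs.tT (Iz_cont h hf) (fun r a b => Iz_rder h hf a b)
    fun r a b => by
      rw [abs_mul, abs_of_pos (lvr_pos h.adm r)]
      exact mul_le_mul (hs.hz r a b) (hK r a b) (abs_nonneg _) hs.u0
  rwa [Iz_zero, sub_zero] at this

theorem Z1_le : |Z1 l t| ≤ u * t := by
  have := Iz_le h hs (f := fun _ => 1) continuousOn_const (K := 1) fun _ _ _ => by simp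
  rwa [mul_one] at this

theorem M1_le : |M1 l t| ≤ u * t ^ 2 := by
  have := Iz_le h hs (f := fun s => s) continuousOn_id (K := t) fun r a b => by
    rw [abs_of_nonneg a]; exact b.le
  rwa [mul_assoc, ← sq] at this

theorem A_est : |Am l t - Ode3.chi l ^ 3| ≤ 15 * u * t := by
  have := mvt0 (K := 15 * u) hs.t0 hs.tT (Am_cont h) (fun r a b => Am_rder h a b) fun r a b => by
    have a1 := Bm_nonneg h.adm r
    have a2 := Bm_le h ⟨a, b.le.trans hs.tT⟩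
    have a3 := mul_nonneg (lvr_pos h.adm r).le (A4_nonneg h.adm r)
    have a4 := mul_le_mul (hs.hz r a b) (A4_le_one h.adm r) (A4_nonneg h.adm r) hs.u0
    rw [abs_le]
    constructor <;> linarith [hs.tu, hs.u0]
  rwa [Am_zero h] at this

theorem G_est0 : |Gp l t - Ode3.chi l ^ 2| ≤ 6 * u * t := by
  have := mvt0 (K := 6 * u) hs.t0 hs.tT (Gp_cont h) (fun r a b => Gp_rder h a b) fun r a b => by
    have a1 := Nm_nonneg l r
    have a2 := Nm_le h ⟨a, b.le.trans hs.tT⟩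
    have a3 := mul_nonneg (lvr_pos h.adm r).le (Am_nonneg h.adm r)
    have a4 := mul_le_mul (hs.hz r a b) (Am_le_one h.adm r) (Am_nonneg h.adm r) hs.u0
    rw [abs_le]
    constructor <;> linarith [hs.tu, hs.u0]
  rwa [Gp_zero h] at this

theorem Gam_est0 : |Ode3.Gam l t - Ode3.chi l ^ 2 * t| ≤ 6 * u * t ^ 2 := by
  have := mvt0 (φ := fun s => Ode3.Gam l s - Ode3.chi l ^ 2 * s) (K := 6 * u * t) hs.t0 hs.tT
    ((Gam_cont h).sub (by fun_prop))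
    (fun r a b => (Gam_rder h a b).fun_sub ((rd_id r).const_mul _)) fun r a b => by
      rw [mul_one]
      exact (G_est0 h (hs.mono a b)).trans (mul_le_mul_of_nonneg_left b.le (by linarith [hs.u0]))
  rw [Gam_zero h] at this
  simpa [mul_assoc, sq] using this

theorem X_est : |X2 l t - (Ode3.chi l - Ode3.chi l ^ 2 * Z1 l t)| ≤ 6 * u ^ 2 * t ^ 2 := by
  have := mvt0 (φ := fun s => X2 l s + Ode3.chi l ^ 2 * Z1 l s) (K := u * (6 * u * t)) hs.t0 hs.tT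
    ((X2_cont h).add ((Iz_cont h continuousOn_const).const_smul (Ode3.chi l ^ 2)))
    (fun r a b => (X2_rder h a b).fun_add ((Iz_rder h continuousOn_const a b).const_mul _))
    fun r a b => by
      rw [show -(lvr 1 l r * Gp l r) + Ode3.chi l ^ 2 * (lvr 1 l r * 1) =
        -(lvr 1 l r * (Gp l r - Ode3.chi l ^ 2)) by ring, abs_neg, abs_mul,
        abs_of_pos (lvr_pos h.adm r)]
      exact mul_le_mul (hs.hz r a b) ((G_est0 h (hs.mono a b)).trans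
        (mul_le_mul_of_nonneg_left b.le (by linarith [hs.u0]))) (abs_nonneg _) hs.u0
  rw [X2_zero h, Z1, Iz_zero] at this
  convert this using 1
  · rw [Z1]; congr 1; ring
  · ring

theorem J2_est : |J2 l t - 2 * Ode3.chi l ^ 4 * M1 l t| ≤ 24 * u ^ 2 * t ^ 3 := by
  have c1 : ContinuousOn (fun s => 2 * Ode3.Gam l s * Gp l s) (Icc 0 (TT l)) :=
    (continuousOn_const.mul (Gam_cont h)).mul (Gp_cont h)
  have := mvt0 (φ := fun s => J2 l s - 2 * Ode3.chi l ^ 4 * M1 l s) (K := u * (24 * u * t ^ 2))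
    hs.t0 hs.tT ((Iz_cont h c1).sub ((Iz_cont h continuousOn_id).const_smul (2 * Ode3.chi l ^ 4)))
    (fun r a b => (Iz_rder h c1 a b).fun_sub ((Iz_rder h continuousOn_id a b).const_mul _))
    fun r a b => by
      rw [show lvr 1 l r * (2 * Ode3.Gam l r * Gp l r) - 2 * Ode3.chi l ^ 4 * (lvr 1 l r * id r) =
        lvr 1 l r * (2 * ((Ode3.Gam l r - Ode3.chi l ^ 2 * r) * Gp l r +
          Ode3.chi l ^ 2 * r * (Gp l r - Ode3.chi l ^ 2))) by rw [id]; ring, abs_mul,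
        abs_of_pos (lvr_pos h.adm r)]
      refine mul_le_mul (hs.hz r a b) ?_ (abs_nonneg _) hs.u0
      have a1 := Gam_est0 h (hs.mono a b)
      have a2 := G_est0 h (hs.mono a b)
      have c2 : Ode3.chi l ^ 2 ≤ 1 := pow_le_one₀ (chi_pos h).le (chi_le h)
      have b1 : |(Ode3.Gam l r - Ode3.chi l ^ 2 * r) * Gp l r| ≤ 6 * u * r ^ 2 := by
        rw [abs_mul, abs_of_nonneg (Gp_nonneg l r)]
        exact (mul_le_of_le_one_right (abs_nonneg _) (Gp_le_one h.adm r)).trans a1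
      have b2 : |Ode3.chi l ^ 2 * r * (Gp l r - Ode3.chi l ^ 2)| ≤ r * (6 * u * r) := by
        rw [abs_mul, abs_of_nonneg (mul_nonneg (sq_nonneg _) a)]
        exact mul_le_mul (mul_le_of_le_one_left a c2) a2 (abs_nonneg _) a
      have b3 : u * r ^ 2 ≤ u * t ^ 2 :=
        mul_le_mul_of_nonneg_left (pow_le_pow_left₀ a b.le 2) hs.u0
      rw [abs_mul, abs_two]
      nlinarith [abs_add_le ((Ode3.Gam l r - Ode3.chi l ^ 2 * r) * Gp l r)
        (Ode3.chi l ^ 2 * r * (Gp l r - Ode3.chi l ^ 2))]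
  rw [J2, M1, Iz_zero, Iz_zero] at this
  convert this using 1
  · rw [J2, M1]; congr 1; ring
  · ring

variable {C : ℝ} (hC : 0 ≤ C) (hN : ∀ s ∈ Icc 0 (TT l), |Ode3.N4 l s - kk l ^ 2| ≤ C * s)
include hC hN

theorem N_est : |Nm l t - kk l ^ 2 * t| ≤ (C + 24) * t ^ 2 := by
  have := mvt0 (φ := fun s => Nm l s - kk l ^ 2 * s) (K := (C + 24) * t) hs.t0 hs.tT
    ((Nm_cont h).sub (by fun_prop))
    (fun r a b => (Nm_rder h a b).fun_sub ((rd_id r).const_mul _)) fun r a b => by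
      have a0 := abs_le.1 (hN r ⟨a, b.le.trans hs.tT⟩)
      have a1 := Bm_nonneg h.adm r
      have a2 := Bm_le h ⟨a, b.le.trans hs.tT⟩
      have a3 := mul_nonneg (lvr_pos h.adm r).le a1
      have a4 := mul_le_of_le_one_left a1 (lvr_le_one h.adm r)
      have a5 := mul_le_mul_of_nonneg_left b.le hC
      rw [abs_le]
      constructor <;> nlinarith [a0.1, a0.2]
  rw [Nm_zero h] at this
  simpa [mul_assoc, sq] using this

theorem G_est : |Gp l t - (Ode3.chi l ^ 2 + kk l ^ 2 * t ^ 2 / 2 - 2 * Ode3.chi l ^ 3 * Z1 l t)| ≤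
    (C + 54) * u * t ^ 2 := by
  have := mvt0 (φ := fun s => Gp l s - kk l ^ 2 * s ^ 2 / 2 + 2 * Ode3.chi l ^ 3 * Z1 l s)
    (K := (C + 54) * u * t) hs.t0 hs.tT
    (((Gp_cont h).sub (by fun_prop)).add
      ((Iz_cont h continuousOn_const).const_smul (2 * Ode3.chi l ^ 3)))
    (fun r a b => ((Gp_rder h a b).fun_sub ((((rd_id r).fun_pow 2).const_mul _).div_const 2)).fun_add
      ((Iz_rder h continuousOn_const a b).const_mul _)) fun r a b => by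
      have a1 := abs_le.1 (N_est h (hs.mono a b) hC hN)
      have a2 : |lvr 1 l r * (Am l r - Ode3.chi l ^ 3)| ≤ u * (15 * u * r) := by
        rw [abs_mul, abs_of_pos (lvr_pos h.adm r)]
        exact mul_le_mul (hs.hz r a b) (A_est h (hs.mono a b)) (abs_nonneg _) hs.u0
      have a3 : r ^ 2 ≤ u * t := by
        rw [sq]; exact mul_le_mul (b.le.trans hs.tu) b.le a hs.u0
      have a4 : u * (u * r) ≤ u * t :=
        mul_le_mul_of_nonneg_left ((mul_le_of_le_one_left a hs.u1).trans b.le) hs.u0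
      have a5 := mul_le_mul_of_nonneg_left a3 (show 0 ≤ C + 24 by linarith)
      rw [abs_le] at a2 ⊢
      simp only [Nat.cast_ofNat, Nat.add_one_sub_one, pow_one, mul_one]
      constructor <;> nlinarith [a1.1, a1.2, a2.1, a2.2]
  rw [Gp_zero h, Z1, Iz_zero] at this
  convert this using 1
  · rw [Z1]; congr 1; ring
  · ring

theorem Gam_est : |Ode3.Gam l t - (Ode3.chi l ^ 2 * t + kk l ^ 2 * t ^ 3 / 6 -
    2 * Ode3.chi l ^ 3 * (t * Z1 l t - M1 l t))| ≤ (C + 54) * u * t ^ 3 := by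
  have := mvt0 (φ := fun s => Ode3.Gam l s - (Ode3.chi l ^ 2 * s + kk l ^ 2 * s ^ 3 / 6 -
      2 * Ode3.chi l ^ 3 * (s * Z1 l s - M1 l s))) (K := (C + 54) * u * t ^ 2) hs.t0 hs.tT
    ((Gam_cont h).sub (ContinuousOn.sub (by fun_prop) (continuousOn_const.mul
      ((continuousOn_id.mul (Iz_cont h continuousOn_const)).sub (Iz_cont h continuousOn_id)))))
    (fun r a b => (Gam_rder h a b).fun_sub ((((rd_id r).const_mul _).fun_add
      ((((rd_id r).fun_pow 3).const_mul _).div_const 6)).fun_sub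
      ((((rd_id r).fun_mul (Iz_rder h continuousOn_const a b)).fun_sub
        (Iz_rder h continuousOn_id a b)).const_mul _))) fun r a b => by
      refine le_trans (le_of_eq ?_) ((G_est h (hs.mono a b) hC hN).trans
        (mul_le_mul_of_nonneg_left (pow_le_pow_left₀ a b.le 2)
          (mul_nonneg (by linarith) hs.u0)))
      congr 1
      simp only [Z1, id]
      push_cast
      ring
  rw [Gam_zero h, M1, Iz_zero] at this
  convert this using 1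
  · rw [M1]; congr 1; ring
  · ring

end est

/-- **small-time expansions**, names of `PrDef_28` -/
theorem expand (T0 : ℝ) : ∃ C : ℝ, 1 ≤ C ∧ ∀ l, Ok l → TT l ≤ T0 → |k4 l| ≤ C ∧ ∀ t u, Sm l t u →
    |AA l t - Pr.chi l ^ 3| ≤ C * u * t ∧ |NN l t - k4 l ^ 2 * t| ≤ C * t ^ 2 ∧
    |GG l t - Pr.chi l ^ 2| ≤ C * u * t ∧
    |GG l t - (Pr.chi l ^ 2 + k4 l ^ 2 * t ^ 2 / 2 - 2 * Pr.chi l ^ 3 * Z1 l t)| ≤ C * u * t ^ 2 ∧
    |Pr.Gam l t - Pr.chi l ^ 2 * t| ≤ C * u * t ^ 2 ∧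
    |Pr.Gam l t - (Pr.chi l ^ 2 * t + k4 l ^ 2 * t ^ 3 / 6 -
      2 * Pr.chi l ^ 3 * (t * Z1 l t - M1 l t))| ≤ C * u * t ^ 3 ∧
    |XX l t - (Pr.chi l - Pr.chi l ^ 2 * Z1 l t)| ≤ C * u ^ 2 * t ^ 2 ∧
    |J2 l t - 2 * Pr.chi l ^ 4 * M1 l t| ≤ C * u ^ 2 * t ^ 3 := by
  obtain ⟨C, hC, hN⟩ := N4_lip T0
  obtain ⟨K, hK, hD⟩ := Dn_PhiT T0 3
  refine ⟨C + 54 + K, by linarith, fun l hl hT => ⟨(hD l hl.1 hT 0 le_rfl 3 le_rfl 0).trans
    (by linarith), fun t u hs => ?_⟩⟩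
  have h := AP.of_ok hl
  have hN' : ∀ s ∈ Icc 0 (TT l), |Ode3.N4 l s - kk l ^ 2| ≤ C * s := fun s hs => by
    have := hN l h hT 0 ⟨le_rfl, h.TT_nn⟩ s hs
    rwa [N4_zero h, sub_zero, abs_of_nonneg hs.1] at this
  have c0 : 0 ≤ C := by linarith
  have t0 := hs.t0
  have u0 := hs.u0
  have d1 : 15 ≤ C + 54 + K := by linarith
  have d2 : C + 24 ≤ C + 54 + K := by linarith
  have d3 : C + 54 ≤ C + 54 + K := by linarith
  have d4 : 6 ≤ C + 54 + K := by linarith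
  have d5 : 24 ≤ C + 54 + K := by linarith
  generalize C + 54 + K = D at d1 d2 d3 d4 d5 ⊢
  rw [chi_eq h, kk_eq h]
  refine ⟨(A_est h hs).trans ?_, (N_est h hs c0 hN').trans ?_, (G_est0 h hs).trans ?_,
    (G_est h hs c0 hN').trans ?_, (Gam_est0 h hs).trans ?_, (Gam_est h hs c0 hN').trans ?_,
    (X_est h hs).trans ?_, (J2_est h hs).trans ?_⟩ <;> gcongr

/-! ### node sums -/

section nodes
open Finset Crest.Agent.T156.Pp.Area50
variable {z s : ℕ → ℝ} {N : ℕ}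



variable (hz : Lab z N) (h0 : s 0 = 0) (hs : StrictMono s)
include hz h0 hs









end nodes

end

end Crest.Agent.T156.Pr.Exp50
end

-- ▼ part T156/PExpB_50
section

/-!
Row 156 (helper50): the site constants (Mu), (A), (B), (H), (E) of docs/T156_40C.md and
docs/T156_58.md for every admissible list, in terms of `Z1 = ∫ zh`, `M1 = ∫ s zh`,
`eps0 = 1 - b χ²`.
-/

set_option autoImplicit false

namespace Crest.Agent.T156.Pr.Exp50

open Crest.Agent.R164.GC Crest.Agent.R339.B Crest.Agent.R339.Var Crest.Agent.T157.Pf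
open Crest.Agent.T156.Pp Crest.Agent.T156.Pp.Ode3

noncomputable section

/-- `1 - b χ²` -/
def eps0 (b : ℝ) (l : List (ℝ × ℝ)) : ℝ := 1 - b * Pr.chi l ^ 2
/-- `μ = 1 - b χ_x²` -/
def mu (b : ℝ) (l : List (ℝ × ℝ)) (x t : ℝ) : ℝ := 1 - b * cx l x t ^ 2
/-- `e = 1 - b Γ'` -/
def ev (b : ℝ) (l : List (ℝ × ℝ)) (t : ℝ) : ℝ := 1 - b * GG l t
/-- the mark `h = σ - b q` -/
def hv (b : ℝ) (l : List (ℝ × ℝ)) (t : ℝ) : ℝ := t - b * Pr.Gam l t
/-- `k4 = b⁴ k² / 12` -/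
def kc (b : ℝ) (l : List (ℝ × ℝ)) : ℝ := b ^ 4 * k4 l ^ 2 / 12
/-- (A) -/
def Aq (b : ℝ) (l : List (ℝ × ℝ)) (x t : ℝ) : ℝ := mu b l x t + √b * x * Pr.Gam l t
/-- (B) -/
def Bq (l : List (ℝ × ℝ)) (x t : ℝ) : ℝ := x * Pr.Gam l t ^ 2 - 3 * I2 l x t
/-- (E), first expression -/
def E1 (b : ℝ) (l : List (ℝ × ℝ)) (x t : ℝ) : ℝ :=
  b / 2 * mu b l x t * Pr.Gam l t - hv b l t / 2 - kc b l * Pr.Gam l t ^ 3 +
    b * √b / 2 * (x * Pr.Gam l t ^ 2 + I2 l x t)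
/-- (E), second expression -/
def E2 (b : ℝ) (l : List (ℝ × ℝ)) (x t : ℝ) : ℝ :=
  b / 2 * mu b l x t - 3 * kc b l * Pr.Gam l t ^ 2 + b * √b * x * Pr.Gam l t - b / 2 * ev b l t

/-- the data of one site -/
structure Pt (T0 B0 : ℝ) where
  l : List (ℝ × ℝ)
  t : ℝ
  u : ℝ
  x : ℝ
  b : ℝ
  ok : Ok l
  hT : TT l ≤ T0
  sm : Sm l t u
  x0 : 0 ≤ x
  xu : x ≤ u
  b0 : 0 ≤ b
  bB : b ≤ B0

variable {T0 B0 : ℝ}

/-- `f = O(u^k)` uniformly -/
def OO (k : ℕ) (f : Pt T0 B0 → ℝ) : Prop := ∃ K, 0 ≤ K ∧ ∀ p, |f p| ≤ K * p.u ^ k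

namespace OO
variable {a b : ℕ} {f g : Pt T0 B0 → ℝ}

theorem weak (h : OO a f) (hb : b ≤ a) : OO b f := by
  obtain ⟨K, hK, h⟩ := h
  exact ⟨K, hK, fun p => (h p).trans
    (mul_le_mul_of_nonneg_left (pow_le_pow_of_le_one p.sm.u0 p.sm.u1 hb) hK)⟩

theorem const (c : ℝ) : OO 0 fun _ : Pt T0 B0 => c := ⟨|c|, abs_nonneg c, fun _ => by simp⟩

theorem add (hf : OO a f) (hg : OO b g) : OO (min a b) fun p => f p + g p := by
  obtain ⟨K, hK, h⟩ := hf.weak (min_le_left a b)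
  obtain ⟨L, hL, h'⟩ := hg.weak (min_le_right a b)
  exact ⟨K + L, add_nonneg hK hL, fun p => (abs_add_le _ _).trans (by
    rw [add_mul]; exact add_le_add (h p) (h' p))⟩

theorem mul (hf : OO a f) (hg : OO b g) : OO (a + b) fun p => f p * g p := by
  obtain ⟨K, hK, h⟩ := hf
  obtain ⟨L, hL, h'⟩ := hg
  refine ⟨K * L, mul_nonneg hK hL, fun p => ?_⟩
  rw [abs_mul, pow_add, mul_mul_mul_comm]
  exact mul_le_mul (h p) (h' p) (abs_nonneg _) (mul_nonneg hK (pow_nonneg p.sm.u0 _))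

theorem neg (hf : OO a f) : OO a fun p => -f p := by
  obtain ⟨K, hK, h⟩ := hf
  exact ⟨K, hK, fun p => by rw [abs_neg]; exact h p⟩

theorem sub (hf : OO a f) (hg : OO b g) : OO (min a b) fun p => f p - g p := by
  simpa only [sub_eq_add_neg] using hf.add hg.neg

theorem pow (n : ℕ) (hf : OO a f) : OO (a * n) fun p => f p ^ n := by
  obtain ⟨K, hK, h⟩ := hf
  refine ⟨K ^ n, pow_nonneg hK n, fun p => ?_⟩
  rw [abs_pow, pow_mul, ← mul_pow]
  exact pow_le_pow_left₀ (abs_nonneg _) (h p) n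

theorem div (c : ℝ) (hf : OO a f) : OO a fun p => f p / c := by
  simpa only [div_eq_mul_inv, add_zero] using hf.mul (const c⁻¹)

theorem of_eq (hf : OO a f) (e : ∀ p, g p = f p) : OO a g := by
  rwa [show g = f from funext e]

end OO

/-- bottom-up order count -/
macro "ord50" : tactic => `(tactic| (
  apply OO.weak
  · repeat' first
      | assumption | exact OO.const _ | apply OO.add | apply OO.sub | apply OO.mul
      | apply OO.pow | apply OO.neg | apply OO.div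
  · decide))

section atoms
variable (T0 B0)

theorem o_chi : OO 0 fun p : Pt T0 B0 => Pr.chi p.l := ⟨1, zero_le_one, fun p => by
  have h := AP.of_ok p.ok
  beta_reduce
  rw [chi_eq h, abs_of_pos (chi_pos h)]
  simpa using chi_le h⟩

theorem o_b : OO 0 fun p : Pt T0 B0 => p.b := ⟨|B0|, abs_nonneg _, fun p => by
  rw [abs_of_nonneg p.b0, pow_zero, mul_one]; exact p.bB.trans (le_abs_self _)⟩

theorem o_r : OO 0 fun p : Pt T0 B0 => √p.b := ⟨√B0, Real.sqrt_nonneg _, fun p => by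
  rw [abs_of_nonneg (Real.sqrt_nonneg _), pow_zero, mul_one]; exact Real.sqrt_le_sqrt p.bB⟩

theorem o_t : OO 1 fun p : Pt T0 B0 => p.t := ⟨1, zero_le_one, fun p => by
  rw [abs_of_nonneg p.sm.t0, pow_one, one_mul]; exact p.sm.tu⟩

theorem o_x : OO 1 fun p : Pt T0 B0 => p.x := ⟨1, zero_le_one, fun p => by
  rw [abs_of_nonneg p.x0, pow_one, one_mul]; exact p.xu⟩

variable {T0 B0} in
theorem oo_of {f : Pt T0 B0 → ℝ} {C : ℝ} (hC : 0 ≤ C) (i j : ℕ)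
    (h : ∀ p, |f p| ≤ C * p.u ^ i * p.t ^ j) : OO (i + j) f := ⟨C, hC, fun p => (h p).trans (by
  rw [pow_add, ← mul_assoc]
  exact mul_le_mul_of_nonneg_left (pow_le_pow_left₀ p.sm.t0 p.sm.tu j)
    (mul_nonneg hC (pow_nonneg p.sm.u0 i)))⟩

theorem o_Z : OO 2 fun p : Pt T0 B0 => Z1 p.l p.t :=
  oo_of zero_le_one 1 1 fun p => by simpa using Z1_le (AP.of_ok p.ok) p.sm

theorem o_M : OO 3 fun p : Pt T0 B0 => M1 p.l p.t :=
  oo_of zero_le_one 1 2 fun p => by simpa using M1_le (AP.of_ok p.ok) p.sm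

end atoms

/-- remainders -/
def dG (l : List (ℝ × ℝ)) (t : ℝ) : ℝ :=
  GG l t - (Pr.chi l ^ 2 + k4 l ^ 2 * t ^ 2 / 2 - 2 * Pr.chi l ^ 3 * Z1 l t)
def dq0 (l : List (ℝ × ℝ)) (t : ℝ) : ℝ := Pr.Gam l t - Pr.chi l ^ 2 * t
def dq (l : List (ℝ × ℝ)) (t : ℝ) : ℝ :=
  Pr.Gam l t - (Pr.chi l ^ 2 * t + k4 l ^ 2 * t ^ 3 / 6 - 2 * Pr.chi l ^ 3 * (t * Z1 l t - M1 l t))
def dX (l : List (ℝ × ℝ)) (t : ℝ) : ℝ := XX l t - (Pr.chi l - Pr.chi l ^ 2 * Z1 l t)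
def dJ (l : List (ℝ × ℝ)) (t : ℝ) : ℝ := J2 l t - 2 * Pr.chi l ^ 4 * M1 l t
def dc (l : List (ℝ × ℝ)) (x t : ℝ) : ℝ := cx l x t - (Pr.chi l + Pr.chi l ^ 2 * (x * t - Z1 l t))
def dmu (b : ℝ) (l : List (ℝ × ℝ)) (x t : ℝ) : ℝ :=
  mu b l x t - (eps0 b l - 2 * b * Pr.chi l ^ 3 * (x * t - Z1 l t))

theorem o_rem (T0 B0 : ℝ) : (OO 0 fun p : Pt T0 B0 => k4 p.l) ∧
    (OO 3 fun p : Pt T0 B0 => dG p.l p.t) ∧ (OO 3 fun p : Pt T0 B0 => dq0 p.l p.t) ∧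
    (OO 4 fun p : Pt T0 B0 => dq p.l p.t) ∧ (OO 4 fun p : Pt T0 B0 => dX p.l p.t) ∧
    (OO 5 fun p : Pt T0 B0 => dJ p.l p.t) := by
  obtain ⟨C, hC, h⟩ := expand T0
  have c0 : 0 ≤ C := by linarith
  have H := fun p : Pt T0 B0 => (h p.l p.ok p.hT).2 p.t p.u p.sm
  refine ⟨⟨C, c0, fun p => by simpa using (h p.l p.ok p.hT).1⟩,
    oo_of c0 1 2 fun p => ?_, oo_of c0 1 2 fun p => ?_, oo_of c0 1 3 fun p => ?_,
    oo_of c0 2 2 fun p => (H p).2.2.2.2.2.2.1, oo_of c0 2 3 fun p => (H p).2.2.2.2.2.2.2⟩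
  · rw [pow_one]; exact (H p).2.2.2.1
  · rw [pow_one]; exact (H p).2.2.2.2.1
  · rw [pow_one]; exact (H p).2.2.2.2.2.1

theorem rho_le {b c : ℝ} (hb : 0 ≤ b) (hc : 0 ≤ c) : |√b * c - 1| ≤ |1 - b * c ^ 2| := by
  have e : 1 - b * c ^ 2 = -((√b * c - 1) * (√b * c + 1)) := by
    have := Real.sq_sqrt hb
    linear_combination (c ^ 2) * this
  have : 0 ≤ √b * c := mul_nonneg (Real.sqrt_nonneg _) hc
  rw [e, abs_neg, abs_mul]
  exact le_mul_of_one_le_right (abs_nonneg _) (by rw [abs_of_nonneg (by linarith)]; linarith)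

/-- assembling `eps0 a1 + ρ a2 + a3` -/
theorem asm1 {j k : ℕ} {f a1 a2 a3 : Pt T0 B0 → ℝ} (h1 : OO j a1) (h2 : OO j a2)
    (h3 : OO k a3) (e : ∀ p, f p = eps0 p.b p.l * a1 p +
      (√p.b * Pr.chi p.l - 1) * a2 p + a3 p) :
    ∃ K, 0 ≤ K ∧ ∀ (p : Pt T0 B0) (ε : ℝ), |eps0 p.b p.l| ≤ ε →
      |f p| ≤ K * (ε * p.u ^ j + p.u ^ k) := by
  obtain ⟨K1, k1, h1⟩ := h1
  obtain ⟨K2, k2, h2⟩ := h2
  obtain ⟨K3, k3, h3⟩ := h3
  refine ⟨K1 + K2 + K3, by positivity, fun p ε hε => ?_⟩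
  have h := AP.of_ok p.ok
  have e0 : 0 ≤ ε := (abs_nonneg _).trans hε
  have hr : |√p.b * Pr.chi p.l - 1| ≤ ε :=
    (rho_le p.b0 (by rw [chi_eq h]; exact (chi_pos h).le)).trans hε
  have u0 := p.sm.u0
  have b1 : |eps0 p.b p.l * a1 p| ≤ ε * (K1 * p.u ^ j) := by
    rw [abs_mul]; exact mul_le_mul hε (h1 p) (abs_nonneg _) e0
  have b2 : |(√p.b * Pr.chi p.l - 1) * a2 p| ≤ ε * (K2 * p.u ^ j) := by
    rw [abs_mul]; exact mul_le_mul hr (h2 p) (abs_nonneg _) e0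
  have b3 := h3 p
  have p2 : 0 ≤ ε * p.u ^ j := by positivity
  have p3 : 0 ≤ p.u ^ k := by positivity
  rw [e]
  refine ((abs_add_le _ _).trans (add_le_add ((abs_add_le _ _).trans (add_le_add b1 b2)) b3)).trans ?_
  nlinarith [mul_nonneg k1 p3, mul_nonneg k2 p3, mul_nonneg k3 p2]

/-- assembling `eps0² a0 + eps0 a1 + ρ a2 + a3` -/
theorem asm {i j k : ℕ} {f a0 a1 a2 a3 : Pt T0 B0 → ℝ} (h0 : OO i a0) (h1 : OO j a1) (h2 : OO j a2)
    (h3 : OO k a3) (e : ∀ p, f p = eps0 p.b p.l ^ 2 * a0 p + eps0 p.b p.l * a1 p +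
      (√p.b * Pr.chi p.l - 1) * a2 p + a3 p) :
    ∃ K, 0 ≤ K ∧ ∀ (p : Pt T0 B0) (ε : ℝ), |eps0 p.b p.l| ≤ ε →
      |f p| ≤ K * (ε ^ 2 * p.u ^ i + ε * p.u ^ j + p.u ^ k) := by
  obtain ⟨K0, k0, h0⟩ := h0
  obtain ⟨K1, k1, h1⟩ := asm1 (f := fun p => f p - eps0 p.b p.l ^ 2 * a0 p) h1 h2 h3 fun p => by
    rw [e]; ring
  refine ⟨K0 + K1, by positivity, fun p ε hε => ?_⟩
  have e0 : 0 ≤ ε := (abs_nonneg _).trans hε
  have u0 := p.sm.u0
  have b0 : |eps0 p.b p.l ^ 2 * a0 p| ≤ ε ^ 2 * (K0 * p.u ^ i) := by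
    rw [abs_mul, abs_pow]
    exact mul_le_mul (pow_le_pow_left₀ (abs_nonneg _) hε 2) (h0 p) (abs_nonneg _) (by positivity)
  have b1 := h1 p ε hε
  have p1 : 0 ≤ ε ^ 2 * p.u ^ i := by positivity
  have p2 : 0 ≤ ε * p.u ^ j := by positivity
  have p3 : 0 ≤ p.u ^ k := by positivity
  have := abs_add_le (eps0 p.b p.l ^ 2 * a0 p) (f p - eps0 p.b p.l ^ 2 * a0 p)
  rw [add_sub_cancel] at this
  nlinarith [mul_nonneg k0 p2, mul_nonneg k0 p3, mul_nonneg k1 p1]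

theorem o_zero (k : ℕ) : OO k fun _ : Pt T0 B0 => (0 : ℝ) := ⟨0, le_rfl, fun _ => by simp⟩

/-- **the site constants** -/
theorem consts (T0 B0 : ℝ) : ∃ C : ℝ, 1 ≤ C ∧ ∀ (l : List (ℝ × ℝ)) (t u x b ε : ℝ), Ok l →
    TT l ≤ T0 → Sm l t u → 0 ≤ x → x ≤ u → 0 ≤ b → b ≤ B0 → |eps0 b l| ≤ ε →
    |cx l x t - Pr.chi l| ≤ C * u ^ 2 ∧
    |cx l x t - (Pr.chi l + Pr.chi l ^ 2 * (x * t - Z1 l t))| ≤ C * u ^ 4 ∧
    |mu b l x t - (eps0 b l - 2 * b * Pr.chi l ^ 3 * (x * t - Z1 l t))| ≤ C * u ^ 4 ∧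
    |ev b l t - (eps0 b l - b * k4 l ^ 2 * t ^ 2 / 2 + 2 * b * Pr.chi l ^ 3 * Z1 l t)| ≤
      C * u ^ 3 ∧
    |hv b l t - (eps0 b l * t - b * k4 l ^ 2 * t ^ 3 / 6 +
      2 * b * Pr.chi l ^ 3 * (t * Z1 l t - M1 l t))| ≤ C * u ^ 4 ∧
    |t * ev b l t - 3 * hv b l t + 2 * eps0 b l * t +
      2 * b * Pr.chi l ^ 3 * (2 * t * Z1 l t - 3 * M1 l t)| ≤ C * u ^ 4 ∧
    |Aq b l x t - (eps0 b l + √b * Pr.chi l ^ 2 * (2 * Z1 l t - x * t))| ≤
      C * (ε * u ^ 2 + u ^ 4) ∧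
    |Aq b l x t - (eps0 b l + b * Pr.chi l ^ 3 * (2 * Z1 l t - x * t))| ≤
      C * (ε * u ^ 2 + u ^ 4) ∧
    |Bq l x t - 2 * Pr.chi l ^ 4 * (3 * M1 l t - x * t ^ 2)| ≤ C * u ^ 5 ∧
    |E1 b l x t| ≤ C * (ε ^ 2 * u + ε * u ^ 3 + u ^ 4) ∧
    |E2 b l x t| ≤ C * (ε * u ^ 2 + u ^ 3) := by
  have a1 := o_chi T0 B0
  have a2 := o_b T0 B0
  have a3 := o_r T0 B0
  have a4 := o_t T0 B0
  have a5 := o_x T0 B0
  have a6 := o_Z T0 B0
  have a7 := o_M T0 B0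
  obtain ⟨a8, a9, a10, a11, a12, a13⟩ := o_rem T0 B0
  have q1 : OO 1 fun p : Pt T0 B0 => Pr.Gam p.l p.t :=
    OO.of_eq (f := fun p => Pr.chi p.l ^ 2 * p.t + dq0 p.l p.t) (by ord50) fun p => by
      unfold dq0; ring
  have c4 : OO 4 fun p : Pt T0 B0 => dc p.l p.x p.t :=
    OO.of_eq (f := fun p => dX p.l p.t + p.x * dq0 p.l p.t) (by ord50) fun p => by
      unfold dc dX dq0 cx; ring
  have c2 : OO 2 fun p : Pt T0 B0 => cx p.l p.x p.t - Pr.chi p.l :=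
    OO.of_eq (f := fun p => Pr.chi p.l ^ 2 * (p.x * p.t - Z1 p.l p.t) + dc p.l p.x p.t)
      (by ord50) fun p => by unfold dc; ring
  have m4 : OO 4 fun p : Pt T0 B0 => dmu p.b p.l p.x p.t :=
    OO.of_eq (f := fun p => -(p.b * (2 * Pr.chi p.l * dc p.l p.x p.t +
      (Pr.chi p.l ^ 2 * (p.x * p.t - Z1 p.l p.t) + dc p.l p.x p.t) ^ 2))) (by ord50) fun p => by
      unfold dmu mu eps0 dc; ring
  have e3 : OO 3 fun p : Pt T0 B0 => ev p.b p.l p.t - (eps0 p.b p.l -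
      p.b * k4 p.l ^ 2 * p.t ^ 2 / 2 + 2 * p.b * Pr.chi p.l ^ 3 * Z1 p.l p.t) :=
    OO.of_eq (f := fun p => -(p.b * dG p.l p.t)) (by ord50) fun p => by
      unfold ev eps0 dG; ring
  have h4 : OO 4 fun p : Pt T0 B0 => hv p.b p.l p.t - (eps0 p.b p.l * p.t -
      p.b * k4 p.l ^ 2 * p.t ^ 3 / 6 +
      2 * p.b * Pr.chi p.l ^ 3 * (p.t * Z1 p.l p.t - M1 p.l p.t)) :=
    OO.of_eq (f := fun p => -(p.b * dq p.l p.t)) (by ord50) fun p => by
      unfold hv eps0 dq; ring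
  have H4 : OO 4 fun p : Pt T0 B0 => p.t * ev p.b p.l p.t - 3 * hv p.b p.l p.t +
      2 * eps0 p.b p.l * p.t +
      2 * p.b * Pr.chi p.l ^ 3 * (2 * p.t * Z1 p.l p.t - 3 * M1 p.l p.t) :=
    OO.of_eq (f := fun p => 3 * p.b * dq p.l p.t - p.b * p.t * dG p.l p.t) (by ord50) fun p => by
      unfold ev hv eps0 dq dG; ring
  have B5 : OO 5 fun p : Pt T0 B0 => Bq p.l p.x p.t -
      2 * Pr.chi p.l ^ 4 * (3 * M1 p.l p.t - p.x * p.t ^ 2) :=
    OO.of_eq (f := fun p => 3 * dJ p.l p.t -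
      2 * p.x * dq0 p.l p.t * (2 * Pr.chi p.l ^ 2 * p.t + dq0 p.l p.t)) (by ord50) fun p => by
      unfold Bq I2 dJ dq0; ring
  have rr : ∀ p : Pt T0 B0, √p.b ^ 2 = p.b := fun p => Real.sq_sqrt p.b0
  obtain ⟨K1, k1, A1⟩ := asm1 (j := 2) (k := 4) (f := fun p : Pt T0 B0 =>
      Aq p.b p.l p.x p.t - (eps0 p.b p.l + √p.b * Pr.chi p.l ^ 2 * (2 * Z1 p.l p.t - p.x * p.t)))
    (a1 := fun _ => 0)
    (a2 := fun p => -(2 * √p.b * Pr.chi p.l ^ 2 * (p.x * p.t - Z1 p.l p.t)))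
    (a3 := fun p => dmu p.b p.l p.x p.t + √p.b * p.x * dq0 p.l p.t)
    (o_zero _) (by ord50) (by ord50) fun p => by
      unfold Aq dmu dq0
      linear_combination (2 * Pr.chi p.l ^ 3 * (p.x * p.t - Z1 p.l p.t)) * rr p
  obtain ⟨K2, k2, A2⟩ := asm1 (j := 2) (k := 4) (f := fun p : Pt T0 B0 =>
      Aq p.b p.l p.x p.t - (eps0 p.b p.l + p.b * Pr.chi p.l ^ 3 * (2 * Z1 p.l p.t - p.x * p.t)))
    (a1 := fun _ => 0)
    (a2 := fun p => -(√p.b * Pr.chi p.l ^ 2 * (p.x * p.t)))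
    (a3 := fun p => dmu p.b p.l p.x p.t + √p.b * p.x * dq0 p.l p.t)
    (o_zero _) (by ord50) (by ord50) fun p => by
      unfold Aq dmu dq0
      linear_combination (Pr.chi p.l ^ 3 * (p.x * p.t)) * rr p
  obtain ⟨K3, k3, A3⟩ := asm (i := 1) (j := 3) (k := 4)
    (f := fun p : Pt T0 B0 => E1 p.b p.l p.x p.t) (a0 := fun p => -(p.t / 2))
    (a1 := fun p => p.b / 2 * dq0 p.l p.t + p.b * k4 p.l ^ 2 * p.t ^ 3 / 12 *
      (1 + p.b * Pr.chi p.l ^ 2 + (p.b * Pr.chi p.l ^ 2) ^ 2) -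
      p.b * Pr.chi p.l ^ 3 * Z1 p.l p.t * p.t)
    (a2 := fun p => -(p.b * √p.b * Pr.chi p.l ^ 4 * p.x * p.t ^ 2) -
      p.b * Pr.chi p.l ^ 3 * M1 p.l p.t)
    (a3 := fun p => p.b / 2 * (dmu p.b p.l p.x p.t * Pr.Gam p.l p.t -
        2 * p.b * Pr.chi p.l ^ 3 * (p.x * p.t - Z1 p.l p.t) * dq0 p.l p.t) +
      p.b * dq p.l p.t / 2 - p.b ^ 4 * k4 p.l ^ 2 / 12 * dq0 p.l p.t *
        (Pr.Gam p.l p.t ^ 2 + Pr.Gam p.l p.t * Pr.chi p.l ^ 2 * p.t + Pr.chi p.l ^ 4 * p.t ^ 2) +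
      p.b * √p.b / 2 * (2 * p.x * dq0 p.l p.t * (Pr.Gam p.l p.t + Pr.chi p.l ^ 2 * p.t) -
        dJ p.l p.t))
    (by ord50) (by ord50) (by ord50) (by ord50) fun p => by
      unfold E1 hv kc I2 dmu dq0 dq dJ eps0
      linear_combination (p.b * Pr.chi p.l ^ 5 * p.x * p.t ^ 2) * rr p
  obtain ⟨K4, k4', A4⟩ := asm1 (j := 2) (k := 3) (f := fun p : Pt T0 B0 => E2 p.b p.l p.x p.t)
    (a1 := fun p => p.b ^ 2 * k4 p.l ^ 2 * p.t ^ 2 / 4 * (1 + p.b * Pr.chi p.l ^ 2))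
    (a2 := fun p => -(p.b * √p.b * Pr.chi p.l ^ 2 * p.x * p.t))
    (a3 := fun p => p.b / 2 * (dmu p.b p.l p.x p.t + p.b * dG p.l p.t) -
      p.b ^ 4 * k4 p.l ^ 2 / 4 * dq0 p.l p.t * (Pr.Gam p.l p.t + Pr.chi p.l ^ 2 * p.t) +
      p.b * √p.b * p.x * dq0 p.l p.t)
    (by ord50) (by ord50) (by ord50) fun p => by
      unfold E2 ev kc dmu dq0 dG eps0
      linear_combination (p.b * Pr.chi p.l ^ 3 * p.x * p.t) * rr p
  simp only [pow_one] at A3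
  obtain ⟨L1, l1, c2⟩ := c2
  obtain ⟨L2, l2, c4⟩ := c4
  obtain ⟨L3, l3, m4⟩ := m4
  obtain ⟨L4, l4, e3⟩ := e3
  obtain ⟨L5, l5, h4⟩ := h4
  obtain ⟨L6, l6, H4⟩ := H4
  obtain ⟨L7, l7, B5⟩ := B5
  obtain ⟨C, hC⟩ : ∃ C, C = 1 + (L1 + L2 + L3 + L4 + L5 + L6 + L7) + (K1 + K2 + K3 + K4) := ⟨_, rfl⟩
  refine ⟨C, by linarith, fun l t u x b ε ok hT sm x0 xu b0 bB hε => ?_⟩
  let p : Pt T0 B0 := ⟨l, t, u, x, b, ok, hT, sm, x0, xu, b0, bB⟩
  have u0 := sm.u0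
  have e0 : 0 ≤ ε := (abs_nonneg _).trans hε
  refine ⟨(c2 p).trans ?_, (c4 p).trans ?_, (m4 p).trans ?_, (e3 p).trans ?_, (h4 p).trans ?_,
    (H4 p).trans ?_, (A1 p ε hε).trans ?_, (A2 p ε hε).trans ?_, (B5 p).trans ?_,
    (A3 p ε hε).trans ?_, (A4 p ε hε).trans ?_⟩ <;>
  exact mul_le_mul_of_nonneg_right (by linarith) (by positivity)


end

end Crest.Agent.T156.Pr.Exp50
end

-- ▼ part T156/PLin_81
section

/-!
Row 156 (helper81): text (P), the site constants (A), (B), (H), (E) of docs/T156_58.md for the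
profiles whose displacement is linear near `0`.
-/

set_option autoImplicit false

namespace Crest.Agent.T156.Pr.Ref81

open MeasureTheory Set Filter
open Crest.Agent.R164.GC Crest.Agent.R339.B Crest.Agent.R339.Var Crest.Agent.T157.Pf
open Crest.Agent.T156.Pp.Ode3 (AP X2)
open Exp50 (Iz Z1 M1 J2 XX eps0 mu ev hv kc Aq Bq E1 E2 Sm)

noncomputable section

variable {l l2 : List (ℝ × ℝ)} {b α Λ r K δ t1 s t x : ℝ}

/-- primitive of `x h' - 3 h + 2 ε σ` in the label -/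
def Psi (b : ℝ) (l : List (ℝ × ℝ)) (x t : ℝ) : ℝ :=
  4 * Iz l (ev b l) t - 3 * (x * hv b l t) + 2 * eps0 b l * (x * t - Z1 l t)

theorem hd_q (c d s : ℝ) :
    HasDerivAt (fun s => c * s ^ 2 / 2 + d * s ^ 4 / 4) (c * s + d * s ^ 3) s := by
  have := (((hasDerivAt_pow 2 s).const_mul c).div_const 2).add
    (((hasDerivAt_pow 4 s).const_mul d).div_const 4)
  refine HasDerivAt.congr_deriv this ?_
  norm_num
  ring

theorem pw (t0 : 0 ≤ t) (t1 : t ≤ 1) (d0 : 0 ≤ δ) (d1 : δ ≤ 1) :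
    ∀ k : ℕ, (t + δ) ^ k ≤ t ^ k + (2 ^ k - 1) * δ
  | 0 => by simp
  | k + 1 => by
    have a := mul_le_mul_of_nonneg_right (pw t0 t1 d0 d1 k) t0
    have c : (t + δ) ^ k * δ ≤ 2 ^ k * δ :=
      mul_le_mul_of_nonneg_right (pow_le_pow_left₀ (by positivity) (by linarith) k) d0
    have e : (2 ^ k - 1) * δ * t ≤ (2 ^ k - 1) * δ :=
      mul_le_of_le_one_right (mul_nonneg (sub_nonneg.2 (one_le_pow₀ one_le_two)) d0) t1
    rw [pow_succ, pow_succ, pow_succ]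
    linarith

namespace Ctx

theorem Iz_near (h : Ctx l b α Λ r K δ t1) {f g g' : ℝ → ℝ} {E : ℝ}
    (hf : ContinuousOn f (Icc 0 (TT l))) (hg : ∀ s, HasDerivAt g (g' s) s) (g0 : g 0 = 0)
    (h0 : 0 ≤ t) (h1 : t ≤ t1) (hb : ∀ u ∈ Ico 0 t, |lvr 1 l u * f u - g' u| ≤ E) :
    |Iz l f t - g t| ≤ E * t := by
  have := mvt_cmp h0 ((Exp50.Iz_cont h.ap hf).mono (Icc_subset_Icc le_rfl (h1.trans h.t1T)))
    (fun u hu => Exp50.Iz_rder h.ap hf hu.1 ((hu.2.trans_le h1).trans_le h.t1T)) hg hb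
  simpa [Exp50.Iz_zero, g0] using this

theorem zD (h : Ctx l b α Λ r K δ t1) (h1 : t ≤ t1) {u : ℝ} (hu : u ∈ Ico 0 t) :
    |lvr 1 l u - α * u| ≤ Λ * t + (K * t ^ 2 + δ) :=
  (h.lin.lo u hu.1 (hu.2.trans_le h1)).trans (by
    have := h.L0; have := h.K1; have := hu.1; have := hu.2.le; gcongr)

theorem Z1_lo (h : Ctx l b α Λ r K δ t1) (h0 : 0 ≤ t) (h1 : t ≤ t1) :
    |Z1 l t - α * t ^ 2 / 2| ≤ (Λ * t + (K * t ^ 2 + δ)) * t := by
  have := h.Iz_near (f := fun _ => 1) continuousOn_const (hd_q α 0) (by simp) h0 h1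
    (fun u hu => by simpa using h.zD h1 hu)
  simpa [Z1] using this

theorem M1_lo (h : Ctx l b α Λ r K δ t1) (h0 : 0 ≤ t) (h1 : t ≤ t1) :
    |M1 l t - α * t ^ 3 / 3| ≤ (Λ * t + (K * t ^ 2 + δ)) * t * t := by
  have := h.Iz_near (f := fun s => s) continuousOn_id (hd_cub α 0) (by simp) h0 h1
    (E := (Λ * t + (K * t ^ 2 + δ)) * t) (fun u hu => by
      refine (le_of_eq ?_).trans (amul (h.zD h1 hu) ((abs_of_nonneg hu.1).le.trans hu.2.le))
      congr 1; ring)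
  simpa [M1] using this

theorem k3_le (h : Ctx l b α Λ r K δ t1) : |k3 l b α| ≤ 2 * K ^ 2 := by
  have a := abs_le.1 (amul (h.chiP 3) h.absa)
  have c : |chi l ^ 3 * α - k4 l ^ 2 / 2| ≤ 2 * K := by
    rw [abs_le]; constructor <;> linarith [a.1, a.2, h.kK, sq_nonneg (k4 l), h.K1]
  exact (amul h.absb c).trans (le_of_eq (by ring))

theorem eps_le (h : Ctx l b α Λ r K δ t1) : |eps0 b l| ≤ 2 * K := by
  have a := abs_le.1 (amul h.absb (h.chiP 2))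
  unfold eps0
  rw [abs_le]; constructor <;> linarith [a.1, a.2, h.K1]

theorem err_le (h : Ctx l b α Λ r K δ t1) (h0 : 0 ≤ t) :
    2 * K * (Λ * t) + 93 * K ^ 2 * (t ^ 2 + δ) ≤ 93 * K ^ 2 * (Λ * t + (K * t ^ 2 + δ)) := by
  have K1 := h.K1
  have a : 2 * K * (Λ * t) ≤ 93 * K ^ 2 * (Λ * t) :=
    mul_le_mul_of_nonneg_right (by nlinarith) (mul_nonneg h.L0 h0)
  have c : 93 * K ^ 2 * t ^ 2 ≤ 93 * K ^ 2 * (K * t ^ 2) :=
    mul_le_mul_of_nonneg_left (le_mul_of_one_le_left (sq_nonneg t) K1) (by positivity)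
  linarith

theorem ev_lo (h : Ctx l b α Λ r K δ t1) (h0 : 0 ≤ t) (h1 : t ≤ t1) :
    |ev b l t - eps0 b l - k3 l b α * t ^ 2| ≤ 93 * K ^ 2 * (Λ * t + (K * t ^ 2 + δ)) * t :=
  (h.e_lo h0 h1).trans (mul_le_mul_of_nonneg_right (h.err_le h0) h0)

theorem hv_lo (h : Ctx l b α Λ r K δ t1) (h0 : 0 ≤ t) (h1 : t ≤ t1) :
    |hv b l t - eps0 b l * t - k3 l b α * t ^ 3 / 3| ≤
      93 * K ^ 2 * (Λ * t + (K * t ^ 2 + δ)) * t ^ 2 :=
  (h.h_lo h0 h1).trans (mul_le_mul_of_nonneg_right (h.err_le h0) (sq_nonneg t))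

/-- **(H)**, weak form -/
theorem Psi_lo (h : Ctx l b α Λ r K δ t1) (h0 : 0 ≤ t) (h1 : t ≤ t1)
    (hx : |x - α * t| ≤ Λ * t + (K * t ^ 2 + δ)) :
    |Psi b l x t| ≤ 2000 * K ^ 3 * ((Λ * t + (K * t ^ 2 + δ)) * t * (|eps0 b l| + t ^ 2 + δ * t)) := by
  have K1 := h.K1
  have d0 := h.d0
  have L0 := h.L0
  have tt : t ≤ 1 := h1.trans h.t11
  obtain ⟨D, hD⟩ : ∃ D, D = Λ * t + (K * t ^ 2 + δ) := ⟨_, rfl⟩
  have D0 : 0 ≤ D := by rw [hD]; positivity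
  have D1 : D ≤ 2 * K * t + δ := by
    have a := mul_le_mul_of_nonneg_right (h.L1.trans K1) h0
    have c : K * t ^ 2 ≤ K * t := mul_le_mul_of_nonneg_left (by nlinarith) (by linarith)
    linarith
  have e0 := abs_nonneg (eps0 b l)
  have i1 := h.Iz_near (f := ev b l) (continuousOn_const.sub (continuousOn_const.mul
    (Pp.Ode3.Gp_cont h.ap))) (hd_q (α * eps0 b l) (α * k3 l b α)) (by simp) h0 h1
    (E := D * (|eps0 b l| + 2 * K ^ 2 * t ^ 2 + 93 * K ^ 2 * D * t) + K * t * (93 * K ^ 2 * D * t))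
    (fun u hu => by
      have u0 := hu.1
      have u1 := hu.2.le
      have a : |ev b l u - eps0 b l - k3 l b α * u ^ 2| ≤ 93 * K ^ 2 * D * t :=
        (h.ev_lo u0 (u1.trans h1)).trans (by rw [hD]; gcongr)
      have a' := abs_le.1 a
      have c := abs_le.1 (amul h.k3_le (show |u ^ 2| ≤ t ^ 2 by rw [abs_of_nonneg (sq_nonneg u)]; gcongr))
      have c' : |ev b l u| ≤ |eps0 b l| + 2 * K ^ 2 * t ^ 2 + 93 * K ^ 2 * D * t := by
        rw [abs_le]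
        constructor <;> linarith [a'.1, a'.2, c.1, c.2, le_abs_self (eps0 b l), neg_abs_le (eps0 b l)]
      have p := abs_le.1 (amul (hD ▸ h.zD h1 hu) c')
      have q := abs_le.1 (amul (amul h.absa ((abs_of_nonneg u0).le.trans u1)) a)
      rw [abs_le]; constructor <;> linarith [p.1, p.2, q.1, q.2])
  have a := hD ▸ h.hv_lo h0 h1
  have a' := abs_le.1 a
  have c := abs_le.1 (amul h.k3_le (show |t ^ 3| ≤ t ^ 3 from (abs_of_nonneg (by positivity)).le))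
  have c2 := abs_le.1 (amul (le_refl |eps0 b l|) (abs_of_nonneg h0).le)
  have p3 : 0 ≤ K ^ 2 * t ^ 3 := by positivity
  have c' : |hv b l t| ≤ |eps0 b l| * t + K ^ 2 * t ^ 3 + 93 * K ^ 2 * D * t ^ 2 := by
    rw [abs_le]; constructor <;> linarith [a'.1, a'.2, c.1, c.2, c2.1, c2.2]
  have j1 := abs_le.1 i1
  have j2 := abs_le.1 (amul (hD ▸ hx) c')
  have j3 := abs_le.1 (amul (amul h.absa (abs_of_nonneg h0).le) a)
  have j4 := abs_le.1 (amul (le_refl |eps0 b l|) (amul (hD ▸ hx) (abs_of_nonneg h0).le))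
  have j5 := abs_le.1 (amul (le_refl |eps0 b l|) (hD ▸ h.Z1_lo h0 h1))
  rw [← hD]
  have K2 : K ^ 2 ≤ K ^ 3 := pow_le_pow_right₀ K1 (by norm_num)
  have K3 : 1 ≤ K ^ 3 := one_le_pow₀ K1
  have m1 : D * t * |eps0 b l| ≤ K ^ 3 * (D * t * |eps0 b l|) :=
    le_mul_of_one_le_left (by positivity) K3
  have m2 : K ^ 2 * (D * t ^ 3) ≤ K ^ 3 * (D * t ^ 3) := mul_le_mul_of_nonneg_right K2 (by positivity)
  have m3 : K ^ 2 * (D * t ^ 2) * D ≤ K ^ 2 * (D * t ^ 2) * (2 * K * t + δ) :=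
    mul_le_mul_of_nonneg_left D1 (by positivity)
  have m4 : K ^ 2 * (D * t ^ 2 * δ) ≤ K ^ 3 * (D * t ^ 2 * δ) :=
    mul_le_mul_of_nonneg_right K2 (by positivity)
  have n1 : 0 ≤ D * t * |eps0 b l| := by positivity
  have n2 : 0 ≤ K ^ 3 * (D * t ^ 3) := by positivity
  have n3 : 0 ≤ K ^ 3 * (D * t ^ 2 * δ) := by positivity
  unfold Psi
  rw [abs_le]
  constructor <;> linarith [j1.1, j1.2, j2.1, j2.2, j3.1, j3.2, j4.1, j4.2, j5.1, j5.2]

end Ctx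


/-- the site constants at the time `t` and the label `x` of a linear profile -/
structure LinRef (l : List (ℝ × ℝ)) (b α K δ t x : ℝ) : Prop where
  xa : |x - α * t| ≤ K * (t ^ 2 + δ)
  q : |Gam l t - chi l ^ 2 * t| ≤ K * (t ^ 3 + δ)
  cx : |Exp50.cx l x t - chi l| ≤ K * (t ^ 2 + δ)
  A : |Aq b l x t - eps0 b l| ≤ K * (|eps0 b l| * t ^ 2 + t ^ 3 + δ)
  B : |Bq l x t| ≤ K * (t ^ 4 + δ)
  e : |ev b l t - eps0 b l - k3 l b α * t ^ 2| ≤ K * (t ^ 3 + δ)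
  h : |hv b l t - eps0 b l * t - k3 l b α * t ^ 3 / 3| ≤ K * (t ^ 4 + δ)
  E1 : |E1 b l x t| ≤ K * (eps0 b l ^ 2 * t + |eps0 b l| * t ^ 3 + t ^ 4 + δ)
  E2 : |E2 b l x t| ≤ K * (|eps0 b l| * t ^ 2 + t ^ 3 + δ)
  H : |Psi b l x t| ≤ K * (|eps0 b l| * t ^ 3 + t ^ 5 + δ)

theorem LinRef.scale {c : ℝ} (h : LinRef l b α K (c * δ) t x) (K0 : 0 ≤ K) (c1 : 1 ≤ c)
    (t0 : 0 ≤ t) : LinRef l b α (K * c) δ t x := by
  have key : ∀ {y X : ℝ}, y ≤ K * (X + c * δ) → 0 ≤ X → y ≤ K * c * (X + δ) := fun {y X} a h0 => by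
    have := mul_le_mul_of_nonneg_left (le_mul_of_one_le_left h0 c1) K0
    linarith
  exact ⟨key h.xa (by positivity), key h.q (by positivity), key h.cx (by positivity),
    key h.A (by positivity), key h.B (by positivity), key h.e (by positivity),
    key h.h (by positivity), key h.E1 (by positivity), key h.E2 (by positivity),
    key h.H (by positivity)⟩

theorem Iz_same {f f2 : ℝ → ℝ} (hl : ∀ s, 0 ≤ s → lvr 1 l2 s = lvr 1 l s) (t0 : 0 ≤ t)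
    (hf : ∀ s ∈ Icc 0 t, f2 s = f s) : Iz l2 f2 t = Iz l f t :=
  intervalIntegral.integral_congr fun s hs => by
    rw [uIcc_of_le t0] at hs
    simp only [hl s hs.1, hf s hs]

/-- the site constants only see the tilt function -/
theorem same50 {T : ℝ} (h : Ker.Same l l2 T) (hl : ∀ s, 0 ≤ s → lvr 1 l2 s = lvr 1 l s)
    (ht : t ∈ Icc 0 T) (b x α : ℝ) :
    Z1 l2 t = Z1 l t ∧ M1 l2 t = M1 l t ∧ J2 l2 t = J2 l t ∧ Exp50.cx l2 x t = Exp50.cx l x t ∧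
    Exp50.I2 l2 x t = Exp50.I2 l x t ∧ eps0 b l2 = eps0 b l ∧ mu b l2 x t = mu b l x t ∧
    ev b l2 t = ev b l t ∧ hv b l2 t = hv b l t ∧ kc b l2 = kc b l ∧ k3 l2 b α = k3 l b α ∧
    Aq b l2 x t = Aq b l x t ∧ Bq l2 x t = Bq l x t ∧ E1 b l2 x t = E1 b l x t ∧
    E2 b l2 x t = E2 b l x t ∧ Psi b l2 x t = Psi b l x t := by
  have m : ∀ s ∈ Icc 0 t, s ∈ Icc 0 T := fun s hs => ⟨hs.1, hs.2.trans ht.2⟩
  have a1 : Z1 l2 t = Z1 l t := Iz_same hl ht.1 fun _ _ => rfl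
  have a2 : M1 l2 t = M1 l t := Iz_same hl ht.1 fun _ _ => rfl
  have a3 : J2 l2 t = J2 l t := Iz_same hl ht.1 fun s hs => by
    rw [h.gam s (m s hs), h.gg s (m s hs)]
  have a4 : Iz l2 (ev b l2) t = Iz l (ev b l) t := Iz_same hl ht.1 fun s hs => by
    unfold ev; rw [h.gg s (m s hs)]
  have a5 : XX l2 t = XX l t := by
    unfold XX Et; rw [h.dk 1 t ht.1, h.ex t ht _ (Ker.Dk_bd 1 l t)]
  simp only [Psi, a4, Exp50.E1, Exp50.E2, Aq, Bq, Exp50.I2, mu, Exp50.cx, eps0, ev, hv, kc, k3, a1,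
    a2, a3, a5, h.gam t ht, h.gg t ht, h.chi, h.k4, and_self]

theorem LinRef.same {T : ℝ} (h : Ker.Same l l2 T) (hl : ∀ s, 0 ≤ s → lvr 1 l2 s = lvr 1 l s)
    (ht : t ∈ Icc 0 T) (r : LinRef l b α K δ t x) : LinRef l2 b α K δ t x := by
  obtain ⟨-, -, -, a4, -, a6, -, a8, a9, -, a11, a12, a13, a14, a15, a16⟩ := same50 h hl ht b x α
  refine ⟨r.xa, ?_, ?_, ?_, ?_, ?_, ?_, ?_, ?_, ?_⟩
  · rw [h.gam t ht, h.chi]; exact r.q
  · rw [a4, h.chi]; exact r.cx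
  · rw [a12, a6]; exact r.A
  · rw [a13]; exact r.B
  · rw [a8, a6, a11]; exact r.e
  · rw [a9, a6, a11]; exact r.h
  · rw [a14, a6]; exact r.E1
  · rw [a15, a6]; exact r.E2
  · rw [a16, a6]; exact r.H

theorem sc {C K X Y y c : ℝ} {n : ℕ} (C1 : 1 ≤ C) (K1 : 1 ≤ K) (hy : y ≤ c * (C * K ^ n) * X)
    (hc : c ≤ 10000) (hn : n ≤ 5) (X0 : 0 ≤ X) (hX : X ≤ Y) : y ≤ 10000 * (C * K ^ 5) * Y :=
  hy.trans (by
    have : C * K ^ n ≤ C * K ^ 5 := mul_le_mul_of_nonneg_left (pow_le_pow_right₀ K1 hn) (by linarith)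
    gcongr)

/-- all site constants for a profile linear from `0` -/
theorem Ctx.linRef (T0 K : ℝ) : ∃ K' : ℝ, 1 ≤ K' ∧ ∀ (l : List (ℝ × ℝ)) (b α δ t1 t x : ℝ),
    Ctx l b α 0 0 K δ t1 → TT l ≤ T0 → 0 ≤ t → t ≤ t1 → 3 * K * (t + δ) ≤ 1 → 0 ≤ x →
    |x - α * t| ≤ K * t ^ 2 + δ → LinRef l b α K' δ t x := by
  obtain ⟨C, C1, hC⟩ := Exp50.consts T0 K
  refine ⟨max 1 (10000 * (C * K ^ 5)), le_max_left _ _, fun l b α δ t1 t x h hT t0 h1 hu x0 hx => ?_⟩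
  have K1 := h.K1
  have d0 := h.d0
  have d1 := h.d1
  have tt : t ≤ 1 := h1.trans h.t11
  have CK : ∀ n : ℕ, K ^ n ≤ C * K ^ n := fun n => le_mul_of_one_le_left (by positivity) C1
  rw [max_eq_right (by nlinarith [CK 5, one_le_pow₀ (n := 5) K1])]
  have e0 := abs_nonneg (eps0 b l)
  have e1 := h.eps_le
  have sm : Sm l t (3 * K * (t + δ)) := ⟨t0, h1.trans h.t1T, by nlinarith, hu, fun s s0 s1 =>
    ((le_abs_self _).trans (h.z_le s0 (s1.trans_le h1))).trans (by gcongr)⟩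
  obtain ⟨-, -, -, -, -, -, -, -, hB, hE1, hE2⟩ := hC l t _ x b _ h.ok hT sm x0
    (((le_abs_self _).trans (h.x_le t0 h1 hx)).trans (by gcongr; norm_num)) h.b0 h.bK le_rfl
  have up : ∀ {y c X : ℝ} {n : ℕ}, y ≤ c * K ^ n * X → 0 ≤ c → 0 ≤ X → y ≤ c * (C * K ^ n) * X :=
    fun {y c X n} a c0 X0 => a.trans (by have := CK n; gcongr)
  have dt : ∀ k : ℕ, δ * t ^ k ≤ δ := fun k => mul_le_of_le_one_right d0 (pow_le_one₀ t0 tt)
  have dK : δ ≤ K * δ := le_mul_of_one_le_left d0 K1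
  have hD : K * t ^ 2 + δ ≤ K * (t ^ 2 + δ) := by linarith
  have ed : |eps0 b l| * δ ≤ 2 * K * δ := mul_le_mul_of_nonneg_right e1 d0
  have p2 := pw t0 tt d0 d1 2
  have p3 := pw t0 tt d0 d1 3
  have p4 := pw t0 tt d0 d1 4
  have p5 := pw t0 tt d0 d1 5
  norm_num at p2 p3 p4 p5
  have t54 : t ^ 5 ≤ t ^ 4 := pow_le_pow_of_le_one t0 tt (by norm_num)
  have ee : Ref81.e1 l b α 0 = eps0 b l := by unfold Ref81.e1 eb eps0; rw [h.G0]; ring
  refine ⟨sc C1 K1 (up (c := 1) (n := 1) (by linarith) (by norm_num) (by positivity))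
      (by norm_num) (by norm_num) (by positivity) le_rfl,
    sc C1 K1 (up (c := 98) (n := 1) (X := t ^ 3 + δ * t ^ 2) ((h.Gam_near t0 h1).trans
      (le_of_eq (by ring))) (by norm_num) (by positivity)) (by norm_num) (by norm_num)
      (by positivity) (by linarith [dt 2]),
    sc C1 K1 (up (c := 5) (n := 1) (X := t ^ 2 + δ * t ^ 1) ((h.cx_near t0 h1 hx).trans
      (le_of_eq (by ring))) (by norm_num) (by positivity)) (by norm_num) (by norm_num)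
      (by positivity) (by linarith [dt 1]),
    sc C1 K1 (up (c := 1624) (n := 3) ?_ (by norm_num) (by positivity)) (by norm_num) (by norm_num)
      (by positivity) le_rfl,
    sc C1 K1 (c := 7784) (n := 5) ?_ (by norm_num) le_rfl (by positivity) le_rfl,
    sc C1 K1 (up (c := 93) (n := 2) (X := t ^ 3 + δ * t ^ 1) ((h.e_lo t0 h1).trans
      (le_of_eq (by ring))) (by norm_num) (by positivity)) (by norm_num) (by norm_num)
      (by positivity) (by linarith [dt 1]),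
    sc C1 K1 (up (c := 93) (n := 2) (X := t ^ 4 + δ * t ^ 2) ((h.h_lo t0 h1).trans
      (le_of_eq (by ring))) (by norm_num) (by positivity)) (by norm_num) (by norm_num)
      (by positivity) (by linarith [dt 2]),
    sc C1 K1 (c := 2000) (n := 4) ?_ (by norm_num) (by norm_num) (by positivity) le_rfl,
    sc C1 K1 (c := 300) (n := 3) ?_ (by norm_num) (by norm_num) (by positivity) le_rfl,
    sc C1 K1 (up (c := 10000) (n := 5) ?_ (by norm_num) (by positivity)) le_rfl le_rfl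
      (by positivity) le_rfl⟩
  · have a := h.A_near' t0 h1 hx
    rw [ee] at a
    have K2 : K ^ 2 ≤ K ^ 3 := pow_le_pow_right₀ K1 (by norm_num)
    have m1 := mul_le_mul_of_nonneg_left (dt 1) (show 0 ≤ K ^ 3 by positivity)
    have m2 := mul_le_mul_of_nonneg_left ed (show 0 ≤ K ^ 2 by positivity)
    have m3 := mul_le_mul_of_nonneg_right K2 (show 0 ≤ |eps0 b l| * t ^ 2 by positivity)
    have n1 : 0 ≤ K ^ 3 * (|eps0 b l| * t ^ 2) := by positivity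
    have n2 : 0 ≤ K ^ 3 * t ^ 3 := by positivity
    refine (le_of_eq ?_).trans (a.trans ?_)
    · unfold Aq mu; rw [mul_assoc]; rfl
    · change _ + 2 * K ^ 2 * |eps0 b l| * _ ≤ _
      linarith
  · have a := h.M1_lo t0 h1
    rw [zero_mul, zero_add] at a
    have a1 := abs_le.1 (amul (h.chiP 4) a)
    have a2 := abs_le.1 (amul (h.chiP 4) (amul hx (abs_of_nonneg (sq_nonneg t)).le))
    have a3 := abs_le.1 hB
    have m1 := mul_le_mul_of_nonneg_left p5 (show 0 ≤ C * K ^ 5 by positivity)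
    have m2 := mul_le_mul_of_nonneg_left t54 (show 0 ≤ C * K ^ 5 by positivity)
    have K5 : K ≤ C * K ^ 5 := (le_self_pow₀ K1 (by norm_num)).trans (CK 5)
    have m3 := mul_le_mul_of_nonneg_right K5 (show 0 ≤ t ^ 4 by positivity)
    have m4 := mul_le_mul_of_nonneg_right K5 d0
    have n1 : 0 ≤ C * K ^ 5 * t ^ 4 := by positivity
    have n2 : 0 ≤ C * K ^ 5 * δ := by positivity
    rw [abs_le]; constructor <;> linarith [a1.1, a1.2, a2.1, a2.2, a3.1, a3.2, dt 2]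
  · refine hE1.trans ?_
    rw [sq_abs]
    have e2 : eps0 b l ^ 2 ≤ 4 * K ^ 2 := by
      rw [← sq_abs]; nlinarith
    have K14 : K ≤ K ^ 4 := le_self_pow₀ K1 (by norm_num)
    have K34 : K ^ 3 ≤ K ^ 4 := pow_le_pow_right₀ K1 (by norm_num)
    have m1 := mul_le_mul_of_nonneg_right K14 (show 0 ≤ eps0 b l ^ 2 * t by positivity)
    have m2 := mul_le_mul_of_nonneg_right e2 (show 0 ≤ K * δ by positivity)
    have m3 := mul_le_mul_of_nonneg_right K34 d0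
    have m4 := mul_le_mul_of_nonneg_left p3 (show 0 ≤ |eps0 b l| * K ^ 3 by positivity)
    have m5 := mul_le_mul_of_nonneg_right K34 (show 0 ≤ |eps0 b l| * t ^ 3 by positivity)
    have m6 := mul_le_mul_of_nonneg_left ed (show 0 ≤ K ^ 3 by positivity)
    have m7 := mul_le_mul_of_nonneg_left p4 (show 0 ≤ K ^ 4 by positivity)
    have n1 : 0 ≤ K ^ 4 * (eps0 b l ^ 2 * t) := by positivity
    have n2 : 0 ≤ K ^ 4 * (|eps0 b l| * t ^ 3) := by positivity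
    have n3 : 0 ≤ K ^ 4 * t ^ 4 := by positivity
    have n4 : 0 ≤ K ^ 4 * δ := by positivity
    refine (mul_le_mul_of_nonneg_left (?_ : _ ≤ 2000 * K ^ 4 * (eps0 b l ^ 2 * t +
      |eps0 b l| * t ^ 3 + t ^ 4 + δ)) (by linarith)).trans (le_of_eq (by ring))
    linarith
  · refine hE2.trans ?_
    have K23 : K ^ 2 ≤ K ^ 3 := pow_le_pow_right₀ K1 (by norm_num)
    have m1 := mul_le_mul_of_nonneg_left p2 (show 0 ≤ |eps0 b l| * K ^ 2 by positivity)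
    have m2 := mul_le_mul_of_nonneg_right K23 (show 0 ≤ |eps0 b l| * t ^ 2 by positivity)
    have m3 := mul_le_mul_of_nonneg_left ed (show 0 ≤ K ^ 2 by positivity)
    have m4 := mul_le_mul_of_nonneg_left p3 (show 0 ≤ K ^ 3 by positivity)
    have n1 : 0 ≤ K ^ 3 * (|eps0 b l| * t ^ 2) := by positivity
    have n2 : 0 ≤ K ^ 3 * t ^ 3 := by positivity
    have n3 : 0 ≤ K ^ 3 * δ := by positivity
    refine (mul_le_mul_of_nonneg_left (?_ : _ ≤ 300 * K ^ 3 * (|eps0 b l| * t ^ 2 + t ^ 3 + δ))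
      (by linarith)).trans (le_of_eq (by ring))
    linarith
  · have a := h.Psi_lo t0 h1 (by simpa using hx)
    rw [zero_mul, zero_add] at a
    refine a.trans ?_
    have s1 : (t ^ 2 + δ) * t * (|eps0 b l| + t ^ 2 + δ * t) ≤
        5 * K * (|eps0 b l| * t ^ 3 + t ^ 5 + δ) := by
      have m1 := mul_le_mul_of_nonneg_left (dt 1) e0
      have m2 : δ * (δ * t ^ 2) ≤ δ := mul_le_of_le_one_right d0 ((dt 2).trans d1)
      have m3 : |eps0 b l| * t ^ 3 + t ^ 5 ≤ K * (|eps0 b l| * t ^ 3 + t ^ 5) :=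
        le_mul_of_one_le_left (by positivity) K1
      have n1 : 0 ≤ K * (|eps0 b l| * t ^ 3 + t ^ 5) := by positivity
      linarith [dt 3, dt 4]
    calc _ ≤ 2000 * K ^ 3 * (K * (t ^ 2 + δ) * t * (|eps0 b l| + t ^ 2 + δ * t)) := by gcongr
      _ = 2000 * K ^ 4 * ((t ^ 2 + δ) * t * (|eps0 b l| + t ^ 2 + δ * t)) := by ring
      _ ≤ 2000 * K ^ 4 * (5 * K * (|eps0 b l| * t ^ 3 + t ^ 5 + δ)) := by gcongr
      _ = _ := by ring

/-- slope of the base labels at `0` -/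
def cst (z : ℕ → ℝ) (v : ℝ) (J : ℕ) : ℝ := k4 (lo z v 0 J) ^ 2 / (2 * chi (lo z v 0 J) ^ 3)
/-- slope of the tilts when `om = lam * t` -/
def al (z : ℕ → ℝ) (v : ℝ) (J : ℕ) (lam : ℝ) : ℝ := cst z v J / (1 - lam)

/-- the base labels are linear near `0` -/
theorem cst_spec (b0 c C : ℝ) (hb : 1 ≤ b0) (hc : 0 < c) (hC : 1 ≤ C) : ∃ c2 B η0 : ℝ, 0 < c2 ∧
    1 ≤ B ∧ 0 < η0 ∧ ∀ (η v : ℝ) (J : ℕ) (z : ℕ → ℝ), Base b0 c C η v J z → η ≤ η0 → v ≤ η0 →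
    c2 ≤ cst z v J ∧ cst z v J ≤ B ∧ c2 ≤ k4 (lo z v 0 J) ^ 2 ∧ k4 (lo z v 0 J) ^ 2 ≤ B ∧
    ∀ j : ℕ, j < J → |z j - cst z v J * (j * v)| ≤ B * ((j * v) ^ 2 + √η + v) := by
  obtain ⟨c2, C2, η0, p0, p1, p2, H⟩ := sharpS b0 c C b0 hb hc hC
  have x0 : 0 < Real.exp (-b0) ^ 3 := by positivity
  have x1 : Real.exp (-b0) ^ 3 ≤ 1 :=
    pow_le_one₀ (Real.exp_nonneg _) (Real.exp_le_one_iff.2 (by linarith))
  have B1 : C2 ≤ C2 / Real.exp (-b0) ^ 3 := by rw [le_div_iff₀ x0]; nlinarith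
  refine ⟨c2 / 2, C2 / Real.exp (-b0) ^ 3, η0, by positivity, p1.trans B1, p2,
    fun η v J z h hη hv => ?_⟩
  obtain ⟨a1, -, a3, a4, -⟩ := H η v J z h hη hv J le_rfl h.hi
  obtain ⟨ok, hT, -⟩ := Sharp81.base_area h le_rfl
  have g := Sharp81.chi_ge ok (hT.le.trans h.hi)
  have g3 : Real.exp (-b0) ^ 3 ≤ chi (lo z v 0 J) ^ 3 := pow_le_pow_left₀ (Real.exp_nonneg _) g 3
  have hA := Pp.Ode3.AP.of_ok ok
  have g1 : chi (lo z v 0 J) ^ 3 ≤ 1 := pow_le_one₀ ((Real.exp_nonneg _).trans g) (by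
    rw [Pp.Ode3.chi_eq hA]; exact Pp.Ode3.chi_le hA)
  have q0 : 0 < 2 * chi (lo z v 0 J) ^ 3 := by linarith
  have q1 : C2 / (2 * chi (lo z v 0 J) ^ 3) ≤ C2 / Real.exp (-b0) ^ 3 :=
    div_le_div_of_nonneg_left (by linarith) x0 (by linarith)
  refine ⟨?_, (div_le_div_of_nonneg_right a4 q0.le).trans q1, by linarith, a4.trans B1,
    fun j hj => ?_⟩
  · unfold cst; rw [le_div_iff₀ q0]; nlinarith
  · have e : z j - cst z v J * (j * v) = (2 * chi (lo z v 0 J) ^ 3 * z j -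
        k4 (lo z v 0 J) ^ 2 * (j * v)) / (2 * chi (lo z v 0 J) ^ 3) := by
      have : chi (lo z v 0 J) ≠ 0 := ((Real.exp_pos _).trans_le g).ne'
      unfold cst; field_simp
    have := h.v_pos
    rw [e, abs_div, abs_of_pos q0]
    calc _ ≤ C2 * ((j * v) ^ 2 + √η + v) / (2 * chi (lo z v 0 J) ^ 3) :=
          div_le_div_of_nonneg_right (a1 j hj) q0.le
      _ = C2 / (2 * chi (lo z v 0 J) ^ 3) * ((j * v) ^ 2 + √η + v) := by ring
      _ ≤ _ := by gcongr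

theorem k3_lip {l0 : List (ℝ × ℝ)} {lam D : ℝ} (cx : Ctx l b α 0 0 K δ t1)
    (cx0 : Ctx l0 b α 0 0 K 0 0) (m0 : 0 < 1 - lam)
    (hα : α = k4 l0 ^ 2 / (2 * chi l0 ^ 3) / (1 - lam)) (u1 : |chi l - chi l0| ≤ D)
    (u2 : |k4 l - k4 l0| ≤ D) :
    |k3 l b α - b * k4 l0 ^ 2 / 2 * (lam / (1 - lam))| ≤ 4 * K ^ 2 * D := by
  have χ0 := cx0.chi0
  have e : k3 l b α - b * k4 l0 ^ 2 / 2 * (lam / (1 - lam)) =
      b * (α * ((chi l ^ 2 + chi l ^ 1 * chi l0 ^ 1 + chi l0 ^ 2) * (chi l - chi l0)) -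
        (k4 l + k4 l0) / 2 * (k4 l - k4 l0)) := by
    unfold k3; rw [hα]; field_simp; ring
  have w1 : |chi l ^ 2 + chi l ^ 1 * chi l0 ^ 1 + chi l0 ^ 2| ≤ 3 := by
    have i1 := abs_le.1 (cx.chiP 2)
    have i2 := abs_le.1 (cx0.chiP 2)
    have i3 := abs_le.1 (amul (cx.chiP 1) (cx0.chiP 1))
    rw [abs_le]; constructor <;> linarith [i1.1, i1.2, i2.1, i2.2, i3.1, i3.2]
  have w2 : |(k4 l + k4 l0) / 2| ≤ K := by
    have i1 := cx.kK
    have i2 := cx0.kK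
    have i3 := cx.K1
    rw [abs_le]; constructor <;> linarith [sq_nonneg (k4 l + 1), sq_nonneg (k4 l0 + 1),
      sq_nonneg (k4 l - 1), sq_nonneg (k4 l0 - 1)]
  have w3 := abs_le.1 (amul cx.absa (amul w1 u1))
  have w4 := abs_le.1 (amul w2 u2)
  rw [e]
  exact (amul cx.absb (abs_le.2 ⟨(by linarith [w3.1, w4.2] : -(4 * K * D) ≤ _),
    by linarith [w3.2, w4.1]⟩)).trans (le_of_eq (by ring))

section lin
variable {b0 c C η v B Y L lam y : ℝ} {J : ℕ} {z om : ℕ → ℝ}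

theorem lin_node (v0 : 0 < v) (ho : Om v Y L om) (hL : L ≤ 1 / 2) (B0 : 0 ≤ B) (m0 : 0 < 1 - lam)
    (hom : ∀ j : ℕ, j * v ≤ y → om j = lam * (j * v)) {j : ℕ} (hj : j * v ≤ y)
    (a5 : |z j - cst z v J * (j * v)| ≤ B * ((j * v) ^ 2 + √η + v)) :
    |z j - al z v J lam * sig v om j| ≤ 4 * B * sig v om j ^ 2 + B * (√η + v) := by
  have e : al z v J lam * sig v om j = cst z v J * (j * v) := by
    unfold sig al; rw [hom j hj]; field_simp
  have g := ho.sig_ge v0 hL j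
  have g0 : 0 ≤ (j:ℝ) * v := by positivity
  have g2 : ((j:ℝ) * v) ^ 2 ≤ 4 * sig v om j ^ 2 := by nlinarith
  have := mul_le_mul_of_nonneg_left g2 B0
  rw [e]; linarith

theorem lin_hi (hz : Lab z J) (v0 : 0 < v) (ho : Om v Y L om) (hL : L ≤ 1 / 2) (YJ : Y ≤ J * v)
    (yJ : y ≤ J * v) (B0 : 0 ≤ B) (m0 : 0 < 1 - lam) (α0 : 0 ≤ al z v J lam)
    (α1 : al z v J lam ≤ 2 * B) (hom : ∀ j : ℕ, j * v ≤ y → om j = lam * (j * v))
    (a5 : ∀ j : ℕ, j < J → |z j - cst z v J * (j * v)| ≤ B * ((j * v) ^ 2 + √η + v))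
    (t0 : 0 ≤ t) (t1 : t < y / 2) :
    |lvr 1 (lo z v om J) t - al z v J lam * t| ≤ 4 * B * t ^ 2 + 4 * B * (√η + v) := by
  obtain ⟨⟨-, -, cell, -⟩, -⟩ := areaS z (sig v om) J hz ho.sig0 (ho.sm v0 hL)
  obtain ⟨j, hj, c1, c2⟩ := exists_cell (s := sig v om) (t := t) (ho.sig0.le.trans t0) J (by
    rw [ho.sig_eq YJ]; linarith)
  have g := ho.sig_ge v0 hL j
  have n := abs_le.1 (lin_node v0 ho hL B0 m0 hom (by linarith) (a5 j hj))
  have g1 : sig v om (j + 1) ≤ sig v om j + 3 / 2 * v := by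
    have := (abs_le.1 (ho.lip j)).1
    have := mul_le_mul_of_nonneg_right hL v0.le
    unfold sig; push_cast; linarith
  have g0 := ho.sig_nn v0 hL j
  have g2 : 4 * B * sig v om j ^ 2 ≤ 4 * B * t ^ 2 := by gcongr
  have g3 : al z v J lam * (t - sig v om j) ≤ 2 * B * (3 / 2 * v) :=
    mul_le_mul α1 (by linarith) (by linarith) (by linarith)
  have g4 : 0 ≤ al z v J lam * (t - sig v om j) := mul_nonneg α0 (by linarith)
  have g6 : 0 ≤ B * √η := by positivity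
  have g7 : 0 ≤ B * v := by positivity
  unfold lo
  rw [cell j t c1 c2, abs_le]; constructor <;> linarith [n.1, n.2]

theorem dist_le (hz : Lab z J) (v0 : 0 < v) (ho : Om v Y L om) (hL : L ≤ 1 / 2) (YJ : Y ≤ J * v) :
    dist1 (lo z v 0 J) (lo z v om J) ≤ DD z J 0 om := by
  obtain ⟨-, ar⟩ := areaS z (sig v 0) J hz (om_zero v Y ho.Lv).sig0 ((om_zero v Y ho.Lv).sm v0 hL)
  refine (ar (sig v om) ho.sig0 (ho.sm v0 hL) (by
    rw [ho.sig_eq YJ, (om_zero v Y ho.Lv).sig_eq YJ])).1.trans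
    (le_of_eq (Finset.sum_congr rfl fun j _ => ?_))
  unfold sig
  rw [← abs_neg]; congr 2; ring

theorem small_aux {K e v y : ℝ} (k1 : 1 ≤ K) (e1 : e ≤ 1 / (12 * K ^ 2)) (v1 : v ≤ 1 / (12 * K ^ 2))
    (y1 : y ≤ 1 / (12 * K ^ 2)) : K * (e + v) ≤ 1 ∧ 3 * K * (y + K * (e + v)) ≤ 1 := by
  have d1 : K * (e + v) ≤ 1 / (6 * K) := by
    calc _ ≤ K * (1 / (12 * K ^ 2) + 1 / (12 * K ^ 2)) := by gcongr
      _ = _ := by field_simp; norm_num
  have d2 : 1 / (12 * K ^ 2) ≤ 1 / (6 * K) :=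
    one_div_le_one_div_of_le (by positivity) (by nlinarith)
  have d3 : 1 / (6 * K) ≤ 1 := by rw [div_le_one (by positivity)]; linarith
  refine ⟨d1.trans d3, ?_⟩
  calc _ ≤ 3 * K * (1 / (6 * K) + 1 / (6 * K)) := by gcongr; exact y1.trans d2
    _ = 1 := by field_simp; norm_num

theorem x_aux {K z e s : ℝ} (B0 : 0 ≤ B) (C0 : 0 ≤ C) (hK : 4 * B + C ≤ K) (e0 : 0 ≤ e) (v0 : 0 ≤ v)
    (n : |z - α * s| ≤ 4 * B * s ^ 2 + B * (e + v)) (hx : |x - z| ≤ C * v) :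
    |x - α * s| ≤ K * s ^ 2 + K * (e + v) := by
  have n1 := abs_le.1 n
  have n2 := abs_le.1 hx
  have g2 : 4 * B * s ^ 2 ≤ K * s ^ 2 := by gcongr; linarith
  have g5 : (B + C) * (e + v) ≤ K * (e + v) := by gcongr; linarith
  have g6 : 0 ≤ C * e := by positivity
  exact abs_le.2 ⟨by linarith [n1.1, n2.1], by linarith [n1.2, n2.2]⟩

end lin

theorem LinRef.mono {K' : ℝ} (h : LinRef l b α K δ t x) (hK : K ≤ K') (d0 : 0 ≤ δ) (t0 : 0 ≤ t) :
    LinRef l b α K' δ t x := by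
  have up : ∀ {a X : ℝ}, a ≤ K * X → 0 ≤ X → a ≤ K' * X := fun a X0 =>
    a.trans (mul_le_mul_of_nonneg_right hK X0)
  exact ⟨up h.xa (by positivity), up h.q (by positivity), up h.cx (by positivity),
    up h.A (by positivity), up h.B (by positivity), up h.e (by positivity),
    up h.h (by positivity), up h.E1 (by positivity), up h.E2 (by positivity),
    up h.H (by positivity)⟩

/-- **the site constants of the profiles with `om = lam * t` on `[0, y]`** (any number of slices) -/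
theorem lin_ref (b0 c C : ℝ) (hb : 1 ≤ b0) (hc : 0 < c) (hC : 1 ≤ C) : ∃ K η0 : ℝ, 1 ≤ K ∧
    0 < η0 ∧ ∀ (η v : ℝ) (J : ℕ) (z : ℕ → ℝ), Base b0 c C η v J z → η ≤ η0 → v ≤ η0 →
    ∀ (om : ℕ → ℝ) (Y L lam y b : ℝ) (N : ℕ), Om v Y L om → L ≤ 1 / 2 → Y ≤ J * v →
    0 ≤ lam → lam ≤ 1 / 2 → y ≤ J * v → y ≤ η0 → (∀ j : ℕ, j * v ≤ y → om j = lam * (j * v)) →
    0 ≤ b → b ≤ 2 * b0 → J ≤ N →
    (1 / K ≤ al z v J lam ∧ al z v J lam ≤ K ∧ 1 / K ≤ k4 (lo z v 0 J) ^ 2 ∧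
      k4 (lo z v 0 J) ^ 2 ≤ K ∧ |k3 (lo z v om N) b (al z v J lam) -
        b * k4 (lo z v 0 J) ^ 2 / 2 * (lam / (1 - lam))| ≤ K * DD z J 0 om) ∧
    (∀ t, 0 ≤ t → t < y / 2 →
      |lvr 1 (lo z v om N) t - al z v J lam * t| ≤ K * (t ^ 2 + (√η + v))) ∧
    ∀ k : ℕ, k * v ≤ y / 2 → ∀ x, 0 ≤ x → |x - z k| ≤ C * v →
      LinRef (lo z v om N) b (al z v J lam) K (√η + v) (sig v om k) x := by
  obtain ⟨c2, B, η0, p0, B1, p2, H⟩ := cst_spec b0 c C hb hc hC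
  obtain ⟨CF, cF, hF⟩ := lipFS b0
  obtain ⟨K1, k1, k1', hK1⟩ := exists_ctx b0 (4 * B + C + 2 * b0)
  obtain ⟨K2, k2, hK2⟩ := Ctx.linRef b0 K1
  have K0 : 0 < K1 := by linarith
  have B0 : 0 ≤ B := by linarith
  have C0 : 0 ≤ C := by linarith
  have i1 : 2 * b0 ≤ 4 * B + C + 2 * b0 := by linarith
  have i2 : 2 * B ≤ 4 * B + C + 2 * b0 := by linarith
  have i3 : 4 * B ≤ 4 * B + C + 2 * b0 := by linarith
  have i4 : 4 * B + C ≤ K1 := by linarith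
  have i5 : B ≤ K1 := by linarith
  obtain ⟨K, j1, j2, j3, j4⟩ : ∃ K, K2 * K1 ≤ K ∧ 1 / K ≤ c2 ∧ 4 * K1 ^ 2 * CF ≤ K ∧ K1 ≤ K := by
    have c2' : 0 < 1 / c2 := by positivity
    have f1 : 0 ≤ K2 * K1 := by positivity
    have f2 : 0 ≤ 4 * K1 ^ 2 * CF := by positivity
    refine ⟨K2 * K1 + 1 / c2 + 4 * K1 ^ 2 * CF + K1, by linarith, ?_, by linarith, by linarith⟩
    rw [one_div_le (by linarith) p0]; linarith
  refine ⟨K, min η0 (min 1 (min (1 / (12 * K1 ^ 2)) ((1 / (12 * K1 ^ 2)) ^ 2))), k1'.trans j4,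
    by positivity, fun η v J z h hη hv om Y L lam y b N ho hL YJ l0 l1 yJ hy hom b0' b1 hN => ?_⟩
  simp only [le_min_iff] at hη hv hy
  obtain ⟨a1, a2, a3, a4, a5⟩ := H η v J z h hη.1 hv.1
  have v0 := h.v_pos
  have s0 := Real.sqrt_nonneg η
  have s1 : √η ≤ 1 / (12 * K1 ^ 2) := Real.sqrt_le_iff.2 ⟨by positivity, hη.2.2.2⟩
  have m0 : 0 < 1 - lam := by linarith only [l1]
  have α0 : cst z v J ≤ al z v J lam := by
    unfold al; rw [le_div_iff₀ m0]; nlinarith only [a1, p0, l0]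
  have α1 : al z v J lam ≤ 2 * B := by
    unfold al; rw [div_le_iff₀ m0]; nlinarith only [a2, B0, l1]
  have α2 : 0 ≤ al z v J lam := p0.le.trans (a1.trans α0)
  obtain ⟨ok, hT⟩ := lo_ok areaS h.lab ho v0 hL YJ
  obtain ⟨ok0, hT0⟩ := lo_ok areaS h.lab (om_zero v Y ho.Lv) v0 hL YJ
  obtain ⟨sm, -, lv, -⟩ := Ker.lo_same h.lab le_rfl hN ho v0 hL YJ
  have J0 : 0 ≤ (J:ℝ) * v := by positivity
  have hi : ∀ t, 0 ≤ t → t < y / 2 → |lvr 1 (lo z v om J) t - al z v J lam * t| ≤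
      (4 * B + C + 2 * b0) * t ^ 2 + K1 * (√η + v) := fun t t0 t1 =>
    (lin_hi h.lab v0 ho hL YJ yJ B0 m0 α2 α1 hom a5 t0 t1).trans (add_le_add
      (mul_le_mul_of_nonneg_right i3 (sq_nonneg t))
      (mul_le_mul_of_nonneg_right (i3.trans k1) (by positivity)))
  have cxz : ∀ l, Ok l → TT l = J * v → Ctx l b (al z v J lam) 0 0 K1 0 0 := fun l o e =>
    hK1 _ b _ 0 0 0 0 o (e.le.trans h.hi) ⟨fun t a c => absurd a (not_le.2 c),
      fun t a c => absurd a (not_le.2 c)⟩ b0' (b1.trans i1) α2 (α1.trans i2) le_rfl zero_le_one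
      le_rfl zero_le_one le_rfl le_rfl (e ▸ J0) zero_le_one
  refine ⟨⟨j2.trans (a1.trans α0), α1.trans (i2.trans (k1.trans j4)), j2.trans a3,
    a4.trans (i5.trans j4), ?_⟩, fun t t0 t1 => ?_, fun k hk x x0 hx => ?_⟩
  · obtain ⟨-, -, -, -, -, -, u1, u2⟩ := hF _ _ ok0 ok (hT.trans hT0.symm) (hT0.le.trans h.hi) 0
      ⟨le_rfl, hT0 ▸ J0⟩
    have dD' := mul_le_mul_of_nonneg_left (dist_le h.lab v0 ho hL YJ) (zero_le_one.trans cF)
    have e : k3 (lo z v om N) b (al z v J lam) = k3 (lo z v om J) b (al z v J lam) := by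
      unfold k3; rw [sm.chi, sm.k4]
    rw [e]
    refine (k3_lip (cxz _ ok hT) (cxz _ ok0 hT0) m0 rfl (u1.trans dD') (u2.trans dD')).trans ?_
    rw [← mul_assoc]
    exact mul_le_mul_of_nonneg_right j3 (DD_nn h.lab 0 om)
  · rw [lv t t0, mul_add K]
    exact (hi t t0 t1).trans (add_le_add (mul_le_mul_of_nonneg_right (k1.trans j4) (sq_nonneg t))
      (mul_le_mul_of_nonneg_right j4 (by positivity)))
  · have g0 : 0 ≤ (k:ℝ) * v := by positivity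
    have y0 : 0 ≤ y / 2 := g0.trans hk
    have y1 : y / 2 ≤ y := by linarith only [y0]
    have kJ : k < J := by
      by_contra hh
      have : (J:ℝ) * v ≤ k * v := mul_le_mul_of_nonneg_right (Nat.cast_le.2 (not_lt.1 hh)) v0.le
      linarith only [h.lo, this, hk, yJ, hc]
    have t0 := ho.sig_nn v0 hL k
    have t1 : sig v om k ≤ y / 2 := (ho.sig_le k).trans hk
    obtain ⟨d1, d2⟩ := small_aux k1' s1 hv.2.2.1 (t1.trans (y1.trans hy.2.2.1))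
    have cx := hK1 _ b _ 0 0 (K1 * (√η + v)) (y / 2) ok (hT.le.trans h.hi)
      ⟨fun t a c => by rw [zero_mul, zero_add]; exact hi t a c, hi⟩ b0' (b1.trans i1) α2
      (α1.trans i2) le_rfl zero_le_one (by positivity) d1 le_rfl y0 (hT ▸ y1.trans yJ)
      (y1.trans hy.2.1)
    have r := hK2 _ b _ _ _ _ x cx (hT.le.trans h.hi) t0 t1 d2 x0 (x_aux B0 C0 i4 s0 v0.le
      (lin_node v0 ho hL B0 m0 hom (hk.trans y1) (a5 k kJ)) hx)
    exact ((r.scale (zero_le_one.trans k2) k1' t0).same sm lv ⟨t0, t1.trans (y1.trans yJ)⟩).mono j1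
      (by positivity) t0

end

end Crest.Agent.T156.Pr.Ref81
end

-- ▼ part T156/PLinB_81
section

/-!
Row 156 (helper81): the site constants (A), (B), (H), (E) for the reference lists of the concrete
family (static or spread plateau).
-/

set_option autoImplicit false

noncomputable section

namespace Crest.Agent.T156.Pr.Ref81

open MeasureTheory Set Filter
open Crest.Agent.R164.GC Crest.Agent.R339.B Crest.Agent.R339.Var Crest.Agent.T157.Pf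
open Exp50 (Iz Z1 M1 J2 XX eps0 mu ev hv kc Aq Bq E1 E2 Sm)
open Spr41 (Spr Near)

variable {l l2 : List (ℝ × ℝ)} {b α K δ t x : ℝ}

theorem red' {T1 : ℝ} (h : Ker.Tp T1 l) : ∃ u, Ok u ∧ TT u = T1 ∧ Ker.Same u l T1 ∧
    ∀ s, 0 ≤ s → lvr 1 l s = lvr 1 u s := by
  obtain ⟨a, b, c, -⟩ := h.ext
  obtain ⟨u, o, e, -⟩ := Spl27.exists_ok a
  have tu : TT u = T1 := e.tt.symm.trans b
  have lv : ∀ s, 0 ≤ s → lvr 1 l s = lvr 1 u s := fun s hs => by rw [← e.lv s hs, c]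
  exact ⟨u, o, tu, tu ▸ Ker.same_le o.1 h.adm (tu.trans_le h.mem.2) fun s hs _ => lv s hs.le, lv⟩

/-- **any list with linear tilts near `0`**; the constants depend on the time where the tilt
reaches `1` -/
theorem linRef_tp (T0 K : ℝ) : ∃ K' η1 : ℝ, 1 ≤ K' ∧ K ≤ K' ∧ 0 < η1 ∧
    ∀ (l : List (ℝ × ℝ)) (T1 b α e v t1 t x : ℝ), Ker.Tp T1 l → T1 ≤ T0 →
    (∀ s, 0 ≤ s → s < t1 → |lvr 1 l s - α * s| ≤ K * (s ^ 2 + (e + v))) → 0 ≤ b → b ≤ K → 0 ≤ α →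
    α ≤ K → 0 ≤ e → 0 ≤ v → e ≤ η1 → v ≤ η1 → t1 ≤ T1 → t1 ≤ η1 → 0 ≤ t → t ≤ t1 → 0 ≤ x →
    |x - α * t| ≤ K * (t ^ 2 + (e + v)) → LinRef l b α K' (e + v) t x := by
  obtain ⟨K1, k1, k1', hK1⟩ := exists_ctx T0 K
  obtain ⟨K2, k2, hK2⟩ := Ctx.linRef T0 K1
  have K0 : 0 < K1 := by linarith
  have k3 : K1 ≤ K2 * K1 := le_mul_of_one_le_left K0.le k2
  refine ⟨K2 * K1, min 1 (1 / (12 * K1 ^ 2)), k1'.trans k3, k1.trans k3, by positivity,
    fun l T1 b α e v t1 t x h hT hl b0 b1 a0 a1 e0 v0 e1 v1 tT t2 t0 tt x0 hx => ?_⟩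
  simp only [le_min_iff] at e1 v1 t2
  obtain ⟨u, o, tu, su, lu⟩ := red' h
  obtain ⟨d1, d2⟩ := small_aux k1' e1.2 v1.2 (tt.trans t2.2)
  have w : K * (e + v) ≤ K1 * (e + v) := mul_le_mul_of_nonneg_right k1 (by positivity)
  have hi : ∀ s, 0 ≤ s → s < t1 → |lvr 1 u s - α * s| ≤ K * s ^ 2 + K1 * (e + v) := fun s s0 s1 => by
    rw [← lu s s0]; linarith [hl s s0 s1]
  have cx := hK1 u b α 0 0 (K1 * (e + v)) t1 o (tu ▸ hT)
    ⟨fun s a c => by rw [zero_mul, zero_add]; exact hi s a c, hi⟩ b0 b1 a0 a1 le_rfl zero_le_one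
    (by positivity) d1 le_rfl (t0.trans tt) (tu ▸ tT) t2.1
  have r := hK2 u b α _ t1 t x cx (tu ▸ hT) t0 tt d2 x0 (by
    linarith [mul_le_mul_of_nonneg_right k1 (sq_nonneg t)])
  exact (r.scale (zero_le_one.trans k2) k1' t0).same su lu ⟨t0, tt.trans tT⟩

theorem LinRef.del {δ' : ℝ} (h : LinRef l b α K δ t x) (K0 : 0 ≤ K) (hd : δ ≤ δ') :
    LinRef l b α K δ' t x := by
  have up : ∀ {a X : ℝ}, a ≤ K * (X + δ) → a ≤ K * (X + δ') := fun a =>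
    a.trans (mul_le_mul_of_nonneg_left (by linarith) K0)
  exact ⟨up h.xa, up h.q, up h.cx, up h.A, up h.B, up h.e, up h.h, up h.E1, up h.E2, up h.H⟩

/-- one cell of **(H)** -/
theorem Psi_step (h : Ok l) (b : ℝ) {a a' x x' : ℝ} (a0 : 0 ≤ a) (aa : a ≤ a') (aT : a' ≤ TT l)
    (hl : ∀ u, a ≤ u → u < a' → lvr 1 l u = x) :
    Psi b l x' a' - Psi b l x a = x * (hv b l a' - hv b l a) - 3 * ((x' - x) * hv b l a') +
      2 * eps0 b l * ((x' - x) * a') := by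
  have ap := Pp.Ode3.AP.of_ok h
  have sub : Icc a a' ⊆ Icc 0 (TT l) := Icc_subset_Icc a0 aT
  have key : ∀ f F : ℝ → ℝ, ContinuousOn f (Icc 0 (TT l)) → ContinuousOn F (Icc 0 (TT l)) →
      (∀ u, 0 ≤ u → u < TT l → HasDerivWithinAt F (f u) (Ici u) u) →
      Iz l f a' - Iz l f a = x * (F a' - F a) := fun f F hf hF hd => by
    have := mvt_cmp (f := fun u => Iz l f u - x * F u) (g := fun _ => 0) (g' := fun _ => 0) (E := 0)
      aa (((Exp50.Iz_cont ap hf).sub (continuousOn_const.mul hF)).mono sub)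
      (fun u hu => (Exp50.Iz_rder ap hf (a0.trans hu.1) (hu.2.trans_le aT)).sub
        ((hd u (a0.trans hu.1) (hu.2.trans_le aT)).const_mul x))
      (fun s => hasDerivAt_const s 0) (fun u hu => by rw [hl u hu.1 hu.2]; simp)
    rw [zero_mul, abs_nonpos_iff] at this
    linarith
  have k1 := key (ev b l) (hv b l)
    (continuousOn_const.sub (continuousOn_const.mul (Pp.Ode3.Gp_cont ap)))
    (continuousOn_id.sub (continuousOn_const.mul (Pp.Ode3.Gam_cont ap)))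
    fun u u0 u1 => (hasDerivWithinAt_id u _).sub ((Pp.Ode3.Gam_rder ap u0 u1).const_mul b)
  have k2 := key (fun _ => 1) (fun u => u) continuousOn_const continuousOn_id
    fun u _ _ => hasDerivWithinAt_id u _
  unfold Psi Z1
  linear_combination 4 * k1 - 2 * eps0 b l * k2

/-- **(H)** between two nodes -/
theorem Psi_Ico (h : Ok l) (b : ℝ) {z s : ℕ → ℝ} {i : ℕ} (s0 : 0 ≤ s i) (sm : Monotone s) :
    ∀ m, i ≤ m → s m ≤ TT l → (∀ k, i ≤ k → k < m → ∀ u, s k ≤ u → u < s (k + 1) → lvr 1 l u = z k) →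
    ∑ k ∈ Finset.Ico i m, (z k * (hv b l (s (k + 1)) - hv b l (s k)) -
      3 * ((z (k + 1) - z k) * hv b l (s (k + 1))) + 2 * eps0 b l * ((z (k + 1) - z k) * s (k + 1))) =
      Psi b l (z m) (s m) - Psi b l (z i) (s i) := by
  intro m hm
  induction m, hm using Nat.le_induction with
  | base => intro _ _; simp
  | succ m hm ih =>
    intro hT hl
    rw [Finset.sum_Ico_succ_top hm, ih ((sm m.le_succ).trans hT) fun k a c => hl k a (by omega),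
      ← Psi_step h b (s0.trans (sm hm)) (sm m.le_succ) hT (hl m hm m.lt_succ_self)]
    ring

theorem near_aux {C g B A Q : ℝ} (N : Near C g l l2) (o : Ok l) (o2 : Ok l2) (b0 : 0 ≤ b) (b1 : b ≤ B)
    (a0 : 0 ≤ α) (a1 : α ≤ A) (q1 : |k4 l| ≤ Q) (q2 : |k4 l2| ≤ Q) :
    |eps0 b l2 - eps0 b l| ≤ B * (2 * (C * g)) ∧
      |k3 l2 b α - k3 l b α| ≤ B * ((3 * A + Q) * (C * g)) := by
  have hb : |b| ≤ B := (abs_of_nonneg b0).le.trans b1
  have ha : |α| ≤ A := (abs_of_nonneg a0).le.trans a1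
  have c : ∀ {l : List (ℝ × ℝ)}, Ok l → |chi l| ≤ 1 := fun o => by
    have ap := Pp.Ode3.AP.of_ok o
    rw [Pp.Ode3.chi_eq ap, abs_of_pos (Pp.Ode3.chi_pos ap)]; exact Pp.Ode3.chi_le ap
  have c1 := abs_le.1 (c o)
  have c2 := abs_le.1 (c o2)
  constructor
  · rw [show eps0 b l2 - eps0 b l = b * (-(chi l2 + chi l) * (chi l2 - chi l)) by unfold eps0; ring]
    exact amul hb (amul (abs_le.2 ⟨by linarith, by linarith⟩) N.chi)
  · have i1 := abs_le.1 (amul (c o) (c o))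
    have i2 := abs_le.1 (amul (c o2) (c o2))
    have i3 := abs_le.1 (amul (c o2) (c o))
    have w1 : |chi l2 * chi l2 + chi l2 * chi l + chi l * chi l| ≤ 3 :=
      abs_le.2 ⟨by linarith, by linarith⟩
    have j1 := abs_le.1 q1
    have j2 := abs_le.1 q2
    have w2 : |(k4 l2 + k4 l) / 2| ≤ Q := abs_le.2 ⟨by linarith, by linarith⟩
    have w3 := abs_le.1 (amul ha (amul w1 N.chi))
    have w4 := abs_le.1 (amul w2 N.k4)
    rw [show k3 l2 b α - k3 l b α = b * (α * ((chi l2 * chi l2 + chi l2 * chi l + chi l * chi l) *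
      (chi l2 - chi l)) - (k4 l2 + k4 l) / 2 * (k4 l2 - k4 l)) by unfold k3; ring]
    exact amul hb (abs_le.2 ⟨by linarith, by linarith⟩)

/-- **lists with the tilts of a linear profile below `J v` and tilt `1` from `J v + g` on** -/
theorem lin_spr (b0 c C : ℝ) (hb : 1 ≤ b0) (hc : 0 < c) (hC : 1 ≤ C) : ∃ K η0 : ℝ, 1 ≤ K ∧
    0 < η0 ∧ ∀ (η v : ℝ) (J : ℕ) (z : ℕ → ℝ), Base b0 c C η v J z → η ≤ η0 → v ≤ η0 →
    ∀ (om : ℕ → ℝ) (Y L lam y b g : ℝ) (N : ℕ) (l2 : List (ℝ × ℝ)), Om v Y L om → L ≤ 1 / 2 →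
    0 ≤ Y → Y ≤ J * v → 0 ≤ lam → lam ≤ 1 / 2 → y ≤ J * v → y ≤ η0 →
    (∀ j : ℕ, j * v ≤ y → om j = lam * (j * v)) → 0 ≤ b → b ≤ 2 * b0 → J ≤ N → Ok l2 →
    Spr (J * v) g (lo z v om N) l2 → g ≤ 1 → lvr 1 l2 0 = lvr 1 (lo z v om N) 0 →
    (1 / K ≤ al z v J lam ∧ al z v J lam ≤ K) ∧
    |eps0 b l2 - eps0 b (lo z v om N)| ≤ K * g ∧ |k3 l2 b (al z v J lam)| ≤ K * (lam + L * Y + g) ∧
    ∀ k : ℕ, k * v ≤ y / 2 → ∀ x, 0 ≤ x → |x - z k| ≤ C * v →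
      LinRef l2 b (al z v J lam) K (√η + v) (sig v om k) x := by
  obtain ⟨K1, η1, k1, p1, H⟩ := lin_ref b0 c C hb hc hC
  obtain ⟨K2, η2, k2, k2', p2, H2⟩ := linRef_tp (b0 + 1) (K1 + 2 * b0)
  obtain ⟨CN, cN, hN'⟩ := Spr41.near (b0 + 1)
  obtain ⟨Q, q1, hQ⟩ := Ker.Dn_bound' (b0 + 1) 3
  obtain ⟨K, j1, j2, j3, j4, j5⟩ : ∃ K, K2 ≤ K ∧ 2 * b0 * (2 * CN) ≤ K ∧ 2 * b0 * K1 ≤ K ∧
      2 * b0 * ((3 * K1 + Q) * CN) ≤ K ∧ K1 ≤ K := by
    have f1 : 0 ≤ 2 * b0 * (2 * CN) := by positivity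
    have f2 : 0 ≤ 2 * b0 * K1 := by positivity
    have f3 : 0 ≤ 2 * b0 * ((3 * K1 + Q) * CN) := by positivity
    exact ⟨K2 + 2 * b0 * (2 * CN) + 2 * b0 * K1 + 2 * b0 * ((3 * K1 + Q) * CN), by linarith,
      by linarith, by linarith, by linarith, by linarith⟩
  refine ⟨K, min η1 (min η2 (η2 ^ 2)), k2.trans j1, by positivity,
    fun η v J z h hη hv om Y L lam y b g N l2 ho hL Y0 YJ l0 l1 yJ hy hom b0' b1 hN o2 S g1 e0 => ?_⟩
  simp only [le_min_iff] at hη hv hy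
  obtain ⟨⟨a1, a2, -, a4, a5⟩, a6, a7⟩ := H η v J z h hη.1 hv.1 om Y L lam y b N ho hL YJ l0 l1 yJ
    hy.1 hom b0' b1 hN
  have v0 := h.v_pos
  have K0 : 0 < K1 := by linarith only [k1]
  have α0 : 0 ≤ al z v J lam := le_trans (by positivity) a1
  have hT : J * v + g ≤ b0 + 1 := add_le_add h.hi g1
  have g0 := S.g0
  obtain ⟨o, -⟩ := lo_ok areaS (h.lab.up hN) ho v0 hL
    (YJ.trans (mul_le_mul_of_nonneg_right (Nat.cast_le.2 hN) v0.le))
  obtain ⟨n1, n2⟩ := near_aux (hN' _ _ _ _ S hT) o o2 b0' b1 α0 a2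
    (hQ _ _ S.tp hT 0 le_rfl 3 le_rfl 0) (hQ _ _ S.tp2 hT 0 le_rfl 3 le_rfl 0)
  refine ⟨⟨(one_div_le_one_div_of_le K0 j5).trans a1, a2.trans j5⟩, n1.trans ?_, ?_,
    fun k hk x x0 hx => ?_⟩
  · linarith only [mul_le_mul_of_nonneg_right j2 g0]
  · have d1 := DD_le h.lab ho v0 Y0
    have d0 := DD_nn h.lab 0 om
    have m0 : 0 < 1 - lam := by linarith only [l1]
    have f1 : lam / (1 - lam) ≤ 2 * lam := by rw [div_le_iff₀ m0]; nlinarith only [l0, l1]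
    have f0 : 0 ≤ lam / (1 - lam) := by positivity
    have f2 : b * k4 (lo z v 0 J) ^ 2 / 2 * (lam / (1 - lam)) ≤ 2 * b0 * K1 / 2 * (2 * lam) := by
      gcongr
    have f3 : 0 ≤ b * k4 (lo z v 0 J) ^ 2 / 2 * (lam / (1 - lam)) := by positivity
    have f4 := mul_le_mul_of_nonneg_right j3 l0
    have f5 := mul_le_mul j5 d1 d0 (K0.le.trans j5)
    have f6 := mul_le_mul_of_nonneg_right j4 g0
    have f7 : 0 ≤ K * lam := mul_nonneg (K0.le.trans j5) l0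
    have u1 := abs_le.1 a5
    have u2 := abs_le.1 n2
    rw [abs_le]; constructor <;> linarith only [u1.1, u1.2, u2.1, u2.2, f2, f3, f4, f5, f6, f7]
  · have g0' : 0 ≤ (k:ℝ) * v := by positivity
    have y0 : 0 ≤ y / 2 := g0'.trans hk
    have y1 : y / 2 ≤ y := by linarith only [y0]
    have t0 := ho.sig_nn v0 hL k
    have i1 : K1 ≤ K1 + 2 * b0 := by linarith only [hb]
    refine (H2 l2 _ b _ (√η) v (y / 2) _ x S.tp2 hT (fun s s0 s1 => ?_) b0'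
      (by linarith only [b1, K0]) α0 (a2.trans i1) (Real.sqrt_nonneg η) v0.le
      (Real.sqrt_le_iff.2 ⟨p2.le, hη.2.2⟩) hv.2.1 (by linarith only [y1, yJ, g0]) (y1.trans hy.2.1)
      t0 ((ho.sig_le k).trans hk) x0 ((a7 k hk x x0 hx).xa.trans
        (mul_le_mul_of_nonneg_right i1 (by positivity)))).mono j1 (by positivity) t0
    have e : lvr 1 l2 s = lvr 1 (lo z v om N) s := by
      rcases s0.eq_or_lt with a | a
      · rw [← a]; exact e0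
      · exact S.eq s a (s1.trans_le (y1.trans yJ))
    rw [e]
    exact (a6 s s0 s1).trans (mul_le_mul_of_nonneg_right i1 (by positivity))

end Crest.Agent.T156.Pr.Ref81

namespace Crest.Agent.T156.Alt

open Real Set Filter Topology
open Crest.Agent.R164.GC Crest.Agent.R339.B Crest.Agent.R339.Var Crest.Agent.T157.Pf
open Pr.Ref81 Pr.Exp50

/-- slope of the tilts of the reference list at `0` -/
def Pm.al (p : Pm) (τ : ℝ) : ℝ := Pr.Ref81.al p.z p.v p.J (τ * p.κ)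

/-- the site constants of the family, any plateau with `0 ≤ γ ≤ 1`; the mesh error is `√v` -/
def LinP (K : ℝ) (p : Pm) : Prop := ∀ τ y, p.Mem τ y → ∀ P : Pl, 0 ≤ P.γ → P.γ ≤ 1 → P.x 0 = p.xs →
  (∀ i < P.I, P.x i < P.x (i + 1)) → P.x P.I ≤ 1 →
  (1 / K ≤ p.al τ ∧ p.al τ ≤ K) ∧ |eps0 (p.b τ y) (p.lP P τ y) - p.eps τ| ≤ K * P.γ ∧
  |k3 (p.lP P τ y) (p.b τ y) (p.al τ)| ≤ K * (p.κ + P.γ) ∧
  (∀ k : ℕ, k * p.v ≤ y / 2 → k + 1 < p.J ∧ p.zP P k = p.z k ∧ k * p.v / 2 ≤ p.sP P τ y k ∧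
    p.sP P τ y k ≤ k * p.v ∧ ∀ x, x = p.z k ∨ x = p.z (k - 1) →
      LinRef (p.lP P τ y) (p.b τ y) (p.al τ) K (√p.v) (p.sP P τ y k) x) ∧
  ∀ i m : ℕ, i ≤ m → m * p.v ≤ y / 2 → ∀ H : ℕ → ℝ,
    (∀ k, i ≤ k → k ≤ m → H k = p.sP P τ y k - p.b τ y * p.qP P τ y k) →
    |∑ k ∈ Finset.Ico i m, (p.z k * (H (k + 1) - H k) - 3 * ((p.z (k + 1) - p.z k) * H (k + 1)) +
      2 * eps0 (p.b τ y) (p.lP P τ y) * ((p.z (k + 1) - p.z k) * p.sP P τ y (k + 1)))| ≤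
      K * (|eps0 (p.b τ y) (p.lP P τ y)| * (m * p.v) ^ 3 + (m * p.v) ^ 5 + √p.v)

/-- **(A), (B), (H), (E) for the family** -/
theorem linP (β : ℝ) (hβ : 1 < β) : Cst β LinP := by
  intro c0 C0 hc0 hC0
  have hb : 1 ≤ β ^ 2 := one_le_pow₀ hβ.le
  obtain ⟨K, η0, k1, p0, H⟩ := lin_spr (β ^ 2) c0 C0 hb hc0 hC0
  obtain ⟨C1, c1, h1⟩ := p1 β hβ c0 C0 hc0 hC0
  have K0 : 0 < K := by linarith
  have q1 : 1 ≤ C0 + 1 := by linarith
  have j1 : K ≤ K * (C0 + 1) := le_mul_of_one_le_right K0.le q1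
  have j0 : 0 ≤ K * (C0 + 1) := by positivity
  have j2 : K * (C0 + 1) ≤ 2 * (K * (C0 + 1)) := by linarith
  have j3 : 2 * K ≤ 2 * (K * (C0 + 1)) := by linarith
  have j4 : K ≤ 2 * (K * (C0 + 1)) := j1.trans j2
  obtain ⟨δ, hδ, d0, d1, d2⟩ : ∃ δ : ℝ, 0 < δ ∧ δ ≤ 1 / 8 ∧ δ ≤ η0 ∧ δ ≤ c0 / 2 :=
    ⟨min (1 / 8) (min η0 (c0 / 2)), by positivity, min_le_left _ _,
      (min_le_right _ _).trans (min_le_left _ _), (min_le_right _ _).trans (min_le_right _ _)⟩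
  refine ⟨2 * (K * (C0 + 1)), k1.trans j4, fun A hA c hc hc' => ?_⟩
  filter_upwards [PP3.ev_small β c0 C0 hA hc hc' hδ, h1 A hA c hc hc', eventually_ge_atTop 3]
    with n hS hP n3 p hβ' hn hA' hc'' hp τ y hm P g0 g1 x0 xm x1
  have S := hS p hβ' hn hA' hc'' hp
  obtain ⟨ho, ok, ⟨b1, -⟩, -⟩ := hP p hβ' hn hA' hc'' hp τ y hm
  clear hS hP h1
  subst hβ'
  obtain ⟨k0, r0, m0, t0, t1, ry, yd, -⟩ := PP3.mem_facts S hp.s1 hm
  have hB := hp.base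
  have v0 := hB.v_pos
  have y0 : 0 < y := r0.trans_le ry
  have l0 : 0 ≤ τ * p.κ := by positivity
  have l1 : τ * p.κ ≤ p.κ := mul_le_of_le_one_left k0.le t1
  have kd := S.κ
  have hL : 4 * p.κ ≤ 1 / 2 := by linarith only [kd, d0]
  have e0 := Pr.Sharp81.eta_nn hB
  have ηv : C0 / (p.n : ℝ) ^ p.A + p.v ≤ δ := S.ηv.trans (mul_le_of_le_one_right hδ.le S.μ1)
  have yJ : 2 * y ≤ p.J * p.v := by linarith only [yd, d2, hB.lo]
  have J0 : 0 < (p.J : ℝ) * p.v := hc0.trans_le hB.lo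
  have G : Mem37.Geo c0 C0 _ (2 * y) p P (p.om τ y) := ⟨hB, ⟨ho.zero, ho.nn, ho.supp, fun j =>
    (ho.lip j).trans (mul_le_mul_of_nonneg_right hL v0.le)⟩, yJ,
    Nat.pos_of_ne_zero (fun h => by simp [h] at J0), g0, x0, xm, x1⟩
  have ep : p.eps τ ≤ 1 := by
    have : p.r ^ 2 ≤ 1 := pow_le_one₀ r0.le (by linarith only [ry, yd, d0])
    unfold Pm.eps
    exact mul_le_one₀ (by linarith only [l1, hL]) (sq_nonneg _) this
  have b0 : 0 ≤ p.b τ y := div_nonneg (sub_nonneg.2 ep) (sq_nonneg _)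
  have b2 : p.b τ y ≤ 2 * p.β ^ 2 := by
    have a : 0 ≤ p.μ τ y / C1 := by unfold Pm.μ; positivity
    have : p.b τ y / p.β ^ 2 ≤ 1 := by linarith only [a, b1]
    rw [div_le_one (by positivity)] at this
    linarith only [this, hb]
  have ee : eps0 (p.b τ y) (Pr.lo p.z p.v (p.om τ y) (p.J + p.Nr)) = p.eps τ := by
    have ap := Pp.Ode3.AP.of_ok ok
    have : Pr.chi (p.l τ y) ≠ 0 := by rw [Pp.Ode3.chi_eq ap]; exact (Pp.Ode3.chi_pos ap).ne'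
    change 1 - (1 - p.eps τ) / Pr.chi (p.l τ y) ^ 2 * Pr.chi (p.l τ y) ^ 2 = _
    field_simp; ring
  obtain ⟨⟨a1, a2⟩, a3, a4, a5⟩ := H _ _ _ _ hB (by linarith only [ηv, v0, d1])
    (by linarith only [ηv, e0, d1]) (p.om τ y) (2 * y) (4 * p.κ) (τ * p.κ) y (p.b τ y) P.γ
    (p.J + p.Nr) (p.lO P (p.om τ y)) ho hL (by positivity) yJ l0 (by linarith only [l1, hL, k0])
    (by linarith only [yJ, y0]) (yd.trans d1) (fun j hj => by
      unfold Pm.om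
      rw [PP3.sm_lo (by rw [sub_nonpos, div_le_one y0]; exact hj)]; ring) b0 b2
    (Nat.le_add_right _ _) G.ok (G.spr (g1.trans (p.one_le_Nr v0 (by omega) (by omega)))) g1
    (G.lv_lo le_rfl J0)
  rw [ee] at a3
  have sv : √(C0 / (p.n : ℝ) ^ p.A) + p.v ≤ (C0 + 1) * √p.v := by
    have v1 : p.v ≤ √p.v := Real.le_sqrt_of_sq_le (by nlinarith only [v0, ηv, e0, d0])
    have s2 : √p.v ^ 2 = p.v := Real.sq_sqrt v0.le
    have n0 : 0 < (p.n : ℝ) ^ p.A := by have := S.n1; positivity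
    have u : C0 / (p.n : ℝ) ^ p.A ≤ (C0 * √p.v) ^ 2 := by
      rw [mul_pow, s2, Pm.v, ← mul_div_assoc]
      exact div_le_div_of_nonneg_right (by nlinarith only [hC0, hb, mul_nonneg (sub_nonneg.2 hC0) (sub_nonneg.2 hb), mul_nonneg (sq_nonneg C0) (sub_nonneg.2 hb)]) n0.le
    have := Real.sqrt_le_iff.2 ⟨by positivity, u⟩
    linarith only [this, v1]
  have node : ∀ k : ℕ, k * p.v ≤ y / 2 → k + 1 < p.J ∧ p.zP P k = p.z k ∧
      k * p.v / 2 ≤ p.sP P τ y k ∧ p.sP P τ y k ≤ k * p.v ∧ ∀ x, x = p.z k ∨ x = p.z (k - 1) →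
      LinRef (p.lP P τ y) (p.b τ y) (p.al τ) (K * (C0 + 1)) (√p.v) (p.sP P τ y k) x := fun k hk => by
    have kJ : k + 1 < p.J := by
      have : ((k + 1 : ℕ) : ℝ) * p.v < p.J * p.v := by
        push_cast; linarith only [hk, yd, ηv, e0, d2, hB.lo, hc0]
      exact_mod_cast lt_of_mul_lt_mul_right this v0.le
    have e : p.sP P τ y k = Pr.sig p.v (p.om τ y) k := Mem37.sP_lo (om := p.om τ y) (by omega)
    refine ⟨kJ, Mem37.zP_lo (by omega), e ▸ ho.sig_ge v0 hL k, e ▸ ho.sig_le k, fun x hx => ?_⟩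
    have zn : ∀ j, 0 ≤ p.z j := fun j => hB.lab.pos.le.trans (hB.lab.mono (Nat.zero_le j))
    rw [e]
    refine ((a5 k hk x (by rcases hx with h | h <;> exact h ▸ zn _) ?_).del K0.le sv).scale K0.le q1
      (ho.sig_nn v0 hL k)
    rcases hx with h | h
    · rw [h, sub_self, abs_zero]; positivity
    · rw [h]
      refine (Pr.Sharp81.lab_abs hB (by omega) (by omega)).trans
        (mul_le_mul_of_nonneg_left ?_ (by linarith only [hC0]))
      rcases k with _ | k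
      · simp [v0.le]
      · rw [Nat.add_sub_cancel, abs_sub_comm]; push_cast
        rw [show ((k:ℝ) + 1) * p.v - k * p.v = p.v by ring, abs_of_pos v0]
  refine ⟨⟨(one_div_le_one_div_of_le K0 j4).trans a1, a2.trans j4⟩,
    a3.trans (mul_le_mul_of_nonneg_right j4 g0), a4.trans ?_, fun k hk => ?_,
    fun i m him hm' Hh hH => ?_⟩
  · have : 4 * p.κ * (2 * y) ≤ p.κ := by nlinarith only [k0, yd, d0]
    calc _ ≤ K * (2 * (p.κ + P.γ)) := mul_le_mul_of_nonneg_left (by linarith only [this, l1, g0]) K0.le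
      _ = 2 * K * (p.κ + P.γ) := by ring
      _ ≤ _ := mul_le_mul_of_nonneg_right j3 (by positivity)
  · obtain ⟨u1, u2, u3, u4, u5⟩ := node k hk
    exact ⟨u1, u2, u3, u4, fun x hx => (u5 x hx).mono j2 (Real.sqrt_nonneg _) (G.sP_nn k)⟩
  · have mv : ∀ k : ℕ, k ≤ m → (k:ℝ) * p.v ≤ m * p.v := fun k hk =>
      mul_le_mul_of_nonneg_right (Nat.cast_le.2 hk) v0.le
    have mJ := (node m hm').1
    have e := Psi_Ico G.ok (p.b τ y) (z := p.zP P) (G.sP_nn i) G.sP_mono m him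
      (G.sP_le_tt (by unfold Pm.NP; omega)) fun k _ _ u => G.ref.2.2.1 k u
    have bd : ∀ k, k ≤ m → |Psi (p.b τ y) (p.lP P τ y) (p.zP P k) (p.sP P τ y k)| ≤ K * (C0 + 1) *
        (|eps0 (p.b τ y) (p.lP P τ y)| * (m * p.v) ^ 3 + (m * p.v) ^ 5 + √p.v) := fun k hk => by
      obtain ⟨-, u2, -, u4, u5⟩ := node k ((mv k hk).trans hm')
      have w0 : 0 ≤ p.sP P τ y k := G.sP_nn k
      have w1 := u4.trans (mv k hk)
      rw [u2]
      exact (u5 _ (Or.inl rfl)).H.trans (by gcongr)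
    have w1 := abs_le.1 (bd m le_rfl)
    have w2 := abs_le.1 (bd i him)
    rw [Finset.sum_congr rfl (g := fun k => p.zP P k * (hv (p.b τ y) (p.lP P τ y) (p.sP P τ y (k + 1)) -
      hv (p.b τ y) (p.lP P τ y) (p.sP P τ y k)) - 3 * ((p.zP P (k + 1) - p.zP P k) *
      hv (p.b τ y) (p.lP P τ y) (p.sP P τ y (k + 1))) + 2 * eps0 (p.b τ y) (p.lP P τ y) *
      ((p.zP P (k + 1) - p.zP P k) * p.sP P τ y (k + 1))) fun k hk => by
        rw [Finset.mem_Ico] at hk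
        rw [hH k hk.1 hk.2.le, hH (k + 1) (by omega) hk.2, Mem37.zP_lo (k := k) (by omega),
          Mem37.zP_lo (k := k + 1) (by omega)]
        rfl]
    change _ = Psi (p.b τ y) (p.lP P τ y) (p.zP P m) (p.sP P τ y m) -
      Psi (p.b τ y) (p.lP P τ y) (p.zP P i) (p.sP P τ y i) at e
    refine (congrArg abs e).le.trans (abs_le.2 ⟨?_, ?_⟩) <;> linarith only [w1.1, w1.2, w2.1, w2.2]

end Crest.Agent.T156.Alt

end
end

-- ▼ part T156/R2L_81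
section

/-!
Row 156, R2 (helper81): a list `V` that is merged below a time `s` and follows the reference list
`l` above `s` up to a clock error: (TWIN) against the full reference, (A), (B).
-/

set_option autoImplicit false

noncomputable section

namespace Crest.Agent.T156.Pr.Ref81

open MeasureTheory Set Filter
open Crest.Agent.R164.GC Crest.Agent.R339.B Crest.Agent.R339.Var Crest.Agent.T157.Pf
open Exp50 (Iz Z1 M1 eps0 ev hv Aq)
open Ker (Nf Wf Tp)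

variable {l V : List (ℝ × ℝ)} {x s h d : ℝ}

theorem adm_glue {R : List (ℝ × ℝ)} {m : ℝ} (hR : Adm 1 R) (hm : m ≤ headLv 1 R) :
    ∀ {M : List (ℝ × ℝ)}, Adm 1 M → (∀ p ∈ M, p.1 ≤ m) → Adm 1 (M ++ R)
  | [], _, _ => hR
  | [p], a, k => ⟨a.1, (k p List.mem_cons_self).trans hm, a.2.2.1, hR⟩
  | _ :: _ :: _, a, k =>
    ⟨a.1, a.2.1, a.2.2.1, adm_glue hR hm a.2.2.2 fun q hq => k q (List.mem_cons_of_mem _ hq)⟩

theorem lvr_glue (R : List (ℝ × ℝ)) : ∀ {M : List (ℝ × ℝ)}, Adm 1 M → ∀ r, 0 ≤ r →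
    (r < TT M → lvr 1 (M ++ R) r = lvr 1 M r) ∧ (TT M ≤ r → lvr 1 (M ++ R) r = lvr 1 R (r - TT M))
  | [], _, r, r0 => ⟨fun a => absurd a (not_lt.2 r0), fun _ => by simp [TT]⟩
  | p :: M, a, r, r0 => by
    have t0 : 0 ≤ TT M := TT_nonneg (Ker.nn_of_adm a.2.2.2)
    rw [TT_cons]
    simp only [List.cons_append, lvr]
    split_ifs with c
    · exact ⟨fun _ => rfl, fun e => absurd c (by linarith)⟩
    · obtain ⟨i1, i2⟩ := lvr_glue R a.2.2.2 (r - p.2) (by linarith)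
      exact ⟨fun e => i1 (by linarith), fun e => by rw [i2 (by linarith), sub_sub]⟩

/-- `l` below `s`, `V` above `s` -/
theorem splice (a : Adm 1 l) (c : Adm 1 V) (s0 : 0 < s) (s1 : s ≤ TT l) (s2 : s ≤ TT V)
    (hl : ∀ r, 0 ≤ r → r < s → lvr 1 l r ≤ x) (hx : x ≤ lvr 1 V s) : ∃ W, Adm 1 W ∧ TT W = TT V ∧
    (∀ r, 0 ≤ r → r < s → lvr 1 W r = lvr 1 l r) ∧ ∀ r, s ≤ r → lvr 1 W r = lvr 1 V r := by
  obtain ⟨u, o, e, -⟩ := Spl27.exists_ok c
  obtain ⟨r1, r2, r3, r4⟩ := Mer97.rs_spec o s0.le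
  have tc := Twin20.tt_cut a ⟨s0.le, s1⟩
  have ac := Ker.adm_pre _ (Ker.adm_cut a s0.le).1
  refine ⟨cut l s ++ Mer97.rs u s, adm_glue r1.1 (by rw [r2, ← e.lv s s0.le]; exact hx) ac
    fun p hp => (Twin20.lo_cut a s0 hl p hp).2.1, ?_, fun r r0 rs => ?_, fun r rs => ?_⟩
  · rw [Ker.TT_append, tc, r3 (e.tt ▸ s2), e.tt]; ring
  · rw [(lvr_glue _ ac r r0).1 (tc.symm ▸ rs), Ker.lvr_cut l rs]
  · rw [(lvr_glue _ ac r (s0.le.trans rs)).2 (tc.symm ▸ rs), tc, r4 _ (sub_nonneg.2 rs),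
      sub_add_cancel, e.lv r (s0.le.trans rs)]

theorem nf_sw (a : Adm 1 l) {b : ℝ} (sb : s ≤ b) (d0 : 0 ≤ d)
    (w : ∀ r, s ≤ r → lvr 1 l r ≤ lvr 1 V r ∧ lvr 1 V r ≤ lvr 1 l (r + d)) : Nf l V s b ≤ d := by
  have ii := Ker.lvr_ii l
  have i2 : IntervalIntegrable (fun r => lvr 1 l (r + d)) volume s b :=
    ((Pp.Ode3.lvr_mono a).comp fun _ _ e => add_le_add e le_rfl : Monotone fun r => lvr 1 l (r + d)).intervalIntegrable
  have k := intervalIntegral.integral_mono_on sb (Ker.et_ii l V s b) (i2.sub (ii s b)) fun r hr => by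
    obtain ⟨w1, w2⟩ := w r hr.1
    change |lvr 1 V r - lvr 1 l r| ≤ _
    rw [abs_of_nonneg (sub_nonneg.2 w1)]
    linarith
  rw [intervalIntegral.integral_sub i2 (ii s b), intervalIntegral.integral_comp_add_right (lvr 1 l)] at k
  have e1 := intervalIntegral.integral_add_adjacent_intervals (ii s (s + d)) (ii (s + d) (b + d))
  have e2 := intervalIntegral.integral_add_adjacent_intervals (ii s b) (ii b (b + d))
  have b1 : 0 ≤ ∫ r in s..s + d, lvr 1 l r :=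
    intervalIntegral.integral_nonneg (by linarith) fun r _ => (Pp.Ode3.lvr_pos a r).le
  have b2 := intervalIntegral.integral_mono_on (by linarith : b ≤ b + d) (ii b (b + d))
    (intervalIntegrable_const (c := (1:ℝ))) fun r _ => Pp.Ode3.lvr_le_one a r
  rw [intervalIntegral.integral_const, smul_eq_mul] at b2
  refine le_trans k ?_
  linarith

theorem cx_lip (o : Ok l) {a b E : ℝ} (a0 : 0 ≤ a) (ab : a ≤ b) (bT : b ≤ TT l)
    (hE : ∀ r, a ≤ r → r < b → |x - lvr 1 l r| ≤ E) :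
    |Exp50.cx l x b - Exp50.cx l x a| ≤ E * (b - a) := by
  have ap := Pp.Ode3.AP.of_ok o
  have := mvt_cmp (f := fun u => Pp.Ode3.X2 l u + x * Pp.Ode3.Gam l u) (g := fun _ => 0)
    (g' := fun _ => 0) (E := E) ab (((Pp.Ode3.X2_cont ap).add (continuousOn_const.mul
      (Pp.Ode3.Gam_cont ap))).mono (Icc_subset_Icc a0 bT))
    (fun u hu => (Pp.Ode3.X2_rder ap (a0.trans hu.1) (hu.2.trans_le bT)).add
      ((Pp.Ode3.Gam_rder ap (a0.trans hu.1) (hu.2.trans_le bT)).const_mul x))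
    (fun s => hasDerivAt_const s 0) (fun u hu => by
      have := amul (hE u hu.1 hu.2) ((abs_of_nonneg (Pp.Ode3.Gp_nonneg l u)).le.trans
        (Pp.Ode3.Gp_le_one o.1 u))
      rw [mul_one] at this
      refine le_trans (le_of_eq ?_) this
      congr 1; ring)
  rw [sub_self, sub_zero] at this
  exact this

theorem m1_cmp (o : Ok l) {a b E c e : ℝ} (a0 : 0 ≤ a) (ab : a ≤ b) (bT : b ≤ TT l)
    (hE : ∀ r, a ≤ r → r < b → |lvr 1 l r - (c + e * r)| ≤ E) :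
    |M1 l b - M1 l a - (c * (b ^ 2 - a ^ 2) / 2 + e * (b ^ 3 - a ^ 3) / 3)| ≤ E * b * (b - a) := by
  have ap := Pp.Ode3.AP.of_ok o
  have hg : ∀ r : ℝ, HasDerivAt (fun r => c * r ^ 2 / 2 + e * r ^ 3 / 3) (c * r + e * r ^ 2) r :=
    fun r => by
      have := (((hasDerivAt_pow 2 r).const_mul c).div_const 2).add
        (((hasDerivAt_pow 3 r).const_mul e).div_const 3)
      refine HasDerivAt.congr_deriv this ?_
      norm_num
      ring
  have := mvt_cmp (E := E * b) ab ((Exp50.Iz_cont ap continuousOn_id).mono (Icc_subset_Icc a0 bT))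
    (fun u hu => Exp50.Iz_rder ap continuousOn_id (a0.trans hu.1) (hu.2.trans_le bT)) hg
    (fun u hu => by
      refine le_trans (le_of_eq ?_) (amul (hE u hu.1 hu.2)
        ((abs_of_nonneg (a0.trans hu.1)).le.trans hu.2.le))
      congr 1; simp only [id]; ring)
  refine le_trans (le_of_eq ?_) this
  congr 1
  change _ = M1 l b - M1 l a - _
  ring

theorem Mf_eq (l V : List (ℝ × ℝ)) (s : ℝ) : Twin20.Mf l V s = M1 l s - M1 V s := by
  unfold Twin20.Mf M1 Iz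
  rw [← intervalIntegral.integral_sub ((Ker.lvr_ii l 0 s).mul_continuousOn (continuousOn_id' _))
    ((Ker.lvr_ii V 0 s).mul_continuousOn (continuousOn_id' _))]
  exact intervalIntegral.integral_congr fun r _ => by ring

/-- `V` has the tilt `x` on `[h, s)` and follows `l` above `s` up to the area `d` -/
structure Lk (l V : List (ℝ × ℝ)) (T1 x s h d : ℝ) : Prop where
  tp : Tp T1 l
  tpV : Tp T1 V
  h0 : 0 ≤ h
  hs : h ≤ s
  s0 : 0 < s
  sT : s ≤ T1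
  le : ∀ r, 0 ≤ r → r < s → lvr 1 l r ≤ x
  leV : ∀ r, 0 ≤ r → r < s → lvr 1 V r ≤ x
  eqV : ∀ r, h ≤ r → r < s → lvr 1 V r = x
  ge : x ≤ lvr 1 V s
  nf : Nf l V s T1 ≤ d

variable {T1 : ℝ}

theorem Lk.x0 (k : Lk l V T1 x s h d) : 0 < x := (Pp.Ode3.lvr_pos k.tp.adm 0).trans_le (k.le 0 le_rfl k.s0)

theorem Lk.x1 (k : Lk l V T1 x s h d) : x ≤ 1 := k.ge.trans (Pp.Ode3.lvr_le_one k.tpV.adm s)

theorem Lk.d0 (k : Lk l V T1 x s h d) : 0 ≤ d := (Ker.Nf_nonneg l V k.sT).trans k.nf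

theorem Lk.wf (k : Lk l V T1 x s h d) : Wf l V s ≤ x * s ^ 2 := by
  refine (le_abs_self _).trans ((Pp.Ode3.int_le_const (K := s * x) k.s0.le fun r a b => ?_).trans_eq
    (by ring))
  refine amul ((abs_of_pos a).le.trans b.le) ?_
  rw [abs_abs, abs_le]
  constructor <;> linarith [k.le r a.le b, k.leV r a.le b, Pp.Ode3.lvr_pos k.tp.adm r,
    Pp.Ode3.lvr_pos k.tpV.adm r]

/-- the second moment of the merged part -/
theorem Lk.m1 (k : Lk l V T1 x s h d) : |M1 V s - x * s ^ 2 / 2| ≤ x * h ^ 2 := by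
  obtain ⟨u, o, tu, su, lu⟩ := red' k.tpV
  have sT : s ≤ TT u := tu.symm ▸ k.sT
  have a := m1_cmp o (c := x) (e := 0) (E := x) le_rfl k.h0 (k.hs.trans sT) fun r r0 r1 => by
    rw [← lu r r0, abs_le]
    constructor <;> linarith [k.leV r r0 (r1.trans_le k.hs), Pp.Ode3.lvr_pos k.tpV.adm r, k.x0]
  have c := m1_cmp o (c := x) (e := 0) (E := 0) k.h0 k.hs sT fun r r0 r1 => by
    rw [← lu r (k.h0.trans r0), k.eqV r r0 r1]; simp
  rw [show M1 u 0 = 0 from Exp50.Iz_zero _ _] at a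
  rw [(same50 su lu ⟨k.s0.le, k.sT⟩ 0 0 0).2.1]
  have a' := abs_le.1 a
  have c' := abs_le.1 c
  rw [abs_le]; constructor <;> linarith [a'.1, a'.2, c'.1, c'.2]

/-- **`λ` is the susceptibility `χ_x` of the reference** -/
theorem lk_lam (T : ℝ) : ∃ C : ℝ, 1 ≤ C ∧ ∀ (l V : List (ℝ × ℝ)) (T1 x s h d : ℝ),
    Lk l V T1 x s h d → T1 ≤ T → |Dk 1 V h 0 - Exp50.cx l x s| ≤ C * (h + x * s ^ 2 + d) := by
  obtain ⟨C1, c1, H1⟩ := Twin20.shift T 1
  obtain ⟨C2, c2, H2⟩ := Ker.Pd_lip T [1] (by decide)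
  obtain ⟨C3, c3, H3⟩ := Ker.fun_lip T
  refine ⟨C1 + 1 + C2 + C3 * (1 + |T|), by nlinarith [abs_nonneg T], fun l V T1 x s h d k hT => ?_⟩
  obtain ⟨u, o, tu, su, lu⟩ := red' k.tpV
  obtain ⟨w, ow, tw, sw, lw⟩ := red' k.tp
  have sm : s ∈ Icc 0 T1 := ⟨k.s0.le, k.sT⟩
  have sT : s ≤ TT u := tu.symm ▸ k.sT
  have h0 := k.h0
  have d0 := k.d0
  have x0 := k.x0.le
  have s0 := k.s0.le
  have a1 := abs_le.1 (H1 u o.1 (tu ▸ hT) h ⟨h0, k.hs.trans sT⟩ 1 le_rfl 0).1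
  have a2 := abs_le.1 (cx_lip (x := x) (E := 1) o le_rfl h0 (k.hs.trans sT) fun r _ _ => by
    rw [abs_le]
    constructor <;> linarith [Pp.Ode3.lvr_pos o.1 r, Pp.Ode3.lvr_le_one o.1 r, k.x1])
  have a3 := abs_le.1 (cx_lip (x := x) (E := 0) o h0 k.hs sT fun r r0 r1 => by
    rw [← lu r (h0.trans r0), k.eqV r r0 r1]; simp)
  have a4 : Exp50.cx u x 0 = Dk 1 u 0 0 := by
    have ap := Pp.Ode3.AP.of_ok o
    change Pp.Ode3.X2 u 0 + x * Pp.Ode3.Gam u 0 = chi u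
    rw [Pp.Ode3.X2_zero ap, Pp.Ode3.Gam_zero ap, Pp.Ode3.chi_eq ap, mul_zero, add_zero]
  have eW : Wf w u s = Wf l V s := intervalIntegral.integral_congr fun r hr => by
    rw [uIcc_of_le s0] at hr
    simp only [lu r hr.1, lw r hr.1]
  have eN : Nf w u s T1 = Nf l V s T1 := intervalIntegral.integral_congr fun r hr => by
    rw [uIcc_of_le k.sT] at hr
    simp only [lu r (s0.trans hr.1), lw r (s0.trans hr.1)]
  have b1 := (H2 w u ow.1 o.1 (tu.trans tw.symm) (tw ▸ hT) s (tw ▸ sm)).2.1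
  have b2 := (H3 w u ow.1 o.1 (tu.trans tw.symm) (tw ▸ hT) s (tw ▸ sm)).1
  rw [tw, eW, eN] at b1 b2
  have p : ∀ Φ : ℝ → ℝ, Ker.Pd [1] Φ = Pp.Dn 1 Φ := fun Φ => by funext y; simp [Ker.Pd]
  rw [p, p] at b1
  have b3 : |Exp50.XX u s - Exp50.XX w s| ≤ C2 * (x * s ^ 2 + d) :=
    le_trans b1 (mul_le_mul_of_nonneg_left (add_le_add k.wf k.nf) (by linarith))
  have sa : s ≤ |T| := (k.sT.trans hT).trans (le_abs_self T)
  have b4 : |x * (Gam u s - Gam w s)| ≤ 1 * (C3 * (x * s ^ 2 + |T| * d)) :=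
    amul ((abs_of_nonneg x0).le.trans k.x1) (b2.trans (mul_le_mul_of_nonneg_left (add_le_add k.wf
      (mul_le_mul sa k.nf (Ker.Nf_nonneg l V k.sT) (abs_nonneg T))) (by linarith)))
  rw [su.dk 1 h h0, (same50 sw lw sm 0 x 0).2.2.2.1]
  have e1 : Exp50.cx u x s = Exp50.XX u s + x * Gam u s := rfl
  have e2 : Exp50.cx w x s = Exp50.XX w s + x * Gam w s := rfl
  have b3' := abs_le.1 b3
  have b4' := abs_le.1 b4
  have q0 : 0 ≤ x * s ^ 2 := by positivity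
  have T0 := abs_nonneg T
  have f1 : 0 ≤ (C1 + 1) * (x * s ^ 2 + d) := by positivity
  have f2 : 0 ≤ C2 * h := by positivity
  have f3 : 0 ≤ C3 * (h + d + |T| * (h + x * s ^ 2)) := by positivity
  rw [abs_le]
  constructor <;> linarith [a1.1, a1.2, a2.1, a2.2, a3.1, a3.2, b3'.1, b3'.2, b4'.1, b4'.2]

/-- **(TWIN) against the full reference** -/
theorem lk_tw (T : ℝ) : ∃ C : ℝ, 1 ≤ C ∧ ∀ (l V : List (ℝ × ℝ)) (T1 x s h d : ℝ),
    Lk l V T1 x s h d → T1 ≤ T → ∀ t, s ≤ t → t ≤ TT l → t ≤ TT V →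
    |Gam l t - Gam V t + 2 * (Dk 1 V h 0 * Twin20.psi V h t) * Twin20.Mf l V s| ≤
      C * (x * s ^ 2 * (s * (x + s) + h) + d) := by
  obtain ⟨C1, c1, H1⟩ := Twin20.twin_fun T
  obtain ⟨C2, c2, H2⟩ := Ker.fun_lip' T
  refine ⟨C1 + C2 * (2 * |T|), by nlinarith [abs_nonneg T], fun l V T1 x s h d k hT t st tl tV => ?_⟩
  obtain ⟨W, aW, tW, w1, w2⟩ := splice k.tp.adm k.tpV.adm k.s0 (k.sT.trans k.tp.mem.2)
    (k.sT.trans k.tpV.mem.2) k.le k.ge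
  have s0 := k.s0.le
  have t0 := s0.trans st
  have pW : Tp T1 W := ⟨aW, tW.symm ▸ k.tpV.mem, fun r hr => by
    rw [w2 r (k.sT.trans hr), k.tpV.top r hr]⟩
  have a := (H1 T1 W V x s t h pW k.tpV hT ⟨k.s0, fun r r0 r1 => w1 r r0 r1 ▸ k.le r r0 r1, k.leV,
    fun r hr => (w2 r hr.le).symm⟩ k.sT st (tW.symm ▸ tV) tV k.h0 (k.hs.trans st)
    (k.hs.trans k.sT)).1
  have eM : Twin20.Mf W V s = Twin20.Mf l V s :=
    intervalIntegral.integral_congr_Ioo_of_le s0 fun r hr => by simp only [w1 r hr.1.le hr.2]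
  have n1 : Nf l W 0 T1 ≤ d := by
    rw [← Ker.Nf_add l W 0 s T1, Ker.Nf_zero s0 fun r a b => w1 r a.le b, zero_add]
    refine le_trans (le_of_eq (intervalIntegral.integral_congr fun r hr => ?_)) k.nf
    rw [uIcc_of_le k.sT] at hr
    simp only [w2 r hr.1]
  have u0 : 0 ≤ min t T1 := le_min t0 k.tp.mem.1
  have uT : min t T1 ≤ |T| := ((min_le_right _ _).trans hT).trans (le_abs_self T)
  have n2 := Ker.Nf_add l W 0 (min t T1) T1
  have n3 := Ker.Nf_nonneg l W u0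
  have n4 := Ker.Nf_nonneg l W (min_le_right t T1)
  have n5 : Wf l W (min t T1) ≤ |T| * d := by
    have := intervalIntegral.integral_mono_on u0 (Ker.wet_ii l W 0 _)
      ((Ker.et_ii l W 0 (min t T1)).const_mul |T|) fun r hr =>
        mul_le_mul_of_nonneg_right (hr.2.trans uT) (abs_nonneg _)
    rw [intervalIntegral.integral_const_mul] at this
    exact le_trans this (mul_le_mul_of_nonneg_left (show Nf l W 0 (min t T1) ≤ d by linarith)
      (abs_nonneg T))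
  have n6 : t * Nf l W (min t T1) T1 ≤ |T| * d := by
    rcases le_total t T1 with e | e
    · exact mul_le_mul (min_eq_left e ▸ uT) (by linarith) n4 (abs_nonneg T)
    · rw [min_eq_right e, show Nf l W T1 T1 = 0 by simp [Nf], mul_zero]
      exact mul_nonneg (abs_nonneg T) k.d0
  have b := abs_le.1 ((H2 T1 l W k.tp pW hT t t0 tl (tW.symm ▸ tV) _ _ rfl rfl).1.trans
    (mul_le_mul_of_nonneg_left (add_le_add n5 n6) (by linarith)))
  rw [eM] at a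
  have a' := abs_le.1 a
  have x0 := k.x0.le
  have h0 := k.h0
  have d0 := k.d0
  have T0 := abs_nonneg T
  have f1 : 0 ≤ C1 * d := by positivity
  have f2 : 0 ≤ C2 * (2 * |T|) * (x * s ^ 2 * (s * (x + s) + h)) := by positivity
  rw [abs_le]
  constructor <;> linarith [a'.1, a'.2, b.1, b.2]

/-- **(A)** -/
theorem A_link {b α K δ t τ lam B e X : ℝ} (r : LinRef l b α K δ t x) (o : Ok l) (K0 : 0 ≤ K)
    (b0 : 0 ≤ b) (b1 : b ≤ B) (B1 : 1 ≤ B) (hτ : |b - τ| ≤ d) (l0 : 0 ≤ lam) (l1 : lam ≤ 1)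
    (he : |lam - Exp50.cx l x t| ≤ e) (x0 : 0 ≤ x) (x1 : x ≤ X) (s0 : 0 ≤ s) (st : s ≤ t)
    (ts : t ≤ s + d) (tX : t ≤ X) (X1 : X ≤ 1) (δ0 : 0 ≤ δ) :
    |1 - τ * lam ^ 2 + τ * lam * x * (lam ^ 2 * s) - eps0 b l| ≤
      6 * B * (K + 1) * (|eps0 b l| * X ^ 2 + X ^ 3 + δ + d + e) := by
  have ap := Pp.Ode3.AP.of_ok o
  have t0 := s0.trans st
  have X0 := x0.trans x1
  have e0 := (abs_nonneg _).trans he
  have d0 := (abs_nonneg _).trans hτ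
  have B0 := b0.trans b1
  have c0 : 0 < chi l := by rw [Pp.Ode3.chi_eq ap]; exact Pp.Ode3.chi_pos ap
  have c1 : chi l ≤ 1 := by rw [Pp.Ode3.chi_eq ap]; exact Pp.Ode3.chi_le ap
  have ab : ∀ {y Y : ℝ}, 0 ≤ y → y ≤ Y → |y| ≤ Y := fun a c => (abs_of_nonneg a).le.trans c
  have y0 : 0 ≤ Exp50.cx l x t :=
    add_nonneg (Pp.Ode3.X2_nonneg o.1 t) (mul_nonneg x0 (Pp.Ode3.Gam_nonneg l t))
  have y1 : Exp50.cx l x t ≤ 2 := by
    have a : Exp50.XX l t ≤ 1 := Pp.Ode3.X2_le_one o.1 t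
    have c : x * Gam l t ≤ 1 :=
      mul_le_one₀ (x1.trans X1) (Pp.Ode3.Gam_nonneg l t) (Pp.Ode3.Gam_le_one l t)
    unfold Exp50.cx; linarith
  have p2 : t ^ 2 ≤ X ^ 2 := pow_le_pow_left₀ t0 tX 2
  have p3 : t ^ 3 ≤ X ^ 3 := pow_le_pow_left₀ t0 tX 3
  have ee := abs_nonneg (eps0 b l)
  have hA : |Aq b l x t - eps0 b l| ≤ K * (|eps0 b l| * X ^ 2 + X ^ 3 + δ) := r.A.trans (by gcongr)
  have hq : |chi l ^ 2 * t - Gam l t| ≤ K * (X ^ 3 + δ) := by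
    rw [abs_sub_comm]; exact r.q.trans (by gcongr)
  have hc : |t * (lam - chi l)| ≤ e + K * (X ^ 3 + δ) := by
    have a := amul (ab t0 tX) ((abs_sub_le _ _ _).trans (add_le_add he
      (r.cx.trans (show _ ≤ K * (X ^ 2 + δ) by gcongr))))
    have c := mul_le_of_le_one_left (show 0 ≤ e + K * δ by positivity) X1
    linarith
  have sb : √b ≤ B := Real.sqrt_le_iff.2 ⟨B0, by nlinarith only [b1, B1]⟩
  have sq : √b * √b = b := Real.mul_self_sqrt b0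
  have r0 := Real.sqrt_nonneg b
  have hs : |√b * chi l - 1| ≤ |eps0 b l| := by
    have : eps0 b l = -((√b * chi l - 1) * (√b * chi l + 1)) := by
      unfold eps0; linear_combination (chi l ^ 2) * sq
    rw [this, abs_neg, abs_mul]
    refine le_mul_of_one_le_right (abs_nonneg _) (le_trans ?_ (le_abs_self _))
    linarith [mul_nonneg r0 c0.le]
  have m2 : |lam ^ 2| ≤ 1 := ab (by positivity) (pow_le_one₀ l0 l1)
  have m3 : |lam ^ 3| ≤ 1 := ab (by positivity) (pow_le_one₀ l0 l1)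
  have hx : |x| ≤ 1 := ab x0 (x1.trans X1)
  have hb : |b| ≤ B := ab b0 b1
  have u1 := abs_le.1 (amul hτ m2)
  have u2 := abs_le.1 (amul hb (amul he (ab (y := Exp50.cx l x t + lam) (Y := 3) (by positivity)
    (by linarith))))
  have u3 := abs_le.1 (amul hx (amul hτ (amul m3 (ab s0 ((st.trans tX).trans X1)))))
  have u4 := abs_le.1 (amul hx (amul hb (amul m3 (ab (y := t - s) (Y := d) (by linarith)
    (by linarith)))))
  have u5 := abs_le.1 (amul hx (amul hb (amul hc (ab (y := lam ^ 2 + lam * chi l + chi l ^ 2) (Y := 3)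
    (by positivity) (by
      linarith [pow_le_one₀ (n := 2) l0 l1, pow_le_one₀ (n := 2) c0.le c1,
        mul_le_one₀ l1 c0.le c1])))))
  have u6 := abs_le.1 (amul (amul (amul (ab x0 x1) (ab t0 tX)) (amul (ab (y := chi l ^ 2) (Y := 1)
    (by positivity) (pow_le_one₀ c0.le c1)) (ab r0 sb))) hs)
  have u7 := abs_le.1 (amul (amul (ab r0 sb) hx) hq)
  have u0 := abs_le.1 hA
  have id : 1 - τ * lam ^ 2 + τ * lam * x * (lam ^ 2 * s) - eps0 b l =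
      (Aq b l x t - eps0 b l) + (b - τ) * lam ^ 2 -
      b * ((lam - Exp50.cx l x t) * (Exp50.cx l x t + lam)) - x * ((b - τ) * (lam ^ 3 * s)) -
      x * (b * (lam ^ 3 * (t - s))) +
      x * (b * (t * (lam - chi l) * (lam ^ 2 + lam * chi l + chi l ^ 2))) +
      x * t * (chi l ^ 2 * √b) * (√b * chi l - 1) + √b * x * (chi l ^ 2 * t - Gam l t) := by
    unfold Aq Exp50.mu
    linear_combination (-(x * t * chi l ^ 3)) * sq
  obtain ⟨E, hE⟩ : ∃ E, E = |eps0 b l| * X ^ 2 := ⟨_, rfl⟩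
  obtain ⟨Y, hY⟩ : ∃ Y, Y = X ^ 3 + δ := ⟨_, rfl⟩
  have E0 : 0 ≤ E := by rw [hE]; positivity
  have Y0 : 0 ≤ Y := by rw [hY]; positivity
  have g : K * (E + Y) + d + B * (e * 3) + d + B * d + B * ((e + K * Y) * 3) + B * E + B * (K * Y) ≤
      6 * B * (K + 1) * (E + Y + d + e) := by
    have i1 := mul_le_mul_of_nonneg_right B1 (mul_nonneg K0 E0)
    have i2 := mul_le_mul_of_nonneg_right B1 (mul_nonneg K0 Y0)
    have i3 := mul_le_mul_of_nonneg_right B1 d0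
    have i4 : 0 ≤ B * (K * E) := by positivity
    have i5 : 0 ≤ B * (K * Y) := by positivity
    have i6 : 0 ≤ B * (K * (d + e)) := by positivity
    linarith only [i1, i2, i3, i4, i5, i6, mul_nonneg B0 E0, mul_nonneg B0 Y0, d0]
  rw [hE, hY] at g
  rw [id, abs_le]
  constructor <;> linarith only [g, u0.1, u0.2, u1.1, u1.2, u2.1, u2.2, u3.1, u3.2, u4.1, u4.2, u5.1,
    u5.2, u6.1, u6.2, u7.1, u7.2]

/-- `-2 ∫_0^s r (ζ_l - ζ_V)` against the reference value `∫_0^x σ² dx` at the time `t` -/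
theorem Lk.S0 (k : Lk l V T1 x s h d) (o : Ok l) {t : ℝ} (st : s ≤ t) (tT : t ≤ TT l)
    (hl : ∀ r, s ≤ r → r < t → lvr 1 l r ≤ x) :
    |-2 * Twin20.Mf l V s - (x * t ^ 2 - 2 * M1 l t)| ≤ 2 * x * (h ^ 2 + t * (t - s)) := by
  have a := abs_le.1 k.m1
  have c := abs_le.1 (m1_cmp o (c := x) (e := 0) (E := x) k.s0.le st tT fun r r0 r1 => by
    rw [abs_le]
    constructor <;> linarith [hl r r0 r1, Pp.Ode3.lvr_pos o.1 r, k.x0])
  rw [Mf_eq, abs_le]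
  constructor <;> linarith [a.1, a.2, c.1, c.2]

/-- **(B)** -/
theorem B_lin (o : Ok l) {α E t : ℝ} (t0 : 0 ≤ t) (tT : t ≤ TT l)
    (hl : ∀ r, 0 ≤ r → r < t → |lvr 1 l r - α * r| ≤ E) (hx : |x - α * t| ≤ E) :
    |x * t ^ 2 - 3 * (x * t ^ 2 - 2 * M1 l t)| ≤ 8 * (E * t ^ 2) := by
  have a := m1_cmp o (c := 0) (e := α) (E := E) le_rfl t0 tT fun r r0 r1 => by
    rw [zero_add]; exact hl r r0 r1
  rw [show M1 l 0 = 0 from Exp50.Iz_zero _ _] at a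
  have a' := abs_le.1 a
  have c := abs_le.1 (amul hx (abs_of_nonneg (sq_nonneg t)).le)
  rw [abs_le]
  constructor <;> linarith [a'.1, a'.2, c.1, c.2]

end Crest.Agent.T156.Pr.Ref81

end
end

-- ▼ part T156/R2cT_85
section

/-!
# Row 156, R2 (helper85): (TWIN) on the data `CD`, regularity of `ψ`, the closed second-order bound
-/

set_option autoImplicit false

noncomputable section

namespace Crest.Agent.T156.Cas.C40.R85

open MeasureTheory Real Set Filter Topology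
open Crest.Agent.T157.E Crest.Agent.T157.Casc Crest.Agent.T157.SL Crest.Agent.T157.Casc.C
open Crest.Agent.R339.B Crest.Agent.R339.Var Crest.Agent.T157.Pf
open Crest.Agent.T157.G1 (ov)
open Crest.ProbabilityR.SpinGlassDynamics (spin)
open Mul55 Hess65 Crest.Agent.T156.Pp

/-! ### one-site lists -/

theorem rest_rest {u : ℝ} (hu : 0 ≤ u) : ∀ (l : List (ℝ × ℝ)) (t : ℝ),
    rest (rest l t) u = rest l (t + u)
  | [], _ => rfl
  | p :: l, t => by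
    by_cases h : t ≤ p.2
    · rw [rest, if_pos h, rest, rest]
      by_cases h' : t + u ≤ p.2
      · rw [if_pos h', if_pos (by linarith), sub_sub]
      · rw [if_neg h', if_neg (by linarith), show u - (p.2 - t) = t + u - p.2 by ring]
    · rw [rest, if_neg h, rest, if_neg (by linarith), rest_rest hu,
        show t - p.2 + u = t + u - p.2 by ring]

theorem iter_sub {F G : ℝ → ℝ} (hF : BD F) (hG : BD G) (j : ℕ) (x : ℝ) :
    iteratedDeriv j (fun y => F y - G y) x = iteratedDeriv j F x - iteratedDeriv j G x :=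
  iteratedDeriv_sub (hF.contDiff j).contDiffAt (hG.contDiff j).contDiffAt

/-- `Γ (t | X_0 = y)` -/
def GA (A : List (ℝ × ℝ)) (t : ℝ) : ℝ → ℝ := EX 1 A t fun y => Pr.Dk 0 A t y ^ 2

theorem GA_reg (T : ℝ) : ∃ C : ℝ, 1 ≤ C ∧ ∀ A : List (ℝ × ℝ), Adm 1 A → R339.Var.TT A ≤ T →
    ∀ t t', 0 ≤ t → t ≤ t' → t' ≤ R339.Var.TT A → ∀ j, 1 ≤ j → j ≤ 4 → ∀ x,
      |iteratedDeriv j (GA A t) x| ≤ C ∧
      |iteratedDeriv j (GA A t') x - iteratedDeriv j (GA A t) x| ≤ C * (t' - t) := by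
  obtain ⟨C1, h1, hE⟩ := Ker.EX_der T 4
  obtain ⟨C2, h2, hS⟩ := Twin20.shift T 4
  obtain ⟨D, h3, hD⟩ := Twin20.bk_Dk T 6
  have p1 : 0 ≤ C1 := by linarith
  have p2 : 0 ≤ C2 := by linarith
  have p3 : 0 ≤ D := by linarith
  have k1 : 1 ≤ C1 * (2 ^ 6 * (D * D)) := one_le_mul_of_one_le_of_one_le h1 (by nlinarith)
  have k2 : 0 ≤ C1 * (C2 * (2 ^ 6 * (D * D)) + 2 ^ 4 * (C2 * (D + D))) := by positivity
  refine ⟨C1 * (2 ^ 6 * (D * D)) + C1 * (C2 * (2 ^ 6 * (D * D)) + 2 ^ 4 * (C2 * (D + D))),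
    by linarith, fun A hA hT t t' t0 tt t1 j j1 j4 x => ?_⟩
  have tp : Ker.Tp (R339.Var.TT A) A :=
    ⟨hA, ⟨t0.trans (tt.trans t1), le_rfl⟩, fun s hs => Ker.lvr_end' (Ker.nn_of_adm hA) hs⟩
  have b := fun r => Ker.Dk_bd 0 A r
  have q : ∀ r, 0 ≤ r → Ker.Bk 6 (fun y => Pr.Dk 0 A r y ^ 2) (2 ^ 6 * (D * D)) := fun r hr => by
    simp only [pow_two (Pr.Dk 0 A r _)]
    exact Ker.Bk.mul (b r) (b r) (hD _ A tp hT r hr 0 (by omega)) (hD _ A tp hT r hr 0 (by omega))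
  have d0 := sub_nonneg.2 tt
  constructor
  · refine (hE A hA hT t t0 _ _ ((b t).pow 2)
      (fun i _ hi => Ker.bk_iff.1 (q t t0) i (by omega)) j j1 j4 x).trans (by linarith)
  obtain ⟨r1, r2, -⟩ := Min62.rest_adm hA t t0 (tt.trans t1)
  have um : t' - t ∈ Icc 0 (R339.Var.TT (rest A t)) := ⟨d0, by rw [r2]; linarith⟩
  have S := hS (rest A t) r1 (by rw [r2]; linarith) (t' - t) um
  have dk : Ker.Bk 4 (fun y => Pr.Dk 0 A t' y - Pr.Dk 0 A t y) (C2 * (t' - t)) :=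
    Ker.bk_iff.2 fun i hi y => by
      have k := (S i hi y).1
      unfold Pr.Dk at k
      rw [PhiT_zero (Ker.nn_of_adm r1), Lip62.PhiT_eq_rest _ _ (t' - t), rest_rest d0,
        add_sub_cancel, ← Lip62.PhiT_eq_rest, ← Lip62.PhiT_eq_rest] at k
      rw [iter_sub (b t') (b t), Twin20.iter_Dk, Twin20.iter_Dk, abs_sub_comm]
      exact k
  have sm : Ker.Bk 4 (fun y => Pr.Dk 0 A t' y + 1 * Pr.Dk 0 A t y) (D + D) :=
    Ker.Bk.lin 1 (by simp) (b t') (b t) (hD _ A tp hT t' (t0.trans tt) 0 (by omega)).low.low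
      (hD _ A tp hT t t0 0 (by omega)).low.low
  have pr := Ker.Bk.mul ((b t').sub (b t)) ((b t').add ((b t).const_mul 1)) dk sm
  have e : (fun y => (Pr.Dk 0 A t' y - Pr.Dk 0 A t y) * (Pr.Dk 0 A t' y + 1 * Pr.Dk 0 A t y)) =
      fun y => Pr.Dk 0 A t' y ^ 2 - Pr.Dk 0 A t y ^ 2 := by funext y; ring
  rw [e] at pr
  have bH := Twin20.EX_bd ((b t').pow 2) r1 d0
  have hK : ∀ i, 1 ≤ i → i ≤ 4 → ∀ y, |iteratedDeriv i (fun y => EX 1 (rest A t) (t' - t)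
      (fun y => Pr.Dk 0 A t' y ^ 2) y - Pr.Dk 0 A t y ^ 2) y| ≤
      (C2 * (2 ^ 6 * (D * D)) + 2 ^ 4 * (C2 * (D + D))) * (t' - t) := fun i _ hi y => by
    have a1 := (S i hi y).2 _ _ (t' - t) le_rfl ((b t').pow 2)
      fun i _ hi => Ker.bk_iff.1 (q t' (t0.trans tt)) i hi
    rw [sub_self, One15.EX_zero _ (Ker.nn_of_adm (Min62.rest_adm r1 _ um.1 um.2).1)] at a1
    have a2 := Ker.bk_iff.1 pr i hi y
    rw [iter_sub ((b t').pow 2) ((b t).pow 2)] at a2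
    rw [iter_sub bH ((b t).pow 2)]
    refine (abs_sub_le _ _ _).trans ((add_le_add a1 a2).trans_eq ?_)
    ring
  have k := hE A hA hT t t0 _ _ (bH.sub ((b t).pow 2)) hK j j1 j4 x
  rw [funext (Ker.EX_sub A t ((b t).pow 2) bH), iter_sub (Twin20.EX_bd bH hA t0)
    (Twin20.EX_bd ((b t).pow 2) hA t0), ← Twin20.tower ((b t').pow 2) hA t0 tt] at k
  refine k.trans ?_
  rw [← mul_assoc]
  exact mul_le_mul_of_nonneg_right (by linarith) d0

variable {D : CD} {τ τ0 T : ℝ} {P : ℕ}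

theorem St.tp (s : St D τ T P) (ok : D.Ok τ0) : Hess65.Tp (ex D.S) P D.S.length :=
  ⟨lb_ex (rkS ok) (s.adm ok), lenS D ▸ s.PK, (exS D P).trans s.one⟩

theorem St.dx_top (s : St D τ T P) (ok : D.Ok τ0) {j : ℕ} (h1 : P ≤ j) (h2 : j < D.K) :
    D.dx (j + 1) = 0 := by
  rw [← dmS]
  change ex D.S (j + 1) - ex D.S j = 0
  rw [(s.tp ok).eq (by omega) (by rw [lenS]; omega), (s.tp ok).eq h1 (by rw [lenS]; omega),
    sub_self]

theorem St.Gy_cut (s : St D τ T P) (ok : D.Ok τ0) : ∃ A : List (ℝ × ℝ), Adm 1 A ∧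
    R339.Var.TT A = D.sig P - D.sig D.J ∧
    ∀ j, D.J ≤ j → j ≤ P → Gy D j = GA A (D.sig j - D.sig D.J) := by
  obtain ⟨l', e, h1, -, h3⟩ := (s.tp ok).split (nd_tm (rkS ok)).up
  rw [← eq_lsg (rkS ok)] at e
  set A0 := Area50.lsg (ex D.S) (Hess65.tm (V D)) P with hA0
  have l0 : A0.length = P := by simp [hA0, Area50.lsg]
  have t0 : R339.Var.TT A0 = D.sig P := by
    rw [hA0, Area50.TT_lsg, (nd_tm (rkS ok)).zero, sub_zero, tmV D s.PK]
  have JP : D.J ≤ A0.length := l0 ▸ s.JP.le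
  have e1 : (V D).drop D.J = A0.drop D.J ++ l' := by rw [e, List.drop_append_of_le_length JP]
  have e2 : R339.Var.TT (A0.take D.J) = D.sig D.J := by
    rw [← List.take_append_of_le_length (l₂ := l') JP, ← e]
    exact TT_opV ok.cut.le
  have e3 : R339.Var.TT (A0.drop D.J) = D.sig P - D.sig D.J := by
    rw [← t0, ← e2, eq_sub_iff_add_eq', ← TT_app, List.take_append_drop]
  have p : ∀ r ∈ A0.drop D.J, 0 < r.1 := fun r hr => h3 r (List.mem_of_mem_drop hr)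
  refine ⟨A0.drop D.J, adm_drop (Ker.adm_pre l' (e ▸ s.adm ok)) _, e3, fun j j1 j2 => ?_⟩
  funext y
  have jK := j2.trans s.PK
  have k := One15.pi2_spin (List.forall₂_drop D.J (rkS ok)) (j := j - D.J)
    (by rw [List.length_drop, lenV]; omega) y
  rw [TT_drop_take _ j1, TT_opV jK, TT_opV ok.cut.le, e1] at k
  obtain ⟨c, hc⟩ := PhiT_append one_pos h1 p (D.sig j - D.sig D.J)
  rw [hc, EX_append one_pos h1 p (by rw [e3]; linarith [sig_mono ok j2 s.PK]),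
    deriv_add_const'] at k
  simp only [GA, Pr.Dk, Dn_zero]
  exact k

theorem sig_zero (ok : D.Ok τ0) : D.sig 0 = 0 :=
  (tmV D (Nat.zero_le _)).symm.trans (nd_tm (rkS ok)).zero

theorem sig_nonneg (ok : D.Ok τ0) {j : ℕ} (h : j ≤ D.K) : 0 ≤ D.sig j :=
  sig_zero ok ▸ sig_mono ok (Nat.zero_le j) h

/-- `ψ` is bounded and Lipschitz in the clock of the site cascade -/
theorem psi_reg (T : ℝ) : ∃ C : ℝ, 1 ≤ C ∧ ∀ (D : CD) (τ τ0 : ℝ) (P : ℕ), D.Ok τ0 → St D τ T P →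
    ∀ i j, D.J ≤ i → i ≤ j → j ≤ P →
      |psi D i| ≤ C ∧ |psi D j - psi D i| ≤ C * (D.sig j - D.sig i) := by
  obtain ⟨C, h1, hC⟩ := GA_reg T
  refine ⟨C, h1, fun D τ τ0 P ok s i j h2 h3 h4 => ?_⟩
  obtain ⟨A, a1, a2, a3⟩ := s.Gy_cut ok
  have m1 := sig_mono ok h2 (h3.trans (h4.trans s.PK))
  have m2 := sig_mono ok h3 (h4.trans s.PK)
  have m3 := sig_mono ok h4 s.PK
  obtain ⟨b1, b2⟩ := hC A a1 (by rw [a2]; linarith [s.time, sig_nonneg ok ok.cut.le])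
    (D.sig i - D.sig D.J) (D.sig j - D.sig D.J) (by linarith) (by linarith) (by rw [a2]; linarith)
    2 (by omega) (by omega) 0
  rw [← a3 i h2 (h3.trans h4)] at b1 b2
  rw [← a3 j (h2.trans h3) h4, sub_sub_sub_cancel_right] at b2
  have := mul_nonneg (zero_le_one.trans h1) (sub_nonneg.2 m2)
  unfold psi
  rw [← mul_sub, abs_mul, abs_mul, abs_neg, abs_of_pos (by norm_num : (0 : ℝ) < 1 / 2)]
  constructor <;> linarith

/-- the tails of `δ dx` -/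
def tl (D : CD) (k : ℕ) : ℝ := ∑ i ∈ Finset.Ico k D.K, D.dx (i + 1) * dU D (i + 1)

theorem ell2_eq (D : CD) :
    ell2 D = ∑ k ∈ Finset.range D.K, (D.sig (k + 1) - D.sig k) * tl D k ^ 2 := by
  rw [ell2, Hc, lenS]
  refine Finset.sum_congr rfl fun k hk => ?_
  have := Finset.mem_range.1 hk
  rw [tmV D this, tmV D this.le, tl]
  simp only [dmS]

theorem ell2_nonneg (ok : D.Ok τ0) : 0 ≤ ell2 D := Hc_nonneg (rkS ok) _

theorem abel_tail (ψ a : ℕ → ℝ) (K : ℕ) : ∀ d J : ℕ, J + d = K →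
    ∑ i ∈ Finset.Ico J K, ψ (i + 1) * a i = ψ (J + 1) * ∑ i ∈ Finset.Ico J K, a i +
      ∑ k ∈ Finset.Ico (J + 1) K, (ψ (k + 1) - ψ k) * ∑ i ∈ Finset.Ico k K, a i
  | 0, J, h => by simp [← h]
  | d + 1, J, h => by
    have h1 : J < K := by omega
    rw [Finset.sum_eq_sum_Ico_succ_bot h1, Finset.sum_eq_sum_Ico_succ_bot h1 a,
      abel_tail ψ a K d (J + 1) (by omega)]
    rcases (show J + 1 ≤ K from h1).eq_or_lt with h2 | h2
    · simp [← h2]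
    · rw [Finset.sum_eq_sum_Ico_succ_bot h2 fun k => (ψ (k + 1) - ψ k) * _]
      ring

theorem sum_up_succ (top : D.dx D.K = 0) (cut : D.J < D.K) (g : ℕ → ℝ) :
    ∑ j ∈ D.up, D.dx j * g j = ∑ i ∈ Finset.Ico D.J D.K, D.dx (i + 1) * g (i + 1) := by
  rw [Finset.sum_Ico_add' (fun j => D.dx j * g j), Finset.sum_Ico_succ_top cut, top, zero_mul,
    add_zero]
  rfl

/-- summation by parts -/
theorem O_abel (ok : D.Ok τ0) : O D = psi D (D.J + 1) * tl D D.J +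
    ∑ k ∈ Finset.Ico (D.J + 1) D.K, (psi D (k + 1) - psi D k) * tl D k := by
  rw [O, sum_up_succ ok.top ok.cut]
  refine Eq.trans (Finset.sum_congr rfl fun i hi => ?_) (abel_tail (psi D)
    (fun i => D.dx (i + 1) * dU D (i + 1)) D.K (D.K - D.J) D.J (by have := ok.cut; omega))
  rw [dU, if_pos (Nat.lt_succ_of_le (Finset.mem_Ico.1 hi).1)]
  ring

theorem St.tl_top (s : St D τ T P) (ok : D.Ok τ0) {k : ℕ} (h : P ≤ k) : tl D k = 0 :=
  Finset.sum_eq_zero fun i hi => by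
    rw [s.dx_top ok (h.trans (Finset.mem_Ico.1 hi).1) (Finset.mem_Ico.1 hi).2, zero_mul]

/-- `O` against the tails -/
theorem O_le (T : ℝ) : ∃ C : ℝ, 1 ≤ C ∧ ∀ (D : CD) (τ τ0 : ℝ) (P : ℕ), D.Ok τ0 → St D τ T P →
    |O D| ≤ C * (|tl D D.J| + ∑ k ∈ Finset.Ico (D.J + 1) P, (D.sig (k + 1) - D.sig k) * |tl D k|) ∧
    (D.sig (D.J + 1) - D.sig D.J) * O D ^ 2 ≤
      2 * C ^ 2 * (1 + (D.sig (D.J + 1) - D.sig D.J) * T) * ell2 D := by
  obtain ⟨C, h1, hC⟩ := psi_reg T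
  have C0 : 0 ≤ C := zero_le_one.trans h1
  refine ⟨C, h1, fun D τ τ0 P ok s => ?_⟩
  have JP : D.J + 1 ≤ P := s.JP
  have ds : ∀ k < D.K, 0 ≤ D.sig (k + 1) - D.sig k := fun k hk =>
    sub_nonneg.2 (sig_mono ok (Nat.le_succ k) hk)
  have a : |O D| ≤ C * (|tl D D.J| +
      ∑ k ∈ Finset.Ico (D.J + 1) P, (D.sig (k + 1) - D.sig k) * |tl D k|) := by
    rw [O_abel ok, ← Finset.sum_Ico_consecutive _ JP s.PK, Finset.sum_eq_zero (s := Finset.Ico P D.K)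
      fun k hk => by rw [s.tl_top ok (Finset.mem_Ico.1 hk).1, mul_zero], add_zero, mul_add,
      Finset.mul_sum]
    refine (abs_add_le _ _).trans (add_le_add ?_ ((Finset.abs_sum_le_sum_abs _ _).trans
      (Finset.sum_le_sum fun k hk => ?_)))
    · rw [abs_mul]
      exact mul_le_mul_of_nonneg_right (hC D τ τ0 P ok s _ _ (Nat.le_succ _) le_rfl JP).1
        (abs_nonneg _)
    · rw [Finset.mem_Ico] at hk
      rw [abs_mul, ← mul_assoc]
      exact mul_le_mul_of_nonneg_right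
        (hC D τ τ0 P ok s k (k + 1) (by omega) (Nat.le_succ _) hk.2).2 (abs_nonneg _)
  refine ⟨a, ?_⟩
  have sub : ∀ A : Finset ℕ, A ⊆ Finset.range D.K →
      ∑ k ∈ A, (D.sig (k + 1) - D.sig k) * tl D k ^ 2 ≤ ell2 D := fun A hA => by
    rw [ell2_eq]
    exact Finset.sum_le_sum_of_subset_of_nonneg hA fun k hk _ =>
      mul_nonneg (ds k (Finset.mem_range.1 hk)) (sq_nonneg _)
  have b1 : (D.sig (D.J + 1) - D.sig D.J) * tl D D.J ^ 2 ≤ ell2 D := by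
    simpa using sub {D.J} (by simpa using ok.cut)
  have lt : ∀ k ∈ Finset.Ico (D.J + 1) P, k < D.K := fun k hk =>
    (Finset.mem_Ico.1 hk).2.trans_le s.PK
  have b2 := Finset.sum_sq_le_sum_mul_sum_of_sq_le_mul (Finset.Ico (D.J + 1) P)
    (r := fun k => (D.sig (k + 1) - D.sig k) * |tl D k|) (f := fun k => D.sig (k + 1) - D.sig k)
    (g := fun k => (D.sig (k + 1) - D.sig k) * tl D k ^ 2) (fun k hk => ds k (lt k hk))
    (fun k hk => mul_nonneg (ds k (lt k hk)) (sq_nonneg _)) fun k _ => le_of_eq (by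
      rw [mul_pow, sq_abs]; ring)
  rw [Finset.sum_Ico_sub _ JP] at b2
  have b3 := sub (Finset.Ico (D.J + 1) P) fun k hk => Finset.mem_range.2 (lt k hk)
  have m0 := sig_nonneg ok (show D.J + 1 ≤ D.K from ok.cut)
  have m1 := sig_mono ok JP s.PK
  have b4 := b2.trans (mul_le_mul (show _ ≤ T by linarith [s.time]) b3
    (Finset.sum_nonneg fun k hk => mul_nonneg (ds k (lt k hk)) (sq_nonneg _))
    (by linarith [s.time]))
  set Y := ∑ k ∈ Finset.Ico (D.J + 1) P, (D.sig (k + 1) - D.sig k) * |tl D k|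
  have a2 : O D ^ 2 ≤ 2 * C ^ 2 * (tl D D.J ^ 2 + T * ell2 D) := by
    have := pow_le_pow_left₀ (abs_nonneg _) a 2
    rw [sq_abs, mul_pow] at this
    refine this.trans ?_
    rw [mul_comm 2, mul_assoc]
    refine mul_le_mul_of_nonneg_left ?_ (sq_nonneg C)
    rw [← sq_abs (tl D D.J)]
    linarith [sq_nonneg (|tl D D.J| - Y)]
  have d0 := ds D.J ok.cut
  refine (mul_le_mul_of_nonneg_left a2 d0).trans ?_
  have := mul_le_mul_of_nonneg_left b1 (by positivity : 0 ≤ 2 * C ^ 2)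
  linarith

/-- **(E2), closed form**: `a = σ_{J+1} - σ_J` -/
theorem headE2' (hU : HU) (τ0 T : ℝ) : ∃ c C C' : ℝ, 0 < c ∧ 0 ≤ C ∧ 0 ≤ C' ∧
    ∀ (D : CD) (τ S0 tw a : ℝ) (P : ℕ), D.Ok τ0 → D.W.isSome = false → St D τ T P → TW D τ S0 tw →
    0 < a → a ≤ D.sig (D.J + 1) - D.sig D.J →
    τ / 2 * muU D τ + c * τ ^ 2 * ell2 D ≤
      C * (τ ^ 4 * D.lam ^ 2 * (s2 D - S0) ^ 2 * (1 / a + T)) + τ / 2 * (tw * D.N1) + C' * D.Err ∧
    O D ^ 2 ≤ C * (1 / a + T) * ell2 D := by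
  obtain ⟨C1, h1, hE⟩ := headE2 hU τ0
  obtain ⟨C2, h2, hO⟩ := O_le T
  obtain ⟨c, hc⟩ : ∃ c, c = Real.exp (-14 * T) / 16 := ⟨_, rfl⟩
  have c0 : 0 < c := by rw [hc]; positivity
  have C0 : 0 < C2 := zero_lt_one.trans_le h2
  refine ⟨c, 2 * C2 ^ 2 + C2 ^ 2 / (8 * c), C1, c0, by positivity, h1,
    fun D τ S0 tw a P ok h s w a0 a1 => ?_⟩
  have e := hE D τ T S0 tw P ok h s w
  have o := (hO D τ τ0 P ok s).2
  have l0 := ell2_nonneg ok
  have T0 : 0 ≤ T := by linarith [s.time, sig_nonneg ok s.PK]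
  have b0 := a0.trans_le a1
  generalize D.sig (D.J + 1) - D.sig D.J = b at o a1 b0
  have i1 : 1 / b ≤ 1 / a := one_div_le_one_div_of_le a0 a1
  have o1 : O D ^ 2 ≤ 2 * C2 ^ 2 * (1 / b + T) * ell2 D := by
    refine le_of_mul_le_mul_left (o.trans_eq ?_) b0
    field_simp
  have i0 : 0 < 1 / a + T := by positivity
  have o2 := o1.trans (mul_le_mul_of_nonneg_right (mul_le_mul_of_nonneg_left
    (show 1 / b + T ≤ 1 / a + T by linarith) (by positivity)) l0)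
  generalize 1 / a + T = B at o2 i0 ⊢
  have p0 : 0 ≤ C2 ^ 2 / (8 * c) * B * ell2 D := by positivity
  refine ⟨?_, by linarith⟩
  have am : ∀ x y : ℝ, x * y ≤ c / (2 * C2 ^ 2 * B) * y ^ 2 + C2 ^ 2 / (8 * c) * (4 * x ^ 2 * B) :=
    fun x y => by
    have k : 0 ≤ c / (2 * C2 ^ 2 * B) * (y - C2 ^ 2 * B / c * x) ^ 2 := by positivity
    have : c / (2 * C2 ^ 2 * B) * (y - C2 ^ 2 * B / c * x) ^ 2 =
        c / (2 * C2 ^ 2 * B) * y ^ 2 + C2 ^ 2 / (8 * c) * (4 * x ^ 2 * B) - x * y := by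
      field_simp
      ring
    linarith
  have k1 := am (τ ^ 2 * D.lam / 2 * (s2 D - S0)) (τ * O D)
  have k2 : c / (2 * C2 ^ 2 * B) * (τ * O D) ^ 2 ≤ c * τ ^ 2 * ell2 D := by
    have := mul_le_mul_of_nonneg_left o2 (by positivity : 0 ≤ c / (2 * C2 ^ 2 * B) * τ ^ 2)
    refine le_trans (le_of_eq (by ring)) (this.trans_eq ?_)
    field_simp
  have p1 : 0 ≤ 2 * C2 ^ 2 * (τ ^ 4 * D.lam ^ 2 * (s2 D - S0) ^ 2 * B) := by positivity
  rw [show Real.exp (-14 * T) = 16 * c by rw [hc]; ring] at e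
  linarith

/-! ### (TWIN) -/




end Crest.Agent.T156.Cas.C40.R85

end
end

-- ▼ part T156/R2M_81

/-!
Row 156, R2 (helper81): the site list of the data `CD` against the full reference list.
-/

set_option autoImplicit false

noncomputable section

namespace Crest.Agent.T156.Pr.Ref81

open MeasureTheory Set Filter
open Crest.Agent.R164.GC Crest.Agent.R339.B Crest.Agent.R339.Var Crest.Agent.T157.Pf
open Exp50 (Iz Z1 M1 eps0 ev hv Aq)
open Ker (Nf Wf Tp)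
open Pp.Ode3 (AP)

variable {l V : List (ℝ × ℝ)} {x s h d T1 : ℝ}

theorem okV (a : Adm 1 V) : ∃ u, Ok u ∧ TT u = TT V ∧ Ker.Same u V (TT V) ∧
    ∀ r, 0 ≤ r → lvr 1 V r = lvr 1 u r := by
  obtain ⟨u, o, e, -⟩ := Spl27.exists_ok a
  exact ⟨u, o, e.tt.symm, e.tt ▸ Ker.same_le o.1 a e.tt.ge fun r hr _ => e.lv r hr.le, e.lv⟩

theorem NN_lip (T : ℝ) : ∃ C : ℝ, 12 ≤ C ∧ ∀ (l : List (ℝ × ℝ)) (T1 : ℝ), Ok l → Tp T1 l → T1 ≤ T →
    ∀ s ∈ Icc 0 (TT l), ∀ t ∈ Icc 0 (TT l), |NN l t - NN l s| ≤ C * |t - s| := by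
  obtain ⟨K, k1, hK⟩ := Ker.Dn_bound' T 3
  refine ⟨K ^ 2 + 24, by nlinarith, fun l T1 o tp hT s hs t ht => ?_⟩
  have ap := AP.of_ok o
  refine abs_sub_le_of_rder (Pp.Ode3.Nm_cont ap) (fun _ hr => Pp.Ode3.Nm_rder ap hr.1 hr.2)
    hs ht fun r hr => ?_
  have a : Pp.Ode3.N4 l r ≤ K ^ 2 := Pp.Ode3.Et_le Pp.bfn_W3 fun y => by
    have := pow_le_pow_left₀ (abs_nonneg _) (hK T1 l tp hT r ((le_min hs.1 ht.1).trans hr.1) 3 le_rfl y) 2
    rwa [sq_abs] at this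
  have c := mul_le_mul (Pp.Ode3.lvr_le_one o.1 r) ((Pp.Ode3.Bm_le_Nm o.1 r).trans
    (Pp.Ode3.Nm_le_four o.1 r)) (Pp.Ode3.Bm_nonneg o.1 r) zero_le_one
  have e := mul_nonneg (Pp.Ode3.lvr_pos o.1 r).le (Pp.Ode3.Bm_nonneg o.1 r)
  rw [abs_le]
  constructor <;> linarith [Pp.Ode3.N4_nonneg l r, sq_nonneg K]

/-- **values and increments above the cut** -/
theorem lk_inc (T : ℝ) : ∃ C : ℝ, 1 ≤ C ∧ ∀ (l V : List (ℝ × ℝ)) (T1 x s h d ρ : ℝ),
    Lk l V T1 x s h d → Ok l → T1 ≤ T → C * (x * s ^ 2 + d) ≤ ρ →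
    (∀ u c, s ≤ u → u ≤ TT V → 0 ≤ c → c ≤ d → u + c ≤ TT l → |Gam V u - Gam l (u + c)| ≤ ρ ∧
      |GG V u - GG l (u + c)| ≤ ρ ∧ |AA V u - AA l (u + c)| ≤ ρ ∧ |NN V u - NN l (u + c)| ≤ ρ) ∧
    ∀ a a' c c', s ≤ a → a ≤ a' → a' ≤ TT V → 0 ≤ c → c ≤ c' → c' ≤ d → a' + c' ≤ TT l →
      |Gam V a' - Gam V a - (Gam l (a' + c') - Gam l (a + c))| ≤ ρ * (a' - a) + (c' - c) ∧
      ∀ z E, (∀ u, a ≤ u → u < a' → lvr 1 V u = z) →
        (∀ u, a + c ≤ u → u < a' + c → |NN l u - 2 * z * AA l u| ≤ E) →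
        |GG V a' - GG V a| ≤ (E + 3 * ρ) * (a' - a) := by
  obtain ⟨C1, c1, H1⟩ := Ker.fun_lip' T
  obtain ⟨C2, c2, H2⟩ := NN_lip T
  refine ⟨C1 * (1 + 2 * |T|) + C2, by nlinarith [abs_nonneg T], fun l V T1 x s h d ρ k o hT hρ => ?_⟩
  have ap := AP.of_ok o
  have s0 := k.s0.le
  have d0 := k.d0
  have x0 := k.x0.le
  have T0 := abs_nonneg T
  have val : ∀ u c, s ≤ u → u ≤ TT V → 0 ≤ c → c ≤ d → u + c ≤ TT l →
      |Gam V u - Gam l (u + c)| ≤ ρ ∧ |GG V u - GG l (u + c)| ≤ ρ ∧ |AA V u - AA l (u + c)| ≤ ρ ∧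
      |NN V u - NN l (u + c)| ≤ ρ := fun u c su uV c0 cd ul => by
    have u0 := s0.trans su
    have m1 : u ∈ Icc 0 (TT l) := ⟨u0, by linarith⟩
    have m2 : u + c ∈ Icc 0 (TT l) := ⟨by linarith, ul⟩
    have sm : s ≤ min u T1 := le_min su k.sT
    have uT : min u T1 ≤ |T| := ((min_le_right _ _).trans hT).trans (le_abs_self T)
    have n2 := Ker.Nf_add l V s (min u T1) T1
    have n3 := Ker.Nf_nonneg l V sm
    have n4 := Ker.Nf_nonneg l V (min_le_right u T1)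
    have n1 := k.nf
    have n5 : Wf l V (min u T1) ≤ x * s ^ 2 + |T| * d := by
      have := intervalIntegral.integral_mono_on sm (Ker.wet_ii l V s _)
        ((Ker.et_ii l V s (min u T1)).const_mul |T|) fun r hr =>
          mul_le_mul_of_nonneg_right (hr.2.trans uT) (abs_nonneg _)
      rw [intervalIntegral.integral_const_mul] at this
      refine le_trans (intervalIntegral.integral_add_adjacent_intervals (Ker.wet_ii l V 0 s)
        (Ker.wet_ii l V s _)).ge (add_le_add k.wf (le_trans this (mul_le_mul_of_nonneg_left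
          (show Nf l V s (min u T1) ≤ d by linarith) T0)))
    have n6 : u * Nf l V (min u T1) T1 ≤ |T| * d := by
      rcases le_total u T1 with e | e
      · exact mul_le_mul (min_eq_left e ▸ uT) (by linarith) n4 T0
      · rw [min_eq_right e, show Nf l V T1 T1 = 0 by simp [Nf], mul_zero]
        exact mul_nonneg T0 d0
    obtain ⟨b1, b2, b3, b4, -⟩ := H1 T1 l V k.tp k.tpV hT u u0 m1.2 uV _ _ rfl rfl
    have q0 : 0 ≤ x * s ^ 2 := by positivity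
    have f1 : 0 ≤ |T| * (x * s ^ 2) := by positivity
    have f2 : 0 ≤ |T| * d := by positivity
    have w1 := mul_le_mul_of_nonneg_left (show Wf l V (min u T1) + u * Nf l V (min u T1) T1 ≤
      (1 + 2 * |T|) * (x * s ^ 2 + d) by linarith) (zero_le_one.trans c1)
    have w2 := mul_le_mul_of_nonneg_left (show Wf l V (min u T1) + Nf l V (min u T1) T1 ≤
      (1 + 2 * |T|) * (x * s ^ 2 + d) by linarith) (zero_le_one.trans c1)
    have e : |u - (u + c)| ≤ x * s ^ 2 + d := by rw [abs_le]; constructor <;> linarith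
    have fin : ∀ {p q r B L : ℝ}, |p - q| ≤ B → B ≤ C1 * ((1 + 2 * |T|) * (x * s ^ 2 + d)) →
        |q - r| ≤ L * |u - (u + c)| → L ≤ C2 → |p - r| ≤ ρ := fun a1 a2 a3 a4 =>
      (abs_sub_le _ _ _).trans ((add_le_add (a1.trans a2) (a3.trans (mul_le_mul a4 e (abs_nonneg _)
        (by linarith)))).trans (le_trans (le_of_eq (by ring)) hρ))
    exact ⟨fin b1 w1 ((Pp.Ode3.Gam_lip ap m2 m1).trans_eq (one_mul _).symm) (by linarith),
      fin b2 w2 (Pp.Ode3.Gp_lip ap m2 m1) (by linarith), fin b3 w2 (Pp.Ode3.Am_lip ap m2 m1) c2,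
      fin b4 w1 (H2 l T1 o k.tp hT _ m2 _ m1) le_rfl⟩
  refine ⟨val, fun a a' c c' sa aa aV c0 cc cd al => ?_⟩
  obtain ⟨w, ow, tw, sw, lw⟩ := okV k.tpV.adm
  have aw := AP.of_ok ow
  have a0 := s0.trans sa
  have ma : a ∈ Icc 0 (TT V) := ⟨a0, aa.trans aV⟩
  have ma' : a' ∈ Icc 0 (TT V) := ⟨a0.trans aa, aV⟩
  have sub : Icc a a' ⊆ Icc 0 (TT w) := Icc_subset_Icc a0 (tw.symm ▸ aV)
  have vu : ∀ u ∈ Ico a a', _ := fun u hu => val u c (sa.trans hu.1) (hu.2.le.trans aV) c0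
    (cc.trans cd) (by linarith [hu.2])
  have mu : ∀ u ∈ Ico a a', u ∈ Icc 0 (TT V) := fun u hu => ⟨a0.trans hu.1, hu.2.le.trans aV⟩
  constructor
  · have k1 := mvt_cmp (f := fun u => Pp.Ode3.Gam w u - Pp.Ode3.Gam l (u + c)) (g := fun _ => 0)
      (g' := fun _ => 0) (E := ρ) aa (((Pp.Ode3.Gam_cont aw).mono sub).sub
        ((Pp.Ode3.Gam_cont ap).comp (continuousOn_id.add continuousOn_const) fun u hu =>
          ⟨add_nonneg (a0.trans hu.1) c0, by have := hu.2; change u + c ≤ _; linarith⟩))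
      (fun u hu => (Pp.Ode3.Gam_rder aw (a0.trans hu.1) (hu.2.trans_le (tw.symm ▸ aV))).sub
        ((Pp.Ode3.Gam_rder ap (add_nonneg (a0.trans hu.1) c0) (by linarith [hu.2])).comp u
          ((hasDerivWithinAt_id u _).add_const c) fun r hr => add_le_add (show u ≤ r from hr) le_rfl))
      (fun s => hasDerivAt_const s 0) (fun u hu => by
        have := (vu u hu).2.1
        rw [sw.gg u (mu u hu)] at this
        rw [mul_one, sub_zero]
        exact this)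
    have k2 := Pp.Ode3.Gam_lip ap (s := a' + c) (t := a' + c') ⟨by linarith [ma'.1], by linarith⟩
      ⟨by linarith [ma'.1], al⟩
    rw [add_sub_add_left_eq_sub, abs_of_nonneg (sub_nonneg.2 cc)] at k2
    rw [sw.gam a ma, sw.gam a' ma', Pp.Ode3.Gam_eq]
    have j1 := abs_le.1 k1
    have j2 := abs_le.1 k2
    rw [abs_le]; constructor <;> linarith [j1.1, j1.2, j2.1, j2.2]
  · intro z E hz hE
    have k1 := mvt_cmp (f := Pp.Ode3.Gp w) (g := fun _ => 0) (g' := fun _ => 0) (E := E + 3 * ρ) aa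
      ((Pp.Ode3.Gp_cont aw).mono sub)
      (fun u hu => Pp.Ode3.Gp_rder aw (a0.trans hu.1) (hu.2.trans_le (tw.symm ▸ aV)))
      (fun s => hasDerivAt_const s 0) (fun u hu => by
        obtain ⟨-, -, j1, j2⟩ := vu u hu
        rw [sw.aa u (mu u hu)] at j1
        rw [sw.nn u (mu u hu)] at j2
        have z1 : |z| ≤ 1 := by
          rw [← hz u hu.1 hu.2, abs_of_pos (Pp.Ode3.lvr_pos k.tpV.adm u)]
          exact Pp.Ode3.lvr_le_one k.tpV.adm u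
        have j3 := abs_le.1 (amul z1 j1)
        have j4 := abs_le.1 j2
        have j5 := abs_le.1 (hE (u + c) (by linarith [hu.1]) (by linarith [hu.2]))
        rw [← lw u (a0.trans hu.1), hz u hu.1 hu.2, ← Pp.Ode3.NN_eq, ← Pp.Ode3.AA_eq, abs_le]
        constructor <;> linarith [j3.1, j3.2, j4.1, j4.2, j5.1, j5.2])
    rw [sub_self, sub_zero] at k1
    rw [sw.gg a ma, sw.gg a' ma']
    exact k1

theorem cell {f : ℕ → ℝ} {i : ℕ} {r : ℝ} (h : f i ≤ r) : ∀ K, i ≤ K →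
    ∃ j, i ≤ j ∧ j ≤ K ∧ f j ≤ r ∧ (j < K → r < f (j + 1)) := by
  intro K hK
  induction K, hK using Nat.le_induction with
  | base => exact ⟨i, le_rfl, le_rfl, h, fun a => absurd a (lt_irrefl _)⟩
  | succ K hK ih =>
    obtain ⟨j, a, b, c, e⟩ := ih
    by_cases g : f (K + 1) ≤ r
    · exact ⟨K + 1, by omega, le_rfl, g, fun a => absurd a (lt_irrefl _)⟩
    · refine ⟨j, a, by omega, c, fun _ => ?_⟩
      rcases b.eq_or_lt with b | b
      · rw [b]; exact not_le.1 g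
      · exact e b

end Crest.Agent.T156.Pr.Ref81

namespace Crest.Agent.T156.Cas.C40.R81

open MeasureTheory Real Set Filter Topology
open Crest.Agent.T157.E Crest.Agent.T157.Casc Crest.Agent.T157.SL Crest.Agent.T157.Casc.C
open Crest.Agent.R339.B Crest.Agent.R339.Var Crest.Agent.T157.Pf
open Hess65 Crest.Agent.T156.Pp R85 Pr.Ref81 Pr.Exp50

/-- the site list of `D` follows the reference `l` with node times `t` above the cut -/
structure LkD (D : CD) (l : List (ℝ × ℝ)) (t : ℕ → ℝ) (P : ℕ) (d : ℝ) : Prop where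
  ok : Pr.Ok l
  s0 : 0 < D.sig (D.J + 1)
  PK : P < D.K
  d0 : 0 ≤ d
  d1 : d ≤ 1 / 2
  clk : ∀ j, D.J < j → j < D.K → t j = D.sig j + d * D.q j
  tT : ∀ j, D.J < j → j < D.K → t j ≤ R339.Var.TT l
  qq : ∀ j, D.J < j → j < D.K → D.q j = Pr.Gam l (t j)
  top : t P ≤ D.sig D.K
  ge : ∀ j, D.J < j → j ≤ P → ∀ u, t j ≤ u → ex D.B j ≤ lvr 1 l u
  le : ∀ j, D.J ≤ j → j < P → ∀ u, u < t (j + 1) → lvr 1 l u ≤ ex D.B j

/-- the low reference value of (TWIN) -/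
def S0l (D : CD) (l : List (ℝ × ℝ)) (τ : ℝ) : ℝ :=
  -2 * Twin20.Mf l (V D) (D.sig (D.J + 1)) / τ ^ 2

variable {D : CD} {l : List (ℝ × ℝ)} {t : ℕ → ℝ} {P : ℕ} {d τ τ0 T : ℝ}

theorem up_ex (ok : D.Ok τ0) (s : St D τ T P) : Area50.Up (ex D.B) D.K ∧ ex D.B D.K = 1 := by
  have lb := lb_ex (rkS ok) (s.adm ok)
  rw [lenS, funext (exS D)] at lb
  exact ⟨lb.up, lb.top⟩

theorem lvr_V (ok : D.Ok τ0) (s : St D τ T P) {j : ℕ} {r : ℝ} (hj : j ≤ D.K) (h1 : D.sig j ≤ r)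
    (h2 : j < D.K → r < D.sig (j + 1)) : lvr 1 (V D) r = ex D.B j := by
  have R := rkS ok
  have n := nd_tm R
  rw [eq_lsg R, Area50.lvr_lsg (lb_ex R (s.adm ok)).top n.up n.zero, ← exS]
  rw [lenS] at n ⊢
  exact Area50.stp_eq n.up hj (fun _ => (tmV D hj).symm ▸ h1) fun h => (tmV D h).symm ▸ h2 h

theorem TT_V (ok : D.Ok τ0) : R339.Var.TT (V D) = D.sig D.K := by
  rw [← (nd_tm (rkS ok)).top, lenS, tmV D le_rfl]

theorem LkD.mem (k : LkD D l t P d) (ok : D.Ok τ0) {j : ℕ} (h1 : D.J < j) (h2 : j < D.K) :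
    (0 ≤ d * D.q j ∧ d * D.q j ≤ d) ∧ D.sig j ≤ t j ∧ t j ≤ D.sig j + d := by
  have m := ok.ook.mem h2.le
  have a := mul_nonneg k.d0 m.1
  have b := mul_le_of_le_one_right k.d0 m.2
  rw [k.clk j h1 h2]
  exact ⟨⟨a, b⟩, by linarith, by linarith⟩

theorem LkD.lk (k : LkD D l t P d) (ok : D.Ok τ0) (s : St D τ T P) :
    Lk l (V D) (t P) (ex D.B D.J) (D.sig (D.J + 1)) (D.sig D.J) d ∧ t P ≤ T := by
  obtain ⟨u, u1⟩ := up_ex ok s
  have a := s.adm ok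
  have JP : D.J + 1 ≤ P := s.JP
  have JK : D.J + 1 < D.K := JP.trans_lt k.PK
  have mP := (k.mem ok s.JP k.PK).2
  have m1 := (k.mem ok (Nat.lt_succ_self _) JK).2
  have sP := (sig_mono ok JP s.PK).trans mP.1
  have p0 := k.s0.le.trans sP
  have one : ∀ j, P ≤ j → j ≤ D.K → 1 ≤ ex D.B j := fun j h1 h2 => s.one ▸ u.le h1 h2
  have tl : ∀ r, t P ≤ r → lvr 1 l r = 1 := fun r hr =>
    le_antisymm (Ode3.lvr_le_one k.ok.1 r) (s.one ▸ k.ge P s.JP le_rfl r hr)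
  refine ⟨⟨⟨k.ok.1, ⟨p0, k.tT P s.JP k.PK⟩, tl⟩, ⟨a, ⟨p0, (TT_V ok).symm ▸ k.top⟩, fun r hr => ?_⟩,
    sig_nonneg ok ok.cut.le, sig_mono ok (Nat.le_succ _) JK.le, k.s0, sP,
    fun r _ r1 => k.le _ le_rfl s.JP r (r1.trans_le m1.1), fun r r0 r1 => ?_,
    fun r r0 r1 => lvr_V ok s ok.cut.le r0 fun _ => r1, ?_,
    nf_sw k.ok.1 sP k.d0 fun r hr => ?_⟩, by linarith [s.time, k.d1, mP.2]⟩
  · obtain ⟨j, j1, j2, j3, j4⟩ := cell (f := D.sig) (mP.1.trans hr) D.K s.PK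
    exact le_antisymm (Ode3.lvr_le_one a r) (lvr_V ok s j2 j3 j4 ▸ one j j1 j2)
  · obtain ⟨j, -, j2, j3, j4⟩ := cell (f := D.sig) (i := 0) ((sig_zero ok).trans_le r0) D.K
      (Nat.zero_le _)
    rw [lvr_V ok s j2 j3 j4]
    refine u.le (not_lt.1 fun h => ?_) ok.cut.le
    linarith [sig_mono ok (show D.J + 1 ≤ j from h) j2]
  · obtain ⟨j, j1, j2, j3, j4⟩ := cell (f := D.sig) (i := D.J + 1) le_rfl D.K JK.le
    rw [lvr_V ok s j2 j3 j4]
    exact u.le (by omega) j2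
  · obtain ⟨j, j1, j2, j3, j4⟩ := cell (f := D.sig) hr D.K JK.le
    rw [lvr_V ok s j2 j3 j4]
    rcases le_or_gt P j with h | h
    · refine ⟨(Ode3.lvr_le_one k.ok.1 r).trans (one j h j2), ?_⟩
      rw [tl _ (by linarith [sig_mono ok h j2, mP.2])]
      exact (u.le j2 le_rfl).trans_eq u1
    · have jK := h.trans k.PK
      exact ⟨k.le j (by omega) h r ((j4 jK).trans_le (k.mem ok (by omega) (by have := k.PK; omega)).2.1),
        k.ge j j1 h.le _ (by linarith [(k.mem ok j1 jK).2.2])⟩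

theorem Gam_V (ok : D.Ok τ0) {j : ℕ} (hj : j ≤ D.K) : D.Gam j = Pr.Gam (V D) (D.sig j) :=
  pi2_opS ok.ook hj

theorem Gn_V (ok : D.Ok τ0) {j : ℕ} (hj : j ≤ D.K) : Hess65.Gn D.S j = Pr.GG (V D) (D.sig j) := by
  rw [Gn_eq (rkS ok) ((lenS D).symm ▸ hj), tmV D hj]; rfl

/-- **the link**: (TWIN), `λ`, `S0`, values and increments on UP -/
theorem link (T : ℝ) : ∃ C : ℝ, 1 ≤ C ∧ ∀ (D : CD) (τ τ0 d ρ : ℝ) (P : ℕ) (l : List (ℝ × ℝ))
    (t : ℕ → ℝ), D.Ok τ0 → St D τ T P → LkD D l t P d →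
    C * (D.X * D.sig (D.J + 1) ^ 2 + d) ≤ ρ →
    TW D τ (S0l D l τ) (C * (D.X * D.sig (D.J + 1) ^ 2 *
      (D.sig (D.J + 1) * (D.X + D.sig (D.J + 1)) + D.X ^ 3) + d)) ∧
    |D.lam - Pr.Exp50.cx l (ex D.B D.J) (t (D.J + 1))| ≤ C * D.X ^ 3 + ρ ∧
    |τ ^ 2 * S0l D l τ - (ex D.B D.J * t (D.J + 1) ^ 2 - 2 * M1 l (t (D.J + 1)))| ≤
      2 * D.X * (D.X ^ 6 + t (D.J + 1) * d) ∧
    (∀ j ∈ D.up, |D.Gam j - D.q j| ≤ ρ ∧ |Hess65.Gn D.S j - Pr.GG l (t j)| ≤ ρ) ∧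
    ∀ j ∈ D.up, j + 1 < D.K →
      |ex D.B j * (D.Gam (j + 1) - D.q (j + 1) - (D.Gam j - D.q j))| ≤
        2 * ρ * (D.e j * (D.sig (j + 1) - D.sig j)) ∧
      D.sig (j + 1) - D.sig j ≤ t (j + 1) - t j ∧ t (j + 1) - t j ≤ 2 * (D.sig (j + 1) - D.sig j) ∧
      ∀ E, (∀ u, t j ≤ u → u < t (j + 1) → |Pr.NN l u - 2 * ex D.B j * Pr.AA l u| ≤ E) →
        |Hess65.Gn D.S (j + 1) - Hess65.Gn D.S j| ≤ (E + 3 * ρ) * (D.sig (j + 1) - D.sig j) := by
  obtain ⟨C1, c1, H1⟩ := lk_tw T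
  obtain ⟨C2, c2, H2⟩ := lk_lam T
  obtain ⟨C3, c3, H3⟩ := lk_inc T
  refine ⟨C1 + C2 + C3 + 1, by linarith, fun D τ τ0 d ρ P l t ok s k hρ => ?_⟩
  obtain ⟨L, hT⟩ := k.lk ok s
  obtain ⟨u, u1⟩ := up_ex ok s
  have ap := Ode3.AP.of_ok k.ok
  have JK : D.J + 1 < D.K := lt_of_le_of_lt s.JP k.PK
  have m1 := (k.mem ok (Nat.lt_succ_self _) JK).2
  have t1 := k.tT _ (Nat.lt_succ_self _) JK
  have d0 := k.d0
  have s0 := k.s0.le
  have h0 := L.h0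
  have x0 := L.x0.le
  have x1 := ok.x1
  have X0 := x0.trans x1
  have h3 : D.sig D.J ≤ D.X ^ 3 := by
    rw [CD.sig, ok.qlo _ le_rfl, mul_zero, zero_add]; exact ok.h1
  have q1 : ex D.B D.J * D.sig (D.J + 1) ^ 2 ≤ D.X * D.sig (D.J + 1) ^ 2 := by gcongr
  have q0 : 0 ≤ D.X * D.sig (D.J + 1) ^ 2 := by positivity
  have r1 : (C2 + 1) * (D.X * D.sig (D.J + 1) ^ 2 + d) ≤ ρ :=
    (mul_le_mul_of_nonneg_right (by linarith) (by positivity)).trans hρ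
  have r2 : 2 * d ≤ ρ := by nlinarith only [r1, c2, q0, d0]
  obtain ⟨val, inc⟩ := H3 _ _ _ _ _ _ _ ρ L k.ok hT
    ((mul_le_mul (by linarith) (add_le_add q1 le_rfl) (by positivity) (by linarith)).trans hρ)
  refine ⟨fun j hj => ?_, ?_, ?_, fun j hj => ?_, fun j hj jK => ?_⟩
  · obtain ⟨j1, j2⟩ := Finset.mem_Ioo.1 hj
    have m := (k.mem ok j1 j2).2
    have tj := k.tT j j1 j2
    have sj := sig_nonneg ok j2.le
    have a := H1 _ _ _ _ _ _ _ L hT (D.sig j) (sig_mono ok j1 j2.le) (m.1.trans tj)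
      ((TT_V ok).symm ▸ sig_mono ok j2.le le_rfl)
    have b := Ode3.Gam_lip ap ⟨sj, m.1.trans tj⟩ ⟨sj.trans m.1, tj⟩
    rw [abs_of_nonneg (sub_nonneg.2 m.1), ← Ode3.Gam_eq, ← k.qq j j1 j2] at b
    rw [← Gam_V ok j2.le, ← lam_eq ok, ← psi_eq ok j1.le j2.le] at a
    have e : τ ^ 2 * D.lam * psi D j * S0l D l τ =
        -(2 * (D.lam * psi D j) * Twin20.Mf l (V D) (D.sig (D.J + 1))) := by
      have := s.pos.ne'
      unfold S0l; field_simp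
    have c : ex D.B D.J * D.sig (D.J + 1) ^ 2 * (D.sig (D.J + 1) * (ex D.B D.J + D.sig (D.J + 1)) +
        D.sig D.J) ≤ D.X * D.sig (D.J + 1) ^ 2 *
        (D.sig (D.J + 1) * (D.X + D.sig (D.J + 1)) + D.X ^ 3) := by gcongr
    have a' := abs_le.1 (a.trans (mul_le_mul_of_nonneg_left (add_le_add c le_rfl) (by linarith)))
    have b' := abs_le.1 b
    generalize D.X * D.sig (D.J + 1) ^ 2 * (D.sig (D.J + 1) * (D.X + D.sig (D.J + 1)) + D.X ^ 3) = Y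
      at a' c ⊢
    have Y0 : 0 ≤ Y := le_trans (by positivity) c
    have f : 0 ≤ (C2 + C3) * (Y + d) := by positivity
    rw [e, abs_le]
    constructor <;> linarith [a'.1, a'.2, b'.1, b'.2, m.2]
  · have a := abs_le.1 ((H2 _ _ _ _ _ _ _ L hT).trans (mul_le_mul_of_nonneg_left
      (add_le_add (add_le_add h3 q1) le_rfl) (by linarith)))
    have b := abs_le.1 (cx_lip (x := ex D.B D.J) (E := 1) k.ok s0 m1.1 t1 fun r _ _ => by
      rw [abs_le]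
      constructor <;> linarith [Ode3.lvr_pos k.ok.1 r, Ode3.lvr_le_one k.ok.1 r, L.x1])
    have f : 0 ≤ (C1 + C3 + 1) * D.X ^ 3 := by positivity
    rw [lam_eq ok, abs_le]
    constructor <;> linarith [a.1, a.2, b.1, b.2, m1.2]
  · have a := L.S0 k.ok m1.1 t1 fun r _ r1 => k.le _ le_rfl s.JP r r1
    rw [S0l, mul_div_cancel₀ _ (pow_pos s.pos 2).ne']
    refine a.trans ?_
    have t0 := s0.trans m1.1
    have h6 : D.sig D.J ^ 2 ≤ D.X ^ 6 := (pow_le_pow_left₀ h0 h3 2).trans_eq (by ring)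
    have h7 : t (D.J + 1) - D.sig (D.J + 1) ≤ d := by linarith [m1.2]
    have h8 := sub_nonneg.2 m1.1
    gcongr
  · obtain ⟨j1, j2⟩ := Finset.mem_Ioo.1 hj
    have m := (k.mem ok j1 j2).1
    obtain ⟨a, b, -⟩ := val (D.sig j) (d * D.q j) (sig_mono ok j1 j2.le)
      ((TT_V ok).symm ▸ sig_mono ok j2.le le_rfl) m.1 m.2 (k.clk j j1 j2 ▸ k.tT j j1 j2)
    rw [← k.clk j j1 j2] at a b
    rw [Gam_V ok j2.le, Gn_V ok j2.le, k.qq j j1 j2]
    exact ⟨a, b⟩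
  · obtain ⟨j1, j2⟩ := Finset.mem_Ioo.1 hj
    have j3 : D.J < j + 1 := by omega
    have m := k.mem ok j1 j2
    have m' := k.mem ok j3 jK
    have qm := ok.ook.mono j j2
    have sm := sig_mono ok (Nat.le_succ j) jK.le
    have sj := sig_nonneg ok j2.le
    have cc := mul_le_mul_of_nonneg_left qm d0
    have e1 := k.clk j j1 j2
    have e2 := k.clk _ j3 jK
    obtain ⟨a, b⟩ := inc (D.sig j) (D.sig (j + 1)) (d * D.q j) (d * D.q (j + 1))
      (sig_mono ok j1 j2.le) sm ((TT_V ok).symm ▸ sig_mono ok jK.le le_rfl) m.1.1 cc m'.1.2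
      (e2 ▸ k.tT _ j3 jK)
    rw [← e1, ← e2, ← k.qq j j1 j2, ← k.qq _ j3 jK, ← Gam_V ok j2.le, ← Gam_V ok jK.le] at a
    have g := (le_abs_self _).trans (Ode3.Gam_lip ap ⟨sj.trans m.2.1, k.tT j j1 j2⟩
      ⟨(sj.trans sm).trans m'.2.1, k.tT _ j3 jK⟩)
    rw [abs_of_nonneg (by linarith), ← Ode3.Gam_eq, ← k.qq j j1 j2, ← k.qq _ j3 jK] at g
    have g1 := mul_le_mul_of_nonneg_right k.d1 (sub_nonneg.2 qm)
    have g2 : D.q (j + 1) - D.q j ≤ 2 * (D.sig (j + 1) - D.sig j) := by linarith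
    have g3 := mul_le_mul_of_nonneg_left g2 d0
    have g4 := mul_le_mul_of_nonneg_right r2 (sub_nonneg.2 sm)
    refine ⟨?_, by linarith, by linarith, fun E hE => ?_⟩
    · have z0 : 0 ≤ ex D.B j := x0.trans (u.le j1.le j2.le)
      have z1 : |ex D.B j| ≤ D.e j := (abs_of_nonneg z0).le.trans
        ((le_min ((u.le j2.le le_rfl).trans_eq u1) (by linarith)).trans (ok.esc j hj))
      have a' := abs_le.1 a
      refine (amul z1 (B := 2 * ρ * (D.sig (j + 1) - D.sig j)) (abs_le.2 ⟨?_, ?_⟩)).trans_eq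
        (by ring) <;> linarith [a'.1, a'.2]
    · rw [Gn_V ok j2.le, Gn_V ok jK.le]
      exact b _ E (fun r r0 r1 => lvr_V ok s j2.le r0 fun _ => r1) fun r r0 r1 =>
        hE r (e1 ▸ r0) (by linarith)

end Crest.Agent.T156.Cas.C40.R81

end
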