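import Crest.Agent.T156.R2K_30
import Crest.Agent.T156.R2M_81
import Crest.Agent.T156.MvX_30_Mg
import Crest.Agent.T156.R2EB_42
import Crest.Agent.T156.R2TD_42
import Crest.Agent.T156.R2Hm_42
import Crest.Agent.T156.R2VD_23
import Crest.Agent.T156.R2Th_26
import Crest.Agent.T156.R2Mv_55_Mg

-- ▼ part T156/R2Top_30
section

/-!
# Row 156, R2 (helper30): the flow at the END model from the leaves of `R2Def_30`
-/

set_option autoImplicit false
set_option linter.unusedSectionVars false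

noncomputable section

namespace Crest.Agent.T156.Alt.R2

open Real Finset Filter
open Crest.Agent.T157.E Crest.Agent.T157.Casc Crest.Agent.T157.SL
open Crest.Agent.T156.Cas Crest.Agent.T156.Cas.C40 Md67 CIn12

theorem e2_num {τ c C C' l2 Q x y mU el g Λ : ℝ} (h : τ / 2 * mU + c * τ ^ 2 * el ≤
    C * (τ ^ 4 * l2 * Q) + τ / 2 * x + C' * y) (t0 : 1 / 2 ≤ τ) (t1 : τ ≤ Λ) (l0 : 0 ≤ l2)
    (l1 : l2 ≤ 1) (Q0 : 0 ≤ Q) (hQ : Q ≤ 20 * g) (hx : x ≤ g) (y0 : 0 ≤ y) (hy : y ≤ g)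
    (C1 : C ≤ Λ) (C2 : C' ≤ Λ) (c0 : 0 < c) (c1 : 1 / c ≤ Λ) (m0 : 0 ≤ mU) (e0 : 0 ≤ el)
    (L : 1000 ≤ Λ) : mU ≤ Λ ^ 7 * g ∧ el ≤ Λ ^ 7 * g := by
  have g0 := y0.trans hy
  have L0 : 0 < Λ := by linarith
  have τ0 : 0 < τ := by linarith
  have p : ∀ i j : ℕ, i ≤ j → Λ ^ i * g ≤ Λ ^ j * g := fun i j e =>
    mul_le_mul_of_nonneg_right (pow_le_pow_right₀ (by linarith) e) g0
  have a1 : C * (τ ^ 4 * l2 * Q) ≤ Λ * (Λ ^ 4 * 1 * (20 * g)) := by gcongr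
  have a2 : τ / 2 * x ≤ Λ * g :=
    (mul_le_mul_of_nonneg_left hx (by linarith)).trans (mul_le_mul_of_nonneg_right (by linarith) g0)
  have a3 : C' * y ≤ Λ * g := mul_le_mul C2 hy y0 L0.le
  have a4 : τ / 2 * mU + c * τ ^ 2 * el ≤ 22 * (Λ ^ 5 * g) := by linarith [p 1 5 (by norm_num)]
  have b1 : 1 / 4 * mU ≤ τ / 2 * mU := mul_le_mul_of_nonneg_right (by linarith) m0
  have b2 : c * (1 / 2) ^ 2 * el ≤ c * τ ^ 2 * el := by gcongr
  have b3 : 0 ≤ c * el := by positivity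
  have q5 : 0 ≤ Λ ^ 5 * g := by positivity
  have q6 : 0 ≤ Λ ^ 6 * g := by positivity
  have r5 := mul_le_mul_of_nonneg_right L q5
  have r6 := mul_le_mul_of_nonneg_right L q6
  have b4 : el ≤ Λ * (88 * (Λ ^ 5 * g)) :=
    (show el = 1 / c * (c * el) by field_simp).trans_le
      (mul_le_mul c1 (by linarith) b3 L0.le)
  constructor <;> linarith

theorem eb_num {D : CD} {τ0 k η ε g Λ : ℝ} {P : ℕ} (h : D.Ok τ0) (hW : D.W.isSome = false)
    (z : R85.Pz D P k k⁻¹ (k * D.X ^ 3) ε k k) (t1 : τ0 ≤ Λ) (L : 1000 ≤ Λ) (g1 : g ≤ 1)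
    (h1 : D.Err ≤ g) (h2 : R85.muU D (E42.τ D) ≤ g) (h3 : R85.Rv D P (D.u 2) ≤ g) (h4 : η ≤ g)
    (h5 : ε ≤ g) : E42.EB D η ≤ Λ ^ 6 * (k ^ 5 * g) := by
  have e := (h.E0_le hW).trans h1
  have g0 := h.Err0.trans h1
  have k1 := z.L1
  have k0 : 0 < k := by linarith
  have t0 := h.tau0
  have X0 := h.X0
  have l0 := h.tl0
  have a1 := h.X6_le.trans e
  have a2 := h.tl_le.trans e
  have a3 := h.XN1_le.trans e
  have a4 : D.X ^ 3 * D.N2 ≤ g :=
    (mul_le_mul_of_nonneg_left (le_add_of_nonneg_right (sq_nonneg _)) (by positivity)).trans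
      (h.XN2_le.trans e)
  have a5 := (h.Ig3_le hW).trans h1
  have a6 := h.n_le.trans e
  have p : ∀ i j : ℕ, i ≤ j → k ^ i * g ≤ k ^ j * g := fun i j e =>
    mul_le_mul_of_nonneg_right (pow_le_pow_right₀ k1 e) g0
  have w : R85.W2 D P k k⁻¹ k ≤ 3 * (k ^ 2 * g) := by
    have b1 := mul_le_mul_of_nonneg_left h2 (sq_nonneg k)
    have b2 := mul_le_mul_of_nonneg_left h3 (sq_nonneg k)
    rw [R85.W2, div_inv_eq_mul]
    linarith
  have w0 : 0 ≤ R85.W2 D P k k⁻¹ k := add_nonneg (mul_nonneg (by positivity) (z.muU0 h))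
    (mul_nonneg (sq_nonneg _) (R85.Rv0 h (D.u0 2)))
  have E := z.EB_le h η
  generalize R85.W2 D P k k⁻¹ k = W at *
  have w1 := mul_le_mul_of_nonneg_left w k0.le
  have w2 := mul_le_mul_of_nonneg_left w1 k0.le
  have s1 : (D.X ^ 3 + D.tl + k * D.X ^ 3) * √(k * (k * W)) ≤ 6 * (k ^ 4 * g) := by
    have b1 := sq_sqrt (show 0 ≤ k * (k * W) by positivity)
    have b2 := mul_le_mul_of_nonneg_left a1 (sq_nonneg k)
    have b3 := mul_le_of_le_one_right l0 (a2.trans g1)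
    nlinarith [sq_nonneg (D.X ^ 3 + D.tl + k * D.X ^ 3 - √(k * (k * W))), p 0 4 (by norm_num),
      p 2 4 (by norm_num), sq_nonneg (D.X ^ 3 - D.tl), sq_nonneg (D.X ^ 3 - k * D.X ^ 3),
      sq_nonneg (D.tl - k * D.X ^ 3)]
  have s2 := mul_le_mul_of_nonneg_left a4 k0.le
  have s3 := mul_le_mul_of_nonneg_left h3 k0.le
  have c1 : 20 * k * (1 + τ0) ^ 4 ≤ 20 * k * (2 * Λ) ^ 4 := by gcongr; linarith
  have s4 := mul_le_mul c1 (show D.X ^ 6 + D.tl + D.X ^ 4 * D.N1 + (D.X ^ 3 + k * D.X ^ 3) * D.N2 +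
      D.I (fun t => D.e t * D.g t ^ 3) + R85.muU D (E42.τ D) + (1 + k) * R85.Rv D P (D.u 2) +
      (D.X ^ 3 + D.tl + k * D.X ^ 3) * √(k * (k * W)) ≤ 15 * (k ^ 4 * g) by
    linarith [p 0 4 (by norm_num), p 1 4 (by norm_num)]) (by
      have := h.N10; have := h.N20; have := h.Ig30; have := z.muU0 h
      have := R85.Rv0 (P := P) h (D.u0 2)
      positivity) (by positivity)
  have q0 : 0 ≤ k ^ 5 * g := by positivity
  have q1 := mul_le_mul_of_nonneg_right (one_le_pow₀ (n := 4) (show 1 ≤ Λ by linarith)) q0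
  have q2 := mul_le_mul_of_nonneg_right (pow_le_pow_left₀ (by norm_num) L 2)
    (show 0 ≤ Λ ^ 4 * (k ^ 5 * g) by positivity)
  linarith [p 0 5 (by norm_num), p 3 5 (by norm_num)]

variable {β c0 C0 c η K C : ℝ} {A : ℕ} {p : Pm} {P : Pl} {m : ℕ} {a : ℝ} {E : CIn12.Ev}

section reg
variable (H : Reg β c0 C0 A c η K p) (hc : c ≤ 1 / 10 ^ 6) (hη : 1000 * η ≤ c)
include H hc hη

theorem gn_le {i j : ℝ} (hi : 0 < i) (h : i ≤ j) : gn p i * un p ≤ gn p j * un p :=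
  mul_le_mul_of_nonneg_right (Pre29.rp_le H.n1 (by
    rw [neg_div, neg_div]; exact neg_le_neg (one_div_le_one_div_of_le hi h))) (un0 H).le

/-- the numbers of the glue -/
theorem nums : p.r ^ 6 ≤ gn p 200 * un p * t1 p ∧ (p.n : ℝ) ^ η * t1 p ≤ 1 ∧
    (t1 p / p.κ) ^ 5 * (p.s ^ 2 * (p.n : ℝ) ^ (-(3 : ℝ) / 10)) ≤ gn p 200 * un p ∧
    ((p.n : ℝ) ^ η) ^ 7 * (gn p 200 * un p) ≤ gn p 250 * un p ∧ gn p 300 * un p ≤ 1 ∧
    ηH p ≤ gn p 300 * un p ∧ 1 / (p.n : ℝ) ≤ gn p 300 * un p ∧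
    ((p.n : ℝ) ^ η) ^ 30 * (kk p ^ 5 * (gn p 300 * un p)) ≤ p.κ ^ ((1 : ℝ) / 100) * un p ∧
    ((p.n : ℝ) ^ η) ^ 8 * p.r ^ 6 * (1 / t1 p * (gn p 250 * un p)) ≤
      (p.κ ^ ((1 : ℝ) / 100) * un p) ^ 2 ∧ gn p 700 * un p ≤ p.κ ^ ((1 : ℝ) / 100) * un p ∧
    ((p.n : ℝ) ^ η) ^ 2 * (p.κ ^ ((1 : ℝ) / 100) * un p) ≤ un p ∧
    ((p.n : ℝ) ^ η) ^ 4 ≤ (p.n : ℝ) ^ ((1 : ℝ) / 12) := by
  have := H.Λ0
  have := H.r0
  have := H.κ0
  have := H.N0
  have := H.s0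
  have := t10 H
  have := un0 H
  have := kk0 H
  have := ηH0 H
  have := gn0 H 200
  have := gn0 H 250
  have := gn0 H 300
  have := gn0 H 700
  refine ⟨?_, ?_, ?_, ?_, ?_, ?_, ?_, ?_, ?_, ?_, ?_, ?_⟩ <;>
    refine H.le_of_lg (by positivity) (by positivity) ?_ <;> lg_norm <;>
    simp only [H.lg_n, lg_t1 H, lg_un H, lg_gn H, lg_kk H, lg_ηH H, H.lg_r, H.lg_κ] <;>
    linarith [H.lg_s.1, H.lg_s.2, H.c_pos, H.η_pos]

end reg

set_option maxHeartbeats 800000 in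
/-- **one root tilt** -/
theorem pt (hV : HV) (hL : HL) (hU : HU) (he : E42.HE) (β : ℝ) {C : ℝ} (hC : 1 ≤ C) :
    ∃ K : ℝ, C ≤ K ∧ ∀ {c0 C0 c η : ℝ} {A : ℕ} {p : Pm} {P : Pl} {m : ℕ} {a : ℝ} {E : CIn12.Ev},
    Reg β c0 C0 A c η K p → c ≤ 1 / 10 ^ 6 → 1000 * η ≤ c → En C p P → Ad p P m a E →
    (D p P m a E).Err ≤ gn p 200 * un p →
    (D p P m a E).N1 ≤ p.s ^ 2 * (p.n : ℝ) ^ (-(3 : ℝ) / 10) →
    (R85.s2 (D p P m a E) - Sq p P m a) ^ 2 ≤ gn p 200 * un p * t1 p →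
    E42.Hm (D p P m a E) (ηH p) → E42.Th (D p P m a E) ≤ p.κ ^ ((1 : ℝ) / 100) * un p →
    R85.Pz (D p P m a E) (p.J + 1) (kk p) (kk p)⁻¹ (kk p * E.X ^ 3) (1 / p.n) (kk p) (kk p) →
    (∃ S0 : ℝ, R85.TW (D p P m a E) (τ p P m) S0 (E.X ^ 5) ∧
      |E42.Bq (D p P m a E) (τ p P m) S0| ≤ p.r ^ 3 ∧ |S0 - Sq p P m a| ≤ p.r ^ 3) →
    (R85.muU (D p P m a E) (τ p P m) ≤ gn p 250 * un p →
      R85.Rv (D p P m a E) (p.J + 1) ((D p P m a E).u 2) ≤ gn p 300 * un p) →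
    (R85.muU (D p P m a E) (τ p P m) ≤ gn p 250 * un p → R85.ell2 (D p P m a E) ≤ gn p 250 * un p →
      R85.Rv (D p P m a E) (p.J + 1) ((D p P m a E).u 2) ≤ gn p 300 * un p →
      |E42.dT (D p P m a E) (E42.omS (D p P m a E))| ≤ gn p 700 * un p) →
    |E42.T6 (D p P m a E) - E42.Kc (D p P m a E) - LowT (D p P m a E) (τ p P m)| ≤
      7 * (p.κ ^ ((1 : ℝ) / 100) * un p) := by
  obtain ⟨cE, CE, CE', p0, p1, p2, hE⟩ := R85.headE2' hU (β ^ 2) (C + 1)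
  obtain ⟨CR, p3, hR⟩ := E42.r2cd hV hL hU he (β ^ 2)
  have p4 := one_div_pos.2 p0
  refine ⟨1 + C + CE + CE' + CR + 1 / cE, by linarith, ?_⟩
  intro c0 C0 c η A p P m a E H hc hη e h h1 h2 h3 h4 h5 z ⟨S0, tw, hB, hS⟩ h7 h8
  obtain ⟨n1, n2, n3, n4, n5, n6, n7, n8, n9, n10, -, -⟩ := nums H hc hη
  have g1 := gn_le H hc hη (i := 200) (j := 300) (by norm_num) (by norm_num)
  have g2 := gn_le H hc hη (i := 250) (j := 300) (by norm_num) (by norm_num)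
  have g3 := gn_le H hc hη (i := 250) (j := 700) (by norm_num) (by norm_num)
  have hK := H.K_le
  have L := H.num_le
  have ok : (D p P m a E).Ok (β ^ 2) := H.hβ ▸ h.ok
  have st := e.st (E := E) H h.sp h.inn
  have sJ := e.sJ_ge H (by linarith) h
  have la := e.La_le (E := E) H h.inn
  obtain ⟨τ0, τ1⟩ := e.τ_mem H h.inn
  have eτ := τ_D (p := p) (P := P) (m := m) (a := a) (E := E)
  have eX : (D p P m a E).X = E.X := rfl
  have hW : (D p P m a E).W.isSome = false := rfl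
  have b1 := H.β_le
  have b2 := H.A_le
  have b3 := H.log_le
  have b4 := H.log1
  have t0 := t10 H
  have r0 := H.r0
  have w0 : 0 < p.κ ^ ((1 : ℝ) / 100) * un p := mul_pos (rpow_pos_of_pos H.κ0 _) (un0 H)
  rw [← h.env.X] at n3
  rw [← eX] at z tw n3
  generalize D p P m a E = X at *
  generalize τ p P m = τ at *
  generalize (p.n : ℝ) ^ η = Λ at *
  generalize p.κ ^ ((1 : ℝ) / 100) * un p = w at *
  generalize gn p 200 * un p = g at *
  have L0 : 0 < Λ := by linarith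
  have L1 : 1 ≤ Λ := by linarith
  have e0 := ok.Err0
  have g0 := e0.trans h1
  obtain ⟨E1, O1⟩ := hE X τ S0 _ _ _ ok hW st tw (by positivity) sJ
  have l0 : 0 < X.lam := by rw [R85.lam_eq ok]; exact Pp.Ode3.D1_pos (st.adm ok) _ _
  have l1 : X.lam ≤ 1 := by rw [R85.lam_eq ok]; exact Pp.Ode3.D1_le (st.adm ok) _ _
  have B1 : 1 / (t1 p / 4) + (C + 1) ≤ 5 * (1 / t1 p) := by
    have : Λ ≤ 1 / t1 p := (le_div_iff₀ t0).2 n2
    rw [one_div_div, div_eq_mul_one_div 4]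
    linarith
  have B0 : 0 ≤ 1 / (t1 p / 4) + (C + 1) := by positivity
  generalize 1 / (t1 p / 4) + (C + 1) = B at *
  have q1 : (S0 - Sq p P m a) ^ 2 ≤ p.r ^ 6 :=
    (sq_le_sq' (abs_le.1 hS).1 (abs_le.1 hS).2).trans_eq (by ring)
  have q2 : (R85.s2 X - S0) ^ 2 * B ≤ 20 * g :=
    (mul_le_mul (show _ ≤ 4 * (g * t1 p) by
      linarith [sq_nonneg (R85.s2 X + S0 - 2 * Sq p P m a)]) B1 B0 (by positivity)).trans_eq
      (by field_simp; ring)
  have x1 : X.X ^ 5 * X.N1 ≤ g :=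
    (mul_le_mul_of_nonneg_left h2 (pow_nonneg ok.X0 5)).trans n3
  have el0 := R85.ell2_nonneg ok
  rw [mul_assoc (τ ^ 4 * X.lam ^ 2)] at E1
  obtain ⟨m1, m2⟩ := e2_num E1 τ0 (by linarith) (sq_nonneg _) (pow_le_one₀ l0.le l1)
    (by positivity) q2 x1 e0 h1 (by linarith) (by linarith) p0 (by linarith) (eτ ▸ z.muU0 ok) el0 L
  replace m1 := m1.trans n4
  replace m2 := m2.trans n4
  have rv := h7 m1
  have dt := h8 m1 m2 rv
  have eb := eb_num (η := ηH p) ok hW z b1 L n5 (h1.trans g1) (eτ ▸ m1.trans g2) rv n6 n7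
  have R := abs_le.1 (hR X _ τ _ S0 _ _ ok h4 st tw)
  have c1 : Λ * g ≤ w := by
    have := mul_le_mul_of_nonneg_right (pow_le_pow_right₀ L1 (show 1 ≤ 7 by norm_num)) g0
    linarith
  have c2 : CR * X.Err ≤ Λ * g := mul_le_mul (by linarith) h1 e0 L0.le
  have c3 : τ * (X.X ^ 5 * X.N1) ≤ Λ * g :=
    mul_le_mul (by linarith) x1 (mul_nonneg (pow_nonneg ok.X0 5) ok.N10) L0.le
  have c4 : CR * E42.La X ^ 5 * E42.EB X (ηH p) ≤ w := by
    have d1 : C * A * log p.n ≤ Λ * Λ * Λ := by gcongr; linarith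
    have d2 : E42.La X ≤ Λ ^ 4 := by
      have := mul_le_mul_of_nonneg_right L (show 0 ≤ Λ ^ 3 by positivity)
      have := pow_le_pow_right₀ L1 (show 1 ≤ 3 by norm_num)
      linarith
    have d3 := zero_le_one.trans (E42.La1 ok)
    have d4 := E42.EB0 ok h4
    have d5 := d4.trans eb
    calc _ ≤ Λ * (Λ ^ 4) ^ 5 * (Λ ^ 6 * (kk p ^ 5 * (gn p 300 * un p))) := by gcongr; linarith
      _ = Λ ^ 27 * (kk p ^ 5 * (gn p 300 * un p)) := by ring
      _ ≤ _ := (mul_le_mul_of_nonneg_right (pow_le_pow_right₀ L1 (by norm_num))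
        (nonneg_of_mul_nonneg_right d5 (by positivity))).trans n8
  have c5 : |τ ^ 3 * X.lam / 2 * E42.Bq X τ S0 * R85.O X| ≤ w := by
    refine abs_le.2 (abs_le_of_sq_le_sq' (le_trans ?_ n9) w0.le)
    have d1 : E42.Bq X τ S0 ^ 2 ≤ p.r ^ 6 :=
      (sq_le_sq' (abs_le.1 hB).1 (abs_le.1 hB).2).trans_eq (by ring)
    have d2 : R85.O X ^ 2 ≤ Λ * (5 * (1 / t1 p)) * (gn p 250 * un p) :=
      O1.trans (by gcongr; linarith)
    have d3 : τ ^ 3 * X.lam / 2 ≤ Λ ^ 3 * 1 / 2 := by gcongr; linarith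
    have d4 := el0.trans m2
    have d6 : 0 ≤ Λ ^ 7 * p.r ^ 6 * (1 / t1 p * (gn p 250 * un p)) := by positivity
    have d5 := mul_le_mul_of_nonneg_right L d6
    have τp : 0 < τ := by linarith
    rw [mul_pow, mul_pow]
    calc _ ≤ (Λ ^ 3 * 1 / 2) ^ 2 * p.r ^ 6 * (Λ * (5 * (1 / t1 p)) * (gn p 250 * un p)) := by gcongr
      _ ≤ _ := by linarith only [d5, d6]
  have c6 := abs_le.1 c5
  simp only [E42.Mn] at R
  simp only [LowT]
  exact abs_le.2 ⟨by linarith [R.1, c6.2], by linarith [R.2, c6.1]⟩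

/-- **the flow at the END model** -/
theorem flwS_of (hβ : 1 < β) (hV : HV) (hL : HL) (hU : HU) (he : E42.HE) (h1 : ValS β)
    (h2 : JS β) (h3 : HmS β) (h4 : ThS β) (h5 : PzS β) (h6 : TwS β) (h7 : MvS β) (h8 : TeS β)
    (h9 : LwS β) : Gain β (FlwS (7 / 20)) := by
  unfold ValS JS HmS ThS PzS TwS MvS TeS LwS EvA at *
  refine Sml.gain (Sml.glueC hβ (enS hβ) ((((((((h1.and h2).and h3).and h4).and h5).and h6).and
    h7).and h8).and h9) fun C hC => ?_)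
  obtain ⟨K, CK, hp⟩ := pt hV hL hU he β hC
  refine fun c0 C0 _ _ => ⟨0, fun A _ => ⟨1 / 10 ^ 6, by positivity, fun c hc c0 =>
    ⟨c / 1000, by positivity, fun η hη _ => ⟨K, ?_⟩⟩⟩⟩
  intro p H e ⟨⟨⟨⟨⟨⟨⟨⟨g1, g2⟩, g3⟩, g4⟩, g5⟩, g6⟩, g7⟩, g8⟩, g9⟩ P sp
  replace e := e H.r_le_ye P sp
  replace hη : 1000 * η ≤ c := by linarith
  obtain ⟨-, -, -, -, -, -, -, -, -, -, n1, n2⟩ := nums H hc hη
  have L := H.num_le
  have hK := CK.trans H.K_le
  refine ⟨(e.tot H).trans (le_trans ?_ n2), fun a a' Q w Q0 _ m m1 m2 => ?_⟩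
  · have b2 := H.A_le
    have b3 := H.log_le
    have b4 := H.log1
    generalize (p.n : ℝ) ^ η = Λ at *
    have L0 : 0 < Λ := by linarith
    have d1 : C * A * log p.n ≤ Λ * Λ * Λ := by gcongr
    have := mul_le_mul_of_nonneg_right L (show 0 ≤ Λ ^ 3 by positivity)
    have := pow_le_pow_right₀ (show 1 ≤ Λ by linarith) (show 1 ≤ 3 by norm_num)
    linarith
  obtain ⟨c', hl⟩ := g9 P m
  have one : ∀ x, In p m x → ∃ E, |6 * (Me p P).T m x - E42.Kc (D p P m x E) - c'| ≤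
      8 * (p.κ ^ ((1 : ℝ) / 100) * un p) := fun x i => by
    obtain ⟨E, h, e1, e2⟩ := g1 P m x sp i
    have k1 := abs_le.1 (hp H hc hη e h e1 e2 (g2 _ _ _ _ h) (g3 _ _ _ _ h) (g4 _ _ _ _ h)
      (g5 _ _ _ _ h).1 (g6 _ _ _ _ h) (g7 _ _ _ _ h e1) (g8 _ _ _ _ h))
    have k2 := abs_le.1 (hl x E h)
    rw [E42.T6_cd] at k1
    exact ⟨E, abs_le.2 ⟨by linarith [k1.1, k2.1], by linarith [k1.2, k2.2]⟩⟩
  obtain ⟨E, k1⟩ := one a ⟨m1, m2.le, w.lo, w.le.trans w.hi⟩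
  obtain ⟨E', k2⟩ := one a' ⟨m1, m2.le, w.lo.trans w.le, w.hi⟩
  have i4 : p.Jp P < (Me p P).N := e.cl.i4
  rw [E42.Kc_cd _ m a _ _ none E (by have := jf_lt H; omega) (by omega) a' none E'] at k2
  have s0 := H.s0
  have u1 : un p ≤ (p.n : ℝ) ^ (-(5 : ℝ) / 6) * (Q * p.s ^ 2 + p.s ^ 5) :=
    mul_le_mul_of_nonneg_left (le_add_of_nonneg_left (by positivity)) (H.rp0 _).le
  have w0 : 0 < p.κ ^ ((1 : ℝ) / 100) * un p := mul_pos (rpow_pos_of_pos H.κ0 _) (un0 H)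
  rw [mul_assoc, le_inv_mul_iff₀ H.Λ0]
  refine le_trans ?_ (n1.trans u1)
  rw [sq, mul_assoc]
  refine mul_le_mul_of_nonneg_left ?_ H.Λ0.le
  have := mul_le_mul_of_nonneg_right L w0.le
  have k1 := abs_le.1 k1
  have k2 := abs_le.1 k2
  exact abs_le.2 ⟨by linarith [k1.2, k2.1], by linarith [k1.1, k2.2]⟩

end Crest.Agent.T156.Alt.R2

end
end

-- ▼ part T156/R2U_40
section

/-!
# Row 156, R2 (helper40): numbers of a value record and the test record built on it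
-/

set_option autoImplicit false
set_option linter.unusedSectionVars false

noncomputable section

namespace Crest.Agent.T156.Cas.C40.R40

open Real Finset
open Crest.Agent.T157.E Crest.Agent.T157.Casc Crest.Agent.T157.SL
open CD Et5

/-- the numbers: losses `≤ Λ`, errors `≤ ε` -/
structure Nm (D : CD) (τ0 : ℝ) (P : ℕ) (A : ℕ → ℝ) (Λ ε : ℝ) : Prop where
  val : D.W = none
  X0 : 0 < D.X
  JP : D.J < P
  PK : P ≤ D.K
  t2 : τ0 ^ 2 ≤ Λ
  la : E42.La D ≤ Λ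
  eB : ∀ j ∈ D.up, D.e j ≤ Λ
  V : 1 + D.sv (fun _ => 1) D.J ≤ Λ
  F : D.F0 (D.J + 1) ≤ Λ
  ck : ∀ t ∈ D.up, t < P → R85.ds D t ≤ Λ * D.dx t
  lg : D.sv (fun j => 1 / D.e j) D.J ≤ Λ
  lK : log ((D.K : ℝ) + 2) ≤ Λ
  w1 : Λ * D.X ≤ 1
  w2 : 2 ≤ Λ * ex D.B (P - 1)
  add : D.Add A
  ε1 : ε ≤ 1
  err : D.Err ≤ ε
  nn : D.N1 * D.N2 ≤ ε
  eA : D.I (fun t => D.e t * A t) ≤ ε
  eu : D.I (fun t => D.e t ^ 2 * D.u 2 t) ≤ ε
  mv : R85.Rv D P (D.u 2) ≤ ε
  tl : √D.tl ≤ ε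
  dx : ∀ t ∈ D.up, P ≤ t → D.dx t ≤ ε

/-- sums against `|ω|` -/
def Jw (D : CD) (ω a : ℕ → ℝ) : ℝ := ∑ j ∈ D.up, |ω j| * a j

theorem Jw_mono {D : CD} (ω : ℕ → ℝ) {a b : ℕ → ℝ} (h : ∀ j ∈ D.up, a j ≤ b j) :
    Jw D ω a ≤ Jw D ω b := (E42.wi D ω).Iw_mono h
theorem Jw_add (D : CD) (ω a b : ℕ → ℝ) : Jw D ω (fun j => a j + b j) = Jw D ω a + Jw D ω b :=
  (E42.wi D ω).Iw_add a b
theorem Jw_const (D : CD) (ω : ℕ → ℝ) (c : ℝ) : Jw D ω (fun _ => c) = c * Jw D ω fun _ => 1 :=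
  (E42.wi D ω).Iw_const c
theorem Jw0 {D : CD} (ω : ℕ → ℝ) {a : ℕ → ℝ} (h : ∀ j ∈ D.up, 0 ≤ a j) : 0 ≤ Jw D ω a :=
  (E42.wi D ω).Iw0 h

theorem am (a b : ℝ) : a * b ≤ (a ^ 2 + b ^ 2) / 2 := by nlinarith [sq_nonneg (a - b)]

section ok
variable {D : CD} {τ0 : ℝ} (h : D.Ok τ0)
include h

theorem ex_e {j : ℕ} (hj : j ∈ D.up) : ex D.B j ≤ D.e j := by
  refine le_trans (le_min ?_ (le_add_of_nonneg_right (h.sig0 (mem_up.1 hj).2.le))) (h.esc j hj)
  rw [← h.sum_dx]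
  exact h.sum_dx_one fun i hi => by have := mem_range.1 hi; have := mem_up.1 hj; omega

theorem dx_dv {j : ℕ} (hj : j ∈ D.up) : D.dx j ≤ D.dv j := by
  unfold CD.dv
  split_ifs
  · exact le_trans (by simpa using h.sum_dx_le (A := {j}) (j := j) (by simp)) (ex_e h hj)
  · linarith [h.sig_le (Nat.sub_le j 1) (mem_up.1 hj).2.le, h.tau_mono (Nat.sub_le j 1),
      h.dx0 (j - 1)]

theorem I_sv {F : ℕ → ℝ} (hF : ∀ j, 0 ≤ F j) : D.I F ≤ D.sv F D.J :=
  sum_le_sum fun j hj => mul_le_mul_of_nonneg_right (dx_dv h hj) (hF j)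

theorem sub_I {s : Finset ℕ} (hs : s ⊆ D.up) {a : ℕ → ℝ} (ha : ∀ j ∈ D.up, 0 ≤ a j) :
    ∑ j ∈ s, D.dx j * a j ≤ D.I a :=
  sum_le_sum_of_subset_of_nonneg hs fun t ht _ => mul_nonneg (h.dx0 t) (ha t ht)

theorem I_sq (a : ℕ → ℝ) : D.I a ^ 2 ≤ D.I fun j => a j ^ 2 := by
  have := I_cs h a fun _ => 1
  simp only [mul_one, one_pow] at this
  exact this.trans (mul_le_of_le_one_right (h.I0 fun _ _ => sq_nonneg _) (I_one h))

theorem ev0 (t : ℕ) : 0 ≤ D.e t * √(D.v t t) := mul_nonneg (h.e0 t) (sqrt_nonneg _)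

theorem ev_sq (t : ℕ) : (D.e t * √(D.v t t)) ^ 2 = D.e t ^ 2 * D.v t t := by
  rw [mul_pow, sq_sqrt (D.v0 t t)]

theorem v_anti {y i j : ℕ} (hi : y ≤ i) (hj : i ≤ j) : D.v y j ≤ D.v y i := by
  rw [Vl21.v_eq D h.pos, Vl21.v_eq D h.pos]
  exact node_mono wt_one90 (Eg33.eg_vz wt_one90 _ _ y j) (Eg33.eg_vz wt_one90 _ _ y i)
    (Eg33.vz_anti wt_one90 _ _ hi hj) _ y 0

end ok

namespace Nm

variable {D : CD} {τ0 : ℝ} {P : ℕ} {A : ℕ → ℝ} {Λ ε : ℝ} (N : Nm D τ0 P A Λ ε) (h : D.Ok τ0)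
include N h

theorem L1 : 1 ≤ Λ := le_trans (le_add_of_nonneg_right (h.sig0 le_rfl)) N.la
theorem L0 : 0 ≤ Λ := zero_le_one.trans (N.L1 h)
theorem ε0 : 0 ≤ ε := (sqrt_nonneg _).trans N.tl
theorem ep (j : ℕ) : 0 < D.e j := N.X0.trans_le (h.eX j)
theorem E0 : D.E0 ≤ ε := by
  have := N.err
  rw [Err_val (by rw [N.val]; rfl)] at this
  linarith [h.Ig30]
theorem g3 : D.I (fun j => D.e j * D.g j ^ 3) ≤ ε := by
  have := N.err
  rw [Err_val (by rw [N.val]; rfl)] at this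
  linarith [h.E00]
theorem pw {i j : ℕ} (k : i ≤ j) : Λ ^ i * ε ≤ Λ ^ j * ε :=
  mul_le_mul_of_nonneg_right (pow_le_pow_right₀ (N.L1 h) k) (N.ε0 h)
theorem X6 : D.X ^ 6 ≤ ε := h.X6_le.trans (N.E0 h)
theorem N13 : D.N1 ^ 3 ≤ ε := by
  have := mul_le_mul_of_nonneg_left (N1_sq h) h.N10
  linarith [N.nn]
theorem e2v : D.I (fun t => D.e t ^ 2 * D.v t t) ≤ ε := by
  have := h.Lad0_parts
  have k := h.Lad0_le.trans (N.E0 h)
  rw [Lad0] at k
  linarith [this.1, this.2.2]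
theorem eS : D.I (fun t => D.e t * ∑ y ∈ Ico 1 t, D.dx y * D.v y t) ≤ ε := by
  have := h.Lad0_parts
  have k := h.Lad0_le.trans (N.E0 h)
  rw [Lad0] at k
  linarith [this.1, this.2.1]
theorem Iev : D.I (fun t => D.e t * √(D.v t t)) ^ 2 ≤ ε := by
  have := I_sq h fun t => D.e t * √(D.v t t)
  simp only [ev_sq h] at this
  exact this.trans (N.e2v h)
theorem VF : D.sv D.f0 D.J ^ 2 + D.I (fun j => D.f0 j ^ 2) ≤ ε := by
  have k := h.VF_le.trans (N.E0 h)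
  rw [CD.VF] at k
  linarith [I_sv h (F := fun j => D.f0 j ^ 2) fun _ => sq_nonneg _]
theorem sf : D.sv D.f0 D.J ^ 2 ≤ ε := by
  linarith [N.VF h, h.I0 (a := fun j => D.f0 j ^ 2) fun _ _ => sq_nonneg _]
theorem If : D.I (fun j => D.f0 j ^ 2) ≤ ε := by linarith [N.VF h, sq_nonneg (D.sv D.f0 D.J)]
theorem Ie : D.I (fun j => 1 / D.e j) ≤ Λ :=
  (I_sv h fun j => (one_div_pos.2 (N.ep h j)).le).trans N.lg
theorem fs {F : ℕ → ℝ} (hF : ∀ j, 0 ≤ F j) (ha : Antitone F) {c : ℝ} (hc : F (D.J + 1) ≤ c)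
    {j : ℕ} (hj : D.J ≤ j) : D.fs F j ≤ c * Λ :=
  (fs_le h hF ha hc le_rfl hj).trans (mul_le_mul_of_nonneg_left N.V ((hF _).trans hc))
theorem gq {j : ℕ} (hj : j ∈ D.up) : D.gq j ≤ D.X ^ 3 := h.stt N.val j hj

/-- the Hardy term -/
theorem hardy : D.I (fun j => √(D.v j j) * D.lw (fun k => D.e k * √(D.v k k)) j) ≤ Λ * ε := by
  have ε0 := N.ε0 h
  have k := I_cs h (fun j => D.e j * √(D.v j j))
    fun j => D.lw (fun k => D.e k * √(D.v k k)) j / D.e j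
  simp only [ev_sq h] at k
  have k2 : D.I (fun j => (D.lw (fun k => D.e k * √(D.v k k)) j / D.e j) ^ 2) ≤
      D.I fun j => ε * (1 / D.e j) := h.I_mono fun j hj => by
    have e := N.ep h j
    have c := cs (Ioo D.J j) (μ := D.dx) (ν := D.dx) (fun t _ => (abs_of_nonneg (h.dx0 t)).le)
      fun k => D.e k * √(D.v k k)
    simp only [ev_sq h] at c
    have c2 := mul_le_mul ((h.sum_dx_le (A := Ioo D.J j) fun i hi => (mem_Ioo.1 hi).2.le).trans
      (ex_e h hj)) ((sub_I h (s := Ioo D.J j) (Ioo_subset_Ioo_right (mem_up.1 hj).2.le)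
        fun t _ => mul_nonneg (sq_nonneg (D.e t)) (D.v0 t t)).trans (N.e2v h))
      (sum_nonneg fun t _ => mul_nonneg (h.dx0 t) (mul_nonneg (sq_nonneg _) (D.v0 t t))) e.le
    rw [div_pow, div_le_iff₀ (pow_pos e 2)]
    refine (c.trans c2).trans_eq ?_
    field_simp
  rw [D.I_mul] at k2
  have k3 := mul_le_mul (N.e2v h) (k2.trans (mul_le_mul_of_nonneg_left (N.Ie h) ε0))
    (h.I0 fun _ _ => sq_nonneg _) ε0
  have e : (fun j => D.e j * √(D.v j j) * (D.lw (fun k => D.e k * √(D.v k k)) j / D.e j)) =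
      fun j => √(D.v j j) * D.lw (fun k => D.e k * √(D.v k k)) j := funext fun j => by
    have := (N.ep h j).ne'
    field_simp
  rw [e] at k
  refine le_of_pow_le_pow_left₀ two_ne_zero (mul_nonneg (N.L0 h) ε0) ?_
  nlinarith [mul_nonneg (mul_nonneg (N.L0 h) (sub_nonneg.2 (N.L1 h))) (sq_nonneg ε)]

end Nm

/-- the second-round envelope -/
def G2 (D : CD) (Λ ε : ℝ) (j : ℕ) : ℝ := min (D.G0 j) √(Λ * ε / D.e j)

/-- the test record -/
def tst (D : CD) (ω : ℕ → ℝ) (c : ℝ) (G : ℕ → ℝ) (z : ℝ) : CD :=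
  { D with W := some ω, F1 := fun _ => c, f1 := fun _ => c, Z := z, G0 := G }

/-- the marked numbers -/
structure Mk (D : CD) (ω : ℕ → ℝ) (w y : ℝ) : Prop where
  w : Jw D ω (fun _ => 1) ≤ w
  m1 : Jw D ω (fun j => D.dx j + D.X ^ 4 * D.g j + D.X ^ 3 * (D.g j ^ 2 + D.g j * D.N1) +
    D.u 4 j + D.u 5 j + D.u 2 j * D.fs D.F0 j) ≤ y
  m2 : (E42.wi D ω).Cub ≤ y
  m3 : (E42.wi D ω).Lad1 ≤ y
  m4 : (E42.wi D ω).NLa ≤ y ∨ ∃ a l A : ℕ → ℝ, (∀ j ∈ D.up, ω j = D.dx j * a j) ∧ (∀ j, 0 < l j) ∧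
    (∀ j, l j ≤ l (j + 1)) ∧ D.Add A ∧ (E42.wi D ω).TFa a l A + log (D.K + 2) *
      (1 + D.sv (fun _ => 1) D.J) ^ 2 *
        (D.I (fun t => D.e t * √(D.v t t)) * √(D.I fun t => a t ^ 2 * A t)) ≤ y
  m6 : Jw D ω (fun j => min (D.g j * D.lw (fun t => D.g t ^ 2) j)
    (√(D.u 2 j) * D.lw (fun t => √(D.u 4 t)) j)) ≤ y
  m7 : Jw D ω (fun j => √(D.v j j) * (D.f0 j + D.sv D.f0 D.J +
      D.lw (fun k => D.e k * √(D.v k k)) j + D.hi (fun k => √(D.v k k)) j)) ≤ y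
  m8 : Jw D ω (fun j => D.f0 j * (D.f0 j + D.sv D.f0 D.J)) ≤ y

namespace Nm

variable {D : CD} {τ0 : ℝ} {P : ℕ} {A : ℕ → ℝ} {Λ ε : ℝ} (N : Nm D τ0 P A Λ ε) (h : D.Ok τ0)
include N h

theorem G0 (j : ℕ) : 0 ≤ G2 D Λ ε j := le_min (h.G00 j) (sqrt_nonneg _)

theorem Gsq (j : ℕ) : G2 D Λ ε j ^ 2 ≤ Λ * ε * (1 / D.e j) := by
  refine (pow_le_pow_left₀ (N.G0 h j) (min_le_right _ _) 2).trans_eq ?_
  rw [sq_sqrt (div_nonneg (mul_nonneg (N.L0 h) (N.ε0 h)) (h.e0 j)), mul_one_div]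

theorem wG : D.Wk2 D.dx (G2 D Λ ε) D.f0 := by
  have p := mul_nonneg (N.L0 h) (N.ε0 h)
  have k : ∀ b j, pE (fun _ => 1) D.B 0 (fun p x => (∑ t ∈ D.tail j, D.dx t * yv D b t p x) ^ 2) ≤
      √(Λ * ε / D.e j) ^ 2 := fun b j => by
    have c := pE_cs D (D.tail j) (μ := fun t => D.dx t / D.e t ^ 2) (ν := fun t => D.dx t / D.e t ^ 2)
      (σ := fun t => (D.e t ^ 2) ^ 2 * D.u 2 t)
      (fun t _ => (abs_of_nonneg (div_nonneg (h.dx0 t) (sq_nonneg _))).le)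
      (Y := fun t p x => D.e t ^ 2 * yv D b t p x) (fun t x => (eg_yv D b t x).const_mul _)
      fun t => by
        simp only [mul_pow]
        rw [Pe.pE_const_mul]
        exact mul_le_mul_of_nonneg_left (yv_sq D b t) (sq_nonneg _)
    have e1 : ∀ t (y : ℝ), D.dx t / D.e t ^ 2 * (D.e t ^ 2 * y) = D.dx t * y := fun t y => by
      have := (N.ep h t).ne'
      field_simp
    simp only [sq (D.e _ ^ 2), mul_assoc (D.e _ ^ 2), e1] at c
    rw [sq_sqrt (div_nonneg p (h.e0 j)), mul_div_right_comm]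
    refine c.trans (mul_le_mul ?_ ((sub_I h (tail_sub D j) fun t _ =>
      mul_nonneg (sq_nonneg _) (D.u0 2 t)).trans N.eu) (sum_nonneg fun t _ => mul_nonneg (h.dx0 t)
        (mul_nonneg (sq_nonneg _) (D.u0 2 t))) (div_nonneg (N.L0 h) (h.e0 j)))
    rw [le_div_iff₀ (N.ep h j), sum_mul]
    refine le_trans (sum_le_sum fun t ht => ?_) ((sub_I h (tail_sub D j) fun t _ =>
      (one_div_pos.2 (N.ep h t)).le).trans (N.Ie h))
    have e := N.ep h t
    have m := mul_le_mul_of_nonneg_left (h.e_mono ((le_max_left _ _).trans (mem_Ico.1 ht).1))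
      (div_nonneg (h.dx0 t) (sq_nonneg (D.e t)))
    refine m.trans_eq ?_
    field_simp
  have mn : ∀ {x a b : ℝ}, x ≤ a ^ 2 → x ≤ b ^ 2 → x ≤ min a b ^ 2 := fun {x a b} h1 h2 => by
    rcases le_total a b with e | e
    · rwa [min_eq_left e]
    · rwa [min_eq_right e]
  exact ⟨fun j => ⟨N.G0 h j, h.f00 j⟩, fun j => ⟨min_le_min (h.wg0.anti j).1 (sqrt_le_sqrt
      (div_le_div_of_nonneg_left p (N.ep h j) (h.emono j))), (h.wg0.anti j).2⟩,
    fun j => mn (h.wg0.sqN j) (k false j), fun j => mn (h.wg0.sqL j) (k true j), h.wg0.varN,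
    h.wg0.varL⟩

theorem svG : D.sv (G2 D Λ ε) D.J ^ 2 ≤ Λ ^ 3 * ε := by
  have d0 : ∀ t ∈ Ioo D.J D.K, 0 ≤ D.dv t := fun t ht => h.dv0 (mem_Ioo.1 ht).2.le
  have c := cs (Ioo D.J D.K) (μ := D.dv) (ν := D.dv) (fun t ht => (abs_of_nonneg (d0 t ht)).le)
    (G2 D Λ ε)
  have a1 : ∑ t ∈ Ioo D.J D.K, D.dv t ≤ Λ := by
    have := N.V
    simp only [CD.sv, mul_one] at this
    linarith
  have a2 : ∑ t ∈ Ioo D.J D.K, D.dv t * G2 D Λ ε t ^ 2 ≤ Λ * ε * Λ := by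
    refine le_trans ?_ (mul_le_mul_of_nonneg_left N.lg (mul_nonneg (N.L0 h) (N.ε0 h)))
    rw [CD.sv, mul_sum]
    exact sum_le_sum fun t ht => (mul_le_mul_of_nonneg_left (N.Gsq h t) (d0 t ht)).trans_eq
      (mul_left_comm _ _ _)
  exact c.trans ((mul_le_mul a1 a2 (sum_nonneg fun t ht => mul_nonneg (d0 t ht) (sq_nonneg _))
    (N.L0 h)).trans_eq (by ring))

theorem eG {j : ℕ} (hj : j ∈ D.up) : (D.e j * G2 D Λ ε j) ^ 2 ≤ Λ ^ 2 * ε := by
  have e := N.ep h j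
  have a := mul_le_mul_of_nonneg_left (N.Gsq h j) (sq_nonneg (D.e j))
  have b := mul_le_mul_of_nonneg_left (N.eB j hj) (mul_nonneg (N.L0 h) (N.ε0 h))
  rw [show D.e j ^ 2 * (Λ * ε * (1 / D.e j)) = Λ * ε * D.e j by field_simp] at a
  rw [mul_pow]
  linarith

end Nm

end Crest.Agent.T156.Cas.C40.R40

end
end

-- ▼ part T156/R2V_40
section

/-!
# Row 156, R2 (helper40): the test record is admissible, and the size of its error
-/

set_option autoImplicit false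
set_option linter.unusedSectionVars false

noncomputable section

namespace Crest.Agent.T156.Cas.C40.R40

open Real Finset
open Crest.Agent.T157.E Crest.Agent.T157.Casc Crest.Agent.T157.SL
open CD Et5

namespace Nm

variable {D : CD} {τ0 : ℝ} {P : ℕ} {A : ℕ → ℝ} {Λ ε : ℝ} (N : Nm D τ0 P A Λ ε) (h : D.Ok τ0)
  {ω : ℕ → ℝ} {c : ℝ} (M : Mk D ω (2 * Λ ^ 2) (30 * (Λ ^ 6 * ε))) (c0 : 0 ≤ c)
  (hc : c ^ 2 ≤ 16 * (Λ ^ 3 * ε))
include N h

theorem I1 (j : ℕ) : 0 ≤ D.gq j * D.g j := mul_nonneg (abs_nonneg _) (D.g0 j)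

theorem Igq : D.I (fun t => D.gq t * D.g t) ≤ D.X ^ 3 * D.N1 :=
  (h.I_mono fun t ht => mul_le_mul_of_nonneg_right (N.gq h ht) (D.g0 t)).trans_eq (D.I_mul _ _)

theorem XN : D.X ^ 3 * (D.N2 + D.N1 ^ 2) ≤ ε := h.XN2_le.trans (N.E0 h)

theorem tle : D.tl ≤ ε := h.tl_le.trans (N.E0 h)

include M

theorem wm {x y : ℝ} (x0 : 0 ≤ x) (k : x ≤ y) : Jw D ω (fun _ => 1) * x ≤ 2 * Λ ^ 2 * y :=
  mul_le_mul M.w k x0 (by positivity)

theorem m1' : Jw D ω (fun j => D.X ^ 3 * (D.g j ^ 2 + D.g j * D.N1)) ≤ 30 * (Λ ^ 6 * ε) :=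
  (Jw_mono ω fun j _ => by
    obtain ⟨h1, h2, h3, h4, h5, h6, h7⟩ := h.Iw_parts j; linarith).trans M.m1

theorem stw : Jw D ω (fun j => D.g j * (D.gq j * D.g j + D.I fun t => D.gq t * D.g t)) +
    (D.K + 1) ^ 2 * D.tl ≤ 70 * (Λ ^ 6 * ε) := by
  have a := (Jw_mono ω (a := fun j => D.g j * (D.gq j * D.g j + D.I fun t => D.gq t * D.g t))
    fun j hj => by
      have := mul_le_mul_of_nonneg_left (add_le_add (mul_le_mul_of_nonneg_right (N.gq h hj)
        (D.g0 j)) (N.Igq h)) (D.g0 j)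
      linarith).trans (N.m1' h M)
  have := N.pw h (i := 0) (j := 6) (by norm_num)
  linarith [h.Ktl_le.trans (N.E0 h), N.ε0 h]

theorem stq : (Jw D ω (fun _ => 1) * (D.I (fun t => D.gq t * D.g t ^ 2) +
    D.I (fun t => D.gq t * D.g t) * D.N1) +
    Jw D ω fun j => D.gq j * (D.g j * D.N1 + D.N2 + D.N1 ^ 2)) * 1 ≤ 70 * (Λ ^ 6 * ε) := by
  have X3 := pow_nonneg h.X0 3
  have a1 : D.I (fun t => D.gq t * D.g t ^ 2) ≤ D.X ^ 3 * D.N2 :=
    (h.I_mono fun t ht => mul_le_mul_of_nonneg_right (N.gq h ht) (sq_nonneg _)).trans_eq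
      (D.I_mul _ _)
  have a2 := mul_le_mul_of_nonneg_right (N.Igq h) h.N10
  have a3 := N.wm h M (x := D.I (fun t => D.gq t * D.g t ^ 2) +
    D.I (fun t => D.gq t * D.g t) * D.N1) (y := ε) (add_nonneg (h.I0 fun t _ =>
      mul_nonneg (abs_nonneg _) (sq_nonneg _)) (mul_nonneg (h.I0 fun t _ => N.I1 h t) h.N10))
    (by linarith [N.XN h])
  have a4 := Jw_mono (D := D) ω (a := fun j => D.gq j * (D.g j * D.N1 + D.N2 + D.N1 ^ 2))
    (b := fun j => D.X ^ 3 * (D.g j ^ 2 + D.g j * D.N1) + ε) fun j hj => by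
      have := mul_le_mul_of_nonneg_right (N.gq h hj) (add_nonneg (add_nonneg
        (mul_nonneg (D.g0 j) h.N10) h.N20) (sq_nonneg D.N1))
      linarith [N.XN h, mul_nonneg X3 (sq_nonneg (D.g j))]
  rw [Jw_add, Jw_const D ω ε] at a4
  have a5 := N.wm h M (N.ε0 h) le_rfl
  have := N.pw h (i := 2) (j := 6) (by norm_num)
  have := N.pw h (i := 0) (j := 6) (by norm_num)
  linarith [N.m1' h M, N.ε0 h]

include c0 hc

theorem c4 : c ≤ 4 * Λ ^ 2 := by
  have L0 := N.L0 h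
  refine le_of_pow_le_pow_left₀ two_ne_zero (by positivity) (hc.trans ?_)
  have := mul_le_mul (pow_le_pow_right₀ (N.L1 h) (show 3 ≤ 4 by norm_num)) N.ε1 (N.ε0 h)
    (pow_nonneg L0 4)
  linarith

theorem fc {j : ℕ} (hj : D.J ≤ j) : D.fs (fun _ => c) j ≤ c * Λ :=
  N.fs h (fun _ => c0) antitone_const le_rfl hj

theorem xc {x : ℝ} (x0 : 0 ≤ x) (hx : x ^ 2 ≤ 2 * ε) : x * (c * Λ) ≤ 9 * (Λ ^ 4 * ε) := by
  have a := mul_le_mul_of_nonneg_left (am x c) (N.L0 h)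
  have b := mul_le_mul_of_nonneg_left (add_le_add hx hc) (N.L0 h)
  have := N.pw h (i := 1) (j := 4) (by norm_num)
  linarith

theorem Ic {a : ℕ → ℝ} (ha : ∀ j, 0 ≤ a j) (hx : D.I a ^ 2 ≤ 2 * ε) :
    D.I (fun j => a j * D.fs (fun _ => c) j) ≤ 9 * (Λ ^ 4 * ε) := by
  refine (h.I_mono (b := fun j => c * Λ * a j) fun j hj => (mul_le_mul_of_nonneg_left
    (N.fc h M c0 hc (mem_up.1 hj).1.le) (ha j)).trans_eq (mul_comm _ _)).trans ?_
  rw [D.I_mul, mul_comm]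
  exact N.xc h M c0 hc (h.I0 fun j _ => ha j) hx

theorem zA : D.I (fun j => √(D.u 4 j) * D.fs (fun _ => c) j) +
    √D.tl * (D.fs (fun _ => c) D.J + D.fs (fun _ => c) D.J +
      Jw D ω (fun j => D.e j * G2 D Λ ε j) + Jw D ω (fun _ => 1) * D.fs (G2 D Λ ε) D.J) ≤
      70 * (Λ ^ 6 * ε) := by
  have L0 := N.L0 h
  have ε0 := N.ε0 h
  have a1 := N.Ic h M c0 hc (a := fun j => √(D.u 4 j)) (fun _ => sqrt_nonneg _) (by
    have := I_sq h fun j => √(D.u 4 j)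
    simp only [sq_sqrt (D.u0 4 _)] at this
    linarith [h.Iu4_le.trans (N.E0 h)])
  have gF : ∀ j, D.J < j → G2 D Λ ε j ≤ Λ := fun j hj =>
    (min_le_left _ _).trans ((h.gF j).trans ((h.wk0.F_anti hj).trans N.F))
  have a2 := Jw_mono (D := D) ω (a := fun j => D.e j * G2 D Λ ε j) (b := fun _ => Λ * Λ)
    fun j hj => mul_le_mul (N.eB j hj) (gF j (mem_up.1 hj).1) (N.G0 h j) L0
  rw [Jw_const, mul_comm] at a2
  have a3 := N.wm h M (mul_nonneg L0 L0) le_rfl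
  have a4 := N.wm h M (h.fs0 (N.G0 h) D.J)
    (N.fs h (N.G0 h) (N.wG h).F_anti (gF _ (Nat.lt_succ_self _)) le_rfl)
  have a5 := (N.fc h M c0 hc le_rfl).trans (mul_le_mul_of_nonneg_right (N.c4 h M c0 hc) L0)
  have a6 := mul_le_mul N.tl (show D.fs (fun _ => c) D.J + D.fs (fun _ => c) D.J +
      Jw D ω (fun j => D.e j * G2 D Λ ε j) + Jw D ω (fun _ => 1) * D.fs (G2 D Λ ε) D.J ≤
      8 * Λ ^ 3 + 4 * Λ ^ 4 by linarith) (add_nonneg (add_nonneg (add_nonneg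
        (h.fs0 (fun _ => c0) _) (h.fs0 (fun _ => c0) _)) (Jw0 ω fun j _ =>
        mul_nonneg (h.e0 j) (N.G0 h j))) (mul_nonneg (Jw0 ω fun _ _ => zero_le_one)
        (h.fs0 (N.G0 h) _))) ε0
  have := N.pw h (i := 3) (j := 6) (by norm_num)
  have := N.pw h (i := 4) (j := 6) (by norm_num)
  have : 0 ≤ Λ ^ 6 * ε := by positivity
  linarith

theorem ok (W : WK D ω c) : (tst D ω c (G2 D Λ ε) (70 * (Λ ^ 6 * ε))).Ok τ0 := by
  have L0 := N.L0 h
  have ε0 := N.ε0 h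
  have p : 0 ≤ Λ ^ 6 * ε := by positivity
  have p2 := N.pw h (i := 2) (j := 6) (by norm_num)
  have p3 := N.pw h (i := 3) (j := 6) (by norm_num)
  have G := N.wG h
  refine ⟨h.pos, h.ook, h.mono, h.cut, h.top, h.tau, h.qlo, h.X1, h.x1, h.h1, nofun, h.tl0, h.envL,
    h.envU, h.eX, h.emono, h.esc, ⟨h.wk0.1, h.wk0.2, h.wk0.3, h.wk0.4, h.wk0.5, h.wk0.6⟩,
    ⟨W.1.1, W.1.2, W.1.3, W.1.4, W.1.5, W.1.6⟩, ?_, N.stw h M, h.qe, ?_, ⟨h.wkp.1, W.2⟩, ?_, ?_,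
    ⟨G.1, G.2, G.3, G.4, G.5, G.6⟩, fun j => (min_le_left _ _).trans (h.gF j),
    N.zA h M c0 hc, N.stq h M⟩
  · rcases M.m4 with k | ⟨a, l, A, k1, k2, k3, k4, k5⟩
    · exact Or.inl (k.trans (show _ ≤ 70 * (Λ ^ 6 * ε) by linarith))
    · refine Or.inr ⟨a, l, A, k1, k2, k3, k4, show (E42.wi D ω).TFa a l A ≤ 70 * (Λ ^ 6 * ε) from ?_⟩
      have : 0 ≤ log ((D.K : ℝ) + 2) * (1 + D.sv (fun _ => 1) D.J) ^ 2 *
          (D.I (fun t => D.e t * √(D.v t t)) * √(D.I fun t => a t ^ 2 * A t)) :=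
        mul_nonneg (mul_nonneg (log_nonneg (by linarith [(Nat.cast_nonneg D.K : (0 : ℝ) ≤ D.K)]))
          (sq_nonneg _)) (mul_nonneg (h.I0 fun t _ => ev0 h t) (sqrt_nonneg _))
      linarith
  · have := N.wm h M (mul_nonneg h.N10 h.N20) N.nn
    exact show Jw D ω (fun _ => 1) * (D.N1 * D.N2) * 1 + Jw D ω (fun j =>
      min (D.g j * D.lw (fun t => D.g t ^ 2) j) (√(D.u 2 j) * D.lw (fun t => √(D.u 4 t)) j)) ≤
      70 * (Λ ^ 6 * ε) by linarith [M.m6]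
  · have := N.wm h M (h.I0 fun j _ => mul_nonneg (sqrt_nonneg (D.v j j)) (h.lw0 (ev0 h) j))
      (N.hardy h)
    exact show Jw D ω (fun _ => 1) *
      D.I (fun j => √(D.v j j) * D.lw (fun k => D.e k * √(D.v k k)) j) * 1 +
      Jw D ω (fun j => √(D.v j j) * (D.f0 j + D.sv D.f0 D.J +
        D.lw (fun k => D.e k * √(D.v k k)) j + D.hi (fun k => √(D.v k k)) j)) +
      Jw D ω (fun j => D.f0 j * (D.f0 j + D.sv D.f0 D.J)) ≤ 70 * (Λ ^ 6 * ε) by
        linarith [M.m7, M.m8]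
  · rcases M.m4 with k | ⟨a, l, A, k1, k2, k3, k4, k5⟩
    · exact Or.inl (k.trans (show _ ≤ 70 * (Λ ^ 6 * ε) by linarith))
    · exact Or.inr ⟨a, l, A, k1, k2, k3, k4, k5.trans (show _ ≤ 70 * (Λ ^ 6 * ε) by linarith)⟩

theorem err_le : (tst D ω c (G2 D Λ ε) (70 * (Λ ^ 6 * ε))).Err ≤ 300 * (Λ ^ 6 * ε) := by
  have L0 := N.L0 h
  have L1 := N.L1 h
  have ε0 := N.ε0 h
  have X3 := pow_nonneg h.X0 3
  have X6 : (D.X ^ 3) ^ 2 ≤ ε := by linarith [N.X6 h]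
  have r0 := sqrt_nonneg D.tl
  have f0 := h.fs0 (fun _ => c0) D.J
  have fc := N.fc h M c0 hc le_rfl
  have f4 := fc.trans (mul_le_mul_of_nonneg_right (N.c4 h M c0 hc) L0)
  have a0 := N.wm h M h.E00 (N.E0 h)
  have a1 := Jw_mono (D := D) ω (a := fun j => D.dx j + D.X ^ 4 * D.g j +
      D.X ^ 3 * (D.g j ^ 2 + D.g j * D.N1) + D.u 4 j + D.u 5 j + D.u 2 j * D.fs D.F0 j +
      D.X ^ 3 * (D.e j * G2 D Λ ε j)) (b := fun j => (D.dx j + D.X ^ 4 * D.g j +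
      D.X ^ 3 * (D.g j ^ 2 + D.g j * D.N1) + D.u 4 j + D.u 5 j + D.u 2 j * D.fs D.F0 j) +
      Λ ^ 2 * ε) fun j hj => by
    linarith [am (D.X ^ 3) (D.e j * G2 D Λ ε j), N.eG h hj, N.pw h (i := 0) (j := 2) (by norm_num)]
  rw [Jw_add D ω _ fun _ => Λ ^ 2 * ε, Jw_const D ω (Λ ^ 2 * ε), mul_comm (Λ ^ 2 * ε)] at a1
  have a2 := N.wm h M (show 0 ≤ Λ ^ 2 * ε by positivity) le_rfl
  have a3 := N.Ic h M c0 hc (a := D.u 2) (D.u0 2) (by
    have b1 : D.I (D.u 2) ≤ D.N2 := h.I_mono fun j _ => u2_le D j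
    have b2 : D.N2 ≤ 2 * D.N1 := (h.I_mono fun j hj => (sq (D.g j)).trans_le
      (mul_le_mul_of_nonneg_right (g_le h (mem_up.1 hj).2.le) (D.g0 j))).trans_eq (D.I_mul _ _)
    have b3 := pow_le_pow_left₀ (h.I0 fun j _ => D.u0 2 j) b1 2
    linarith [mul_le_mul_of_nonneg_right b2 h.N20, N.nn])
  have a4 := (mul_le_mul_of_nonneg_left fc X3).trans (N.xc h M c0 hc X3 (by linarith))
  have a5 := mul_le_mul (N.tle h) f4 f0 ε0
  have a6 := mul_le_mul_of_nonneg_right (Lv1_le h) f0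
  have a7 := N.wm h M (x := D.X ^ 3 * D.sv (G2 D Λ ε) D.J) (y := Λ ^ 3 * ε)
    (mul_nonneg X3 (h.sv0 (N.G0 h) _)) (by
      linarith [am (D.X ^ 3) (D.sv (G2 D Λ ε) D.J), N.svG h, N.pw h (i := 0) (j := 3) (by norm_num)])
  have a8 := mul_le_mul_of_nonneg_right ((Lv2_le h).trans (add_le_add
    (mul_le_mul_of_nonneg_right (show 2 * τ0 ^ 2 + 1 ≤ 3 * Λ by linarith [N.t2]) X3)
    (mul_le_mul_of_nonneg_right (show 15 * τ0 ^ 2 + 2 ≤ 17 * Λ by linarith [N.t2]) r0))) f0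
  have a9 := mul_le_mul_of_nonneg_left a4 L0
  have a10 := mul_le_mul_of_nonneg_left (mul_le_mul N.tl f4 f0 ε0) L0
  have p2 := N.pw h (i := 2) (j := 6) (by norm_num)
  have p3 := N.pw h (i := 3) (j := 6) (by norm_num)
  have p4 := N.pw h (i := 4) (j := 6) (by norm_num)
  have p5 := N.pw h (i := 5) (j := 6) (by norm_num)
  have p : 0 ≤ Λ ^ 6 * ε := by positivity
  exact show Jw D ω (fun _ => 1) * D.E0 + (Jw D ω (fun j => D.dx j + D.X ^ 4 * D.g j +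
      D.X ^ 3 * (D.g j ^ 2 + D.g j * D.N1) + D.u 4 j + D.u 5 j + D.u 2 j * D.fs D.F0 j +
      D.X ^ 3 * (D.e j * G2 D Λ ε j)) + (E42.wi D ω).Cub + (E42.wi D ω).Lad1 +
      D.I (fun j => D.u 2 j * D.fs (fun _ => c) j) + (D.Lv1 + D.X ^ 3) * D.fs (fun _ => c) D.J +
      D.X ^ 3 * (Jw D ω (fun _ => 1) * D.sv (G2 D Λ ε) D.J) + D.Lv2 * D.fs (fun _ => c) D.J +
      70 * (Λ ^ 6 * ε)) ≤ 300 * (Λ ^ 6 * ε) by linarith [M.m1, M.m2, M.m3]

end Nm

/-- **the test head from the marked numbers** -/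
theorem dT_mk (H : HT) (τ0 : ℝ) : ∃ C : ℝ, 0 ≤ C ∧ ∀ (D : CD) (P : ℕ) (A : ℕ → ℝ) (Λ ε : ℝ),
    D.Ok τ0 → Nm D τ0 P A Λ ε → ∀ (ω : ℕ → ℝ) (c : ℝ), Mk D ω (2 * Λ ^ 2) (30 * (Λ ^ 6 * ε)) →
      0 ≤ c → c ^ 2 ≤ 16 * (Λ ^ 3 * ε) → WK D ω c → |E42.dT D ω| ≤ C * (Λ ^ 6 * ε) := by
  obtain ⟨C, C0, k⟩ := H τ0
  refine ⟨C * 300, by positivity, fun D P A Λ ε h N ω c M c0 hc W => ?_⟩
  rw [mul_assoc]
  exact (show |E42.dT D ω| ≤ _ from k _ (N.ok h M c0 hc W) rfl).trans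
    (mul_le_mul_of_nonneg_left (N.err_le h M c0 hc) C0)

end Crest.Agent.T156.Cas.C40.R40

end
end

-- ▼ part T156/R2T_40
section

/-!
# Row 156, R2 (helper40): the test head in the direction of the Euler measure
-/

set_option autoImplicit false
set_option linter.unusedSectionVars false

noncomputable section

namespace Crest.Agent.T156.Cas.C40.R40

open Real Finset
open Crest.Agent.T157.E Crest.Agent.T157.Casc Crest.Agent.T157.SL
open CD Et5

theorem y2 {a b : ℝ} (ha : 0 ≤ a) (hb : 0 ≤ b) : a * b ^ 2 ≤ a ^ 3 + b ^ 3 := by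
  nlinarith [mul_nonneg (add_nonneg ha hb) (sq_nonneg (a - b)), mul_nonneg ha (sq_nonneg a),
    mul_nonneg hb (sq_nonneg b), mul_nonneg ha (mul_nonneg ha hb)]

theorem y3 {a b c : ℝ} (ha : 0 ≤ a) (hb : 0 ≤ b) (hc : 0 ≤ c) :
    a * (b * c) ≤ a ^ 3 + b ^ 3 + c ^ 3 := by
  have := mul_le_mul_of_nonneg_left (am b c) ha
  linarith [y2 ha hb, y2 ha hc, pow_nonneg hb 3, pow_nonneg hc 3]

theorem ss {x y a b : ℝ} (hx : x ^ 2 ≤ a) (hy : y ^ 2 ≤ b) : x * y ≤ (a + b) / 2 := by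
  linarith [am x y]

theorem dT_congr {D : CD} {a b : ℕ → ℝ} (e : ∀ t ∈ D.up, a t = b t) : E42.dT D a = E42.dT D b := by
  have s : ∀ i y V, (E42.wi D a).sH i y V = (E42.wi D b).sH i y V := fun i y V =>
    sum_congr rfl fun j hj => congrArg (· * _) (e j hj)
  have s0 : ∀ V, (E42.wi D a).sL V = (E42.wi D b).sL V := s 0 0
  have d : ∀ r V, (E42.wi D a).dP r V = (E42.wi D b).dP r V := fun r V =>
    congrArg (fun f => -iteratedDeriv r f 0) (funext fun y => s D.J y V)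
  have f : (E42.wi D a).f1' = (E42.wi D b).f1' := s0 _
  have q : (E42.wi D a).QM = (E42.wi D b).QM := s0 _
  simp only [E42.dT, E42.main_wi, d, s0, f, q]
  rw [sum_congr rfl fun j hj => by rw [e j hj]]

/-- the density of the label part -/
def aD (D : CD) (P t : ℕ) : ℝ :=
  D.sig t + if t < P then ex D.B t * R85.ds D t / (2 * D.dx t) else 0
/-- the plateau and reveal part -/
def rho (D : CD) (P t : ℕ) : ℝ := if t < P then 0 else ex D.B t * R85.ds D t / 2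

section ok
variable {D : CD} {τ0 : ℝ} (h : D.Ok τ0)
include h

theorem u_succ {t : ℕ} (ht : t ∈ D.up) (p : ℕ) : D.u (p + 1) t ≤ 2 * D.u p t := by
  rw [CD.u, CD.u, uM, uM, ← pi2_const_mul]
  refine pi2_mono (Ω := Cube D.n) wt_one90 _ t (fun x y => ?_) 0
  rw [pow_succ']
  exact mul_le_mul_of_nonneg_right (abs_oU_le h.ook (mem_up.1 ht).2.le x y)
    (pow_nonneg (abs_nonneg _) _)

theorem ex1 {j : ℕ} (hj : j ∈ D.up) : ex D.B j ≤ 1 := by
  rw [← h.sum_dx]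
  exact h.sum_dx_one fun i hi => by have := mem_range.1 hi; have := mem_up.1 hj; omega

/-- a number times a partial integral -/
theorem part {s : Finset ℕ} (hs : s ⊆ D.up) {x y : ℝ} {φ b : ℕ → ℝ} (y0 : 0 ≤ y)
    (b0 : ∀ t ∈ D.up, 0 ≤ b t) (e : ∀ t ∈ s, x * φ t ≤ y + b t) :
    x * ∑ t ∈ s, D.dx t * φ t ≤ y + D.I b := by
  have a1 := sub_I h hs b0
  have a2 := mul_le_of_le_one_left y0 (h.sum_dx_one (A := s) fun i hi => (mem_up.1 (hs hi)).2.le)
  rw [mul_sum]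
  refine (sum_le_sum (g := fun t => D.dx t * y + D.dx t * b t) fun t ht => ?_).trans ?_
  · linarith [mul_le_mul_of_nonneg_left (e t ht) (h.dx0 t)]
  · rw [sum_add_distrib, ← sum_mul]; linarith

theorem swap (a b : ℕ → ℝ) : D.I (fun j => a j * D.hi b j) = D.I fun k => b k * D.lw a k := by
  simp only [CD.I, CD.hi, CD.lw, mul_sum]
  rw [sum_comm' (t' := D.up) (s' := fun k => Ioo D.J k) fun j k => by
    simp only [mem_Ioo]; omega]
  exact sum_congr rfl fun k _ => sum_congr rfl fun j _ => by ring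

end ok

namespace Nm

variable {D : CD} {τ0 : ℝ} {P : ℕ} {A : ℕ → ℝ} {Λ ε : ℝ} (N : Nm D τ0 P A Λ ε) (h : D.Ok τ0)
include N h

theorem lw_sq {j : ℕ} (hj : j ∈ D.up) : D.lw (fun k => D.e k * √(D.v k k)) j ^ 2 ≤ ε :=
  (pow_le_pow_left₀ (h.lw0 (ev0 h) j) (lw_le h (ev0 h) (mem_up.1 hj).2.le) 2).trans (N.Iev h)

/-! ### the label part -/

theorem split {t : ℕ} (ht : t ∈ D.up) : E42.omS D t = D.dx t * aD D P t + rho D P t := by
  rw [E42.omS, E42.mv, aD, rho]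
  split_ifs with hP
  · rcases (h.dx0 t).eq_or_lt with z | z
    · have := N.ck t ht hP
      rw [← z, mul_zero] at this
      rw [← z, show D.sig (t + 1) - D.sig t = 0 from le_antisymm this (R85.ds0 h (mem_up.1 ht).2)]
      simp
    · field_simp
      ring
  · ring

theorem aD_le {t : ℕ} (ht : t ∈ D.up) : |aD D P t| ≤ 2 * Λ * D.e t := by
  have L0 := N.L0 h
  have e0 := h.e0 t
  have m := mem_up.1 ht
  have s0 := h.sig0 m.2.le
  have s1 : D.sig t ≤ Λ * D.e t := by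
    rcases min_le_iff.1 (h.esc t ht) with k | k
    · have := mul_le_mul_of_nonneg_left k L0
      have := N.la
      rw [E42.La] at this
      linarith [h.sig_le m.2.le le_rfl]
    · linarith [h.ex0 t, mul_le_mul_of_nonneg_right (N.L1 h) e0]
  have p := mul_nonneg L0 e0
  rw [aD]
  split_ifs with hP
  · have a0 := div_nonneg (mul_nonneg (h.ex0 t) (R85.ds0 h m.2)) (mul_nonneg zero_le_two (h.dx0 t))
    have a1 : ex D.B t * R85.ds D t / (2 * D.dx t) ≤ Λ * D.e t :=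
      div_le_of_le_mul₀ (mul_nonneg zero_le_two (h.dx0 t)) p (by
        have := mul_le_mul (ex_e h ht) (N.ck t ht hP) (R85.ds0 h m.2) e0
        linarith [mul_nonneg p (h.dx0 t)])
    rw [abs_of_nonneg (add_nonneg s0 a0)]
    linarith
  · rw [add_zero, abs_of_nonneg s0]
    linarith

theorem J1 {a : ℕ → ℝ} (ha : ∀ j ∈ D.up, 0 ≤ a j) {y : ℝ} (k : D.I (fun j => D.e j * a j) ≤ y) :
    Jw D (fun t => D.dx t * aD D P t) a ≤ 2 * Λ * y := by
  refine le_trans ?_ (mul_le_mul_of_nonneg_left k (mul_nonneg zero_le_two (N.L0 h)))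
  rw [Jw, CD.I, mul_sum]
  refine sum_le_sum fun j hj => ?_
  rw [abs_mul, abs_of_nonneg (h.dx0 j)]
  linarith [mul_le_mul_of_nonneg_left (N.aD_le h hj) (mul_nonneg (h.dx0 j) (ha j hj))]

theorem J2 {a b : ℕ → ℝ} (ha : ∀ j ∈ D.up, 0 ≤ a j) (e : ∀ j ∈ D.up, a j ≤ b j) {y : ℝ}
    (k : D.I b ≤ y) : Jw D (fun t => D.dx t * aD D P t) a ≤ 2 * Λ ^ 2 * y :=
  (N.J1 h ha ((h.I_mono fun j hj => mul_le_mul (N.eB j hj) (e j hj) (ha j hj) (N.L0 h)).trans
    ((D.I_mul Λ b).trans_le (mul_le_mul_of_nonneg_left k (N.L0 h))))).trans_eq (by ring)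

theorem e2A : D.I (fun t => D.e t ^ 2 * A t) ≤ Λ * ε :=
  (h.I_mono (b := fun t => Λ * (D.e t * A t)) fun t ht => by
    linarith [mul_le_mul_of_nonneg_right (N.eB t ht) (mul_nonneg (h.e0 t) (N.add.1 t))]).trans
    ((D.I_mul _ _).trans_le (mul_le_mul_of_nonneg_left N.eA (N.L0 h)))

theorem a_sq {t : ℕ} (ht : t ∈ D.up) : aD D P t ^ 2 ≤ 4 * Λ ^ 2 * D.e t ^ 2 := by
  have := pow_le_pow_left₀ (abs_nonneg _) (N.aD_le h ht) 2
  rw [sq_abs] at this
  linarith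

theorem ff : D.I (fun j => D.f0 j * (D.f0 j + D.sv D.f0 D.J)) ≤ ε := by
  have := mul_le_mul_of_nonneg_left (I_sv h h.f00) (h.sv0 h.f00 D.J)
  simp only [mul_add, ← sq, mul_comm _ (D.sv D.f0 D.J)]
  rw [D.I_add, D.I_mul]
  linarith [N.VF h]

theorem mkL : Mk D (fun t => D.dx t * aD D P t) (2 * Λ ^ 2) (30 * (Λ ^ 6 * ε)) := by
  have L0 := N.L0 h
  have L1 := N.L1 h
  have ε0 := N.ε0 h
  have p : 0 ≤ Λ ^ 6 * ε := by positivity
  have p0 := N.pw h (i := 0) (j := 1) (by norm_num)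
  have p1 := N.pw h (i := 1) (j := 6) (by norm_num)
  have p2 := N.pw h (i := 2) (j := 6) (by norm_num)
  have p3 := N.pw h (i := 3) (j := 6) (by norm_num)
  have n1 := h.N10
  have n2 := h.N20
  have s0 := h.sv0 h.f00 D.J
  have m8 := N.J2 h (fun j _ => mul_nonneg (h.f00 j) (add_nonneg (h.f00 j) s0))
    (fun _ _ => le_rfl) (N.ff h)
  refine ⟨(N.J2 h (fun _ _ => zero_le_one) (fun _ _ => le_rfl) (I_one h)).trans_eq (mul_one _),
    ?_, ?_, ?_, ?_, ?_, ?_, by linarith⟩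
  · refine (N.J2 h (y := 5 * ε) (fun j _ => by
      obtain ⟨h1, h2, h3, h4, h5, h6, h7⟩ := h.Iw_parts j; linarith)
      (b := fun j => D.dx j + D.X ^ 4 * D.g j + (D.X ^ 3 * D.g j ^ 2 + D.X ^ 3 * D.N1 * D.g j) +
        (D.u 4 j + D.u 5 j) + D.u 2 j * D.fs D.F0 j) (fun j _ => by linarith) ?_).trans (by linarith)
    rw [D.I_add, D.I_add, D.I_add, D.I_add, D.I_add, D.I_mul, D.I_mul, D.I_mul]
    have a := h.XN1_le
    have b := h.XN2_le
    unfold CD.N2 at b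
    unfold CD.N1 at a b ⊢
    linarith [N.E0 h, h.dx_le, h.I45_le, h.uF_le]
  · refine (N.J2 h (y := 5 * (Λ * ε)) (fun j _ => by
      obtain ⟨h0, h1, h2, h3, h4⟩ := h.Cub_parts j
      have := D.g0 j
      have := h.e0 j
      positivity) (b := fun j => (2 * Λ * D.N2 + Λ * D.N1 ^ 2) * D.g j + 2 * Λ * D.N1 * D.g j ^ 2)
      (fun j hj => ?_) ?_).trans (by linarith)
    · have m := mem_up.1 hj
      have g0 := D.g0 j
      have a0 : D.hi D.g j ≤ D.N1 := hi_le h D.g0 m.1.le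
      have a1 := mul_le_mul (mul_le_mul_of_nonneg_right (N.eB j hj) (sq_nonneg (D.g j)))
        a0 (h.hi0 D.g0 j) (by positivity)
      have a2 : D.hi (fun t => D.g t ^ 2) j ≤ D.N2 := hi_le h (fun t => sq_nonneg (D.g t)) m.1.le
      have a3 : D.lw (fun t => D.e t * D.g t ^ 2) j ≤ Λ * D.N2 :=
        (lw_le h (fun t => mul_nonneg (h.e0 t) (sq_nonneg (D.g t))) m.2.le).trans
        ((h.I_mono fun t ht => mul_le_mul_of_nonneg_right (N.eB t ht) (sq_nonneg (D.g t))).trans_eq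
          (D.I_mul _ _))
      have a4 : D.lw (fun t => D.e t * D.g t) j ≤ Λ * D.N1 :=
        (lw_le h (fun t => mul_nonneg (h.e0 t) (D.g0 t)) m.2.le).trans
        ((h.I_mono fun t ht => mul_le_mul_of_nonneg_right (N.eB t ht) (D.g0 t)).trans_eq
          (D.I_mul _ _))
      have a5 := mul_le_mul_of_nonneg_left (add_le_add (add_le_add a2 a3)
        (mul_le_mul_of_nonneg_left a4 (add_nonneg g0 n1))) g0
      have a6 := mul_le_mul_of_nonneg_right L1 (mul_nonneg g0 n2)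
      change D.e j * D.g j ^ 2 * D.hi D.g j + D.g j * (D.hi (fun t => D.g t ^ 2) j +
        D.lw (fun t => D.e t * D.g t ^ 2) j + (D.g j + D.N1) * D.lw (fun t => D.e t * D.g t) j) ≤ _
      linarith
    · rw [D.I_add, D.I_mul, D.I_mul]
      have a := mul_le_mul_of_nonneg_left N.nn L0
      have b := mul_le_mul_of_nonneg_left (N.N13 h) L0
      unfold CD.N2 at a ⊢
      unfold CD.N1 at a b ⊢
      linarith
  · refine (N.J1 h (y := 2 * ε) (fun t _ => add_nonneg (mul_nonneg (h.e0 t) (D.v0 t t))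
      (h.sv_low0 _ _)) ?_).trans (by linarith)
    simp only [mul_add, ← mul_assoc, ← sq]
    rw [D.I_add]
    linarith [N.e2v h, N.eS h]
  · refine Or.inr ⟨aD D P, D.e, A, fun _ _ => rfl, N.ep h, h.emono, N.add, ?_⟩
    have A0 := N.add.1
    have b1 : D.I (fun t => aD D P t ^ 2 * A t / D.e t + D.e t * A t) ≤ 5 * (Λ ^ 3 * ε) := by
      refine (h.I_mono (b := fun t => 5 * Λ ^ 2 * (D.e t * A t)) fun t ht => ?_).trans ?_
      · have a1 : aD D P t ^ 2 * A t / D.e t ≤ 4 * Λ ^ 2 * (D.e t * A t) := by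
          rw [div_le_iff₀ (N.ep h t)]
          linarith [mul_le_mul_of_nonneg_right (N.a_sq h ht) (A0 t)]
        linarith [mul_le_mul_of_nonneg_right (one_le_pow₀ (n := 2) L1) (mul_nonneg (h.e0 t) (A0 t))]
      · rw [D.I_mul]
        linarith [mul_le_mul_of_nonneg_left N.eA (sq_nonneg Λ), N.pw h (i := 2) (j := 3) (by norm_num)]
    have b2 : √(D.I fun t => aD D P t ^ 2 * A t) ^ 2 ≤ 4 * (Λ ^ 3 * ε) := by
      rw [sq_sqrt (h.I0 fun t _ => mul_nonneg (sq_nonneg _) (A0 t))]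
      refine (h.I_mono (b := fun t => 4 * Λ ^ 2 * (D.e t ^ 2 * A t)) fun t ht => by
        linarith [mul_le_mul_of_nonneg_right (N.a_sq h ht) (A0 t)]).trans ?_
      rw [D.I_mul]
      linarith [mul_le_mul_of_nonneg_left (N.e2A h) (sq_nonneg Λ)]
    have b3 := ss ((sq_sqrt (h.I0 fun t _ => mul_nonneg (sq_nonneg _) (A0 t))).trans_le (N.e2A h)) b2
    have b4 := ss (N.sf h) b2
    have b5 := ss (N.Iev h) b2
    have p13 := N.pw h (i := 1) (j := 3) (by norm_num)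
    have v0 : 0 ≤ 1 + D.sv (fun _ => 1) D.J := add_nonneg zero_le_one (h.sv0 (fun _ => zero_le_one) _)
    have b6 := mul_le_mul (mul_le_mul N.lK (pow_le_pow_left₀ v0 N.V 2) (sq_nonneg _) L0)
      (show D.I (fun t => aD D P t ^ 2 * A t / D.e t + D.e t * A t) +
        (√(D.I fun t => D.e t ^ 2 * A t) + D.sv D.f0 D.J) * √(D.I fun t => aD D P t ^ 2 * A t) +
        D.I (fun t => D.e t * √(D.v t t)) * √(D.I fun t => aD D P t ^ 2 * A t) ≤
        13 * (Λ ^ 3 * ε) by linarith)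
      (add_nonneg (add_nonneg (h.I0 fun t _ => add_nonneg (div_nonneg (mul_nonneg (sq_nonneg _)
        (A0 t)) (h.e0 t)) (mul_nonneg (h.e0 t) (A0 t))) (by positivity))
        (mul_nonneg (h.I0 fun t _ => ev0 h t) (sqrt_nonneg _))) (by positivity)
    exact show log (D.K + 2) * (1 + D.sv (fun _ => 1) D.J) ^ 2 *
      (D.I (fun t => aD D P t ^ 2 * A t / D.e t + D.e t * A t) +
        (√(D.I fun t => D.e t ^ 2 * A t) + D.sv D.f0 D.J) * √(D.I fun t => aD D P t ^ 2 * A t)) +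
      Jw D (fun t => D.dx t * aD D P t) (fun j => D.f0 j * (D.f0 j + D.sv D.f0 D.J)) + _ ≤ _ by
        linarith
  · refine (N.J2 h (y := ε) (fun j _ => le_min (mul_nonneg (D.g0 j) (h.lw0 (fun _ => sq_nonneg _) j))
      (mul_nonneg (sqrt_nonneg _) (h.lw0 (fun _ => sqrt_nonneg _) j)))
      (b := fun j => D.N2 * D.g j) (fun j hj => (min_le_left _ _).trans
        ((mul_le_mul_of_nonneg_left (lw_le h (fun t => sq_nonneg (D.g t)) (mem_up.1 hj).2.le)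
          (D.g0 j)).trans_eq (mul_comm _ _))) ?_).trans (by linarith)
    rw [D.I_mul, mul_comm]
    exact N.nn
  · refine (N.J1 h (y := 5 * (Λ * ε)) (fun j _ => mul_nonneg (sqrt_nonneg _) (add_nonneg (add_nonneg
      (add_nonneg (h.f00 j) s0) (h.lw0 (ev0 h) j)) (h.hi0 (fun _ => sqrt_nonneg _) j))) ?_).trans
      (by linarith)
    refine (h.I_mono (b := fun j => 2 * (D.e j ^ 2 * D.v j j) + D.f0 j ^ 2 / 2 + ε +
      D.e j * √(D.v j j) * D.hi (fun k => √(D.v k k)) j) fun j hj => ?_).trans ?_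
    · linarith [ss (ev_sq h j).le (le_refl (D.f0 j ^ 2)), ss (ev_sq h j).le (N.sf h),
        ss (ev_sq h j).le (N.lw_sq h hj), mul_nonneg (sq_nonneg (D.e j)) (D.v0 j j)]
    · simp only [div_eq_inv_mul]
      rw [D.I_add, D.I_add, D.I_add, D.I_mul, D.I_mul, swap h]
      linarith [N.e2v h, N.If h, N.hardy h, h.I_le ε0 fun _ _ => le_refl ε]

theorem wkL : WK D (fun t => D.dx t * aD D P t) √(16 * (Λ ^ 3 * ε)) := by
  have L0 := N.L0 h
  have ε0 := N.ε0 h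
  refine wk_den h (sqrt_nonneg _) N.add (fun _ _ => rfl) (fun t ht => N.aD_le h ht) ?_
  simp only [mul_pow, mul_assoc (2 ^ 2 * Λ ^ 2)]
  rw [sq_sqrt (by positivity), D.I_mul, D.I_mul]
  linarith [mul_le_mul_of_nonneg_left (N.e2A h) (sq_nonneg Λ),
    mul_le_mul_of_nonneg_left N.eu (sq_nonneg Λ), N.pw h (i := 2) (j := 3) (by norm_num)]

/-! ### the plateau and reveal part -/

theorem rho0 {t : ℕ} (ht : t ∈ D.up) : 0 ≤ rho D P t ∧
    rho D P t ≤ if P ≤ t then R85.ds D t else 0 := by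
  have d := R85.ds0 h (mem_up.1 ht).2
  have a := mul_nonneg (h.ex0 t) d
  have b := mul_le_of_le_one_left d (ex1 h ht)
  rw [rho]
  split_ifs with h1 h2 h2
  · omega
  · exact ⟨le_rfl, le_rfl⟩
  · constructor <;> linarith
  · omega

theorem Rv_eq (a : ℕ → ℝ) :
    R85.Rv D P a = ∑ t ∈ D.up, (if P ≤ t then R85.ds D t else 0) * a t := by
  simp only [ite_mul, zero_mul]
  rw [← sum_filter, R85.Rv]
  congr 1
  ext t
  have := N.JP
  simp only [mem_Ico, mem_filter, mem_Ioo]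
  omega

theorem Jr {a : ℕ → ℝ} (ha : ∀ j, 0 ≤ a j) : Jw D (rho D P) a ≤ R85.Rv D P a := by
  rw [N.Rv_eq h]
  exact sum_le_sum fun t ht => mul_le_mul_of_nonneg_right
    ((abs_of_nonneg (N.rho0 h ht).1).trans_le (N.rho0 h ht).2) (ha t)

theorem Jr1 : Jw D (rho D P) (fun _ => 1) ≤ Λ := by
  refine (N.Jr h fun _ => zero_le_one).trans ?_
  simp only [R85.Rv, mul_one]
  rw [sum_Ico_sub D.sig N.PK]
  have := N.la
  rw [E42.La] at this
  linarith [h.sig0 N.PK]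

theorem Jru : Jw D (rho D P) (D.u 2) ≤ ε := (N.Jr h (D.u0 2)).trans N.mv

theorem J3 {a : ℕ → ℝ} {α β : ℝ} (α0 : 0 ≤ α) (β0 : 0 ≤ β)
    (e : ∀ j ∈ D.up, P ≤ j → a j ≤ α * D.u 2 j + β) : Jw D (rho D P) a ≤ α * ε + β * Λ := by
  have a1 := mul_le_mul_of_nonneg_left (N.Jru h) α0
  have a2 := mul_le_mul_of_nonneg_left (N.Jr1 h) β0
  refine le_trans ?_ (add_le_add a1 a2)
  simp only [Jw, mul_sum, ← sum_add_distrib]
  refine sum_le_sum fun t ht => ?_
  by_cases hP : t < P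
  · simp [rho, hP]
  · linarith [mul_le_mul_of_nonneg_left (e t ht (not_lt.1 hP)) (abs_nonneg (rho D P t))]

/-- the window below `P` -/
theorem win : ∃ i, D.J < i ∧ i ≤ P ∧ 1 ≤ Λ * D.e i ∧ 1 ≤ Λ * ∑ t ∈ Ico i P, D.dx t := by
  have L0 := N.L0 h
  have JP := N.JP
  have xJ : Λ * ex D.B D.J ≤ 1 := (mul_le_mul_of_nonneg_left h.x1 L0).trans N.w1
  have mo : ∀ {i j}, i ≤ j → ex D.B i ≤ ex D.B j := fun {i j} k => by
    rw [← h.sum_dx i]; exact h.sum_dx_le fun t ht => by have := mem_range.1 ht; omega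
  have ex' : ∃ i, 1 < Λ * ex D.B i := ⟨P - 1, by linarith [N.w2]⟩
  have k1 := Nat.find_spec ex'
  have k2 : Nat.find ex' ≤ P - 1 := Nat.find_min' ex' (by linarith [N.w2])
  have k3 : D.J < Nat.find ex' := not_le.1 fun k =>
    (k1.trans_le ((mul_le_mul_of_nonneg_left (mo k) L0).trans xJ)).false
  have k4 := not_lt.1 (Nat.find_min ex' (show Nat.find ex' - 1 < Nat.find ex' by omega))
  generalize Nat.find ex' = i at k1 k2 k3 k4
  have PK := N.PK
  refine ⟨i, k3, by omega, k1.le.trans (mul_le_mul_of_nonneg_left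
    (ex_e h (mem_up.2 ⟨k3, by omega⟩)) L0), ?_⟩
  have e1 := h.sum_dx (P - 1)
  have e2 := h.sum_dx (i - 1)
  rw [show P - 1 + 1 = P by omega] at e1
  rw [show i - 1 + 1 = i by omega] at e2
  rw [sum_Ico_eq_sub _ (by omega), e1, e2]
  linarith [N.w2]

theorem pt {j : ℕ} (hj : j ∈ D.up) (hP : P ≤ j) : D.f0 j ^ 2 ≤ Λ * ε ∧
    ∑ y ∈ Ico 1 j, D.dx y * D.v y j ≤ 2 * (Λ ^ 2 * ε) ∧ ∀ t, j ≤ t → 1 ≤ Λ * D.e t := by
  obtain ⟨i, Ji, iP, e1, d1⟩ := N.win h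
  have L0 := N.L0 h
  have PK := N.PK
  have m := mem_up.1 hj
  have ee : ∀ t, i ≤ t → 1 ≤ Λ * D.e t := fun t k =>
    e1.trans (mul_le_mul_of_nonneg_left (h.e_mono k) L0)
  have sub : Ico i P ⊆ D.up := fun t ht => by have := mem_Ico.1 ht; exact mem_up.2 (by omega)
  have w : ∀ (x : ℝ) (F : ℕ → ℝ), 0 ≤ x → (∀ t ∈ D.up, 0 ≤ F t) → (∀ t ∈ Ico i P, x ≤ F t) →
      x ≤ Λ * D.I F := fun x F x0 F0 k => by
    refine (le_mul_of_one_le_left x0 d1).trans ?_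
    rw [mul_assoc, sum_mul]
    exact mul_le_mul_of_nonneg_left ((sum_le_sum fun t ht =>
      mul_le_mul_of_nonneg_left (k t ht) (h.dx0 t)).trans (sub_I h sub F0)) L0
  refine ⟨(w _ (fun t => D.f0 t ^ 2) (sq_nonneg _) (fun _ _ => sq_nonneg _) fun t ht =>
    pow_le_pow_left₀ (h.f00 j) (h.wk0.f_anti (by have := mem_Ico.1 ht; omega)) 2).trans
      (mul_le_mul_of_nonneg_left (N.If h) L0), ?_, fun t k => ee t (by omega)⟩
  have a1 := w (∑ y ∈ Ico 1 i, D.dx y * D.v y j)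
    (fun t => Λ * (D.e t * ∑ y ∈ Ico 1 t, D.dx y * D.v y t)) (h.sv_low0 _ _)
    (fun t _ => mul_nonneg L0 (mul_nonneg (h.e0 t) (h.sv_low0 _ _))) fun t ht => by
      have k := mem_Ico.1 ht
      rw [← mul_assoc]
      refine le_trans ?_ (le_mul_of_one_le_left (h.sv_low0 _ _) (ee t k.1))
      exact (sum_le_sum fun y hy => mul_le_mul_of_nonneg_left (v_anti h
        (by have := mem_Ico.1 hy; omega) (by omega)) (h.dx0 y)).trans
        (sum_le_sum_of_subset_of_nonneg (Ico_subset_Ico_right k.1) fun y _ _ =>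
          mul_nonneg (h.dx0 y) (D.v0 y t))
  rw [D.I_mul] at a1
  have a2 : ∑ y ∈ Ico i j, D.dx y * D.v y j ≤ D.I fun t => Λ ^ 2 * (D.e t ^ 2 * D.v t t) := by
    refine le_trans (sum_le_sum fun y hy => mul_le_mul_of_nonneg_left ?_ (h.dx0 y))
      (sub_I h (s := Ico i j) (fun t ht => by have := mem_Ico.1 ht; exact mem_up.2 (by omega))
        fun t _ => mul_nonneg (sq_nonneg _) (mul_nonneg (sq_nonneg _) (D.v0 t t)))
    have k := mem_Ico.1 hy
    rw [← mul_assoc, ← mul_pow]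
    exact (v_anti h le_rfl k.2.le).trans
      (le_mul_of_one_le_left (D.v0 y y) (one_le_pow₀ (ee y k.1)))
  rw [D.I_mul] at a2
  rw [← sum_Ico_consecutive _ (show 1 ≤ i by omega) (show i ≤ j by omega)]
  linarith [mul_le_mul_of_nonneg_left (N.eS h) (sq_nonneg Λ),
    mul_le_mul_of_nonneg_left (N.e2v h) (sq_nonneg Λ)]

theorem mkR : Mk D (rho D P) (2 * Λ ^ 2) (30 * (Λ ^ 6 * ε)) := by
  have L0 := N.L0 h
  have L1 := N.L1 h
  have ε0 := N.ε0 h
  have p : 0 ≤ Λ ^ 6 * ε := by positivity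
  have p01 := N.pw h (i := 0) (j := 1) (by norm_num)
  have p12 := N.pw h (i := 1) (j := 2) (by norm_num)
  have p0 := N.pw h (i := 0) (j := 6) (by norm_num)
  have p1 := N.pw h (i := 1) (j := 6) (by norm_num)
  have p2 := N.pw h (i := 2) (j := 6) (by norm_num)
  have p3 := N.pw h (i := 3) (j := 6) (by norm_num)
  have n1 := h.N10
  have X0 := h.X0
  have X6 := N.X6 h
  have X9 : (D.X ^ 3) ^ 3 ≤ ε := by
    linarith [pow_le_pow_of_le_one X0 h.X1 (show 6 ≤ 9 by norm_num)]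
  have n3 := N.N13 h
  have sf := N.sf h
  have g3 : ∀ j ∈ D.up, D.g j ^ 3 ≤ 2 * D.u 2 j := fun j hj => D.g_cube j ▸ u_succ h hj 2
  have b0 : ∀ t ∈ D.up, 0 ≤ D.e t * D.g t ^ 3 := fun t _ => mul_nonneg (h.e0 t) (pow_nonneg (D.g0 t) 3)
  refine ⟨(N.Jr1 h).trans (by nlinarith), ?_, ?_, ?_, Or.inl ?_, ?_, ?_, ?_⟩
  · refine (N.J3 h (α := 19 * Λ ^ 2) (β := 5 * ε) (by positivity) (by positivity)
      fun j hj hP => ?_).trans (by linarith)
    have u0 := D.u0 2 j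
    have a1 := y2 (D.g0 j) (sq_nonneg D.X)
    have a2 := y2 (pow_nonneg X0 3) (D.g0 j)
    have a3 := y3 (pow_nonneg X0 3) (D.g0 j) n1
    have a4 := mul_le_mul_of_nonneg_left (N.fs h h.F00 h.wk0.F_anti N.F (mem_up.1 hj).1.le) u0
    have a5 := mul_le_mul_of_nonneg_right (one_le_pow₀ (n := 2) L1) u0
    linarith [g3 j hj, u_succ h hj 2, u_succ h hj 3, u_succ h hj 4, N.dx j hj hP]
  · refine (N.J3 h (α := 10 * Λ) (β := 5 * (Λ * ε)) (by positivity) (by positivity)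
      fun j hj hP => ?_).trans (by linarith)
    have m := mem_up.1 hj
    have g0 := D.g0 j
    have gj := pow_nonneg g0 3
    have s1 : Ioo j D.K ⊆ D.up := Ioo_subset_Ioo_left m.1.le
    have s2 : Ioo D.J j ⊆ D.up := Ioo_subset_Ioo_right m.2.le
    have a0 : D.hi D.g j ≤ D.N1 := hi_le h D.g0 m.1.le
    have a1 := mul_le_mul (mul_le_mul_of_nonneg_right (N.eB j hj) (sq_nonneg (D.g j)))
      a0 (h.hi0 D.g0 j) (by positivity)
    have a1' := mul_le_mul_of_nonneg_left (y2 n1 g0) L0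
    have a2 : D.g j * D.hi (fun t => D.g t ^ 2) j ≤ _ := part h s1 gj
      (b := fun t => Λ * (D.e t * D.g t ^ 3)) (fun t ht => mul_nonneg L0 (b0 t ht)) fun t ht => by
        linarith [y2 g0 (D.g0 t), mul_le_mul_of_nonneg_right ((N.pt h hj hP).2.2 t
          (mem_Ioo.1 ht).1.le) (pow_nonneg (D.g0 t) 3)]
    rw [D.I_mul] at a2
    have a3 : D.g j * D.lw (fun t => D.e t * D.g t ^ 2) j ≤ _ := part h s2 (mul_nonneg L0 gj) b0
      fun t ht => by linarith [mul_le_mul_of_nonneg_left (y2 g0 (D.g0 t)) (h.e0 t),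
        mul_le_mul_of_nonneg_right (N.eB t (s2 ht)) gj]
    have a4 : D.g j ^ 2 * D.lw (fun t => D.e t * D.g t) j ≤ _ := part h s2 (mul_nonneg L0 gj) b0
      fun t ht => by linarith [mul_le_mul_of_nonneg_left (y2 (D.g0 t) g0) (h.e0 t),
        mul_le_mul_of_nonneg_right (N.eB t (s2 ht)) gj]
    have a5 : D.lw (fun t => D.e t * D.g t) j ≤ Λ * D.N1 :=
      (lw_le h (fun t => mul_nonneg (h.e0 t) (D.g0 t)) m.2.le).trans
      ((h.I_mono fun t ht => mul_le_mul_of_nonneg_right (N.eB t ht) (D.g0 t)).trans_eq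
        (D.I_mul _ _))
    have a6 := mul_le_mul_of_nonneg_left a5 (mul_nonneg g0 n1)
    have a7 := mul_le_mul_of_nonneg_left (y2 g0 n1) L0
    have a8 := mul_le_mul_of_nonneg_left (g3 j hj) L0
    have a9 := mul_le_mul_of_nonneg_right L1 gj
    change D.e j * D.g j ^ 2 * D.hi D.g j + D.g j * (D.hi (fun t => D.g t ^ 2) j +
      D.lw (fun t => D.e t * D.g t ^ 2) j + (D.g j + D.N1) * D.lw (fun t => D.e t * D.g t) j) ≤ _
    linarith [N.g3 h, mul_le_mul_of_nonneg_left (N.g3 h) L0, mul_le_mul_of_nonneg_left n3 L0]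
  · refine (N.J3 h (α := Λ) (β := 2 * (Λ ^ 2 * ε)) L0 (by positivity)
      fun j hj hP => ?_).trans (by linarith)
    exact add_le_add (mul_le_mul (N.eB j hj) (v_le_u h.pos le_rfl) (D.v0 j j) L0) (N.pt h hj hP).2.1
  · refine (N.J3 h (α := 2) (β := 6 * (Λ * ε)) (by positivity) (by positivity)
      fun j hj hP => ?_).trans (by linarith)
    have u := (sq_sqrt (D.u0 2 j)).le
    have f := (N.pt h hj hP).1
    have l := N.lw_sq h hj
    change (√(D.u 2 j) + D.f0 j) *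
      (D.f0 j + D.sv D.f0 D.J + D.lw (fun t => D.e t * √(D.v t t)) j) ≤ _
    linarith [ss u f, ss u sf, ss u l, ss f f, ss f sf, ss f l, D.u0 2 j]
  · refine (N.J3 h (α := 1) (β := ε) (by positivity) ε0 fun j hj hP =>
      (min_le_right _ _).trans ?_).trans (by linarith)
    have a := I_sq h fun j => √(D.u 4 j)
    simp only [sq_sqrt (D.u0 4 _)] at a
    have b := (pow_le_pow_left₀ (h.lw0 (fun t => sqrt_nonneg (D.u 4 t)) j)
      (lw_le h (fun t => sqrt_nonneg (D.u 4 t)) (mem_up.1 hj).2.le) 2).trans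
      (a.trans (h.Iu4_le.trans (N.E0 h)))
    linarith [ss (sq_sqrt (D.u0 2 j)).le b, D.u0 2 j]
  · refine (N.J3 h (α := 2) (β := 2 * (Λ ^ 2 * ε)) (by positivity) (by positivity)
      fun j hj hP => ?_).trans (by linarith)
    have u := (sq_sqrt (D.v0 j j)).trans_le (v_le_u (D := D) h.pos (le_refl j))
    have a : D.hi (fun k => √(D.v k k)) j ≤ Λ * D.I fun k => D.e k * √(D.v k k) := by
      rw [← D.I_mul]
      refine le_trans (sum_le_sum fun t ht => mul_le_mul_of_nonneg_left ?_ (h.dx0 t))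
        (sub_I h (Ioo_subset_Ioo_left (mem_up.1 hj).1.le) fun t _ => mul_nonneg L0 (ev0 h t))
      rw [← mul_assoc]
      exact le_mul_of_one_le_left (sqrt_nonneg _) ((N.pt h hj hP).2.2 t (mem_Ioo.1 ht).1.le)
    have b := pow_le_pow_left₀ (h.hi0 (fun _ => sqrt_nonneg _) j) a 2
    rw [mul_pow] at b
    linarith [ss u (N.pt h hj hP).1, ss u sf, ss u (N.lw_sq h hj),
      ss u (b.trans (mul_le_mul_of_nonneg_left (N.Iev h) (sq_nonneg Λ)))]
  · refine (N.J3 h (α := 0) (β := 2 * (Λ * ε)) le_rfl (by positivity)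
      fun j hj hP => ?_).trans (by linarith)
    have f := (N.pt h hj hP).1
    linarith [ss f f, ss f sf]

theorem wkR : WK D (rho D P) √(16 * (Λ ^ 3 * ε)) := by
  have L0 := N.L0 h
  have ε0 := N.ε0 h
  refine wk_any (sqrt_nonneg _) (w := Λ) (m := ε) (by simpa [Jw] using N.Jr1 h) (N.Jru h) ?_
  rw [sq_sqrt (by positivity)]
  linarith [N.pw h (i := 1) (j := 3) (by norm_num), show 0 ≤ Λ ^ 3 * ε by positivity]

end Nm

/-- **the test head in the direction `ω*`** -/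
theorem dT_om (H : HT) (τ0 : ℝ) : ∃ C : ℝ, 0 ≤ C ∧ ∀ (D : CD) (P : ℕ) (A : ℕ → ℝ) (Λ ε : ℝ),
    D.Ok τ0 → Nm D τ0 P A Λ ε → |E42.dT D (E42.omS D)| ≤ C * (Λ ^ 6 * ε) := by
  obtain ⟨C, C0, k⟩ := dT_mk H τ0
  refine ⟨2 * C, by positivity, fun D P A Λ ε h N => ?_⟩
  have L0 := N.L0 h
  have ε0 := N.ε0 h
  have q := (sq_sqrt (show 0 ≤ 16 * (Λ ^ 3 * ε) by positivity)).le
  have a := k D P A Λ ε h N _ _ (N.mkL h) (sqrt_nonneg _) q (N.wkL h)
  have b := k D P A Λ ε h N _ _ (N.mkR h) (sqrt_nonneg _) q (N.wkR h)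
  rw [dT_congr (fun t ht => N.split h ht), E42.dT_add]
  linarith [abs_add_le (E42.dT D fun t => D.dx t * aD D P t) (E42.dT D (rho D P))]

end Crest.Agent.T156.Cas.C40.R40

end
end

-- ▼ part T156/R2Te_42
section

/-!
# Row 156, R2: the test head in the direction `ω*` on the END model (`TeS`) (helper42)
-/

set_option autoImplicit false

noncomputable section

namespace Crest.Agent.T156.Alt.R2

open Real Finset
open Crest.Agent.T157.E Crest.Agent.T157.Casc Crest.Agent.T157.SL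
open Crest.Agent.T156.Cas Crest.Agent.T156.Cas.C40 Md67 CIn12

namespace T42

variable {D : CD} {τ0 : ℝ}

/-- sums against the clock `dv` for an antitone weight, constant `τ` on UP -/
theorem sv_ck (h : D.Ok τ0) (hτ : ∀ t ∈ D.up, t ≠ D.J + 1 → D.τ t = D.τ (t - 1)) {F : ℕ → ℝ}
    (F0 : ∀ t ∈ D.up, 0 ≤ F t) (Fm : ∀ t ∈ D.up, t ≠ D.J + 1 → F t ≤ F (t - 1)) {B : ℝ} (B0 : 0 ≤ B)
    (hB : D.J + 1 < D.K → D.e (D.J + 1) * F (D.J + 1) ≤ B) : D.sv F D.J ≤ B + 2 * E42.Ck D F := by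
  have c0 := R85.Ck0 h F0
  rcases (show D.J + 1 ≤ D.K from h.cut).eq_or_lt with e | e
  · rw [CD.sv, sum_eq_zero fun t ht => by have := mem_Ioo.1 ht; omega]
    linarith
  obtain ⟨k, hk⟩ : ∃ k, D.K = k + 1 := ⟨D.K - 1, by omega⟩
  have up : D.up = Ico (D.J + 1) D.K := rfl
  have a1 : ∑ t ∈ Ico (D.J + 1 + 1) D.K, (R85.ds D (t - 1) + D.dx (t - 1)) * F (t - 1) ≤
      E42.Ck D F := by
    rw [hk, ← sum_Ico_add' _ (D.J + 1) k 1]
    refine le_trans (le_of_eq (sum_congr rfl fun t _ => ?_)) (sum_le_sum_of_subset_of_nonneg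
      (f := fun t => E42.ck D t * F t) (s := Ico (D.J + 1) k) (t := D.up)
      (fun t ht => by have := mem_Ico.1 ht; exact CD.mem_up.2 (by omega))
      fun t ht _ => mul_nonneg (R85.ck0 h ht) (F0 t ht))
    rw [Nat.add_sub_cancel, E42.ck, add_comm (R85.ds D t)]
  have a2 : ∑ t ∈ Ico (D.J + 1 + 1) D.K, D.dx t * F t ≤ E42.Ck D F := by
    refine le_trans (sum_le_sum fun t ht => ?_) (sum_le_sum_of_subset_of_nonneg
      (f := fun t => E42.ck D t * F t) (s := Ico (D.J + 1 + 1) D.K) (t := D.up)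
      (fun t ht => by have := mem_Ico.1 ht; exact CD.mem_up.2 (by omega))
      fun t ht _ => mul_nonneg (R85.ck0 h ht) (F0 t ht))
    have m := mem_Ico.1 ht
    exact mul_le_mul_of_nonneg_right (le_add_of_nonneg_right (R85.ds0 h m.2))
      (F0 t (CD.mem_up.2 (by omega)))
  have a3 : ∑ t ∈ Ico (D.J + 1 + 1) D.K, D.dv t * F t ≤ ∑ t ∈ Ico (D.J + 1 + 1) D.K,
      ((R85.ds D (t - 1) + D.dx (t - 1)) * F (t - 1) + D.dx t * F t) := by
    refine sum_le_sum fun t ht => ?_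
    have m := mem_Ico.1 ht
    have u : t ∈ D.up := CD.mem_up.2 (by omega)
    have := mul_le_mul_of_nonneg_left (Fm t u (by omega))
      (add_nonneg (R85.ds0 h (show t - 1 < D.K by omega)) (h.dx0 (t - 1)))
    rw [CD.dv, if_neg (by omega), hτ t u (by omega), sub_self, add_zero]
    rw [R85.ds, Nat.sub_add_cancel (by omega)] at this ⊢
    linarith
  rw [sum_add_distrib] at a3
  rw [CD.sv, show Ioo D.J D.K = Ico (D.J + 1) D.K from rfl, sum_eq_sum_Ico_succ_bot e, CD.dv,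
    if_pos le_rfl]
  linarith [hB e]

theorem Ck_one (h : D.Ok τ0) : E42.Ck D (fun _ => 1) ≤ E42.La D := by
  have a := h.sum_dx_one (A := D.up) fun i hi => (CD.mem_up.1 hi).2.le
  have b := h.sig0 (Nat.succ_le_of_lt h.cut)
  simp only [E42.Ck, E42.ck, mul_one, sum_add_distrib]
  rw [show D.up = Ico (D.J + 1) D.K from rfl, sum_Ico_sub D.sig h.cut, E42.La]
  rw [show D.up = Ico (D.J + 1) D.K from rfl] at a
  linarith

end T42

variable {p : Pm} {P : Pl} {m : ℕ} {a : ℝ}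

theorem dT_env (E E' : CIn12.Ev) : E42.dT (D p P m a E) (E42.omS (D p P m a E)) =
    E42.dT (D p P m a E') (E42.omS (D p P m a E')) := rfl

set_option maxHeartbeats 800000 in
/-- **`TeS`** -/
theorem teS_of {β : ℝ} (hβ : 1 < β) (H : HT) (V : ValX β) (Z : PzS β) : TeS β := by
  obtain ⟨C1, c1, hd⟩ := R40.dT_om H (β ^ 2)
  have Y := hmS hβ
  unfold ValX at V
  unfold PzS EvA at Z
  unfold HmS EvA at Y
  unfold TeS EvA
  refine Sml.glueC hβ (enS hβ) (Sml.and (Sml.and V Z) Y) fun C hC c0 C0 h0 h1 =>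
    ⟨2, fun A hA => ⟨1 / 100000, by norm_num, fun c hc c0' => ⟨c, c0', fun η _ η0 =>
      ⟨C + C1, fun p R Q W => ?_⟩⟩⟩⟩
  obtain ⟨⟨v, z⟩, hm⟩ := W
  intro P m a E ad mu _ rv
  have e := Q R.r_le_ye P ad.sp
  obtain ⟨E', ad', er, -, nn, ⟨AA, add, eA⟩, F0⟩ := v P m a ad.sp ad.inn
  obtain ⟨z, -⟩ := z P m a E' ad'
  have hm := hm P m a E' ad'
  have ok := ad'.ok
  rw [R.hβ] at ok
  rw [dT_env E E']
  have mu' : R85.muU (D p P m a E') (E42.τ (D p P m a E')) ≤ gn p 250 * un p := by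
    rw [τ_D]; exact mu
  have rv' : R85.Rv (D p P m a E') (p.J + 1) ((D p P m a E').u 2) ≤ gn p 300 * un p := rv
  have C0' : 0 < C := by linarith
  have CΛ : C ≤ (p.n : ℝ) ^ η := by linarith [R.K_le]
  have ηc := R.η_le
  have N0 := R.N0
  have Λ0 := R.Λ0
  have k0 := kk0 R
  have u0 := un0 R
  have κ0 := R.κ0
  have t0 := t10 R
  have g2 := gn0 R 200
  have g25 := gn0 R 250
  have g3 := gn0 R 300
  have g7 := gn0 R 700
  have lk := lg_kk R
  have lu := lg_un R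
  have ls := R.lg_s
  have lΛ := R.lg_rp η
  have l4 := (R.lg_num (x := 4) (by norm_num) (by norm_num)).2
  have jc1 := jc_lt R
  have jf1 := jf_lt R
  have i3 : p.J ≤ p.Jp P := e.cl.i3
  have i4 : p.Jp P < (Me p P).N := e.cl.i4
  have G := e.lg R ad.inn
  obtain ⟨Λ, hΛ⟩ : ∃ Λ, Λ = (p.n : ℝ) ^ η := ⟨_, rfl⟩
  have Λk : Λ ^ 4 ≤ kk p := by
    rw [hΛ]
    refine R.le_of_lg (by positivity) k0 ?_
    rw [logb_pow]; push_cast; linarith
  have Λ1 : 1000 ≤ Λ := hΛ ▸ R.num_le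
  have Λ2 : 1000 * Λ ≤ Λ ^ 2 := by nlinarith
  have Λ3 : 1000 * Λ ^ 2 ≤ Λ ^ 3 := by nlinarith
  have Λ4 : 1000 * Λ ^ 3 ≤ Λ ^ 4 := by nlinarith
  have la : E42.La (D p P m a E') ≤ 2 * Λ ^ 3 := by
    have a1 : C * A * log p.n ≤ Λ * Λ * Λ := by
      rw [hΛ]
      exact mul_le_mul (mul_le_mul CΛ R.A_le (Nat.cast_nonneg _) Λ0.le) R.log_le
        (by linarith [R.log1]) (by positivity)
    rw [← hΛ] at CΛ
    nlinarith [e.La_le (E := E') R ad.inn]
  have la1 : 1 ≤ E42.La (D p P m a E') := le_add_of_nonneg_right (ok.sig0 le_rfl)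
  have hτ : ∀ t ∈ (D p P m a E').up, t ≠ (D p P m a E').J + 1 →
      (D p P m a E').τ t = (D p P m a E').τ (t - 1) := fun t ht h => by
    have m := CD.mem_up.1 ht
    rw [cd_K] at m
    obtain ⟨k, rfl⟩ : ∃ k, t = k + 1 + 1 := ⟨t - 2, by omega⟩
    rw [Nat.add_sub_cancel, cd_tau _ a _ _ E' (by omega), cd_tau _ a _ _ E' (by omega), tp_eq, tp_eq]
  have up1 : (D p P m a E').J + 1 < (D p P m a E').K → (D p P m a E').J + 1 ∈ (D p P m a E').up :=
    fun h => CD.mem_up.2 ⟨Nat.lt_succ_self _, h⟩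
  have N : R40.Nm (D p P m a E') (β ^ 2) (p.J + 1) AA (4 * kk p) (gn p 300 * un p) := by
    refine ⟨rfl, ?_, z.JP, z.PK, ?_, by linarith, fun j hj => by linarith [z.eB j hj], ?_,
      le_trans F0 (by linarith), fun t ht hP => (z.ck t ht hP).trans
        (mul_le_mul_of_nonneg_right (by linarith) (ok.dx0 t)), ?_, ?_, ?_, ?_, add, ?_,
      er.trans ?_, nn, eA, (z.Ie2 ok).trans ?_, rv', ?_, fun t ht _ => ?_⟩
    · rw [cd_X, ad'.env.X]; positivity
    · have := pow_le_pow_left₀ (sq_nonneg β) (hΛ ▸ R.β_le) 2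
      linarith
    · have := T42.sv_ck ok hτ (F := fun _ => 1) (fun _ _ => zero_le_one) (fun _ _ _ => le_rfl) k0.le
        fun h => (mul_one _).trans_le (z.eB _ (up1 h))
      linarith [T42.Ck_one ok]
    · have := T42.sv_ck ok hτ (F := fun j => 1 / (D p P m a E').e j)
        (fun t ht => (one_div_pos.2 (z.e0 t ht)).le) (fun t ht h => by
          have m := CD.mem_up.1 ht
          exact one_div_le_one_div_of_le (z.e0 _ (CD.mem_up.2 (by omega)))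
            (ok.e_mono (Nat.sub_le t 1))) zero_le_one
        fun h => (mul_one_div_cancel (z.e0 _ (up1 h)).ne').le
      linarith [z.lg]
    · have a1 : ((Me p P).N : ℝ) ≤ (p.n : ℝ) ^ (p.A + 1) := e.cl.card
      have a2 : (1 : ℝ) ≤ (p.n : ℝ) ^ (p.A + 1) := one_le_pow₀ R.N1.le
      have a3 : log (((D p P m a E').K : ℝ) + 2) ≤ log ((p.n : ℝ) ^ (p.A + 1 + 2)) := by
        refine log_le_log (by positivity) ?_
        rw [cd_K, pow_add]
        push_cast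
        nlinarith [R.N3, mul_le_mul_of_nonneg_left (show (4 : ℝ) ≤ (p.n : ℝ) ^ 2 by
          nlinarith [R.N3]) (zero_le_one.trans a2)]
      rw [log_pow, R.hA] at a3
      push_cast at a3
      have a4 : ((A : ℝ) + 1 + 2) * log p.n ≤ (Λ + 3) * Λ :=
        mul_le_mul (by linarith [hΛ ▸ R.A_le]) (hΛ ▸ R.log_le) (by linarith [R.log1]) (by linarith)
      nlinarith
    · rw [cd_X, ad'.env.X]
      refine R.le_of_lg (by positivity) one_pos ?_
      lg_norm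
      linarith [lg_t1 R, R.lg_κ, ls.2]
    · have a1 : 1 / C ≤ (Me p P).z (p.J - 1) := e.cl.atom.1
      have a2 : ex (D p P m a E').B (p.J - 1 + 1) = (Me p P).z (p.J - 1) := ex_succ G.toLeg _
      rw [Nat.sub_add_cancel (by omega)] at a2
      rw [Nat.add_sub_cancel, a2]
      rw [← hΛ] at CΛ
      rw [div_le_iff₀ C0'] at a1
      have z0 : 0 ≤ (Me p P).z (p.J - 1) := by
        by_contra hz
        nlinarith
      nlinarith [mul_le_mul_of_nonneg_left (show C ≤ kk p by linarith) z0]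
    · refine R.le_of_lg (by positivity) one_pos ?_
      lg_norm
      linarith [lg_gn R 300, ls.2]
    · refine mul_le_mul_of_nonneg_right (Pre29.rp_le R.n1 (by norm_num)) u0.le
    · rw [one_div, inv_inv]
      refine (mul_le_mul_of_nonneg_left mu' k0.le).trans
        (R.le_of_lg (by positivity) (by positivity) ?_)
      lg_norm
      linarith [lg_gn R 300, lg_gn R 250]
    · rw [cd_tl, ad'.env.tl]
      refine R.le_of_lg (by positivity) (by positivity) ?_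
      rw [lg_sqrt _ (by positivity), R.lg_rp, logb_mul g3.ne' u0.ne']
      linarith [lg_gn R 300, ls.1, Nat.cast_nonneg (α := ℝ) p.A]
    · have a1 := (le_mul_of_one_le_right (ok.dx0 t) (one_le_pow₀ la1)).trans (hm.mshx t ht)
      have := ηH0 R
      refine a1.trans (R.le_of_lg (by positivity) (by positivity) ?_)
      lg_norm
      linarith [lg_gn R 300, ls.1, lg_ηH R]
  refine (hd _ _ _ _ _ ok N).trans ((mul_le_mul_of_nonneg_right
    (show C1 ≤ (p.n : ℝ) ^ η by linarith [R.K_le]) (by positivity)).trans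
    (R.le_of_lg (by positivity) (by positivity) ?_))
  simp (disch := positivity) only [logb_mul, logb_pow]
  push_cast
  linarith [lg_gn R 300, lg_gn R 700]

end Crest.Agent.T156.Alt.R2

end
end

-- ▼ part T156/R2Cr_26
section

/-!
# Row 156, R2 (helper26): the crude location `CrE` of the END model
-/

set_option autoImplicit false
set_option linter.unusedSectionVars false
set_option linter.unusedVariables false

noncomputable section

namespace Crest.Agent.T156.Alt.R2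

open Real Finset

namespace T26

variable {S : Sc} {M : Md} {m : ℕ} {a : ℝ}

/-- one window of `n` sloped nodes above `j` -/
theorem rb_win (h : Cl S M) (hm : 0 < m) {l : ℝ} {n j : ℕ} (l0 : 0 < l) (hn : S.C * l ≤ n * S.v)
    (hj : S.jl ≤ j) (hJ : j + n < S.J)
    (hE : ∑ k ∈ Ioc S.jl S.Jp, (M.z k - M.z (k - 1)) * M.del m a k ^ 2 ≤ l ^ 3) :
    M.rb m a j ≤ M.s (j + n) + l := by
  by_contra hc
  have rm := Md67.rb_mono (M := M) (a := a) hm
  have i1 := h.i1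
  have i3 := h.i3
  have i4 := h.i4
  have C0 := h.C0
  have v0 := h.v0
  obtain ⟨d, hd⟩ : ∃ d, d = M.rb m a j - M.s (j + n) := ⟨_, rfl⟩
  have d1 : l < d := by linarith [not_le.1 hc]
  have a1 : ∑ k ∈ Ioc j (j + n), S.v / S.C * d ^ 2 ≤
      ∑ k ∈ Ioc j (j + n), (M.z k - M.z (k - 1)) * M.del m a k ^ 2 :=
    sum_le_sum fun k hk => by
      obtain ⟨k1, k2⟩ := mem_Ioc.1 hk
      have w := (h.zs (k - 1) (by omega) (by omega)).1
      rw [Nat.sub_add_cancel (by omega)] at w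
      have e : d ≤ M.del m a k := by
        have := rm k1.le
        have := h.q_le_s (k := k) (by omega)
        have := h.sm k2
        rw [Md.del]
        linarith
      exact mul_le_mul w (pow_le_pow_left₀ (by linarith) e 2) (sq_nonneg _)
        ((div_pos v0 C0).le.trans w)
  have a2 := sum_le_sum_of_subset_of_nonneg
    (f := fun k => (M.z k - M.z (k - 1)) * M.del m a k ^ 2)
    (Ioc_subset_Ioc hj (show j + n ≤ S.Jp by omega)) fun k _ _ =>
      mul_nonneg (sub_nonneg.2 (h.leg.zm (Nat.sub_le k 1))) (sq_nonneg _)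
  rw [sum_const, Nat.card_Ioc, Nat.add_sub_cancel_left, nsmul_eq_mul, ← mul_assoc,
    ← mul_div_assoc] at a1
  have a3 : l ≤ n * S.v / S.C := by rw [le_div_iff₀ C0]; linarith
  have a4 : l ^ 2 < d ^ 2 := pow_lt_pow_left₀ d1 l0.le two_ne_zero
  have a5 := mul_le_mul_of_nonneg_right a3 (sq_nonneg d)
  nlinarith [mul_lt_mul_of_pos_left a4 l0]

/-- **crude location from the total energy**, any spread -/
theorem cru_cl (h : Cl S M) (hm : 0 < m) {l : ℝ} (vl : S.v ≤ l) (l1 : 4 * S.C ^ 3 * l ≤ 1)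
    (hE : ∑ k ∈ Ioc S.jl S.Jp, (M.z k - M.z (k - 1)) * M.del m a k ^ 2 ≤ l ^ 3) {k : ℕ}
    (hk : S.jl ≤ k) : M.rb m a k ≤ 5 * S.C ^ 2 * max (M.z k) l := by
  have C0 := h.C0
  have C1 := h.C1
  have v0 := h.v0
  have l0 := v0.trans_le vl
  have i1 := h.i1
  have i2 := h.i2
  have z0 := h.z_pos k
  have m1 := le_max_left (M.z k) l
  have m2 := le_max_right (M.z k) l
  have c2 : S.C ≤ S.C ^ 2 := le_self_pow₀ C1 two_ne_zero
  have n1 : S.C * l ≤ ⌈S.C * l / S.v⌉₊ * S.v := (div_le_iff₀ v0).1 (Nat.le_ceil _)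
  have n2 : ⌈S.C * l / S.v⌉₊ * S.v ≤ S.C * l + S.v := by
    have := (lt_div_iff₀ v0).1 (sub_lt_iff_lt_add.2
      (Nat.ceil_lt_add_one (div_pos (mul_pos C0 l0) v0).le))
    linarith
  generalize ⌈S.C * l / S.v⌉₊ = n at n1 n2
  generalize max (M.z k) l = x at m1 m2
  have Cl : l ≤ S.C * l := le_mul_of_one_le_left l0.le C1
  have n3 : (n : ℝ) * (S.C * S.v) ≤ 2 * S.C ^ 2 * l := by
    have := mul_le_mul_of_nonneg_left (show n * S.v ≤ 2 * (S.C * l) by linarith) C0.le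
    linarith
  have x1 := mul_le_mul_of_nonneg_left m1 C0.le
  have x2 := mul_le_mul_of_nonneg_left m2 (pow_pos C0 2).le
  have x3 := mul_le_mul_of_nonneg_right c2 (l0.le.trans m2)
  rcases lt_or_ge (k + n) S.J with c | c
  · have a1 := rb_win (a := a) h hm l0 n1 hk c hE
    have a2 := (h.s_tel (Nat.le_add_right k n) c.le).2
    have a3 := (h.z_s (k := k) (by omega) (by omega)).1
    rw [Nat.cast_add, add_sub_cancel_left] at a2
    rw [sub_le_iff_le_add, div_le_iff₀ C0] at a3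
    have a4 := mul_le_mul_of_nonneg_left vl (pow_pos C0 2).le
    have a5 := mul_le_mul_of_nonneg_right (C1.trans c2) l0.le
    linarith
  · have r1 := Md67.rb_le_one (M := M) (a := a) hm k
    have a1 := h.atom.1
    have a2 : M.z (S.J - 1) ≤ M.z k + 2 * S.C ^ 2 * l := by
      rcases le_total k (S.J - 1) with d | d
      · have b1 := (h.z_tel (i := k) (j := S.J - 1) (by omega) d (by omega)).2
        have b2 : ((S.J - 1 : ℕ) : ℝ) - k ≤ n := by
          have : ((S.J - 1 : ℕ) : ℝ) ≤ k + n := by exact_mod_cast (by omega : S.J - 1 ≤ k + n)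
          linarith
        have := mul_le_mul_of_nonneg_right b2 (mul_pos C0 v0).le
        linarith
      · have := h.leg.zm d
        have : 0 ≤ 2 * S.C ^ 2 * l := by positivity
        linarith
    rw [div_le_iff₀ C0] at a1
    have a3 := mul_le_mul_of_nonneg_right a2 C0.le
    have a4 : 0 ≤ S.C ^ 2 * x := mul_nonneg (pow_pos C0 2).le (l0.le.trans m2)
    linarith

end T26

/-- **crude location of the END model** from the output of SR (`En91.SrE`) -/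
theorem crE_of {β : ℝ} (hβ : 1 < β) (h : Sml β fun _ p => ∀ P, p.SpOk (7 / 20) P → ∀ m a,
    p.InW m a → p.ph2 P (p.tst P p.ye) m a ≤ p.s ^ 3 * (p.n : ℝ) ^ (2 * p.c - 1 / 2)) :
    CrE β := by
  unfold CrE
  refine Sml.glueC hβ (clSp β hβ) h fun C C1 c0 C0 _ _ => ⟨0, fun A _ => ⟨1, one_pos, fun c _ hc =>
    ⟨c, hc, fun η hη _ => ⟨5 * C ^ 3, fun p H G R P m a sp x k k1 k2 => ?_⟩⟩⟩⟩
  have g := (G p.ye P H.r_le_ye le_rfl sp).1
  have s0 := H.s0
  have l0 : 0 < p.r / p.κ := div_pos H.r0 H.κ0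
  have ll : logb p.n (p.r / p.κ) = logb p.n p.s + c / 7 - 1 / 6 + c := by
    rw [logb_div H.r0.ne' H.κ0.ne', H.lg_r, H.lg_κ]; ring
  have c23 : C ^ 2 ≤ C ^ 3 := pow_le_pow_right₀ C1 (by norm_num)
  have k0 : 1 ≤ 5 * C ^ 3 := by linarith [one_le_pow₀ (n := 3) C1]
  have a1 : 5 * C ^ 3 * (p.r / p.κ) ≤ 1 := H.le_of_lg (by positivity) one_pos (by
    rw [logb_mul (by positivity) l0.ne', ll, logb_one]
    linarith [(H.lg_cst k0 H.K_le).2, H.lg_s.2, H.c_le])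
  have a2 : p.s ^ 3 * (p.n : ℝ) ^ (2 * p.c - 1 / 2) ≤ (p.r / p.κ) ^ 3 :=
    H.le_of_lg (mul_pos (pow_pos s0 3) (H.rp0 _)) (pow_pos l0 3) (by
      rw [logb_mul (pow_pos s0 3).ne' (H.rp0 _).ne', logb_pow, logb_pow, ll, H.lg_rp, H.hc]
      push_cast
      linarith)
  have a3 := T26.cru_cl (a := a) g (H.n0.trans_le x.m1) (l := p.r / p.κ)
    (H.v_le_r.trans (le_div_self H.r0.le H.κ0 H.κ1))
    (le_trans (by
      change 4 * C ^ 3 * (p.r / p.κ) ≤ _
      have : 0 ≤ C ^ 3 * (p.r / p.κ) := by positivity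
      linarith) a1)
    ((R P sp m a ⟨x.m1, x.m2, x.a1, x.a2⟩).trans a2) k1
  refine a3.trans (mul_le_mul_of_nonneg_right ?_ (l0.le.trans (le_max_right _ _)))
  change 5 * C ^ 2 ≤ _
  linarith [H.K_le]

end Crest.Agent.T156.Alt.R2

end
end

-- ▼ part T156/R2Mw_55

/-!
# Row 156, R2 (helper55): (MV) on the plateau of the END model by the sandwich
-/

set_option autoImplicit false
set_option linter.all false

noncomputable section

namespace Crest.Agent.T156.Alt.R2.Mv55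

open Real Finset Filter
open Crest.Agent.T157.E Crest.Agent.T157.Casc Crest.Agent.T157.SL
open Crest.Agent.T156.Cas Crest.Agent.T156.Cas.C40 Md67 CIn12
open Crest.Agent.T156.Cas.Mv30 (pM uM2 legsX sand)

theorem ex_min {u c : ℕ → ℝ} {a U : ℕ} (hU : 0 < U) {w B : ℝ} (w0 : 0 ≤ w) (u0 : ∀ k, 0 ≤ u k)
    (hc : ∀ k ∈ Ico a (a + U), w ≤ c k) (hB : ∑ k ∈ Ico a (a + U), c k * u k ≤ B) :
    ∃ i ∈ Ico a (a + U), U * w * u i ≤ B := by
  obtain ⟨i, hi, h⟩ := exists_min_image (Ico a (a + U)) u ⟨a, mem_Ico.2 ⟨le_rfl, by omega⟩⟩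
  refine ⟨i, hi, le_trans ?_ hB⟩
  have := card_nsmul_le_sum (Ico a (a + U)) (fun k => c k * u k) (w * u i) fun k hk =>
    mul_le_mul (hc k hk) (h k hk) (u0 i) (w0.trans (hc k hk))
  rwa [Nat.card_Ico, Nat.add_sub_cancel_left, nsmul_eq_mul, ← mul_assoc] at this

theorem tel {f : ℕ → ℝ} {w : ℝ} {i : ℕ} : ∀ d : ℕ, (∀ k, i ≤ k → k < i + d → f (k + 1) - f k ≤ w) →
    f (i + d) - f i ≤ d * w
  | 0, _ => by simp
  | d + 1, h => by
    have := tel d fun k a b => h k a (by omega)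
    have := h (i + d) (by omega) (by omega)
    rw [← add_assoc]
    push_cast
    linarith

variable {β c0 C0 c η K C : ℝ} {A : ℕ} {p : Pm} {P : Pl} {m : ℕ} {a : ℝ} {E : CIn12.Ev}

section reg
variable (H : Reg β c0 C0 A c η K p) (e : En C p P)
include H

theorem ye4 : 4 * p.ye ≤ p.J * p.v := by
  have y0 := H.ye0
  refine le_trans (H.le_of_lg (by positivity) H.c00 ?_) H.ok.base.lo
  have a0 := H.c00
  have b := H.lg_le (by positivity) H.c0_le
  rw [one_div, logb_inv] at b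
  lg_norm
  linarith [H.lg_ye, H.η_le, H.c_pos, (H.lg_num (x := 4) (by norm_num) (by norm_num)).2]

include e

theorem ds3 (k : ℕ) : (Me p P).s (k + 1) - (Me p P).s k ≤ 3 * p.v := by
  have v0 := H.v0
  rcases lt_or_ge k p.J with h | h
  · linarith [(e.lo k h).2]
  · rcases lt_or_ge k (p.Jp P) with g | g
    · exact (e.mid k h g).2
    · linarith [e.hi k g]

theorem ms_hi' {k : ℕ} (hk : p.J - 1 ≤ k) : (Se p C P).ms ((Me p P).s k) = p.κ ^ 7 := by
  have i2 : p.jf + 1 < p.J := e.cl.i2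
  have a1 := ds3 H e (p.J - 1)
  rw [Nat.sub_add_cancel (by omega), e.sJ] at a1
  have : p.ye ≤ (Me p P).s k := by
    linarith [e.cl.sm hk, ye4 H, H.v_le_r, H.r_le_ye]
  refine (H.ms_top H.mem_end this).trans ?_
  rw [Pm.μ, Pm.ye]; ring

theorem dH3 (sp : p.SpOk (7 / 20) P) {k : ℕ} (h1 : p.jf < k) (h2 : k < (Me p P).N) :
    (Me p P).H (k + 1) - (Me p P).H k ≤ 3 * p.v := by
  have g1 := G_zero sp h1
  have g2 := G_zero sp (show p.jf < k + 1 by omega)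
  rw [Md.G, d_eq] at g1 g2
  have := mul_nonneg (d_nonneg e.cl.leg (Me p P).N) (sub_nonneg.2 (q_mono e.cl (Nat.le_succ k) h2))
  rw [show (Me p P).d (Me p P).N = (Me p P).b from rfl] at this
  linarith [ds3 H e k]

/-- **legs on the plateau and the reveal of END** -/
theorem legsE (hC : C ≤ (p.n : ℝ) ^ η) (hA : 8 ≤ A) (sp : p.SpOk (7 / 20) P) (h : In p m a)
    {cm : ℝ} {w : ℕ → ℝ} (cm0 : 0 ≤ cm)
    (hw : ∀ k ∈ Ioo (p.J - 1) (Me p P).N, 0 ≤ w k ∧ w k ≤ cm) :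
    ∑ k ∈ Ioo (p.J - 1) (Me p P).N, w k * pM (Me p P) m a k ≤
      4 * ((p.n : ℝ) ^ η) ^ 9 * (cm / (p.κ ^ 7 * p.v * m)) := by
  obtain ⟨k, k1, k2⟩ := exK H
  have C1 : 1 ≤ C := e.cl.C1
  have C0 : 0 < C := by linarith
  have v0 := H.v0
  have κ0 := H.κ0
  have N0 := H.N0
  have L0 := H.Λ0
  have l0 : 0 < log (p.n : ℝ) := by linarith [H.log1]
  have A8 : (8 : ℝ) ≤ A := by exact_mod_cast hA
  have A0 : (0 : ℝ) < A := by linarith
  have m0 : (0 : ℝ) < m := by exact_mod_cast h.m0 H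
  obtain ⟨lC1, lC2⟩ := H.lg_cst C1 hC
  obtain ⟨lA1, lA2⟩ := H.lg_cst (show (1 : ℝ) ≤ A by linarith) H.A_le
  obtain ⟨lm1, lm2⟩ := H.lg_m h.m1 h.m2
  obtain ⟨ll1, ll2⟩ := H.lg_log
  obtain ⟨lb1, lb2⟩ := H.lg_β
  obtain ⟨n1, n2⟩ := H.lg_num (x := 3) (by norm_num) (by norm_num)
  have lv := H.lg_v
  have lk := H.lg_κ
  have ln := H.lg_n
  have hη := H.η_le
  have η0 := H.η_pos
  have hc := H.c_le
  have i2 : p.jf + 1 < p.J := e.cl.i2
  have i3 : p.J ≤ p.Jp P := e.cl.i3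
  have i4 : p.Jp P < (Me p P).N := e.cl.i4
  have m3 : 3 * p.v * m ≤ 1 := H.le_of_lg (by positivity) one_pos (by lg_norm; linarith)
  have R := legsX (e.lg H h) (j0 := p.J - 1) (K := k) (σ := p.κ ^ 7 * p.v / C) (x := 1 / C)
    (by positivity) (by positivity) (by omega) e.cl.atom.1 (fun i a b => ?_)
    (fun i a b => (mul_le_mul_of_nonneg_right (dH3 H e sp (by omega) b) m0.le).trans m3) ?_ cm0 hw
  · refine R.trans ?_
    rw [show cm / (p.κ ^ 7 * p.v / C * m) / (1 / C) ^ 2 = C ^ 3 * (cm / (p.κ ^ 7 * p.v * m)) by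
      field_simp, ← mul_assoc, show (9 : ℕ) = 3 * 2 + 3 from rfl, pow_add, pow_mul, ← mul_assoc]
    gcongr
  · rcases lt_or_ge i (p.Jp P) with g | g
    · have := e.cl.flr i (show p.jf ≤ i by omega) g
      rw [ms_hi' H e a] at this
      exact le_trans (le_of_eq (by
        show _ = p.κ ^ 7 * p.v / (C * 1)
        rw [mul_one])) this
    · have := (Mv30.dH_top e.cl g b).2
      rw [ms_hi' H e (show p.J - 1 ≤ (Se p C P).Jp from (Nat.sub_le _ _).trans i3), e.hi i g] at this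
      exact le_trans (le_of_eq (by
        show _ = p.κ ^ 7 / C * p.v
        ring)) this
  · have a1 : (Me p P).H (Me p P).N ≤ C * p.A * log p.n := e.cl.HN
    rw [H.hA] at a1
    have a2 : C * A * log p.n ≤ (p.n : ℝ) ^ (A + 2) * (1 / C * (p.κ ^ 7 * p.v / C)) := by
      refine H.le_of_lg (by positivity) (by positivity) ?_
      lg_norm
      push_cast
      rw [ln]
      linarith
    have a3 := mul_le_mul_of_nonneg_right k1 (show 0 ≤ 1 / C * (p.κ ^ 7 * p.v / C) by positivity)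
    linarith [H_nonneg e.cl.leg (p.J - 1)]

/-- the thin clock against the reference clock -/
theorem ds_bd (hC : C ≤ (p.n : ℝ) ^ η) (sp : p.SpOk (7 / 20) P) (h : In p m a) {k : ℕ}
    (h1 : jc p ≤ k) (h2 : k + 1 < (Me p P).N) :
    ((Me p P).s (k + 1) - (Me p P).s k) / 2 ≤ R85.ds (D p P m a E) (k + 1) ∧
      R85.ds (D p P m a E) (k + 1) ≤ (Me p P).s (k + 1) - (Me p P).s k := by
  rw [R85.ds, e.sig H sp h (show jc p ≤ k + 1 by omega) h2, e.sig H sp h h1 (by omega)]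
  have a1 := q_mono e.cl (Nat.le_succ k) h2.le
  have a2 := q_lip e.cl (Nat.le_succ k) h2.le
  have m1 : (p.n : ℝ) ≤ m := by exact_mod_cast h.m1
  have N0 := H.N0
  have b0 : 0 ≤ (Me p P).b := d_nonneg e.cl.leg _
  have a3 : 2 * (p.n : ℝ) ^ η ≤ p.n := by
    have L0 := H.Λ0
    refine H.le_of_lg (by positivity) N0 ?_
    rw [logb_mul two_ne_zero L0.ne', lgΛ H, H.lg_n]
    linarith [(H.lg_num (x := 2) (by norm_num) (by norm_num)).2, H.η_le, H.c_le]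
  have a4 : (Me p P).b / (m + 1) ≤ 1 / 2 := by
    rw [div_le_iff₀ (by positivity)]
    linarith [e.bβ]
  have a5 : 0 ≤ (Me p P).b / (m + 1) := by positivity
  simp only [Nat.succ_eq_add_one] at a1 a2
  constructor <;> nlinarith

/-- **the plateau part** -/
theorem rv_pl (hC : C ≤ (p.n : ℝ) ^ η) (hA : 8 ≤ A) (hj : 2 * η ≤ c) (h : Ad p P m a E) :
    R85.Rv (D p P m a E) (p.J + 1) ((D p P m a E).u 2) ≤ kk p *
      (R85.Rv (D p P m a E) (p.Jp P + 1) ((D p P m a E).u 2) +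
        (D p P m a E).I (fun t => (D p P m a E).e t ^ 2 * (D p P m a E).u 2 t) + ηH p) := by
  have C1 : 1 ≤ C := e.cl.C1
  have C0 : 0 < C := by linarith
  have v0 := H.v0
  have κ0 := H.κ0
  have N0 := H.N0
  have L0 := H.Λ0
  have K0 := kk0 H
  have h0 := ηH0 H
  have y0 := H.ye0
  have A8 : (8 : ℝ) ≤ A := by exact_mod_cast hA
  have m0 : (0 : ℝ) < m := by exact_mod_cast h.inn.m0 H
  have γ0 : 0 < P.γ := h.sp.g' ▸ H.rp0 _
  have lγ : logb p.n P.γ = -(7 / 20) := by rw [h.sp.g', H.lg_rp]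
  obtain ⟨lC1, lC2⟩ := H.lg_cst C1 hC
  obtain ⟨lm1, lm2⟩ := H.lg_m h.inn.m1 h.inn.m2
  obtain ⟨n1, n2⟩ := H.lg_num (x := 1000) (by norm_num) (by norm_num)
  obtain ⟨n3, n4⟩ := H.lg_num (x := 4) (by norm_num) (by norm_num)
  have lv := H.lg_v_le
  have lk := H.lg_κ
  have lkk := lg_kk H
  have lh := lg_ηH H
  have ly := H.lg_ye
  have lL := lgΛ H
  have η0 := H.η_pos
  have hc := H.c_le
  have i2 : p.jf + 1 < p.J := e.cl.i2
  have i3 : p.J ≤ p.Jp P := e.cl.i3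
  have eN : (Me p P).N = p.Jp P + p.Nr := rfl
  have j1 := jf_lt H
  have j2 := jc_lt H
  have vγ : p.v ≤ P.γ := H.le_of_lg v0 γ0 (by linarith)
  have γy : P.γ ≤ p.ye := H.le_of_lg γ0 y0 (by linarith)
  obtain ⟨U, U1, U2⟩ : ∃ U : ℕ, P.γ ≤ U * p.v ∧ U * p.v ≤ 2 * P.γ := by
    have h1 := Nat.le_ceil (P.γ / p.v)
    have h2 := (Nat.ceil_lt_add_one (div_pos γ0 v0).le).le
    rw [div_le_iff₀ v0] at h1
    rw [div_add_one v0.ne', le_div_iff₀ v0] at h2
    exact ⟨_, h1, by linarith⟩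
  have U0 : 0 < U := Nat.pos_of_ne_zero fun z => by rw [z] at U1; simp at U1; linarith
  have UJ : 2 * U ≤ p.J := by
    exact_mod_cast le_of_mul_le_mul_right (show (2 * (U : ℝ)) * p.v ≤ p.J * p.v by
      linarith [ye4 H]) v0
  have UN : U < p.Nr := by
    have := mul_le_mul A8 H.log1 zero_le_one (by linarith)
    exact_mod_cast lt_of_mul_lt_mul_right (show (U : ℝ) * p.v < p.Nr * p.v by
      linarith [H.Nr_bds.1, H.ye1]) v0.le
  have eK : (D p P m a E).K = (Me p P).N + 1 := cd_K _ _ _ _ _ _ _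
  have u0 : ∀ k, 0 ≤ (D p P m a E).u 2 (k + 1) := fun k => CD.u0 _ _ _
  have eu : ∀ k, jc p ≤ k → k < (Me p P).N →
      (D p P m a E).u 2 (k + 1) = uM2 (Me p P) m a ((Me p P).q k) k :=
    fun k a b => cd_u _ _ _ _ _ 2 a b
  have db := fun k => ds_bd (E := E) (k := k) H e hC h.sp h.inn
  have d0 : ∀ k, k < (Me p P).N → 0 ≤ R85.ds (D p P m a E) (k + 1) :=
    fun k b => R85.ds0 h.ok (by omega)
  have eR : ∀ j, R85.Rv (D p P m a E) (j + 1) ((D p P m a E).u 2) = ∑ k ∈ Ico j (Me p P).N,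
      R85.ds (D p P m a E) (k + 1) * (D p P m a E).u 2 (k + 1) := fun j => by
    rw [R85.Rv, eK, ← sum_Ico_add' _ j (Me p P).N 1]
  -- the reveal node
  obtain ⟨s, hs, bs⟩ := ex_min (a := p.Jp P) U0 (half_pos v0).le u0
    (c := fun k => R85.ds (D p P m a E) (k + 1))
    (B := R85.Rv (D p P m a E) (p.Jp P + 1) ((D p P m a E).u 2))
    (fun k hk => by
      have := mem_Ico.1 hk
      exact (e.hi k this.1).symm ▸ (db k (by omega) (by omega)).1)
    (by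
      rw [eR]
      exact sum_le_sum_of_subset_of_nonneg (Ico_subset_Ico_right (by omega)) fun k hk _ =>
        mul_nonneg (d0 k (mem_Ico.1 hk).2) (u0 k))
  -- the slope node
  obtain ⟨j, ej⟩ : ∃ j, p.J = j + U := ⟨p.J - U, by omega⟩
  have zj : p.κ ≤ (Me p P).z j := by
    have a1 := tel (f := (Me p P).z) (i := j) (w := C * p.v) (U - 1) fun k a b =>
      (e.cl.zs k (show p.jf ≤ k by omega) (show k + 1 < p.J by omega)).2
    have a2 : 1 / C ≤ (Me p P).z (p.J - 1) := e.cl.atom.1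
    rw [show j + (U - 1) = p.J - 1 by omega] at a1
    have a3 : ((U - 1 : ℕ) : ℝ) * (C * p.v) ≤ U * (C * p.v) :=
      mul_le_mul_of_nonneg_right (Nat.cast_le.2 (Nat.sub_le _ _)) (by positivity)
    have a4 := mul_le_mul_of_nonneg_left U2 C0.le
    have a5 : 4 * (C * P.γ) ≤ 1 / C :=
      H.le_of_lg (by positivity) (by positivity) (by lg_norm; linarith)
    have a6 : 4 * p.κ ≤ 1 / C :=
      H.le_of_lg (by positivity) (by positivity) (by lg_norm; linarith)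
    linarith
  obtain ⟨i, hi, bi⟩ := ex_min (a := j) U0 (div_pos v0 C0).le u0
    (c := fun k => (Me p P).dz m a k * E.e k ^ 2)
    (B := (D p P m a E).I (fun t => (D p P m a E).e t ^ 2 * (D p P m a E).u 2 t))
    (fun k hk => by
      have := mem_Ico.1 hk
      have a1 : p.v / C ≤ (Me p P).dz m a k := by
        have := (e.cl.zs (k - 1) (show p.jf ≤ k - 1 by omega) (show k - 1 + 1 < p.J by omega)).1
        rwa [Nat.sub_add_cancel (by omega), ← dz_up (m := m) (a := a) e.cl.leg (by omega)] at this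
      have a2 : 1 ≤ E.e k := by
        rw [h.env.e, le_div_iff₀ κ0, one_mul]
        exact le_max_of_le_right (zj.trans (e.cl.leg.zm this.1))
      exact a1.trans (le_mul_of_one_le_right ((div_pos v0 C0).le.trans a1) (one_le_pow₀ a2)))
    (by
      rw [cd_I]
      simp only [cd_e, mul_assoc]
      exact sum_le_sum_of_subset_of_nonneg (Ico_subset_Ico (by omega) (by omega)) fun k hk _ =>
        mul_nonneg ((e.lg H h.inn).dz_nonneg k) (mul_nonneg (sq_nonneg _) (u0 k)))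
  have hs' := mem_Ico.1 hs
  have hi' := mem_Ico.1 hi
  have ss : (Me p P).s s ≤ (Me p P).s (p.Jp P) + 2 * P.γ := by
    have := tel (f := (Me p P).s) (i := p.Jp P) (w := p.v) U fun k a _ => (e.hi k a).le
    linarith [e.cl.sm hs'.2.le]
  have si : (Me p P).s p.J - 3 * P.γ ≤ (Me p P).s i := by
    have := tel (f := (Me p P).s) (i := j) (w := 3 / 2 * p.v) U fun k _ b => (e.lo k (by omega)).2
    rw [← ej] at this
    linarith [e.cl.sm hi'.1]
  have gam := e.gam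
  -- the sandwich
  have sw : ∀ k ∈ Ico p.J (p.Jp P), R85.ds (D p P m a E) (k + 1) * (D p P m a E).u 2 (k + 1) ≤
      36 * (R85.ds (D p P m a E) (k + 1) * pM (Me p P) m a k) +
        ((Me p P).s (k + 1) - (Me p P).s k) * (72 * ((D p P m a E).u 2 (i + 1) +
          (D p P m a E).u 2 (s + 1)) + 144 * (4 * P.γ) ^ 2) := fun k hk => by
    have hk' := mem_Ico.1 hk
    have q1 := q_mono e.cl (show i ≤ k by omega) (by omega)
    have q2 := q_lip e.cl (show i ≤ k by omega) (by omega)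
    have q3 := q_mono e.cl (show k ≤ s by omega) (by omega)
    have q4 := q_lip e.cl (show k ≤ s by omega) (by omega)
    have s1 := e.cl.sm hk'.1
    have s2 := e.cl.sm hk'.2.le
    have w := sand (M := Me p P) (m := m) (a := a) (show i ≤ k by omega) (show k ≤ s by omega)
      (c := (Me p P).q k) (ci := (Me p P).q i) (cs := (Me p P).q s) (d := 4 * P.γ)
      (abs_le.2 ⟨by linarith, by linarith⟩) (abs_le.2 ⟨by linarith, by linarith⟩)
    rw [← eu k (by omega) (by omega), ← eu i (by omega) (by omega),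
      ← eu s (by omega) (by omega)] at w
    have w1 := mul_le_mul_of_nonneg_left w (d0 k (by omega))
    have w2 := mul_le_mul_of_nonneg_right (db k (by omega) (by omega)).2
      (show 0 ≤ 72 * ((D p P m a E).u 2 (i + 1) + (D p P m a E).u 2 (s + 1)) +
        144 * (4 * P.γ) ^ 2 by have := u0 i; have := u0 s; positivity)
    linarith
  have S1 := sum_le_sum sw
  rw [sum_add_distrib, ← mul_sum, ← sum_mul, sum_Ico_sub _ i3] at S1
  have lg := legsE H e hC hA h.sp h.inn (cm := 3 * p.v) (by positivity)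
    (w := fun k => if k < p.Jp P then R85.ds (D p P m a E) (k + 1) else 0) fun k hk => by
      have := mem_Ioo.1 hk
      split_ifs with g
      exacts [⟨d0 k this.2, (db k (by omega) (by omega)).2.trans (ds3 H e k)⟩,
        ⟨le_rfl, by positivity⟩]
  have S2 : ∑ k ∈ Ico p.J (p.Jp P), R85.ds (D p P m a E) (k + 1) * pM (Me p P) m a k =
      ∑ k ∈ Ioo (p.J - 1) (Me p P).N,
        (if k < p.Jp P then R85.ds (D p P m a E) (k + 1) else 0) * pM (Me p P) m a k := by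
    simp only [ite_mul, zero_mul]
    rw [← sum_filter]
    congr 1
    ext k
    simp only [mem_Ico, mem_filter, mem_Ioo]
    omega
  rw [S2] at S1
  have R0 := R85.Rv0 (P := p.Jp P + 1) h.ok ((D p P m a E).u0 2)
  have I0 := h.ok.I0 (a := fun t => (D p P m a E).e t ^ 2 * (D p P m a E).u 2 t)
    fun t _ => mul_nonneg (sq_nonneg _) (CD.u0 _ _ _)
  rw [eR p.J, ← sum_Ico_consecutive _ i3 (show p.Jp P ≤ (Me p P).N by omega), ← eR]
  have b1 : 1000 * C ≤ kk p := H.le_of_lg (by positivity) K0 (by lg_norm; linarith)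
  have b2 : 1000 * (1000 * P.γ ^ 3) ≤ kk p * ηH p :=
    H.le_of_lg (by positivity) (by positivity) (by lg_norm; linarith)
  have b3 : 1000 * (((p.n : ℝ) ^ η) ^ 9 * (1 / (p.κ ^ 7 * m))) ≤ kk p * ηH p :=
    H.le_of_lg (by positivity) (by positivity) (by
      generalize (p.n : ℝ) ^ η = Λ at *
      lg_norm; linarith)
  rw [show 3 * p.v / (p.κ ^ 7 * p.v * m) = 3 * (1 / (p.κ ^ 7 * m)) by field_simp] at lg
  have ui := u0 i
  have us := u0 s
  have c1 : P.γ * (D p P m a E).u 2 (s + 1) ≤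
      2 * R85.Rv (D p P m a E) (p.Jp P + 1) ((D p P m a E).u 2) := by
    linarith [mul_le_mul_of_nonneg_right U1 us]
  have c2 : P.γ * (D p P m a E).u 2 (i + 1) ≤
      C * (D p P m a E).I (fun t => (D p P m a E).e t ^ 2 * (D p P m a E).u 2 t) := by
    have := mul_le_mul_of_nonneg_left bi C0.le
    rw [show C * (U * (p.v / C) * (D p P m a E).u 2 (i + 1)) =
      U * p.v * (D p P m a E).u 2 (i + 1) by field_simp] at this
    linarith [mul_le_mul_of_nonneg_right U1 ui]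
  have c3 := mul_le_mul_of_nonneg_right gam (show 0 ≤ 72 * ((D p P m a E).u 2 (i + 1) +
    (D p P m a E).u 2 (s + 1)) + 144 * (4 * P.γ) ^ 2 by positivity)
  have c4 := mul_le_mul_of_nonneg_right b1 I0
  have c5 := mul_le_mul_of_nonneg_right (show 1000 ≤ kk p by linarith) R0
  have c6 := mul_nonneg C0.le I0
  have c7 := mul_pos K0 h0
  linarith

end reg

theorem rvE (hβ : 1 < β) : RvE β := by
  unfold RvE EvA
  refine Sml.glueC hβ (enS hβ) Sml.triv fun C _ c0 C0 _ _ => ⟨8, fun A hA => ⟨1, one_pos,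
    fun c _ hc => ⟨c / 2, half_pos hc, fun η hη _ => ⟨C, fun p H e _ P m a E h => ?_⟩⟩⟩⟩
  exact rv_pl H (e H.r_le_ye P h.sp) H.K_le hA (by linarith) h

end Mv55

/-- **(MV)**, unconditional -/
theorem mvS {β : ℝ} (hβ : 1 < β) : MvS β := mvS_of hβ (pzS hβ) (Mv55.rvE hβ)

end Crest.Agent.T156.Alt.R2

end
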