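import Mathlib

/-!
Frame-free lemmas of the error table (docs/T156_75C.md): dyadic rectangles (triangular
truncation), Abel summation in "J-form", and the sup-primitive bound.
-/

namespace Crest.Agent.T156.Rect52
open Finset

/-- `C` is a symmetric kernel with `0 ≤ C ≤ diag D` as quadratic forms on `S`. -/
structure Dom (C : ℕ → ℕ → ℝ) (D : ℕ → ℝ) (S : Finset ℕ) : Prop where
  symm : ∀ i ∈ S, ∀ j ∈ S, C i j = C j i
  psd : ∀ u : ℕ → ℝ, 0 ≤ ∑ i ∈ S, ∑ j ∈ S, u i * u j * C i j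
  le : ∀ u : ℕ → ℝ, ∑ i ∈ S, ∑ j ∈ S, u i * u j * C i j ≤ ∑ i ∈ S, D i * u i ^ 2

theorem sum_ind {S A : Finset ℕ} (hA : A ⊆ S) (f : ℕ → ℝ) :
    ∑ i ∈ S, (if i ∈ A then f i else 0) = ∑ i ∈ A, f i := by
  rw [← Finset.sum_filter]
  congr 1
  ext i
  simp only [mem_filter]
  exact ⟨fun h => h.2, fun h => ⟨hA h, h⟩⟩


/-- Cauchy-Schwarz on the whole index set, in the form with a free parameter `t`. -/
theorem Dom.cs {C D S} (h : Dom C D S) (u v : ℕ → ℝ) {t : ℝ} (ht : 0 < t) :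
    |∑ i ∈ S, ∑ j ∈ S, u i * v j * C i j|
      ≤ (t * ∑ i ∈ S, D i * u i ^ 2 + (∑ j ∈ S, D j * v j ^ 2) / t) / 2 := by
  set B := ∑ i ∈ S, ∑ j ∈ S, u i * v j * C i j with hB
  have hB' : ∑ i ∈ S, ∑ j ∈ S, v i * u j * C i j = B := by
    rw [hB, Finset.sum_comm]
    refine Finset.sum_congr rfl fun i hi => Finset.sum_congr rfl fun j hj => ?_
    rw [h.symm j hj i hi]; ring
  have key : ∀ e : ℝ, ∑ i ∈ S, ∑ j ∈ S, (t * u i + e * v i) * (t * u j + e * v j) * C i j
      = t ^ 2 * (∑ i ∈ S, ∑ j ∈ S, u i * u j * C i j) + t * e * B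
        + t * e * (∑ i ∈ S, ∑ j ∈ S, v i * u j * C i j)
        + e ^ 2 * ∑ i ∈ S, ∑ j ∈ S, v i * v j * C i j := by
    intro e
    rw [hB]
    simp only [Finset.mul_sum, ← Finset.sum_add_distrib]
    refine Finset.sum_congr rfl fun i _ => Finset.sum_congr rfl fun j _ => ?_
    ring
  have h1 := h.psd fun i => t * u i + 1 * v i
  have h2 := h.psd fun i => t * u i + (-1) * v i
  rw [key, hB'] at h1 h2
  have hu := h.le u
  have hv := h.le v
  have hu' := mul_le_mul_of_nonneg_left hu (sq_nonneg t)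
  have e1 : (t * ∑ i ∈ S, D i * u i ^ 2 + (∑ j ∈ S, D j * v j ^ 2) / t) / 2
      = (t ^ 2 * ∑ i ∈ S, D i * u i ^ 2 + ∑ j ∈ S, D j * v j ^ 2) / (2 * t) := by
    field_simp
  rw [e1, abs_le]
  constructor
  · rw [← neg_div, div_le_iff₀ (by positivity)]; nlinarith
  · rw [le_div_iff₀ (by positivity)]; nlinarith

/-- One rectangle `A × B`. -/
theorem Dom.rect {C D S} (h : Dom C D S) {A B : Finset ℕ} (hA : A ⊆ S) (hB : B ⊆ S)
    (u v : ℕ → ℝ) {t : ℝ} (ht : 0 < t) :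
    |∑ i ∈ A, ∑ j ∈ B, u i * v j * C i j|
      ≤ (t * ∑ i ∈ A, D i * u i ^ 2 + (∑ j ∈ B, D j * v j ^ 2) / t) / 2 := by
  have h1 := h.cs (fun i => if i ∈ A then u i else 0) (fun j => if j ∈ B then v j else 0) ht
  have e1 : ∑ i ∈ S, ∑ j ∈ S, (if i ∈ A then u i else 0) * (if j ∈ B then v j else 0) * C i j
      = ∑ i ∈ A, ∑ j ∈ B, u i * v j * C i j := by
    rw [← sum_ind hA]
    refine Finset.sum_congr rfl fun i _ => ?_
    split_ifs
    · rw [← sum_ind hB]
      refine Finset.sum_congr rfl fun j _ => ?_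
      split_ifs <;> simp
    · simp
  have e2 : ∀ (A : Finset ℕ) (u : ℕ → ℝ), A ⊆ S →
      ∑ i ∈ S, D i * (if i ∈ A then u i else 0) ^ 2 = ∑ i ∈ A, D i * u i ^ 2 := by
    intro A u hA
    rw [← sum_ind hA]
    refine Finset.sum_congr rfl fun i _ => ?_
    split_ifs <;> simp
  rwa [e1, e2 A u hA, e2 B v hB] at h1

/-- From the `t`-form to the square-root form. -/
theorem le_sqrt_of_forall {x U V : ℝ} (hU : 0 ≤ U) (hV : 0 ≤ V)
    (h : ∀ t : ℝ, 0 < t → x ≤ (t * U + V / t) / 2) : x ≤ √U * √V := by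
  refine le_of_forall_pos_le_add fun e he => ?_
  -- t = (sqrt V + d)/(sqrt U + d)
  set a := √U with ha
  set b := √V with hb
  have ha0 : 0 ≤ a := Real.sqrt_nonneg _
  have hb0 : 0 ≤ b := Real.sqrt_nonneg _
  have hU' : U = a ^ 2 := (Real.sq_sqrt hU).symm
  have hV' : V = b ^ 2 := (Real.sq_sqrt hV).symm
  set d := e / (a + b + 1) with hd
  have hd0 : 0 < d := by positivity
  have hde : d * (a + b) ≤ e := by
    rw [hd, div_mul_eq_mul_div, div_le_iff₀ (by positivity)]; nlinarith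
  have h1 := h ((b + d) / (a + d)) (by positivity)
  have h2 : (b + d) / (a + d) * U ≤ (b + d) * a := by
    rw [div_mul_eq_mul_div, div_le_iff₀ (by positivity), hU']
    have : 0 ≤ (b + d) * a * d := by positivity
    nlinarith
  have h3 : V / ((b + d) / (a + d)) ≤ (a + d) * b := by
    rw [div_div_eq_mul_div, div_le_iff₀ (by positivity), hV']
    have : 0 ≤ (a + d) * b * d := by positivity
    nlinarith
  nlinarith


/-- Splitting the triangle `{a ≤ i < j < b}` at `m`. -/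
theorem tri_split (f : ℕ → ℕ → ℝ) {a m b : ℕ} (h1 : a ≤ m) (h2 : m ≤ b) :
    ∑ j ∈ Ico a b, ∑ i ∈ Ico a j, f i j
      = ∑ j ∈ Ico a m, ∑ i ∈ Ico a j, f i j + ∑ j ∈ Ico m b, ∑ i ∈ Ico m j, f i j
        + ∑ i ∈ Ico a m, ∑ j ∈ Ico m b, f i j := by
  rw [← Finset.sum_Ico_consecutive _ h1 h2, add_assoc]
  congr 1
  rw [Finset.sum_comm (s := Ico a m), ← Finset.sum_add_distrib]
  refine Finset.sum_congr rfl fun j hj => ?_
  rw [← Finset.sum_Ico_consecutive _ h1 (mem_Ico.1 hj).1, add_comm]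



/-- A positive linear functional on a class `P` of functions (the site expectation). -/
structure PosE {Ω : Type*} (P : (Ω → ℝ) → Prop) (E : (Ω → ℝ) → ℝ) : Prop where
  zero : P fun _ => 0
  add : ∀ f g, P f → P g → P fun x => f x + g x
  smul : ∀ (c : ℝ) f, P f → P fun x => c * f x
  E_add : ∀ f g, P f → P g → E (fun x => f x + g x) = E f + E g
  E_smul : ∀ (c : ℝ) f, P f → E (fun x => c * f x) = c * E f
  mono : ∀ f g, P f → P g → (∀ x, f x ≤ g x) → E f ≤ E g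

theorem PosE.sum {Ω : Type*} {P : (Ω → ℝ) → Prop} {E} (hE : PosE P E) {ι : Type*}
    (s : Finset ι) (f : ι → Ω → ℝ) (hf : ∀ i ∈ s, P (f i)) :
    P (fun x => ∑ i ∈ s, f i x) ∧ E (fun x => ∑ i ∈ s, f i x) = ∑ i ∈ s, E (f i) := by
  classical
  induction s using Finset.induction_on with
  | empty =>
    refine ⟨by simpa using hE.zero, ?_⟩
    have := hE.E_smul 0 _ hE.zero
    simpa using this
  | insert i s hi ih =>
    obtain ⟨h1, h2⟩ := ih fun j hj => hf j (mem_insert_of_mem hj)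
    have h0 := hf i (mem_insert_self _ _)
    simp only [Finset.sum_insert hi]
    exact ⟨hE.add _ _ h0 h1, by rw [hE.E_add _ _ h0 h1, h2]⟩




/-! ### Abel summation (J-form) -/

/-- Abel summation against the upper primitive `F x = ∑_{x ≤ j < b} g j`. -/
theorem abel_id (φ g : ℕ → ℝ) (b : ℕ) : ∀ d a : ℕ, a + d = b →
    ∑ j ∈ Ico a b, φ j * g j
      = φ a * ∑ j ∈ Ico a b, g j
        + ∑ j ∈ Ico a (b - 1), (φ (j + 1) - φ j) * ∑ i ∈ Ico (j + 1) b, g i := by
  intro d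
  induction d with
  | zero => intro a ha; subst ha; simp
  | succ d ih =>
    intro a ha
    have hab : a < b := by omega
    have h1 := ih (a + 1) (by omega)
    rw [Finset.sum_eq_sum_Ico_succ_bot hab, Finset.sum_eq_sum_Ico_succ_bot hab g, h1]
    by_cases hb : a < b - 1
    · rw [Finset.sum_eq_sum_Ico_succ_bot hb]; ring
    · have e1 : Ico (a + 1) b = ∅ := Finset.Ico_eq_empty (by omega)
      have e2 : Ico a (b - 1) = ∅ := Finset.Ico_eq_empty (by omega)
      have e3 : Ico (a + 1) (b - 1) = ∅ := Finset.Ico_eq_empty (by omega)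
      rw [e1, e2, e3]; simp



/-! ### Sup of a primitive from its weighted `L²` norm -/


theorem wcs (dm F r : ℕ → ℝ) {A S : Finset ℕ} (hA : A ⊆ S) (hdm : ∀ j ∈ S, 0 ≤ dm j) :
    |∑ j ∈ A, F j * (dm j * r j)|
      ≤ √(∑ j ∈ S, dm j * F j ^ 2) * √(∑ j ∈ S, dm j * r j ^ 2) := by
  refine le_sqrt_of_forall
    (Finset.sum_nonneg fun i hi => mul_nonneg (hdm i hi) (sq_nonneg _))
    (Finset.sum_nonneg fun i hi => mul_nonneg (hdm i hi) (sq_nonneg _)) fun t ht => ?_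
  refine (Finset.abs_sum_le_sum_abs _ _).trans ?_
  refine (Finset.sum_le_sum_of_subset_of_nonneg hA fun _ _ _ => abs_nonneg _).trans ?_
  rw [Finset.mul_sum, Finset.sum_div, ← Finset.sum_add_distrib, Finset.sum_div]
  refine Finset.sum_le_sum fun j hj => ?_
  have h0 := hdm j hj
  have e : (t * (dm j * F j ^ 2) + dm j * r j ^ 2 / t) / 2
      = dm j * ((t ^ 2 * |F j| ^ 2 + |r j| ^ 2) / (2 * t)) := by
    rw [sq_abs, sq_abs]; field_simp
  rw [e, abs_mul, abs_mul, abs_of_nonneg h0,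
    show |F j| * (dm j * |r j|) = dm j * (|F j| * |r j|) by ring]
  refine mul_le_mul_of_nonneg_left ?_ h0
  rw [le_div_iff₀ (by positivity)]
  nlinarith [sq_nonneg (t * |F j| - |r j|)]



end Crest.Agent.T156.Rect52
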