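import Crest.Agent.T156.Wr_5
import Crest.Agent.T156.Lad_79
import Mathlib

-- ▼ part T156/SrD_79
section

/-!
# Row 156, soft recursion, step (d): fluctuations from the `L²` location (helper79)

No sup location: the rises of the monotone mean profile are paid by a small multiple of
`Φ = ∑ dm (ρ - q)²`.
-/

set_option autoImplicit false
set_option linter.unusedSectionVars false

noncomputable section

namespace Crest.Agent.T156.Cas.SrD79

open MeasureTheory Real Set Filter Topology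
open Crest.Agent.T157.E Crest.Agent.T157.Casc Crest.Agent.T157.SL
open Crest.Agent.T156.Cas.Sy41 Crest.Agent.T156.Cas.Q33 Crest.Agent.T156.Cas.Wr5

/-! ### frame-free -/

section free
variable {ρ q d : ℕ → ℝ} {g δ Φ : ℝ}

theorem inc_le {a b : ℕ} (hq : ∀ k, a ≤ k → k < b → q (k + 1) - q k ≤ g) {i j : ℕ} (h1 : a ≤ i)
    (h : i ≤ j) (h2 : j ≤ b) : q j - q i ≤ g * ((j - i : ℕ) : ℝ) := by
  rw [← Finset.sum_Ico_sub q h]
  refine (Finset.sum_le_card_nsmul _ _ g fun k hk => ?_).trans (le_of_eq (by simp [mul_comm]))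
  have := Finset.mem_Ico.1 hk
  exact hq k (by omega) (by omega)

theorem le_sqrt_of {S : Finset ℕ} {U : ℕ} (hU : 1 ≤ U) (hS : S.card = U) (hδ : 0 < δ)
    (hd : ∀ k ∈ S, δ ≤ d k) {F : ℕ → ℝ} {D : ℝ} (hD : ∀ k ∈ S, D ≤ |F k|)
    (hΦ : ∑ k ∈ S, d k * F k ^ 2 ≤ Φ) : D ≤ √(Φ / (U * δ)) := by
  rcases le_total D 0 with h | h
  · exact h.trans (sqrt_nonneg _)
  have u0 : (0 : ℝ) < U := by exact_mod_cast hU
  refine le_sqrt_of_sq_le ((le_div_iff₀ (by positivity)).2 (le_trans ?_ hΦ))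
  have := Finset.card_nsmul_le_sum S (fun k => d k * F k ^ 2) (δ * D ^ 2) fun k hk =>
    mul_le_mul (hd k hk) (by rw [← sq_abs (F k)]; exact pow_le_pow_left₀ h (hD k hk) 2)
      (sq_nonneg _) (hδ.le.trans (hd k hk))
  rw [hS, nsmul_eq_mul] at this
  linarith

/-- upper bound of a monotone profile from the window above -/
theorem top_le (hρ : Monotone ρ) {i U : ℕ} (hU : 1 ≤ U) (hg : 0 ≤ g) (hδ : 0 < δ)
    (hq : ∀ k, i ≤ k → k < i + U → q (k + 1) - q k ≤ g)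
    (hd : ∀ k ∈ Finset.Ico i (i + U), δ ≤ d k)
    (hΦ : ∑ k ∈ Finset.Ico i (i + U), d k * (ρ k - q k) ^ 2 ≤ Φ) :
    ρ i ≤ q i + g * U + √(Φ / (U * δ)) := by
  have := le_sqrt_of (D := ρ i - q i - g * U) hU (by simp) hδ hd (fun k hk => by
    have hk := Finset.mem_Ico.1 hk
    have h1 := inc_le hq le_rfl hk.1 hk.2.le
    have h2 : g * ((k - i : ℕ) : ℝ) ≤ g * U :=
      mul_le_mul_of_nonneg_left (by exact_mod_cast (by omega : k - i ≤ U)) hg
    linarith [hρ hk.1, le_abs_self (ρ k - q k)]) hΦ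
  linarith

/-- lower bound of a monotone profile from the window below -/
theorem bot_le (hρ : Monotone ρ) {i U : ℕ} (hU : 1 ≤ U) (hg : 0 ≤ g) (hδ : 0 < δ)
    (hq : ∀ k, i ≤ k → k < i + U → q (k + 1) - q k ≤ g)
    (hd : ∀ k ∈ Finset.Ico i (i + U), δ ≤ d k)
    (hΦ : ∑ k ∈ Finset.Ico i (i + U), d k * (ρ k - q k) ^ 2 ≤ Φ) :
    q (i + U) - g * U - √(Φ / (U * δ)) ≤ ρ (i + U) := by
  have := le_sqrt_of (D := q (i + U) - g * U - ρ (i + U)) hU (by simp) hδ hd (fun k hk => by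
    have hk := Finset.mem_Ico.1 hk
    have h1 := inc_le hq hk.1 hk.2.le le_rfl
    have h2 : g * ((i + U - k : ℕ) : ℝ) ≤ g * U :=
      mul_le_mul_of_nonneg_left (by exact_mod_cast (by omega : i + U - k ≤ U)) hg
    linarith [hρ hk.2.le, neg_abs_le (ρ k - q k)]) hΦ
  linarith

theorem sum_blocks (F : ℕ → ℝ) (c U : ℕ) : ∀ M : ℕ,
    ∑ m ∈ Finset.range M, ∑ k ∈ Finset.Ico (c + m * U) (c + m * U + U), F k =
      ∑ k ∈ Finset.Ico c (c + M * U), F k
  | 0 => by simp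
  | M + 1 => by
    rw [Finset.sum_range_succ, sum_blocks F c U M, Finset.sum_Ico_consecutive _ (by omega) (by omega),
      Nat.succ_mul, add_assoc]

/-- one superblock -/
theorem rise_one (hρ : Monotone ρ) {b U u : ℕ} (hU : 1 ≤ U) (hu : u ≤ U) (hg : 0 ≤ g) (hδ : 0 < δ)
    (hq : ∀ k, b ≤ k → k < b + 4 * U → q (k + 1) - q k ≤ g)
    (hd : ∀ k ∈ Finset.Ico b (b + 4 * U), δ ≤ d k) :
    ∑ j ∈ Finset.Ico (b + U) (b + U + U), (ρ (j + u) - ρ j) ^ 2 ≤ u * (48 * (g * U) ^ 2 +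
      3 * (∑ k ∈ Finset.Ico b (b + U), d k * (ρ k - q k) ^ 2) / (U * δ) +
      3 * (∑ k ∈ Finset.Ico (b + 3 * U) (b + 3 * U + U), d k * (ρ k - q k) ^ 2) / (U * δ)) := by
  have u0 : (0 : ℝ) < U := by exact_mod_cast hU
  have p : ∀ c, b ≤ c → c + U ≤ b + 4 * U →
      0 ≤ (∑ k ∈ Finset.Ico c (c + U), d k * (ρ k - q k) ^ 2) / (U * δ) := fun c h1 h2 =>
    div_nonneg (Finset.sum_nonneg fun k hk => mul_nonneg (hδ.le.trans (hd k (by
      rw [Finset.mem_Ico] at hk ⊢; omega))) (sq_nonneg _)) (by positivity)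
  have h1 := bot_le hρ (i := b) hU hg hδ (fun k h h' => hq k h (by omega))
    (fun k hk => hd k (by rw [Finset.mem_Ico] at hk ⊢; omega)) le_rfl
  have h2 := top_le hρ (i := b + 3 * U) hU hg hδ (fun k h h' => hq k (by omega) (by omega))
    (fun k hk => hd k (by rw [Finset.mem_Ico] at hk ⊢; omega)) le_rfl
  have h3 := inc_le hq (i := b + U) (j := b + 3 * U) (by omega) (by omega) (by omega)
  rw [show b + 3 * U - (b + U) = 2 * U by omega] at h3
  push_cast at h3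
  have e1 := sq_sqrt (p b le_rfl (by omega))
  have e2 := sq_sqrt (p (b + 3 * U) (by omega) (by omega))
  set A := √((∑ k ∈ Finset.Ico b (b + U), d k * (ρ k - q k) ^ 2) / (U * δ))
  set B := √((∑ k ∈ Finset.Ico (b + 3 * U) (b + 3 * U + U), d k * (ρ k - q k) ^ 2) / (U * δ))
  set R := ρ (b + 3 * U) - ρ (b + U) with hR
  have R0 : 0 ≤ R := sub_nonneg.2 (hρ (by omega))
  have R1 : R ≤ 4 * (g * U) + A + B := by linarith
  have s1 : ∑ j ∈ Finset.Ico (b + U) (b + U + U), (ρ (j + u) - ρ j) ≤ u * R := by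
    have := shift_sum_le hρ (u' := 0) (u := u) (lo := b + U + u) (hi := b + U + U + u)
      (Nat.zero_le _) (by omega) (by omega)
    rw [← Finset.sum_Ico_add' (fun J => ρ (J - 0) - ρ (J - u)) (b + U) (b + U + U) u] at this
    simp only [Nat.sub_zero, Nat.add_sub_cancel] at this
    exact this.trans (mul_le_mul_of_nonneg_left (sub_le_sub_right (hρ (by omega)) _)
      (Nat.cast_nonneg _))
  have s2 : ∑ j ∈ Finset.Ico (b + U) (b + U + U), (ρ (j + u) - ρ j) ^ 2 ≤ R * (u * R) := by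
    refine le_trans ?_ (mul_le_mul_of_nonneg_left s1 R0)
    rw [Finset.mul_sum]
    refine Finset.sum_le_sum fun j hj => ?_
    have hj := Finset.mem_Ico.1 hj
    rw [sq]
    exact mul_le_mul_of_nonneg_right (sub_le_sub (hρ (by omega)) (hρ hj.1))
      (sub_nonneg.2 (hρ (Nat.le_add_right j u)))
  have s3 : R ^ 2 ≤ 48 * (g * U) ^ 2 + 3 * A ^ 2 + 3 * B ^ 2 := by
    nlinarith [pow_le_pow_left₀ R0 R1 2, sq_nonneg (4 * (g * U) - A), sq_nonneg (4 * (g * U) - B),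
      sq_nonneg (A - B)]
  rw [mul_div_assoc, mul_div_assoc, ← e1, ← e2]
  nlinarith [mul_le_mul_of_nonneg_left s3 (Nat.cast_nonneg (α := ℝ) u)]

/-- **squared rises over windows of `u` nodes**, superblocks of `U` nodes -/
theorem rise_sq (hρ : Monotone ρ) {lo hi lo' hi' U u : ℕ} (hU : 1 ≤ U) (hu : u ≤ U)
    (h1 : lo' + U ≤ lo) (hl : lo ≤ hi) (h2 : hi + 3 * U ≤ hi') (hg : 0 ≤ g) (hδ : 0 < δ)
    (hq : ∀ k, lo' ≤ k → k < hi' → q (k + 1) - q k ≤ g)
    (hd : ∀ k ∈ Finset.Ico lo' hi', δ ≤ d k)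
    (hΦ : ∑ k ∈ Finset.Ico lo' hi', d k * (ρ k - q k) ^ 2 ≤ Φ) :
    ∑ j ∈ Finset.Ico lo hi, (ρ (j + u) - ρ j) ^ 2 ≤
      u * (48 * (((hi - lo + U : ℕ) : ℝ) * U * g ^ 2) + 6 * Φ / (U * δ)) := by
  have u0 : (0 : ℝ) < U := by exact_mod_cast hU
  obtain ⟨c, rfl⟩ : ∃ c, lo = c + U := ⟨lo - U, by omega⟩
  set M := (hi - (c + U)) / U + 1 with hM
  have m1 : hi - (c + U) < M * U := by
    rw [hM, mul_comm]; exact Nat.lt_mul_div_succ _ hU
  have m2 : M * U ≤ hi - (c + U) + U := by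
    rw [hM, Nat.succ_mul]; exact Nat.add_le_add_right (Nat.div_mul_le_self _ _) _
  have m3 : ∀ m ∈ Finset.range M, m * U + U ≤ M * U := fun m hm =>
    (Nat.succ_mul m U).ge.trans (Nat.mul_le_mul_right U (Finset.mem_range.1 hm))
  have p : ∀ a, lo' ≤ a → a + M * U ≤ hi' →
      ∑ k ∈ Finset.Ico a (a + M * U), d k * (ρ k - q k) ^ 2 ≤ Φ := fun a h h' =>
    (Finset.sum_le_sum_of_subset_of_nonneg (Finset.Ico_subset_Ico h h') fun k hk _ =>
      mul_nonneg (hδ.le.trans (hd k hk)) (sq_nonneg _)).trans hΦ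
  refine (Finset.sum_le_sum_of_subset_of_nonneg (Finset.Ico_subset_Ico le_rfl
    (by omega : hi ≤ c + U + M * U)) fun _ _ _ => sq_nonneg _).trans ?_
  rw [← sum_blocks]
  refine (Finset.sum_le_sum fun m hm => ?_).trans
    (?_ : ∑ m ∈ Finset.range M, u * (48 * (g * U) ^ 2 +
      3 * (∑ k ∈ Finset.Ico (c + m * U) (c + m * U + U), d k * (ρ k - q k) ^ 2) / (U * δ) +
      3 * (∑ k ∈ Finset.Ico (c + 3 * U + m * U) (c + 3 * U + m * U + U),
        d k * (ρ k - q k) ^ 2) / (U * δ)) ≤ _)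
  · have h3 := m3 m hm
    have := rise_one hρ (b := c + m * U) (d := d) hU hu hg hδ (fun k h h' => hq k (by omega) (by omega))
      fun k hk => hd k (by rw [Finset.mem_Ico] at hk ⊢; omega)
    rw [add_right_comm c U (m * U), add_right_comm c (3 * U) (m * U)]
    exact this
  · rw [← Finset.mul_sum, Finset.sum_add_distrib, Finset.sum_add_distrib, ← Finset.sum_div,
      ← Finset.sum_div, ← Finset.mul_sum, ← Finset.mul_sum, ← Finset.mul_sum, sum_blocks, sum_blocks]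
    refine mul_le_mul_of_nonneg_left ?_ (Nat.cast_nonneg _)
    have a1 := div_le_div_of_nonneg_right (mul_le_mul_of_nonneg_left (p c (by omega) (by omega))
      (by norm_num : (0 : ℝ) ≤ 3)) (by positivity : (0 : ℝ) ≤ U * δ)
    have a2 := div_le_div_of_nonneg_right (mul_le_mul_of_nonneg_left
      (p (c + 3 * U) (by omega) (by omega)) (by norm_num : (0 : ℝ) ≤ 3))
      (by positivity : (0 : ℝ) ≤ U * δ)
    have a3 : (M : ℝ) * U ≤ ((hi - (c + U) + U : ℕ) : ℝ) := by exact_mod_cast m2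
    have a4 := mul_le_mul_of_nonneg_right a3 (by positivity : (0 : ℝ) ≤ U * g ^ 2)
    have e : 6 * Φ / (U * δ) = 3 * Φ / (U * δ) + 3 * Φ / (U * δ) := by ring
    rw [Finset.sum_const, Finset.card_range, nsmul_eq_mul, e]
    nlinarith

end free

/-! ### on a cascade -/

variable {Ω : Type} [Fintype Ω] {w : Ω → ℝ} {L : List (Lv Ω)} {l₀ : Lv Ω}

/-- `∑_S dm (ρ - q)²` -/
def Ph (w : Ω → ℝ) (L : List (Lv Ω)) (l₀ : Lv Ω) (h : Ω → ℝ) (q : ℕ → ℝ) (S : Finset ℕ) : ℝ :=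
  ∑ k ∈ S, dm L 0 k * (rho w L l₀ h k - q k) ^ 2



/-- `E R²` increases with the split level -/
theorem cov_sq_mono (hw : Wt w) (L : List (Lv Ω)) (l₀ : Lv Ω) (h : Ω → ℝ) {j j' : ℕ} (e : j ≤ j')
    (hj : j' ≤ L.length) :
    pi2 w L j (fun x y => l₀.cov x y ^ 2) h ≤ pi2 w L j' (fun x y => l₀.cov x y ^ 2) h := by
  have key : ∀ j ≤ L.length, pi2 w L j (fun x y => l₀.cov x y ^ 2) h = ∑ i, ∑ k,
      Lad79.Nf w L 0 j h (fun x => l₀.A x i * l₀.A x k) fun x => l₀.A x i * l₀.A x k := by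
    intro j hj
    have eP := fun f => Hess87.eg_Pf hw (L.drop j) f
    simp only [Lad79.Nf_le L hj, List.drop_zero, Nat.sub_zero]
    rw [← Finset.sum_congr rfl fun i _ => congrFun
        (node_sum hw _ (fun k _ => (eP _).mul (eP _)) L j) h,
      ← congrFun (node_sum hw _ (fun i _ => Eg.sum _ fun k _ => (eP _).mul (eP _)) L j) h]
    refine congrArg (fun F => node w L j F h) (funext fun z => ?_)
    simp only [Pf, ← qf_mul, ← qf_sum]
    refine congrArg _ (funext fun x => funext fun y => ?_)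
    simp only [Lv.cov, sq, Finset.sum_mul_sum]
    exact Finset.sum_congr rfl fun _ _ => Finset.sum_congr rfl fun _ _ => by ring
  rw [key j (e.trans hj), key j' hj]
  exact Finset.sum_le_sum fun i _ => Finset.sum_le_sum fun k _ =>
    Lad79.Nf_mono hw L (Nat.zero_le _) e h _

/-- **low levels**: `E R²` below a window is read on the window -/
theorem low_le (hw : Wt w) (hL : Mono 0 L) (l₀ : Lv Ω) (h : Ω → ℝ) {j : ℕ} {S : Finset ℕ}
    (hS : ∀ k ∈ S, j ≤ k ∧ k ≤ L.length) {M top X : ℝ} (hM : 0 < M) (h1 : M ≤ ∑ k ∈ S, dm L 0 k)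
    {q : ℕ → ℝ} (hq : ∀ k ∈ S, q k ^ 2 ≤ top ^ 2)
    (hX : ∑ k ∈ S, dm L 0 k * pi2 w L k (fun x y => (l₀.cov x y - q k) ^ 2) h ≤ X) :
    pi2 w L j (fun x y => l₀.cov x y ^ 2) h ≤ 2 * top ^ 2 + 2 * X / M := by
  set E := pi2 w L j (fun x y => l₀.cov x y ^ 2) h with hE
  have h2 : (∑ k ∈ S, dm L 0 k) * (E - 2 * top ^ 2) ≤ 2 * X := by
    refine le_trans ?_ (mul_le_mul_of_nonneg_left hX zero_le_two)
    rw [Finset.sum_mul, Finset.mul_sum]
    refine Finset.sum_le_sum fun k hk => ?_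
    have a1 := cov_sq_mono hw L l₀ h (hS k hk).1 (hS k hk).2
    have a2 := pi2_le2 hw L k (K := fun x y => l₀.cov x y ^ 2) (a := 2) (b := 2 * top ^ 2)
      (A := fun x y => (l₀.cov x y - q k) ^ 2) (B := fun _ _ => 1) (fun x y => by
        nlinarith [hq k hk, sq_nonneg (l₀.cov x y - 2 * q k)]) h
    have a3 : pi2 w L k (fun _ _ => (1 : ℝ)) h = 1 := by
      simp only [pi2, qf, mul_one, ← Finset.mul_sum, sum_P hw, node_const hw]
    rw [a3] at a2
    nlinarith [mul_le_mul_of_nonneg_left (a1.trans a2) (dm_nonneg hL k)]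
  have X0 : 0 ≤ X := (Finset.sum_nonneg fun k _ => mul_nonneg (dm_nonneg hL k)
    (node_nonneg w (fun z => Finset.sum_nonneg fun x _ => Finset.sum_nonneg fun y _ =>
      mul_nonneg (mul_nonneg (P_nonneg hw _ z x) (P_nonneg hw _ z y)) (sq_nonneg _)) L k h)).trans hX
  rw [← sub_le_iff_le_add', le_div_iff₀ hM]
  rcases le_total 0 (E - 2 * top ^ 2) with h3 | h3
  · nlinarith [mul_le_mul_of_nonneg_right h1 h3]
  · nlinarith [mul_nonpos_of_nonpos_of_nonneg h3 hM.le]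

section win
variable (hw : Wt w) (hL : Mono 0 L) (h : Ω → ℝ) {T : Set (Equiv.Perm Ω)}
  (hT : ∀ τ ∈ T, Sym w L h τ) (htr : ∀ x y, w x ≠ 0 → w y ≠ 0 → ∃ τ ∈ T, τ x = y)
  (h₀ : ∀ τ ∈ T, ∀ x y, l₀.cov (τ x) (τ y) = l₀.cov x y)
include hw hL hT htr h₀

/-- sliding windows, the rises kept -/
theorem var_E {lo hi lo' hi' u : ℕ} (hu : 1 ≤ u) (h1 : 1 ≤ lo') (h2 : lo' + u ≤ lo)
    (h3 : hi + u ≤ hi') (h4 : hi' ≤ L.length + 1) {δ κ A x : ℝ} (hδ : 0 < δ)
    (hd : ∀ k ∈ Finset.Ico lo' hi', δ ≤ dm L 0 k) (hx : 0 < x)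
    (hx' : ∀ k ∈ Finset.Ico lo' hi', x ≤ ex L k) (hA : al w L l₀ h (Finset.Ico lo' hi') ≤ A)
    {c : ℕ → ℝ} (hκ : 0 ≤ κ) (hc : ∀ j ∈ Finset.Ico lo hi, 0 ≤ c j ∧ c j ≤ κ) :
    ∑ j ∈ Finset.Ico lo hi, c j * vr w L l₀ h j ≤ κ * (16 * A / (u * δ ^ 2) + 16 * A / (x * δ) +
      2 * ∑ j ∈ Finset.Ico lo hi, ((rho w L l₀ h (j + u) - rho w L l₀ h j) ^ 2 +
        (rho w L l₀ h j - rho w L l₀ h (j - u)) ^ 2)) ∧
    ∑ j ∈ Finset.Ico lo hi, c j * vv w L l₀ h j ≤ κ * (A / (x * δ)) := by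
  have hρ := rho_mono hw L l₀ h
  have u0 : (0 : ℝ) < u := by exact_mod_cast hu
  have sU : ∀ j ∈ Finset.Ico lo hi, Finset.Ico j (j + u) ⊆ Finset.Ico lo' hi' := fun j hj => by
    have := Finset.mem_Ico.1 hj
    exact Finset.Ico_subset_Ico (by omega) (by omega)
  have sD : ∀ j ∈ Finset.Ico lo hi, Finset.Ico (j + 1 - u) (j + 1) ⊆ Finset.Ico lo' hi' :=
    fun j hj => by
      have := Finset.mem_Ico.1 hj
      exact Finset.Ico_subset_Ico (by omega) (by omega)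
  have ms : ∀ S ⊆ Finset.Ico lo' hi', S.card = u → u * δ ≤ ∑ k ∈ S, dm L 0 k := fun S hS e => by
    have := Finset.card_nsmul_le_sum S (dm L 0) δ fun k hk => hd k (hS hk)
    rwa [e, nsmul_eq_mul] at this
  have key := sq_sys hw hL h hT htr h₀ (S := Finset.Ico lo hi) (E := Finset.Ico lo' hi')
    (U := fun j => Finset.Ico j (j + u)) (D := fun j => Finset.Ico (j + 1 - u) (j + 1))
    (fun k hk => by have := Finset.mem_Ico.1 hk; omega)
    (fun j hj => ⟨sU j hj, fun k hk => (Finset.mem_Ico.1 hk).1⟩)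
    (fun j hj => ⟨sD j hj, fun k hk => by have := Finset.mem_Ico.1 hk; omega⟩)
    (M := u * δ) (by positivity) (fun j hj => ms _ (sU j hj) (by simp))
    (fun j hj => ms _ (sD j hj) (by have := Finset.mem_Ico.1 hj; rw [Nat.card_Ico]; omega)) (u := u)
    (fun k _ => (Finset.card_le_card (t := Finset.Ico (k + 1 - u) (k + 1)) fun j hj => by
      have := Finset.mem_Ico.1 (Finset.mem_filter.1 hj).2
      exact Finset.mem_Ico.2 (by omega)).trans (by rw [Nat.card_Ico]; omega))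
    (fun k _ => (Finset.card_le_card (t := Finset.Ico k (k + u)) fun j hj => by
      have := Finset.mem_Ico.1 (Finset.mem_filter.1 hj).2
      exact Finset.mem_Ico.2 (by omega)).trans (by rw [Nat.card_Ico]; omega))
    (q := rho w L l₀ h) (e := fun j => rho w L l₀ h (j + u) - rho w L l₀ h j)
    (e' := fun j => rho w L l₀ h j - rho w L l₀ h (j - u)) (c := c)
    (fun j _ k hk => by
      have := Finset.mem_Ico.1 hk
      rw [abs_of_nonneg (sub_nonneg.2 (hρ this.1))]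
      exact sub_le_sub_right (hρ this.2.le) _)
    (fun j _ k hk => by
      have := Finset.mem_Ico.1 hk
      rw [abs_sub_comm, abs_of_nonneg (sub_nonneg.2 (hρ (by omega)))]
      exact sub_le_sub_left (hρ (by omega)) _) hκ hc
  have s3 := wsum_le (F := fun j => (rho w L l₀ h (j + u) - rho w L l₀ h j) ^ 2 +
      (rho w L l₀ h j - rho w L l₀ h (j - u)) ^ 2) (fun j hj => (hc j hj).2) fun j _ => by positivity
  have v1 : vl w L l₀ h (Finset.Ico lo' hi') ≤ A / x :=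
    (vl_le hw hL l₀ h hx hx').trans (div_le_div_of_nonneg_right hA hx.le)
  have s4 : ∑ j ∈ Finset.Ico lo hi, c j * vv w L l₀ h j ≤ κ * (A / x / δ) := by
    refine (wsum_le (fun j hj => (hc j hj).2) fun j _ => vv_nonneg hw l₀ h L j).trans
      (mul_le_mul_of_nonneg_left ?_ hκ)
    rw [le_div_iff₀ hδ, Finset.sum_mul]
    refine le_trans ?_ v1
    have sS : Finset.Ico lo hi ⊆ Finset.Ico lo' hi' := Finset.Ico_subset_Ico (by omega) (by omega)
    refine (Finset.sum_le_sum fun j hj => ?_).trans (Finset.sum_le_sum_of_subset_of_nonneg sS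
      fun k _ _ => mul_nonneg (dm_nonneg hL k) (vv_nonneg hw l₀ h L k))
    rw [mul_comm]
    exact mul_le_mul_of_nonneg_right (hd j (sS hj)) (vv_nonneg hw l₀ h L j)
  have s5 : κ * u * (16 * (al w L l₀ h (Finset.Ico lo' hi') / (u * δ) ^ 2) +
      8 * (vl w L l₀ h (Finset.Ico lo' hi') / (u * δ))) ≤
      κ * u * (16 * (A / (u * δ) ^ 2) + 8 * (A / x / (u * δ))) := by gcongr
  have e : κ * u * (16 * (A / (u * δ) ^ 2) + 8 * (A / x / (u * δ))) + 8 * (κ * (A / x / δ)) =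
      κ * (16 * A / (u * δ ^ 2) + 16 * A / (x * δ)) := by
    field_simp
    ring
  refine ⟨?_, s4.trans_eq (by rw [div_div])⟩
  simp only [vr]
  linarith

/-- the bound of step (d): `N` nodes, windows `u`, superblocks `U` -/
def vb (N u U : ℕ) (δ A x g Φ : ℝ) : ℝ := 16 * A / (u * δ ^ 2) + 16 * A / (x * δ) +
  4 * u * (48 * (((N + U : ℕ) : ℝ) * U * g ^ 2) + 6 * Φ / (U * δ))

/-- **(d)**: variance of the node overlaps from the `L²` location -/
theorem var_phi {lo hi lo' hi' u U : ℕ} (hu : 1 ≤ u) (hU : u ≤ U) (h1 : 1 ≤ lo')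
    (h2 : lo' + 2 * U ≤ lo) (hl : lo ≤ hi) (h3 : hi + 3 * U ≤ hi') (h4 : hi' ≤ L.length + 1)
    {δ κ A x g Φ : ℝ} (hδ : 0 < δ) (hd : ∀ k ∈ Finset.Ico lo' hi', δ ≤ dm L 0 k) (hx : 0 < x)
    (hx' : ∀ k ∈ Finset.Ico lo' hi', x ≤ ex L k) (hA : al w L l₀ h (Finset.Ico lo' hi') ≤ A)
    {q : ℕ → ℝ} (hg : 0 ≤ g) (hq : ∀ k, lo' ≤ k → k < hi' → q (k + 1) - q k ≤ g)
    (hΦ : Ph w L l₀ h q (Finset.Ico lo' hi') ≤ Φ)
    {c : ℕ → ℝ} (hκ : 0 ≤ κ) (hc : ∀ j ∈ Finset.Ico lo hi, 0 ≤ c j ∧ c j ≤ κ) :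
    ∑ j ∈ Finset.Ico lo hi, c j * vr w L l₀ h j ≤ κ * vb (hi - lo) u U δ A x g Φ := by
  have hρ := rho_mono hw L l₀ h
  refine (var_E hw hL h hT htr h₀ hu h1 (by omega) (by omega) h4 hδ hd hx hx' hA hκ hc).1.trans
    (mul_le_mul_of_nonneg_left ?_ hκ)
  have r1 := rise_sq hρ (lo := lo) (hi := hi) (hu.trans hU) hU (by omega) hl h3 hg hδ hq hd hΦ
  have r2 := rise_sq hρ (lo := lo - u) (hi := hi - u) (hu.trans hU) hU (by omega) (by omega)
    (by omega) hg hδ hq hd hΦ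
  rw [show hi - u - (lo - u) = hi - lo by omega] at r2
  have e : ∑ j ∈ Finset.Ico lo hi, (rho w L l₀ h j - rho w L l₀ h (j - u)) ^ 2 =
      ∑ j ∈ Finset.Ico (lo - u) (hi - u), (rho w L l₀ h (j + u) - rho w L l₀ h j) ^ 2 := by
    have := Finset.sum_Ico_add' (fun j => (rho w L l₀ h j - rho w L l₀ h (j - u)) ^ 2)
      (lo - u) (hi - u) u
    rw [Nat.sub_add_cancel (by omega), Nat.sub_add_cancel (by omega)] at this
    simpa only [Nat.add_sub_cancel] using this.symm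
  rw [Finset.sum_add_distrib, e, vb]
  linarith

/-- **(d), pair form**: `∑ c E (R - r)²` for any `r` -/
theorem pair_phi {lo hi lo' hi' u U : ℕ} (hu : 1 ≤ u) (hU : u ≤ U) (h1 : 1 ≤ lo')
    (h2 : lo' + 2 * U ≤ lo) (hl : lo ≤ hi) (h3 : hi + 3 * U ≤ hi') (h4 : hi' ≤ L.length + 1)
    {δ κ A x g Φ B : ℝ} (hδ : 0 < δ) (hd : ∀ k ∈ Finset.Ico lo' hi', δ ≤ dm L 0 k) (hx : 0 < x)
    (hx' : ∀ k ∈ Finset.Ico lo' hi', x ≤ ex L k) (hA : al w L l₀ h (Finset.Ico lo' hi') ≤ A)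
    {q : ℕ → ℝ} (hg : 0 ≤ g) (hq : ∀ k, lo' ≤ k → k < hi' → q (k + 1) - q k ≤ g)
    (hΦ : Ph w L l₀ h q (Finset.Ico lo' hi') ≤ Φ)
    {c : ℕ → ℝ} (hκ : 0 ≤ κ) (hc : ∀ j ∈ Finset.Ico lo hi, 0 ≤ c j ∧ c j ≤ κ)
    (hB : ∑ j ∈ Finset.Ico lo hi, c j * tc w L l₀ h j ≤ B) (r : ℕ → ℝ) :
    ∑ j ∈ Finset.Ico lo hi, c j * pi2 w L j (fun x y => (l₀.cov x y - r j) ^ 2) h ≤
      ∑ j ∈ Finset.Ico lo hi, c j * (rho w L l₀ h j - r j) ^ 2 +
        κ * (vb (hi - lo) u U δ A x g Φ + 2 * (A / (x * δ))) + B := by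
  have a1 := var_phi hw hL h hT htr h₀ hu hU h1 h2 hl h3 h4 hδ hd hx hx' hA hg hq hΦ hκ hc
  have a2 := (var_E hw hL h hT htr h₀ hu h1 (by omega) (by omega) h4 hδ hd hx hx' hA hκ hc).2
  simp only [pair_eq hw, sq2_eq hw L l₀ h (r _), mul_add, Finset.sum_add_distrib,
    mul_left_comm _ (2 : ℝ), ← Finset.mul_sum] at a1 ⊢
  linarith

end win

/-! ### the Riccati budget from the `L²` location -/

section blk
variable {τ : ℕ → ℝ} {Λ σ : ℝ} {A B : ℕ}



end blk

end Crest.Agent.T156.Cas.SrD79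
end
end

-- ▼ part T156/SrG_17

/-!
# Row 156, soft recursion, leaf S4: blocks of the top window and of the plateau (helper17)

Frame-free.  Labels `z`, local density `D` of the nodes, `1`-Lipschitz scale `ρ`.
-/

set_option autoImplicit false

noncomputable section

namespace Crest.Agent.T156.Sg17

open Real

/-- labels with a slowly varying density -/
structure Gm (z : ℕ → ℝ) (D ρ : ℝ → ℝ) (v C lm e : ℝ) (a b : ℕ) : Prop where
  zm : Monotone z
  C1 : 1 ≤ C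
  v0 : 0 < v
  D0 : ∀ x, 0 < D x
  stp : ∀ j, a ≤ j → j + 1 < b →
    v / C ≤ (z (j + 1) - z j) * D (z j) ∧ (z (j + 1) - z j) * D (z j) ≤ C * v
  lip : ∀ x y, ρ x - ρ y ≤ |x - y|
  cmp : ∀ x y, x ≤ 1 - e → |x - y| ≤ ρ x / 4 → D x ≤ C * D y ∧ D y ≤ C * D x
  lm1 : ∀ x, x ≤ 1 - e → lm ≤ D x * ρ x
  msh : 80 * C ^ 2 * v ≤ lm

namespace Gm

variable {z : ℕ → ℝ} {D ρ : ℝ → ℝ} {v C lm e : ℝ} {a b : ℕ} (G : Gm z D ρ v C lm e a b)
include G

theorem lm0 : 0 < lm := lt_of_lt_of_le (by have := G.v0; have := G.C1; positivity) G.msh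

theorem r0 {x : ℝ} (hx : x ≤ 1 - e) : 0 < ρ x :=
  pos_of_mul_pos_left (G.lm0.trans_le ((G.lm1 x hx).trans_eq (mul_comm _ _))) (G.D0 x).le

/-- increments near `x` -/
theorem near {x : ℝ} (hx : x ≤ 1 - e) {j : ℕ} (h1 : a ≤ j) (h2 : j + 1 < b)
    (h : |x - z j| ≤ ρ x / 4) : v / (C ^ 2 * D x) ≤ z (j + 1) - z j ∧
      z (j + 1) - z j ≤ C ^ 4 * (v / (C ^ 2 * D x)) := by
  obtain ⟨s1, s2⟩ := G.stp j h1 h2
  obtain ⟨c1, c2⟩ := G.cmp x _ hx h
  have C0 : 0 < C := zero_lt_one.trans_le G.C1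
  have d0 := sub_nonneg.2 (G.zm (Nat.le_succ j))
  have x0 := G.D0 x
  rw [div_le_iff₀' C0] at s1
  constructor
  · rw [div_le_iff₀ (by positivity)]
    nlinarith [mul_le_mul_of_nonneg_left c2 (mul_nonneg C0.le d0)]
  · rw [show C ^ 4 * (v / (C ^ 2 * D x)) = C ^ 2 * v / D x by field_simp, le_div_iff₀ x0]
    nlinarith [mul_le_mul_of_nonneg_left c1 d0, mul_le_mul_of_nonneg_left s2 C0.le]

/-- the mesh is fine against the scale -/
theorem mesh {j : ℕ} (h1 : a ≤ j) (h2 : j + 1 < b) (hx : z j ≤ 1 - e) :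
    16 * (z (j + 1) - z j) ≤ ρ (z j) := by
  have s2 := (G.stp j h1 h2).2
  have C1 := G.C1
  have v0 := G.v0
  refine le_of_mul_le_mul_right ?_ (G.D0 (z j))
  nlinarith [G.lm1 _ hx, G.msh, mul_le_mul_of_nonneg_right C1 (mul_pos (by linarith : 0 < C) v0).le]

theorem up {k : ℕ} (hx : z k ≤ 1 - e) (h1 : a ≤ k) {N : ℕ}
    (hN : N * (C ^ 4 * (v / (C ^ 2 * D (z k)))) ≤ ρ (z k) / 8) :
    ∀ i ≤ N, k + i < b → z (k + i) - z k ≤ i * (C ^ 4 * (v / (C ^ 2 * D (z k))))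
  | 0, _, _ => by simp
  | i + 1, hi, hb => by
    have ih := up hx h1 hN i (by omega) (by omega)
    have p : 0 ≤ C ^ 4 * (v / (C ^ 2 * D (z k))) := by
      have := G.v0; have := G.C1; have := G.D0 (z k); positivity
    have a1 : (i : ℝ) * _ ≤ N * _ :=
      mul_le_mul_of_nonneg_right (by exact_mod_cast (by omega : i ≤ N)) p
    have a2 := (G.near hx (j := k + i) (by omega) hb (by
      rw [abs_sub_comm, abs_of_nonneg (sub_nonneg.2 (G.zm (Nat.le_add_right k i)))]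
      linarith [G.r0 hx])).2
    push_cast
    rw [← add_assoc]
    linarith

theorem dn_step {k j : ℕ} (hx : z k ≤ 1 - e) (h1 : a ≤ j) (hj : j + 1 ≤ k) (hb : k < b)
    (h : z k - z (j + 1) ≤ ρ (z k) / 8) : |z k - z j| ≤ ρ (z k) / 4 := by
  have m := G.zm (show j ≤ k by omega)
  have a1 := G.mesh h1 (by omega) (m.trans hx)
  have a2 := G.lip (z j) (z k)
  rw [abs_sub_comm, abs_of_nonneg (sub_nonneg.2 m)] at a2
  rw [abs_of_nonneg (sub_nonneg.2 m)]
  linarith [G.r0 hx]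

theorem dn {k : ℕ} (hx : z k ≤ 1 - e) (hb : k < b) {N : ℕ}
    (hN : N * (C ^ 4 * (v / (C ^ 2 * D (z k)))) ≤ ρ (z k) / 8) :
    ∀ i ≤ N, a + i ≤ k → z k - z (k - i) ≤ i * (C ^ 4 * (v / (C ^ 2 * D (z k))))
  | 0, _, _ => by simp
  | i + 1, hi, ha => by
    have ih := dn hx hb hN i (by omega) (by omega)
    have p : 0 ≤ C ^ 4 * (v / (C ^ 2 * D (z k))) := by
      have := G.v0; have := G.C1; have := G.D0 (z k); positivity
    have a1 : (i : ℝ) * _ ≤ N * _ :=
      mul_le_mul_of_nonneg_right (by exact_mod_cast (by omega : i ≤ N)) p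
    have e1 : k - (i + 1) + 1 = k - i := by omega
    have a2 := (G.near hx (j := k - (i + 1)) (by omega) (by omega)
      (G.dn_step hx (by omega) (by omega) hb (by rw [e1]; linarith))).2
    rw [e1] at a2
    push_cast
    linarith

/-- **one block** above the node `k` -/
theorem blk {k : ℕ} (hx : z k ≤ 1 - e) (h1 : a ≤ k) (h2 : k < b) (ha : ρ (z k) ≤ z k - z a)
    (hb : ρ (z k) ≤ 4 * (z (b - 1) - z k)) : ∃ (n : ℕ) (de : ℝ), 0 < de ∧
      lm ≤ 80 * C ^ 2 * (n * v) ∧ de * (D (z k) * C ^ 2) = v ∧ n * de ≤ ρ (z k) ∧ a + 3 * n ≤ k ∧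
      k + 5 * n < b ∧ (∀ j, k ≤ j + 3 * n → j < k + 5 * n →
        de ≤ z (j + 1) - z j ∧ z (j + 1) - z j ≤ C ^ 4 * de) ∧
      z k + ρ (z k) / (80 * C ^ 4) ≤ z (k + n) := by
  have C1 := G.C1
  have C0 : 0 < C := zero_lt_one.trans_le C1
  have v0 := G.v0
  have x0 := G.D0 (z k)
  have r0 := G.r0 hx
  set de := v / (C ^ 2 * D (z k)) with hde
  have d0 : 0 < de := by positivity
  have ev : de * (D (z k) * C ^ 2) = v := by rw [hde]; field_simp
  set n := ⌊ρ (z k) / (40 * (C ^ 4 * de))⌋₊ with hn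
  have n1 : n * (40 * (C ^ 4 * de)) ≤ ρ (z k) :=
    (le_div_iff₀ (by positivity)).1 (Nat.floor_le (by positivity))
  have n2 : ρ (z k) < (n + 1) * (40 * (C ^ 4 * de)) :=
    (div_lt_iff₀ (by positivity)).1 (Nat.lt_floor_add_one _)
  have n3 : 80 * (C ^ 4 * de) ≤ ρ (z k) := by
    refine le_of_mul_le_mul_right ?_ x0
    have := G.lm1 _ hx
    have := G.msh
    rw [← ev] at this
    nlinarith
  have n4 : ρ (z k) ≤ 80 * C ^ 4 * (n * de) := by nlinarith
  have p : 0 < C ^ 4 * de := by positivity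
  have c4 : 1 ≤ C ^ 4 := one_le_pow₀ C1
  have h5 : ((5 * n : ℕ) : ℝ) * (C ^ 4 * de) ≤ ρ (z k) / 8 := by push_cast; linarith
  have le5 : ∀ i ≤ 5 * n, (i : ℝ) * (C ^ 4 * de) ≤ ρ (z k) / 8 := fun i hi =>
    (mul_le_mul_of_nonneg_right (by exact_mod_cast hi) p.le).trans h5
  have b1 : a + 3 * n ≤ k := by
    by_contra hc
    have := G.dn hx h2 h5 (k - a) (by omega) (by omega)
    rw [show k - (k - a) = a by omega] at this
    linarith [le5 (k - a) (by omega)]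
  have b2 : k + 5 * n < b := by
    by_contra hc
    have := G.up hx h1 h5 (b - 1 - k) (by omega) (by omega)
    rw [show k + (b - 1 - k) = b - 1 by omega] at this
    linarith [le5 (b - 1 - k) (by omega)]
  have b3 : ∀ j, k ≤ j + 3 * n → j < k + 5 * n →
      de ≤ z (j + 1) - z j ∧ z (j + 1) - z j ≤ C ^ 4 * de := fun j j1 j2 => by
    refine G.near hx (by omega) (by omega) ?_
    rcases le_or_gt k j with h | h
    · have := G.up hx h1 h5 (j - k) (by omega) (by omega)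
      rw [show k + (j - k) = j by omega] at this
      rw [abs_sub_comm, abs_of_nonneg (sub_nonneg.2 (G.zm h))]
      linarith [le5 (j - k) (by omega)]
    · have := G.dn hx h2 h5 (k - j) (by omega) (by omega)
      rw [show k - (k - j) = j by omega] at this
      rw [abs_of_nonneg (sub_nonneg.2 (G.zm h.le))]
      linarith [le5 (k - j) (by omega)]
  refine ⟨n, de, d0, ?_, ev, ?_, b1, b2, b3, ?_⟩
  · have := mul_le_mul_of_nonneg_left n4 x0.le
    have e : D (z k) * (80 * C ^ 4 * (n * de)) = 80 * C ^ 2 * (n * v) := by rw [← ev]; ring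
    linarith [G.lm1 _ hx]
  · nlinarith [mul_le_mul_of_nonneg_right c4 (by positivity : (0 : ℝ) ≤ n * de)]
  · have s := Finset.card_nsmul_le_sum (Finset.Ico k (k + n)) (fun j => z (j + 1) - z j) de
      fun j hj => by
        have := Finset.mem_Ico.1 hj
        exact (b3 j (by omega) (by omega)).1
    rw [Finset.sum_Ico_sub z (Nat.le_add_right k n), Nat.card_Ico, Nat.add_sub_cancel_left,
      nsmul_eq_mul] at s
    have : ρ (z k) / (80 * C ^ 4) ≤ n * de := (div_le_iff₀' (by positivity)).2 n4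
    linarith

end Gm

/-! ### the scale and its potential -/

/-- distance to the junction `xs` (shifted), to the top, capped -/
def rh (xs u0 r0 x : ℝ) : ℝ := min (min (|x - xs| + u0) (1 - x)) r0

theorem rh_lip (xs u0 r0 x y : ℝ) : rh xs u0 r0 x - rh xs u0 r0 y ≤ |x - y| := by
  have a1 := (min_le_left _ r0).trans (min_le_left (|x - xs| + u0) (1 - x))
  have a2 := (min_le_left _ r0).trans (min_le_right (|x - xs| + u0) (1 - x))
  have a3 := min_le_right (min (|x - xs| + u0) (1 - x)) r0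
  have a4 := abs_sub_abs_le_abs_sub (x - xs) (y - xs)
  rw [sub_sub_sub_cancel_right] at a4
  have a5 := neg_abs_le (x - y)
  have a6 := abs_nonneg (x - y)
  rw [sub_le_comm]
  unfold rh
  exact le_min (le_min (by linarith) (by linarith)) (by linarith)

/-- multiplicative potential of the junction -/
def P1 (xs u0 x : ℝ) : ℝ := (max (x - xs) 0 + u0) / (max (xs - x) 0 + u0)

theorem P1_pos {xs u0 : ℝ} (hu : 0 < u0) (x : ℝ) : 0 < P1 xs u0 x := by
  unfold P1; positivity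

theorem P1_mono {xs u0 : ℝ} (hu : 0 < u0) {x y : ℝ} (h : x ≤ y) : P1 xs u0 x ≤ P1 xs u0 y := by
  unfold P1
  gcongr

theorem P1_gain {xs u0 δ : ℝ} (hu : 0 < u0) (h0 : 0 ≤ δ) (h1 : δ ≤ 1 / 2) {x y : ℝ}
    (h : x + δ * (|x - xs| + u0) ≤ y) : (1 + δ) * P1 xs u0 x ≤ P1 xs u0 y := by
  refine le_trans ?_ (P1_mono hu h)
  unfold P1
  rw [← mul_div_assoc, div_le_div_iff₀ (by positivity) (by positivity)]
  rcases le_total xs x with k | k
  · have p : 0 ≤ δ * (x - xs + u0) := mul_nonneg h0 (by linarith)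
    rw [abs_of_nonneg (sub_nonneg.2 k), max_eq_left (sub_nonneg.2 k), max_eq_right (by linarith),
      max_eq_left (by linarith), max_eq_right (by linarith)]
    exact le_of_eq (by ring)
  · rw [abs_of_nonpos (sub_nonpos.2 k), max_eq_right (sub_nonpos.2 k),
      max_eq_left (sub_nonneg.2 k)]
    set s := xs - x with hs
    have s0 : 0 ≤ s := sub_nonneg.2 k
    rw [show x + δ * (-(x - xs) + u0) - xs = δ * (s + u0) - s by rw [hs]; ring,
      show xs - (x + δ * (-(x - xs) + u0)) = s - δ * (s + u0) by rw [hs]; ring]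
    rcases le_total s (δ * (s + u0)) with l | l
    · rw [max_eq_left (sub_nonneg.2 l), max_eq_right (sub_nonpos.2 l)]
      nlinarith [mul_nonneg (sub_nonneg.2 l) s0, mul_nonneg (mul_nonneg h0 s0) hu.le]
    · rw [max_eq_right (sub_nonpos.2 l), max_eq_left (sub_nonneg.2 l)]
      nlinarith [mul_nonneg (mul_nonneg (mul_nonneg h0 h0) hu.le) (add_nonneg s0 hu.le)]

/-- the potential -/
def pot (xs u0 r0 e x : ℝ) : ℝ :=
  log (P1 xs u0 x) + log (1 + 1 / u0) - log (max (1 - x) (e / 2)) + x / r0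

variable {xs u0 r0 e : ℝ}

theorem pot_nonneg (hu : 0 < u0) (hr : 0 < r0) (he : 0 < e) (he1 : e ≤ 1) (h1 : xs ≤ 1) {x : ℝ}
    (hx : 0 ≤ x) : 0 ≤ pot xs u0 r0 e x := by
  have a1 : log (max (1 - x) (e / 2)) ≤ 0 :=
    log_nonpos (by positivity) (max_le (by linarith) (by linarith))
  have a2 : 0 ≤ log (P1 xs u0 x) + log (1 + 1 / u0) := by
    rw [← log_mul (P1_pos hu x).ne' (by positivity)]
    refine log_nonneg ?_
    have m1 : max (xs - x) 0 ≤ 1 := max_le (by linarith) zero_le_one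
    have m2 := le_max_right (x - xs) 0
    rw [P1, div_mul_eq_mul_div, le_div_iff₀ (by positivity), one_mul, mul_add, mul_one,
      add_mul, mul_one_div_cancel hu.ne']
    have : 0 ≤ max (x - xs) 0 * (1 / u0) := by positivity
    linarith
  have a3 : 0 ≤ x / r0 := by positivity
  unfold pot
  linarith

theorem pot_le (hu : 0 < u0) (hr : 0 < r0) (he : 0 < e) (h0 : 0 ≤ xs) {x : ℝ} (hx : x ≤ 1) :
    pot xs u0 r0 e x ≤ 2 * log (1 + 1 / u0) + log (2 / e) + 1 / r0 := by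
  have a1 : log (P1 xs u0 x) ≤ log (1 + 1 / u0) := by
    refine log_le_log (P1_pos hu x) ?_
    have m1 : max (x - xs) 0 ≤ 1 := max_le (by linarith) zero_le_one
    have m2 := le_max_right (xs - x) 0
    rw [P1, div_le_iff₀ (by positivity), add_mul, one_mul, mul_add, one_div_mul_cancel hu.ne']
    have : 0 ≤ 1 / u0 * max (xs - x) 0 := by positivity
    linarith
  have a2 : -log (max (1 - x) (e / 2)) ≤ log (2 / e) := by
    rw [← inv_div e 2, log_inv, neg_le_neg_iff]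
    exact log_le_log (by positivity) (le_max_right _ _)
  have a3 : x / r0 ≤ 1 / r0 := div_le_div_of_nonneg_right hx hr.le
  unfold pot
  linarith

theorem pot_gain (hu : 0 < u0) (hr : 0 < r0) (he : 0 < e) {δ x y : ℝ} (h0 : 0 ≤ δ) (h1 : δ ≤ 1 / 2)
    (hx : x ≤ 1 - e) (h : x + δ * rh xs u0 r0 x ≤ y) :
    pot xs u0 r0 e x + δ / 2 ≤ pot xs u0 r0 e y := by
  have r : 0 ≤ rh xs u0 r0 x := le_min (le_min (by positivity) (by linarith)) hr.le
  have xy : x ≤ y := by nlinarith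
  have l : δ / 2 ≤ log (1 + δ) := by
    have := one_sub_inv_le_log_of_pos (by linarith : 0 < 1 + δ)
    have e : (1 + δ)⁻¹ ≤ 1 - δ / 2 := by
      rw [inv_le_iff_one_le_mul₀ (by linarith)]; nlinarith
    linarith
  have m1 := log_le_log (P1_pos (xs := xs) hu x) (P1_mono hu xy)
  have m2 : log (max (1 - y) (e / 2)) ≤ log (max (1 - x) (e / 2)) :=
    log_le_log (by positivity) (max_le_max (by linarith) le_rfl)
  have m3 : x / r0 ≤ y / r0 := div_le_div_of_nonneg_right xy hr.le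
  unfold pot
  unfold rh at h
  rcases min_choice (min (|x - xs| + u0) (1 - x)) r0 with c | c
  · rw [c] at h
    rcases min_choice (|x - xs| + u0) (1 - x) with c | c
    · rw [c] at h
      have := log_le_log (mul_pos (by linarith) (P1_pos hu x)) (P1_gain hu h0 h1 h)
      rw [log_mul (by linarith) (P1_pos hu x).ne'] at this
      linarith
    · rw [c] at h
      have : log ((1 + δ) * max (1 - y) (e / 2)) ≤ log (max (1 - x) (e / 2)) := by
        refine log_le_log (by positivity) (le_trans ?_ (le_max_left _ _))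
        rw [mul_max_of_nonneg _ _ (by linarith : 0 ≤ 1 + δ)]
        have x1 : 0 ≤ 1 - x := by linarith
        refine max_le ?_ (by nlinarith)
        nlinarith [mul_nonneg (mul_nonneg h0 h0) x1]
      rw [log_mul (by linarith) (by positivity)] at this
      linarith
  · rw [c] at h
    have : x / r0 + δ ≤ y / r0 := by
      rw [div_add' _ _ _ hr.ne']; exact div_le_div_of_nonneg_right h hr.le
    linarith

end Crest.Agent.T156.Sg17

end
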