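import Crest.Agent.T156.ClE1s_49
import Crest.Agent.T156.ClE1b_61
import Crest.Agent.T156.ClNd_9
import Crest.Agent.T156.Env_96
import Crest.Agent.T156.QClDef_98
import Crest.Agent.T156.CeiG_88

/-!
# Row 156, block (L): statements of the sizes that enter (E1) (helper9)

The crude location is a free function `cf` of the level; the majorant is `E61.u4`.
-/

set_option autoImplicit false

noncomputable section

namespace Crest.Agent.T156.Alt.Sz9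

open Real Finset
open Crest.Agent.T156.Alt.E61 Crest.Agent.T156.Alt.Mp9

/-- `w` -/
def w1 (S : Sc) (t : ℝ) : ℝ := S.w3 t ^ ((1 : ℝ) / 3)
/-- `w` with the crude ratio -/
def wc (S : Sc) (cf : ℝ → ℝ) (t : ℝ) : ℝ := cf t / t * S.w3 t ^ ((1 : ℝ) / 3)
/-- nodes with a standard block in the sloped part (root node and low zone included) -/
def Bk (S : Sc) (M : Md) : Finset ℕ := (range M.N).filter fun k => k + k / 3 < S.J
/-- top window, plateau (and the weightless nodes above) -/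
def Tp (S : Sc) (M : Md) : Finset ℕ := (range M.N).filter fun k => ¬ k + k / 3 < S.J

/-- crude location `cf` above the level `l0` -/
structure Cf (E : ℝ) (S : Sc) (M : Md) (m : ℕ) (a l0 : ℝ) (cf : ℝ → ℝ) : Prop where
  l0s : E * M.s S.jl ≤ l0
  l0w : S.w3 l0 ≤ l0 ^ 3
  l1 : E * l0 ≤ 1
  mono : ∀ t t', l0 ≤ t → t ≤ t' → cf t ≤ cf t'
  ge : ∀ t, l0 ≤ t → t ≤ cf t
  fl : ∀ t, l0 ≤ t → S.F * S.ms t * t ≤ cf t ^ 3
  dbl : ∀ t t', l0 ≤ t → t ≤ t' → cf t' / t' ≤ 2 * (cf t / t)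
  cru : ∀ k ≤ S.Jp, M.rb m a k ≤ cf (max (M.z k) l0)

/-- numbers of the bulk sums -/
structure SN (E : ℝ) (S : Sc) (M : Md) (m : ℕ) (a l0 X X2 X3 : ℝ) (cf Y3 : ℝ → ℝ) : Prop where
  phi : M.En S m a M.q 2 0 S.C ≤ X
  X0 : 0 < X
  X1 : E * X ≤ 1
  x2a : l0 * cf l0 ^ 2 ≤ X2
  x2b : ∀ t, l0 ≤ t → t ≤ S.C → min (t * cf t ^ 2) (t * wc S cf t ^ 2 +
    (t * wc S cf t ^ 2) ^ ((3 : ℝ) / 7) * min X (cf t ^ 3) ^ ((4 : ℝ) / 7)) ≤ X2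
  x3a : l0 * cf l0 ^ 4 ≤ X3
  x3b : ∀ t, l0 ≤ t → t ≤ S.C → min 1 (cf t) * min (t * cf t ^ 3) (t * wc S cf t ^ 3 +
    (t * wc S cf t ^ 3) ^ ((1 : ℝ) / 7) * (wc S cf t * min X (cf t ^ 3)) ^ ((6 : ℝ) / 7)) ≤ X3
  y3 : ∀ t t', l0 ≤ t → t ≤ t' → t' ≤ S.C → t' * wc S cf t' ^ 3 +
    (t' * wc S cf t' ^ 3) ^ ((1 : ℝ) / 7) * (wc S cf t' * min X (cf t' ^ 3)) ^ ((6 : ℝ) / 7) ≤ Y3 t

/-- **(e)** crude size at every node -/
def SzL : Prop := CL fun E Λ S M m a => ∀ l0 cf, Cf E S M m a l0 cf →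
  ∀ k < M.N, u4 M m a k ≤ Λ * cf (max (M.z k) l0)

/-- **(b)** pointwise size with a free slope -/
def SzP : Prop := CL fun E Λ S M m a => ∀ l0 cf, Cf E S M m a l0 cf → ∀ k κ, l0 ≤ M.s k →
  k + k / 3 < S.J → cf (M.s k) ≤ κ * M.s k → κ ≤ S.n →
    u4 M m a k ≤ Λ * (κ ^ ((2 : ℝ) / 3) * w1 S (M.s k) +
      Env96.ev (M.rb m a) (κ * S.v) (k - k / 3) (k + k / 3) k)


/-- **(c)** path sizes at a good node of slope `κ`; the plateau part of the weak input is a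
hypothesis -/
def SzN : Prop := CL fun E Λ S M m a => ∀ G1 l0 cf G0, CeiG S M G1 → M.H S.Jp ≤ S.C →
  Cf E S M m a l0 cf → l0 * cf l0 ^ 2 ≤ G0 →
  ∑ k ∈ Icc S.J S.Jp, M.dz m a k * Cost41.aM M m a k ≤ G0 ^ 2 →
  ∀ j κ, 2 * l0 ≤ M.s j → j + j / 3 < S.J → cf (M.s j) ≤ κ * M.s j → κ ≤ S.n →
    (∀ t, l0 ≤ t → t ≤ M.s j → cf t ^ 3 / t * (S.F / (S.n * S.ms t)) ≤
      G0 ^ 2 + κ * (S.F / (S.n * S.ms (M.s j)))) →
    Gd M m a κ (j - j / 3) (j + j / 3) j →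
    ∃ G, Tn S M m a (u4 M m a) (S.C * S.v) j G ∧
      G ≤ Λ * (√(κ * (S.F / (S.n * S.ms (M.s j)))) + G0) ∧
      pb M m a (S.C * S.v) j * Vn M m a j + VVn M m a j ≤ Λ * (κ ^ 2 * S.w3 (M.s j))

end Crest.Agent.T156.Alt.Sz9

end
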