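import Crest.Agent.T156.ClSzA_61
import Crest.Agent.T156.CakeS_64
import Crest.Agent.T156.Sun_9
import Crest.Agent.T156.Env_96
import Crest.Agent.T156.SzTD_98
import Crest.Agent.T156.ClSzB_61

-- ▼ part T156/SzVA_32
section

/-!
# Row 156 (helper32): layer cake on a window with a short last part of free rise
-/

set_option autoImplicit false

noncomputable section

namespace Crest.Agent.T156.Alt.V32

open Real Finset
open Crest.Agent.T156.Env96

theorem tel_sum {v ρ : ℝ} (v0 : 0 < v) (r0 : 0 < ρ) (J : ℕ) :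
    ∑ k ∈ range J, v / (((J : ℝ) - k) * v + ρ) ^ 2 ≤ 1 / ρ - 1 / (J * v + ρ) := by
  induction J with
  | zero => simp
  | succ J ih =>
    rw [sum_range_succ']
    have e : ∑ k ∈ range J, v / ((((J + 1 : ℕ) : ℝ) - (k + 1 : ℕ)) * v + ρ) ^ 2 =
        ∑ k ∈ range J, v / (((J : ℝ) - k) * v + ρ) ^ 2 :=
      sum_congr rfl fun k _ => by push_cast; ring
    rw [e]
    push_cast
    have p : 0 < (J : ℝ) * v + ρ := by positivity
    have : v / (((J : ℝ) + 1 - 0) * v + ρ) ^ 2 ≤ 1 / (J * v + ρ) - 1 / ((J + 1) * v + ρ) := by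
      rw [sub_zero, div_sub_div _ _ p.ne' (by positivity), div_le_div_iff₀ (by positivity)
        (by positivity)]
      nlinarith [mul_pos v0 v0, mul_pos (mul_pos v0 v0) p, mul_pos (mul_pos v0 v0) v0]
    linarith

/-- the corner layer -/
theorem h_sum (s : Finset ℕ) {dz h : ℕ → ℝ} {J : ℕ} {v C Z ρ : ℝ} (v0 : 0 < v) (r0 : 0 < ρ)
    (Z0 : 0 ≤ Z) (C0 : 0 ≤ C) (hs : ∀ k ∈ s, k < J) (hz : ∀ k ∈ s, 0 ≤ dz k ∧ dz k ≤ C * v)
    (hh : ∀ k ∈ s, 0 ≤ h k ∧ h k ≤ Z * ρ ^ 2 / (((J : ℝ) - k) * v) ^ 2 ∧ h k ≤ 3 * Z) (q : ℕ) :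
    ∑ k ∈ s, dz k * h k ^ (q + 2) ≤ 12 * C * 3 ^ (q + 1) * (ρ * Z ^ (q + 2)) := by
  have t := tel_sum v0 r0 J
  have p : 0 ≤ 1 / ((J : ℝ) * v + ρ) := by positivity
  calc _ ≤ ∑ k ∈ s, 12 * C * (3 * Z) ^ (q + 1) * Z * ρ ^ 2 *
        (v / (((J : ℝ) - k) * v + ρ) ^ 2) := sum_le_sum fun k hk => by
        obtain ⟨a1, a2, a3⟩ := hh k hk
        have k1 : 0 < (J : ℝ) - k := sub_pos.2 (by exact_mod_cast hs k hk)
        have x0 : 0 < ((J : ℝ) - k) * v := by positivity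
        generalize ((J : ℝ) - k) * v = x at *
        have b : h k ≤ 12 * Z * ρ ^ 2 / (x + ρ) ^ 2 := by
          rw [le_div_iff₀ (by positivity)] at a2 ⊢
          have c1 := mul_le_mul_of_nonneg_right a3 (sq_nonneg ρ)
          have c2 := mul_nonneg a1 (sq_nonneg (x - ρ))
          have c3 := mul_nonneg Z0 (sq_nonneg ρ)
          nlinarith
        calc _ = dz k * (h k ^ (q + 1) * h k) := by ring
          _ ≤ C * v * ((3 * Z) ^ (q + 1) * (12 * Z * ρ ^ 2 / (x + ρ) ^ 2)) := by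
            have := (hz k hk).2
            gcongr
          _ = _ := by ring
    _ ≤ 12 * C * (3 * Z) ^ (q + 1) * Z * ρ ^ 2 * (1 / ρ) := by
        rw [← mul_sum]
        refine mul_le_mul_of_nonneg_left (le_trans (sum_le_sum_of_subset_of_nonneg
          (fun k hk => mem_range.2 (hs k hk)) fun _ _ _ => by positivity) (t.trans (by linarith)))
          (by positivity)
    _ = _ := by field_simp; ring

/-- weight of the nodes below a label -/
theorem wt_ge {z : ℕ → ℝ} {a : ℕ} {x : ℝ} (hx : z a ≤ x) {b : ℕ} (h : a ≤ b) :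
    min (z b) x - z a ≤ ∑ k ∈ (Ioc a b).filter fun k => z (k - 1) ≤ x, (z k - z (k - 1)) := by
  rw [sum_filter]
  induction b, h using Nat.le_induction with
  | base => simp [hx]
  | succ b h ih =>
    rw [sum_Ioc_succ_top h, Nat.add_sub_cancel]
    split_ifs with c
    · rw [min_eq_left c] at ih
      linarith [min_le_left (z (b + 1)) x]
    · rw [min_eq_right (not_le.1 c).le] at ih
      linarith [min_le_right (z (b + 1)) x]

open Classical in
/-- **the cake**: energy below `x`, rise `ρ` above -/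
theorem core (s : Finset ℕ) {f q dz u : ℕ → ℝ} {a b x : ℕ} {v C w y D Y ρ : ℝ}
    (C1 : 1 ≤ C) (v0 : 0 < v) (w0 : 0 < w) (y1 : 1 ≤ y) (ax : a ≤ x) (xb : x ≤ b)
    (hs : ∀ k ∈ s, a ≤ k ∧ k ≤ b) (hf : Monotone f)
    (hq : ∀ k, a ≤ k → k < b → 0 ≤ q (k + 1) - q k ∧ q (k + 1) - q k ≤ C * v)
    (hz : ∀ k ∈ s, 0 ≤ dz k ∧ dz k ≤ C * v) (h1 : ∑ k ∈ s, dz k ≤ 1)
    (hD : ∀ i, a ≤ i → i ≤ x → |f i - q i| ≤ D)
    (hY : 2 * D ^ 3 + 4 * (C * v) * (∑ i ∈ Icc a b, (f i - q i) ^ 2 + ((b : ℝ) - x) * D ^ 2) ≤ Y)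
    (hρ : f b - f x ≤ ρ)
    (hu : ∀ k ∈ s, ∀ κ α e : ℝ, 1 ≤ κ → 0 ≤ α → w ^ 3 * κ ^ 2 ≤ α ^ 3 → 0 ≤ e →
      (∀ i, a ≤ i → i ≤ b → |f i - f k| ≤ e + κ * (|(i : ℝ) - k| * v)) → u k ≤ α + e) :
    ∃ u1 u2 : ℕ → ℝ, (∀ k ∈ s, 0 ≤ u1 k ∧ 0 ≤ u2 k ∧ u k ≤ u1 k + u2 k) ∧
      (∀ p : ℕ, ∑ k ∈ s, dz k * u1 k ^ (p + 2) ≤ 2 ^ (p + 2) * (1 * (2 * w) ^ (p + 2) +
        16 * (2 * C * ρ * (2 * w * √(2 * w) * (√ρ * ρ ^ p))))) ∧
      ∀ α Y', α = 6 * C * (w * y ^ 2) → Y' = 19 * (Y / y ^ 3) →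
      ∑ k ∈ s, dz k * u2 k ^ 2 ≤ 1 ^ 2 * (4 * (1 * α ^ 2) + 128 * Y') ∧
      ∑ k ∈ s, dz k * u2 k ^ 3 ≤ 1 ^ 3 * (8 * (1 * α ^ 3) + 1024 * (α * Y')) ∧
      ∑ k ∈ s, dz k * u2 k ^ 4 ≤
        1 ^ 4 * (16 * (1 * α ^ 4) + 8192 * (α * √(α * (2 * D)) * Y')) := by
  have C0 : 0 < C := by linarith
  have y0 : 0 < y := by linarith
  have D0 : 0 ≤ D := (abs_nonneg _).trans (hD a le_rfl ax)
  have ρ0 : 0 ≤ ρ := (sub_nonneg.2 (hf xb)).trans hρ
  have xb' : 0 ≤ (b : ℝ) - x := sub_nonneg.2 (by exact_mod_cast xb)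
  have Y0 : 0 ≤ Y := le_trans (by positivity) hY
  have p8 : ∀ i : ℕ, (1 : ℝ) ≤ 8 ^ i := fun i => one_le_pow₀ (by norm_num)
  have e8 : ∀ i : ℕ, ((8 : ℝ) ^ i) ^ 2 = (4 ^ i) ^ 3 := fun i => by
    rw [← pow_mul, ← pow_mul, mul_comm i, mul_comm i, pow_mul, pow_mul]; norm_num
  have sl : ∀ i : ℕ, 3 * C ≤ 8 ^ i * (3 * C * y ^ 3) := fun i =>
    (le_mul_of_one_le_right (by positivity) (one_le_pow₀ y1)).trans
      (le_mul_of_one_le_left (by positivity) (p8 i))
  set F : ℕ → ℝ := fun i => f (min i x) with hF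
  set Q : ℕ → ℝ := fun i => q (min i x) with hQ
  set r : ℕ → ℝ := fun i => f (max i x) with hr
  set e : ℕ → ℕ → ℝ := fun i k => ev F (8 ^ i * (3 * C * y ^ 3) * v) a b k with he
  have e0 : ∀ i k, 0 ≤ e i k := fun i k => ev_nonneg
  have rm : Monotone r := fun i j h => hf (max_le_max h le_rfl)
  have sp : ∀ i, f i = F i + r i - f x := fun i => by
    rcases le_total i x with c | c
    · simp [hF, hr, c]
    · simp [hF, hr, c]
  have hQ' : ∀ k, a ≤ k → k < b → 0 ≤ Q (k + 1) - Q k ∧ Q (k + 1) - Q k ≤ C * v :=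
    fun k a1 a2 => by
      rcases lt_or_ge k x with c | c
      · simp only [hQ, min_eq_left c.le, min_eq_left (Nat.succ_le_of_lt c)]; exact hq k a1 a2
      · simp only [hQ, min_eq_right c, min_eq_right (c.trans k.le_succ), sub_self]
        exact ⟨le_rfl, by positivity⟩
  have hD' : ∀ i, a ≤ i → i ≤ b → |F i - Q i| ≤ D := fun i a1 _ =>
    hD _ (le_min a1 ax) (min_le_right _ _)
  have key : ∀ k ∈ s, ∀ (i : ℕ) (L β e' : ℝ), 0 ≤ L → 0 ≤ β → w ^ 3 * L ^ 2 ≤ β ^ 3 → 0 ≤ e' →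
      (∀ j, a ≤ j → j ≤ b → |r j - r k| ≤ e' + L * (|(j : ℝ) - k| * v)) →
      u k - (2 * β + e') ≤ 4 ^ i * (6 * C * (w * y ^ 2)) + e i k :=
    fun k hk i L β e' L0 β0 hβ e1 H => by
      have a1 : w ^ 3 * (8 ^ i * (3 * C * y ^ 3)) ^ 2 ≤ (4 ^ i * (3 * C * (w * y ^ 2))) ^ 3 :=
        calc _ = (8 ^ i) ^ 2 * ((3 * C) ^ 2 * (w * y ^ 2) ^ 3) := by ring
          _ ≤ (4 ^ i) ^ 3 * ((3 * C) ^ 3 * (w * y ^ 2) ^ 3) := by
            rw [e8]; gcongr
            · linarith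
            · norm_num
          _ = _ := by ring
      have a2 := sl i
      have a3 : (0 : ℝ) ≤ 4 ^ i * (3 * C * (w * y ^ 2)) := by positivity
      have := hu k hk (8 ^ i * (3 * C * y ^ 3) + L) (2 * (4 ^ i * (3 * C * (w * y ^ 2))) + 2 * β)
        (e i k + e') (by linarith) (by positivity) (by
          generalize 4 ^ i * (3 * C * (w * y ^ 2)) = A at *
          generalize 8 ^ i * (3 * C * y ^ 3) = κ at *
          have b1 := mul_nonneg (pow_pos w0 3).le (sq_nonneg (κ - L))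
          have b2 : 0 ≤ A ^ 2 * β := by positivity
          have b3 : 0 ≤ A * β ^ 2 := by positivity
          have b4 : 0 ≤ A ^ 3 := by positivity
          have b5 : 0 ≤ β ^ 3 := by positivity
          nlinarith) (add_nonneg (e0 i k) e1) fun j a1 a2 => by
          have b1 := Env96.cone (f := F) (c := 8 ^ i * (3 * C * y ^ 3) * v) (k := k) a1 a2
          have b2 := H j a1 a2
          have b3 := abs_add_le (F j - F k) (r j - r k)
          rw [sp j, sp k, show F j + r j - f x - (F k + r k - f x) = F j - F k + (r j - r k) by ring]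
          simp only [he]
          linarith
      linarith
  have bd : ∀ k, BddBelow (Set.range fun i : ℕ => 4 ^ i * (6 * C * (w * y ^ 2)) + e i k) :=
    fun k => ⟨0, by rintro _ ⟨i, rfl⟩; have := e0 i k; positivity⟩
  set u2 : ℕ → ℝ := fun k => ⨅ i : ℕ, (4 ^ i * (6 * C * (w * y ^ 2)) + e i k) with hu2
  have n2 : ∀ k, 0 ≤ u2 k := fun k => le_ciInf fun i => by have := e0 i k; positivity
  refine ⟨fun k => max (u k - u2 k) 0, u2, fun k _ => ⟨le_max_right _ _, n2 k,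
    by linarith [le_max_left (u k - u2 k) 0]⟩, fun p => ?_, ?_⟩
  · refine Ck64.cakeR s (good := fun j k => Sun9.Good (fun i : ℕ => (i : ℝ)) r (8 ^ j * v) a b k)
      (fun k hk => (hz k hk).1) (fun k _ => le_max_right _ _) (by positivity) ρ0 (by positivity) h1
      (fun k hk j G => max_le ?_ (by positivity)) (fun k hk => max_le ?_ (by positivity))
      (fun j => ?_) p
    · have := le_ciInf fun i => key k hk i (8 ^ j) (4 ^ j * w) 0 (by positivity) (by positivity)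
        (by rw [e8, mul_pow, mul_comm]) le_rfl fun i a1 a2 => by
          rw [zero_add]
          rcases le_total i k with c | c
          · have c' : (i : ℝ) ≤ k := by exact_mod_cast c
            rw [abs_sub_comm, abs_of_nonneg (sub_nonneg.2 (rm c)), abs_sub_comm,
              abs_of_nonneg (sub_nonneg.2 c')]
            linarith [G.2 i a1 c]
          · have c' : (k : ℝ) ≤ i := by exact_mod_cast c
            rw [abs_of_nonneg (sub_nonneg.2 (rm c)), abs_of_nonneg (sub_nonneg.2 c')]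
            linarith [G.1 i c a2]
      simp only [hu2]
      linarith
    · have rb : ∀ i, i ≤ b → f x ≤ r i ∧ r i ≤ f b := fun i c =>
        ⟨hf (le_max_right _ _), hf (max_le c xb)⟩
      have := le_ciInf fun i => key k hk i 0 0 ρ le_rfl le_rfl (by simp) ρ0 fun i _ a2 => by
        have b1 := rb i a2
        have b2 := rb k (hs k hk).2
        rw [zero_mul, add_zero]
        exact abs_le.2 ⟨by linarith, by linarith⟩
      simp only [hu2]
      linarith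
    · have b1 := Sun9.card_bad (x := fun i : ℕ => (i : ℝ)) (Λ := 8 ^ j * v) rm (by positivity)
        (ax.trans xb) (μ := 1) fun i _ _ => by push_cast; linarith
      have b2 : r b - r a ≤ ρ := by simpa only [hr, max_eq_left xb, max_eq_right ax] using hρ
      have p := p8 j
      calc _ ≤ ∑ k ∈ (Icc a b).filter fun k =>
            ¬Sun9.Good (fun i : ℕ => (i : ℝ)) r (8 ^ j * v) a b k, C * v :=
            (sum_le_sum fun k hk => (hz k (mem_filter.1 hk).1).2).trans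
              (sum_le_sum_of_subset_of_nonneg (filter_subset_filter _ fun k hk =>
                mem_Icc.2 (hs k hk)) fun _ _ _ => by positivity)
        _ ≤ _ := by
            rw [sum_const, nsmul_eq_mul, le_div_iff₀ (by positivity)]
            nlinarith [mul_le_mul_of_nonneg_left (b1.trans (mul_le_mul_of_nonneg_left b2
              zero_le_two)) C0.le]
  · rintro _ _ rfl rfl
    refine E61.cake3 s (e := e) (fun k hk => (hz k hk).1) (fun k _ => n2 k) one_pos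
      (by positivity) (by positivity) h1 (fun k _ i => ?_) (fun k hk => ?_) fun i => ?_
    · rw [one_mul]; exact ciInf_le (bd k) i
    · have b1 := ciInf_le (bd k) 0
      have b2 := ev_le_sup (f := F) (c := 8 ^ 0 * (3 * C * y ^ 3) * v) hQ'
        (by nlinarith [mul_le_mul_of_nonneg_right (sl 0) v0.le]) hD' (hs k hk).1 (hs k hk).2
      rw [pow_zero (4 : ℝ)] at b1
      simp only [hu2, he] at b1 ⊢
      linarith
    · have p := p8 i
      have s1 := sum_sq (f := F) (c := 8 ^ i * (3 * C * y ^ 3) * v) (ax.trans xb) (by positivity)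
        (by positivity) (by nlinarith [mul_le_mul_of_nonneg_right (sl i) v0.le])
        (fun k _ _ => hf (min_le_min k.le_succ le_rfl)) hQ' (hD' a le_rfl (ax.trans xb))
        (hD' b (ax.trans xb) le_rfl)
      have s2 : ∑ k ∈ Icc a b, (F k - Q k) ^ 2 ≤
          ∑ i ∈ Icc a b, (f i - q i) ^ 2 + ((b : ℝ) - x) * D ^ 2 :=
        calc _ ≤ ∑ k ∈ Icc a b, ((f k - q k) ^ 2 + if x < k then D ^ 2 else 0) :=
              sum_le_sum fun k hk => by
                split_ifs with c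
                · have := hD' k (mem_Icc.1 hk).1 (mem_Icc.1 hk).2
                  rw [← sq_abs (F k - Q k)]
                  exact (pow_le_pow_left₀ (abs_nonneg _) this 2).trans
                    (le_add_of_nonneg_left (sq_nonneg _))
                · simp [hF, hQ, not_lt.1 c]
          _ = _ := by
              rw [sum_add_distrib, ← sum_filter, sum_const, nsmul_eq_mul,
                show (Icc a b).filter (fun k => x < k) = Ioc x b by ext k; simp; omega,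
                Nat.card_Ioc, Nat.cast_sub xb]
      calc _ ≤ ∑ k ∈ s, C * v * e i k ^ 2 :=
            sum_le_sum fun k hk => mul_le_mul_of_nonneg_right (hz k hk).2 (sq_nonneg _)
        _ ≤ C * v * (56 / (8 ^ i * (3 * C * y ^ 3) * v) * Y) := by
            rw [← mul_sum]
            refine mul_le_mul_of_nonneg_left (le_trans (sum_le_sum_of_subset_of_nonneg
              (fun j hj => mem_Icc.2 (hs j hj)) fun _ _ _ => sq_nonneg _)
              (s1.trans (mul_le_mul_of_nonneg_left (le_trans ?_ hY) (by positivity))))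
              (by positivity)
            gcongr
        _ = 56 / 3 * (Y / y ^ 3) / 8 ^ i := by field_simp
        _ ≤ _ := by gcongr; norm_num

/-- the corner term against the terms of the cake -/
theorem T_le {w y D : ℝ} (w0 : 0 < w) (y1 : 1 ≤ y) (D0 : 0 ≤ D) (D1 : D ≤ 1) :
    w * √(w * D) * D ≤ (w * y ^ 2) ^ 2 + D ^ 3 / y ^ 3 ∧
    w * √(w * D) * D ^ 2 ≤ (w * y ^ 2) ^ 3 + w * y ^ 2 * (D ^ 3 / y ^ 3) := by
  have y0 : 0 < y := by linarith
  have a1 : w ≤ w * y ^ 2 := le_mul_of_one_le_right w0.le (one_le_pow₀ y1)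
  have p1 : 0 ≤ D ^ 3 / y ^ 3 := by positivity
  rcases le_total D (w * y ^ 2) with c | c
  · have a2 : √(w * D) ≤ w * y ^ 2 := sqrt_le_iff.2 ⟨by positivity, by rw [sq]; gcongr⟩
    generalize w * y ^ 2 = A at *
    have A0 : 0 ≤ A := w0.le.trans a1
    constructor
    · calc _ ≤ A * A * 1 := by gcongr
        _ ≤ _ := by linarith
    · calc _ = w * √(w * D) * D * D := by ring
        _ ≤ A * A * A * 1 := by gcongr
        _ ≤ _ := by nlinarith [mul_nonneg A0 p1]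
  · have a2 : √(w * D) ≤ D / y := sqrt_le_iff.2 ⟨by positivity, by
      rw [div_pow, le_div_iff₀ (by positivity)]; nlinarith [mul_le_mul_of_nonneg_right c D0]⟩
    have a3 : w ≤ D / y ^ 2 := by rwa [le_div_iff₀ (by positivity)]
    constructor
    · calc _ ≤ D / y ^ 2 * (D / y) * D := by gcongr
        _ = D ^ 3 / y ^ 3 := by field_simp
        _ ≤ _ := le_add_of_nonneg_left (by positivity)
    · calc _ ≤ w * (D / y) * D ^ 2 := by gcongr
        _ = w * y ^ 2 * (D ^ 3 / y ^ 3) := by field_simp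
        _ ≤ _ := le_add_of_nonneg_left (by positivity)

end Crest.Agent.T156.Alt.V32

end
end

-- ▼ part T156/SzV_32

/-!
# Row 156, block (L) (helper32): the sums over the top window from the pointwise size
-/

set_option autoImplicit false

noncomputable section

namespace Crest.Agent.T156.Alt.V32

open Real Finset Filter
open Crest.Agent.T156.Alt.E61 Crest.Agent.T156.Alt.Md67 Crest.Agent.T156.Alt.C33
open Crest.Agent.T156.Alt.L69 Crest.Agent.T156.Alt.Sz9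

variable {S : Sc} {M : Md} {m : ℕ} {a E Xp Vt γ u1 Lp : ℝ}

theorem cub {C ρ R e : ℝ} (C1 : 1 ≤ C) (R0 : 0 ≤ R) (e0 : 0 ≤ e)
    (h : ρ ^ 2 * (ρ - e) ≤ C ^ 2 * R ^ 3) : ρ ≤ C ^ 2 * R + e := not_lt.1 fun c => by
  have p0 : 0 ≤ C ^ 2 * R := by positivity
  have a1 : R ≤ C ^ 2 * R := le_mul_of_one_le_left R0 (one_le_pow₀ C1)
  have a2 : R ^ 2 ≤ ρ ^ 2 := pow_le_pow_left₀ R0 (by linarith) 2
  have a3 := mul_lt_mul_of_pos_left (show C ^ 2 * R < ρ - e by linarith)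
    (show 0 < ρ ^ 2 by have : 0 < ρ := by linarith
                       positivity)
  nlinarith [mul_le_mul_of_nonneg_right a2 p0]

theorem jl16 (F : Fn S M m a) (hE : 48 * S.C ^ 4 ≤ E) (h : E * M.s S.jl ≤ 1) :
    16 * S.jl ≤ S.J := by
  have a1 := (F.s_mem F.toCl.jl_lt.le).1
  have a2 := (mul_le_mul_of_nonneg_right hE (F.s_nonneg S.jl)).trans (h.trans F.J_lo)
  have C0 := F.C0
  have a4 : S.C ^ 3 * S.v * (16 * S.jl) ≤ S.C ^ 3 * S.v * S.J := by
    nlinarith [mul_le_mul_of_nonneg_left a1 (pow_pos C0 3).le]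
  exact_mod_cast le_of_mul_le_mul_left a4 (mul_pos (pow_pos C0 3) F.v0)

/-- location in the top window from the energy -/
theorem del_b (F : Fn S M m a) (j16 : 16 * S.jl ≤ S.J) {D : ℝ} (D1 : D ≤ 1) (vD : S.v ≤ D)
    (h : Ap63.Sx M.z (fun k => M.rb m a k - M.q k) S.j0 S.Jp 2 ≤ D ^ 3) :
    (∀ k, S.J / 2 ≤ k → k < S.J → M.q k - M.rb m a k ≤ 8 * S.C ^ 2 * D) ∧
    (∀ k, S.J / 2 ≤ k → k < S.J → D ≤ ((S.J : ℝ) - k) * S.v →
      M.rb m a k - M.q k ≤ 4 * S.C ^ 2 * D) ∧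
    M.rb m a (S.J - 1) ≤ M.q S.Jp + S.C * D := by
  have H := F.toCl
  have C0 := F.C0
  have C1 := F.C1
  have v0 := F.v0
  have D0 := v0.trans_le vD
  have i0 := F.i0
  have i1 := F.i1
  have i3 := F.i3
  have i4 := F.i4
  have zm := F.leg.zm
  have rm := Md67.rb_mono (M := M) (a := a) F.lg.m0
  have h' : Ap63.Sx M.z (fun k => M.rb m a k - M.q k) S.j0 (S.J - 1) 2 ≤ D ^ 3 :=
    le_trans (sum_le_sum_of_subset_of_nonneg (Ioc_subset_Ioc_right (by omega)) fun k _ _ =>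
      mul_nonneg (Ap63.w_nn zm k) (by positivity)) h
  have gm : ∀ i k, i ≤ k → k ≤ S.J - 1 → M.q i ≤ M.q k := fun i k a1 a2 => H.q_mono a1 (by omega)
  have lip : ∀ i k, S.j0 ≤ i → i ≤ k → k < S.J - 1 →
      M.q (k + 1) - M.q i ≤ S.C ^ 2 * (M.z k - M.z i) + S.C * S.v := fun i k a1 a2 a3 => by
    have b1 := Ap63.q_slow H (show i ≤ k + 1 by omega) (by omega)
    have b2 := Ap63.s_z H a1 a2 (by omega)
    have b3 := (H.ss k (by omega)).2
    linarith
  have cv : S.C * S.v ≤ S.C ^ 2 * D := by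
    have := le_self_pow₀ C1 two_ne_zero; gcongr
  have p1 : 0 ≤ S.C ^ 2 * D := by positivity
  have d3 : D ^ 3 ≤ D ^ 2 := pow_le_pow_of_le_one D0.le D1 (by norm_num)
  have cu : ∀ ρ : ℝ, ρ ^ 2 * (ρ - S.C * S.v) ≤ S.C ^ 2 *
      Ap63.Sx M.z (fun k => M.rb m a k - M.q k) S.j0 (S.J - 1) 2 → ρ ≤ 2 * (S.C ^ 2 * D) :=
    fun ρ e => by
      have := cub C1 D0.le (by positivity) (e.trans (mul_le_mul_of_nonneg_left h' (sq_nonneg _)))
      linarith
  refine ⟨fun k a1 a2 => ?_, fun k a1 a2 a3 => ?_, ?_⟩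
  · rcases le_total (M.q k - M.rb m a k) 0 with c | c
    · linarith
    rcases Ap63.dn (ρ := (M.q k - M.rb m a k) / 2) (k := k) zm rm (sq_nonneg S.C) gm lip (by omega)
      (by omega) (by linarith) (by linarith) 2 with e | e
    · have b := Ap63.blk_le (y := fun k => M.rb m a k - M.q k) (lo := S.j0) (hi := S.Jp)
        (p := S.j0 + 1) (q := k) (ρ := (M.q k - M.rb m a k) / 2) zm (by omega) (by omega) (by omega)
        (by linarith) (fun j b1 b2 => le_trans (by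
          have := rm b2
          have := gm _ _ b1.le (by omega)
          linarith) (neg_le_abs _)) 2
      have b1 := (H.z_tel (i := S.j0 + 1) (j := k) (by omega) (by omega) a2).1
      have b2 : (S.J : ℝ) ≤ 4 * ((k : ℝ) - (S.j0 + 1 : ℕ)) := by
        have : ((S.J + 4 * (S.j0 + 1) : ℕ) : ℝ) ≤ (4 * k : ℕ) := by exact_mod_cast (by omega)
        push_cast at this ⊢; linarith
      have b3 : 1 ≤ 12 * S.C ^ 4 * (((k : ℝ) - (S.j0 + 1 : ℕ)) * (S.v / S.C)) :=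
        calc _ ≤ 3 * S.C ^ 3 * (4 * ((k : ℝ) - (S.j0 + 1 : ℕ)) * S.v) := F.J_lo.trans (by gcongr)
          _ = _ := by field_simp; ring
      generalize (M.q k - M.rb m a k) = d at *
      have b4 := mul_le_mul_of_nonneg_left b3 (sq_nonneg (d / 2))
      have b5 := mul_le_mul_of_nonneg_left (((mul_le_mul_of_nonneg_left b1 (sq_nonneg (d / 2))).trans
        (b.trans h)).trans d3) (show 0 ≤ 12 * S.C ^ 4 by positivity)
      exact le_of_pow_le_pow_left₀ two_ne_zero (by positivity)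
        (by nlinarith [sq_nonneg (S.C ^ 2 * D)])
    · linarith [cu _ e]
  · rcases le_total (M.rb m a k - M.q k) 0 with c | c
    · linarith
    rcases Ap63.up (ρ := (M.rb m a k - M.q k) / 2) (k := k) zm rm (sq_nonneg S.C) gm lip (by omega)
      (by omega) (by linarith) (by linarith) 2 with e | e
    · have b1 := (H.z_tel (i := k - 1) (j := S.J - 1) (by omega) (by omega) (by omega)).1
      rw [Nat.cast_sub (by omega), Nat.cast_sub (by omega), sub_sub_sub_cancel_right,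
        ← mul_div_assoc, div_le_iff₀ C0] at b1
      generalize (M.rb m a k - M.q k) = d at *
      have b4 := mul_le_mul_of_nonneg_left (a3.trans b1) (sq_nonneg (d / 2))
      have b5 := mul_le_mul_of_nonneg_right (e.trans h') C0.le
      have b6 : (d / 2) ^ 2 ≤ S.C * D ^ 2 := le_of_mul_le_mul_right (by nlinarith) D0
      have b7 : S.C * D ^ 2 ≤ S.C ^ 4 * D ^ 2 := by
        have := le_self_pow₀ C1 four_ne_zero; gcongr
      exact le_of_pow_le_pow_left₀ two_ne_zero (by positivity)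
        (by nlinarith [sq_nonneg (S.C ^ 2 * D)])
    · linarith [cu _ e]
  · rcases le_total (M.rb m a (S.J - 1) - M.q S.Jp) 0 with c | c
    · have : 0 ≤ S.C * D := by positivity
      linarith
    have b := Ap63.blk_le (y := fun k => M.rb m a k - M.q k) (lo := S.j0) (hi := S.Jp)
      (p := S.J - 1) (q := S.Jp) zm (by omega) (by omega) le_rfl c (fun j b1 b2 => le_trans (by
        have := rm b1.le
        have := H.q_mono b2 i4.le
        linarith) (le_abs_self _)) 2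
    have b1 := H.atom.2
    rw [H.top _ le_rfl] at b
    rw [← sub_le_iff_le_add']
    generalize M.rb m a (S.J - 1) - M.q S.Jp = d at *
    have b2 : d ^ 2 * (1 / S.C) ≤ D ^ 2 :=
      (mul_le_mul_of_nonneg_left (by linarith) (sq_nonneg d)).trans ((b.trans h).trans d3)
    rw [mul_one_div, div_le_iff₀ C0] at b2
    exact le_of_pow_le_pow_left₀ two_ne_zero (by positivity)
      (by nlinarith [mul_le_mul_of_nonneg_left C1 (mul_nonneg (sq_nonneg D) C0.le)])

/-- the corner term at one node of the first shell -/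
theorem node {w u ω C A L R γ Z : ℝ} (w0 : 0 < w) (u0 : 0 < u) (ω0 : 0 < ω) (C1 : 1 ≤ C)
    (hω : ω ≤ (2 * C * u) ^ 2) (L1 : 1 ≤ L) (γ0 : 0 ≤ γ) (hR : γ ≤ R) (a1 : w ^ 3 / ω ≤ A)
    (a2 : w ^ 3 * γ ^ 2 / ω ≤ A ^ 3) (hZ : Z = max (w ^ 3 / u ^ 2) γ) {q : ℕ} (hq : q ≤ 2) :
    w * √(w * Z) * Z ^ (q + 1) ≤ 256 * C ^ 8 * (u * ((L ^ ((2 : ℝ) / 3) * A) ^ (q + 2) +
      min (R ^ (q + 2) / L) (√(w ^ 3 / ω) * R ^ (((q + 2 : ℕ) : ℝ) - 1 / 2)))) := by
  have C0 : 0 < C := by linarith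
  have L0 : 0 < L := by linarith
  have R0 := γ0.trans hR
  have A0 : 0 < A := lt_of_lt_of_le (by positivity) a1
  have l1 : 1 ≤ L ^ ((2 : ℝ) / 3) := one_le_rpow L1 (by norm_num)
  have l3 := rp23 L0.le
  have m0 : 0 ≤ min (R ^ (q + 2) / L) (√(w ^ 3 / ω) * R ^ (((q + 2 : ℕ) : ℝ) - 1 / 2)) :=
    le_min (by positivity) (by positivity)
  have c8 : 1 ≤ C ^ 8 := one_le_pow₀ C1
  have sq' : ∀ {Z B : ℝ}, 0 ≤ Z → 0 ≤ B → w ^ 3 * Z ≤ B ^ 2 → w * √(w * Z) ≤ B :=
    fun Z0 B0 h => le_of_pow_le_pow_left₀ two_ne_zero B0 (by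
      rw [mul_pow, sq_sqrt (by positivity)]; linarith)
  generalize L ^ ((2 : ℝ) / 3) = l at *
  have p0 : 0 ≤ u * (l * A) ^ (q + 2) := by positivity
  have fst : ∀ c : ℝ, 1 ≤ c → c ^ 4 ≤ 256 * C ^ 8 → 0 ≤ Z → w ^ 3 ≤ Z * u ^ 2 → Z ≤ c * (l * A) →
      w * √(w * Z) * Z ^ (q + 1) ≤ 256 * C ^ 8 * (u * ((l * A) ^ (q + 2) +
      min (R ^ (q + 2) / L) (√(w ^ 3 / ω) * R ^ (((q + 2 : ℕ) : ℝ) - 1 / 2)))) :=
    fun c c1 c2 Z0 h1 h2 =>
      calc _ ≤ u * Z * Z ^ (q + 1) := mul_le_mul_of_nonneg_right (sq' Z0 (by positivity)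
            (by nlinarith [mul_le_mul_of_nonneg_right h1 Z0])) (by positivity)
        _ = u * Z ^ (q + 2) := by ring
        _ ≤ u * (c * (l * A)) ^ (q + 2) := by gcongr
        _ = c ^ (q + 2) * (u * (l * A) ^ (q + 2)) := by rw [mul_pow]; ring
        _ ≤ _ := by
            gcongr
            · exact (pow_le_pow_right₀ c1 (by omega)).trans c2
            · linarith
  rcases le_total γ (w ^ 3 / u ^ 2) with c | c
  · rw [max_eq_left c] at hZ
    refine fst (4 * C ^ 2) (by nlinarith) (by nlinarith) (by rw [hZ]; positivity)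
      (by rw [hZ, div_mul_cancel₀ _ (by positivity)]) ?_
    rw [div_le_iff₀ ω0] at a1
    rw [hZ, div_le_iff₀ (by positivity)]
    calc _ ≤ l * A * (2 * C * u) ^ 2 := a1.trans (by
          gcongr; exact le_mul_of_one_le_left A0.le l1)
      _ = _ := by ring
  rw [max_eq_right c] at hZ
  subst hZ
  rcases le_total Z (l * A) with e | e
  · exact fst 1 le_rfl (by linarith) γ0 (by rwa [div_le_iff₀ (by positivity)] at c) (by linarith)
  have b : w * √(w * Z) * Z ^ (q + 1) ≤ 2 * C * u *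
      min (R ^ (q + 2) / L) (√(w ^ 3 / ω) * R ^ (((q + 2 : ℕ) : ℝ) - 1 / 2)) := by
    rw [mul_min_of_nonneg _ _ (by positivity)]
    refine le_min ?_ ?_
    · have Z0 : 0 < Z := lt_of_lt_of_le (by positivity) c
      have b1 : w * √(w * Z) ≤ 2 * C * u * Z / L := sq' γ0 (by positivity) (by
        rw [div_le_iff₀ ω0] at a2
        rw [div_pow, le_div_iff₀ (by positivity)]
        have b2 := pow_le_pow_left₀ (by positivity) e 3
        rw [mul_pow, l3] at b2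
        refine le_of_mul_le_mul_right ?_ Z0
        calc _ = L ^ 2 * (w ^ 3 * Z ^ 2) := by ring
          _ ≤ L ^ 2 * (A ^ 3 * (2 * C * u) ^ 2) :=
            mul_le_mul_of_nonneg_left (a2.trans (by gcongr)) (by positivity)
          _ = L ^ 2 * A ^ 3 * (2 * C * u) ^ 2 := by ring
          _ ≤ Z ^ 3 * (2 * C * u) ^ 2 := by gcongr
          _ = _ := by ring)
      calc _ ≤ 2 * C * u * R / L * R ^ (q + 1) := by gcongr; exact b1.trans (by gcongr)
        _ = _ := by ring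
    · have b1 : R ^ (((q + 2 : ℕ) : ℝ) - 1 / 2) = √R * R ^ (q + 1) := by
        rw [show ((q + 2 : ℕ) : ℝ) - 1 / 2 = 1 / 2 + (q + 1 : ℕ) by push_cast; ring,
          rpow_add' R0 (by positivity), rpow_natCast, sqrt_eq_rpow]
      have b2 : w * √(w * Z) ≤ 2 * C * u * (√(w ^ 3 / ω) * √R) := sq' γ0 (by positivity) (by
        rw [mul_pow, mul_pow _ √R, sq_sqrt (by positivity), sq_sqrt R0]
        calc _ = ω * (w ^ 3 / ω * Z) := by field_simp
          _ ≤ _ := by gcongr)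
      rw [b1]
      calc _ ≤ 2 * C * u * (√(w ^ 3 / ω) * √R) * R ^ (q + 1) := by gcongr
        _ = _ := by ring
  refine b.trans ?_
  rw [mul_assoc (2 * C)]
  have c9 : C ≤ C ^ 8 := le_self_pow₀ C1 (by norm_num)
  exact mul_le_mul (by linarith) (mul_le_mul_of_nonneg_left
    (le_add_of_nonneg_left (by positivity)) u0.le) (by positivity) (by positivity)

/-- **the corner term is paid by the first shell** -/
theorem np_ge (F : Fn S M m a) (H : SzT98.Far E S M Xp Vt γ u1 Lp) (hE : 27 * S.C ^ 3 ≤ E)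
    (G : Jn S M Xp u1) {w Z : ℝ} (w0 : 0 < w) (hw : w ^ 3 = S.w3 1) (hZ : Z = max (w ^ 3 / S.u0 ^ 2) γ) {q : ℕ}
    (hq : q ≤ 2) :
    w * √(w * Z) * Z ^ (q + 1) ≤ 256 * S.C ^ 8 * Np M S Xp Vt γ u1 Lp (q + 2) := by
  have h := F.toCl
  have C0 := F.C0
  have C1 := F.C1
  have u0 := H.u0
  have i2 := F.i2
  have i3 := F.i3
  have zm := F.leg.zm
  have γ0 : 0 ≤ γ := (sub_nonneg.2 (F.sm i3)).trans H.γ0
  have c3 : S.C ≤ S.C ^ 3 := le_self_pow₀ C1 three_ne_zero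
  have u10 : 0 ≤ u1 := le_trans (sub_nonneg.2 (F.leg.z1 _)) (h.last.trans H.u1a)
  have b1 : 3 * S.C * S.u0 ≤ 1 := le_of_pow_le_pow_left₀ three_ne_zero zero_le_one (by
    have := mul_le_mul hE G.u03 (by positivity) (le_trans (by positivity) hE)
    nlinarith [H.Xp0.2])
  have b2 : 3 * S.C * u1 ≤ 1 := by
    nlinarith [H.u1b, mul_le_mul_of_nonneg_right hE u10, mul_le_mul_of_nonneg_right c3 u10,
      mul_nonneg C0.le u10]
  have b3 : S.u0 + S.u0 ≤ 1 - M.z (S.J - 1) - S.u0 ∧ u1 + S.u0 ≤ 1 - M.z (S.J - 1) - S.u0 := by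
    have a1 := h.atom.2
    have a2 : 3 * S.u0 ≤ 1 / S.C := by rw [le_div_iff₀ C0]; linarith
    have a3 : 3 * u1 ≤ 1 / S.C := by rw [le_div_iff₀ C0]; linarith
    exact ⟨by linarith, by linarith⟩
  have w3 := F.w3_pos one_pos
  have Xp0 := H.Xp0.1
  have Vt0 := H.Vt0
  have L1 := H.Lp1.1
  have Rg : ∀ k, γ ≤ Rp M S Xp Vt γ k := fun k => le_add_of_nonneg_left
    (add_nonneg (sqrt_nonneg _) (le_min Vt0 (sqrt_nonneg _)))
  have apn : ∀ k, 0 ≤ (S.w3 1 * (S.den (M.z (k - 1)) + (Rp M S Xp Vt γ k + Xp ^ ((1 : ℝ) / 3)) ^ 2 /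
      (ds M S k ^ 2 * S.den (M.z (k - 1))))) ∧
      0 ≤ S.w3 1 / (S.den (M.z (k - 1)) * ds M S k ^ 2) := fun k => by
    have := h.den0 (M.z (k - 1))
    exact ⟨by positivity, by positivity⟩
  have wt := wt_ge (z := M.z) (a := S.J - 1) (x := M.z (S.J - 1) + S.u0) (b := S.Jp)
    (by linarith) (by omega)
  rw [h.top _ le_rfl, min_eq_right (by linarith [b3.1]), add_sub_cancel_left] at wt
  have T0 : 0 ≤ w * √(w * Z) * Z ^ (q + 1) := by
    have : 0 ≤ Z := by rw [hZ]; exact γ0.trans (le_max_right _ _)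
    positivity
  refine le_of_mul_le_mul_left ?_ u0
  calc _ ≤ _ := mul_le_mul_of_nonneg_right wt T0
    _ ≤ ∑ k ∈ (Ioc (S.J - 1) S.Jp).filter fun k => M.z (k - 1) ≤ M.z (S.J - 1) + S.u0,
          S.u0 * (256 * S.C ^ 8) * (dx M k * ((Lp ^ ((2 : ℝ) / 3) * ap M S Xp Vt γ k) ^ (q + 2) +
            min (Rp M S Xp Vt γ k ^ (q + 2) / Lp) (√(S.w3 1 / (S.den (M.z (k - 1)) * ds M S k ^ 2)) *
              Rp M S Xp Vt γ k ^ (((q + 2 : ℕ) : ℝ) - 1 / 2)))) := by
        rw [sum_mul]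
        refine sum_le_sum fun k hk => ?_
        obtain ⟨k1, k2⟩ := mem_filter.1 hk
        have k3 := zm (show S.J - 1 ≤ k - 1 by have := (mem_Ioc.1 k1).1; omega)
        have d0 := h.den0 (M.z (k - 1))
        have d1 : S.den (M.z (k - 1)) ≤ S.C ^ 2 := (h.dens _ _ le_rfl k3 (by linarith [b3.1])
          (le_min (by linarith) (by linarith [b3.1]))).2.trans (by rw [sq]; gcongr; exact G.dj2)
        have s0 : 0 < ds M S k := lt_min (by unfold dl; linarith) (by unfold du; linarith [b3.1])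
        have s1 : ds M S k ≤ 2 * S.u0 := (min_le_left _ _).trans (by unfold dl; linarith)
        obtain ⟨n1, n2⟩ := apn k
        have := node (ω := S.den (M.z (k - 1)) * ds M S k ^ 2) (A := ap M S Xp Vt γ k) w0 u0
          (by positivity) C1 (by
            rw [show (2 * S.C * S.u0) ^ 2 = S.C ^ 2 * (2 * S.u0) ^ 2 by ring]; gcongr) L1 γ0 (Rg k)
          (by
            rw [hw]
            exact le_add_of_le_of_nonneg (le_add_of_nonneg_left (by positivity)) (sqrt_nonneg _))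
          (by
            refine le_trans ?_ (pow_le_pow_left₀ (by positivity)
              (le_add_of_le_of_nonneg (le_add_of_nonneg_right n2) (sqrt_nonneg _)) 3)
            rw [rp3 n1, hw, mul_div_assoc, mul_comm _ (ds M S k ^ 2)]
            refine mul_le_mul_of_nonneg_left (le_add_of_nonneg_of_le d0.le ?_) w3.le
            gcongr
            exact le_add_of_le_of_nonneg (Rg k) (by positivity)) hZ hq
        rw [hw] at this
        refine (mul_le_mul_of_nonneg_left this (Ap63.w_nn zm k)).trans_eq ?_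
        unfold dx; ring
    _ ≤ _ := by
        rw [← mul_sum, mul_assoc S.u0]
        gcongr
        refine le_add_of_nonneg_of_le u10 (sum_le_sum_of_subset_of_nonneg (fun k hk => ?_)
          fun k _ _ => mul_nonneg (Ap63.w_nn zm k) ?_)
        · obtain ⟨k1, k2⟩ := mem_filter.1 hk
          have := mem_Ioc.1 k1
          exact mem_filter.2 ⟨mem_Icc.2 ⟨by omega, by omega⟩, by unfold du; linarith [b3.2]⟩
        · obtain ⟨n1, n2⟩ := apn k
          have := γ0.trans (Rg k)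
          have : 0 ≤ ap M S Xp Vt γ k := add_nonneg (add_nonneg (by positivity) n2) (sqrt_nonneg _)
          exact add_nonneg (by positivity) (le_min (by positivity) (by positivity))

theorem pow3 {x a b c l : ℝ} (x0 : 0 ≤ x) (a0 : 0 ≤ a) (b0 : 0 ≤ b) (c0 : 0 ≤ c) (l1 : 1 ≤ l)
    (h : x ≤ l * (a + b + c)) {q : ℕ} (hq : q ≤ 2) :
    x ^ (q + 2) ≤ 64 * l ^ 4 * (a ^ (q + 2) + b ^ (q + 2) + c ^ (q + 2)) := by
  have a1 := add_pow_le (add_nonneg a0 b0) c0 (q + 2)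
  have a2 := add_pow_le a0 b0 (q + 2)
  have a3 : (2 : ℝ) ^ (q + 2 - 1) ≤ 8 :=
    (pow_le_pow_right₀ one_le_two (show _ ≤ 3 by omega)).trans (by norm_num)
  have a4 : (a + b) ^ (q + 2) ≤ 8 * (a ^ (q + 2) + b ^ (q + 2)) := a2.trans (by gcongr)
  have a5 : 0 ≤ c ^ (q + 2) := by positivity
  calc _ ≤ l ^ (q + 2) * (a + b + c) ^ (q + 2) := by rw [← mul_pow]; gcongr
    _ ≤ l ^ 4 * (8 * ((a + b) ^ (q + 2) + c ^ (q + 2))) :=
      mul_le_mul (pow_le_pow_right₀ l1 (by omega)) (a1.trans (by gcongr)) (by positivity)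
        (by positivity)
    _ ≤ l ^ 4 * (64 * (a ^ (q + 2) + b ^ (q + 2) + c ^ (q + 2))) := by gcongr ?_ * ?_; linarith
    _ = _ := by ring

/-- **the sums at a free first slope** `y ^ 3`; `D` is the location, `Z` the corner size -/
theorem sums (F : Fn S M m a) (j16 : 16 * S.jl ≤ S.J) (hγ : M.s S.Jp - M.s S.J ≤ γ)
    {lam D w y Z : ℝ} {h : ℕ → ℝ} (l1 : 1 ≤ lam) (phi : Phi M S m a ≤ D ^ 3) (vD : S.v ≤ D)
    (D1 : 12 * S.C ^ 3 * D ≤ 1) (w0 : 0 < w) (y1 : 1 ≤ y) (DZ : D ≤ Z) (γZ : γ ≤ Z)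
    (hh : ∀ k < S.J, 0 ≤ h k ∧ h k ≤ w ^ 3 / (((S.J : ℝ) - k) * S.v) ^ 2 ∧ h k ≤ 3 * Z)
    (hW : ∀ k (κ e : ℝ), 2 * S.J ≤ 3 * k → k < S.J → 1 ≤ κ → 0 ≤ e →
      (∀ i : ℕ, S.J / 2 ≤ i → i < S.J →
        |M.rb m a i - M.rb m a k| ≤ e + κ * (|(i : ℝ) - k| * S.v)) →
      u4 M m a k ≤ lam * (κ ^ ((2 : ℝ) / 3) * w + e + h k)) :
    ∑ k ∈ (range S.J).filter fun k => 2 * S.J ≤ 3 * k, M.dz m a k * u4 M m a k ^ 2 ≤
      10 ^ 12 * S.C ^ 9 * lam ^ 4 * ((w * y ^ 2) ^ 2 + D ^ 3 / y ^ 3 + w * √(w * Z) * Z) ∧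
    ∑ k ∈ (range S.J).filter fun k => 2 * S.J ≤ 3 * k, M.dz m a k * u4 M m a k ^ 3 ≤
      10 ^ 12 * S.C ^ 9 * lam ^ 4 *
        ((w * y ^ 2) ^ 3 + w * y ^ 2 * (D ^ 3 / y ^ 3) + w * √(w * Z) * Z ^ 2) ∧
    (y = 1 → ∑ k ∈ (range S.J).filter fun k => 2 * S.J ≤ 3 * k, M.dz m a k * u4 M m a k ^ 4 ≤
      10 ^ 12 * S.C ^ 9 * lam ^ 4 * (w ^ 4 + w * √(w * Z) * Z ^ 3)) := by
  have H := F.toCl
  have L := F.lg
  have C0 := F.C0
  have C1 := F.C1
  have v0 := F.v0
  have D0 := v0.trans_le vD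
  have Z0 := D0.trans_le DZ
  have y0 : 0 < y := by linarith
  have l0 : 0 < lam := by linarith
  have i0 := F.i0
  have i1 := F.i1
  have i3 := F.i3
  have i4 := F.i4
  have c : ∀ {i j : ℕ}, i ≤ j → S.C ^ i ≤ S.C ^ j := fun e => pow_le_pow_right₀ C1 e
  have c1 : ∀ i : ℕ, 1 ≤ S.C ^ i := fun i => one_le_pow₀ C1
  rw [Phi, Ap63.En_eq H] at phi
  obtain ⟨d1, d2, d3⟩ := del_b F j16 (by nlinarith [mul_le_mul_of_nonneg_right (c1 3) D0.le]) vD phi
  have f1 := Nat.le_ceil (D / S.v)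
  have f2 := Nat.ceil_lt_add_one (show 0 ≤ D / S.v by positivity)
  have f3 : 0 < ⌈D / S.v⌉₊ := Nat.ceil_pos.2 (by positivity)
  generalize ⌈D / S.v⌉₊ = n at f1 f2 f3
  rw [div_le_iff₀ v0] at f1
  rw [div_add_one v0.ne', lt_div_iff₀ v0] at f2
  have f4 : 2 * n ≤ S.J := by
    have : S.C ^ 3 * S.v * (2 * n) ≤ S.C ^ 3 * S.v * S.J := by
      nlinarith [F.J_lo, mul_le_mul_of_nonneg_left (show n * S.v ≤ 2 * D by linarith)
        (pow_pos C0 3).le]
    exact_mod_cast le_of_mul_le_mul_left this (by positivity)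
  have dzb : ∀ i, S.J / 2 ≤ i → i < S.J → S.v / S.C ≤ M.dz m a i ∧ M.dz m a i ≤ S.C * S.v :=
    fun i a1 a2 => by
      obtain ⟨i, rfl⟩ : ∃ r, i = r + 1 := ⟨i - 1, by omega⟩
      rw [dz_succ H.leg]
      exact H.zs i (by omega) a2
  have ex : ((S.J - n : ℕ) : ℝ) = S.J - n := Nat.cast_sub (by omega)
  have eb : ((S.J - 1 : ℕ) : ℝ) = S.J - 1 := by rw [Nat.cast_sub (by omega), Nat.cast_one]
  set s := (range S.J).filter fun k => 2 * S.J ≤ 3 * k with hs
  have ms : ∀ k ∈ s, 2 * S.J ≤ 3 * k ∧ k < S.J := fun k hk =>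
    ⟨(mem_filter.1 hk).2, mem_range.1 (mem_filter.1 hk).1⟩
  have hz : ∀ k ∈ s, 0 ≤ M.dz m a k ∧ M.dz m a k ≤ S.C * S.v := fun k hk =>
    ⟨L.dz_nonneg k, (dzb k (by have := ms k hk; omega) (ms k hk).2).2⟩
  have p1 : 0 ≤ S.C ^ 2 * D := by positivity
  obtain ⟨u1, u2, n0, r1, r2⟩ := core s (f := M.rb m a) (q := M.q) (dz := M.dz m a)
    (u := fun k => u4 M m a k / lam - h k) (a := S.J / 2) (b := S.J - 1) (x := S.J - n)
    (D := 8 * S.C ^ 2 * D) (Y := 1284 * S.C ^ 6 * D ^ 3) (ρ := 12 * S.C ^ 2 * Z) C1 v0 w0 y1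
    (by omega) (by omega) (fun k hk => by have := ms k hk; omega) (Md67.rb_mono L.m0)
    (fun k _ a2 => ⟨sub_nonneg.2 (H.q_mono k.le_succ (by omega)),
      (Ap63.q_slow H k.le_succ (by omega)).trans (H.ss k (by omega)).2⟩) hz
    ((L.sum_dz_le s).trans (by linarith [L.a0])) (fun i a1 a2 => by
      have b1 := d1 i a1 (by omega)
      have b2 : (i : ℝ) ≤ (S.J - n : ℕ) := by exact_mod_cast a2
      have b3 := d2 i a1 (by omega) (f1.trans (by gcongr; linarith))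
      exact abs_le.2 ⟨by linarith, by linarith⟩) (by
      have b1 : S.v * ∑ i ∈ Icc (S.J / 2) (S.J - 1), (M.rb m a i - M.q i) ^ 2 ≤ S.C * D ^ 3 := by
        rw [Ap63.Sx_two] at phi
        refine le_trans ?_ (mul_le_mul_of_nonneg_left (le_trans (sum_le_sum_of_subset_of_nonneg
          (s := Icc (S.J / 2) (S.J - 1)) (fun j hj => by
            have := mem_Icc.1 hj; exact mem_Ioc.2 ⟨by omega, by omega⟩) fun j _ _ =>
            mul_nonneg (Ap63.w_nn F.leg.zm j) (sq_nonneg _)) phi) C0.le)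
        rw [mul_sum, mul_sum]
        refine sum_le_sum fun k hk => ?_
        have k1 := mem_Icc.1 hk
        have := (dzb k k1.1 (by omega)).1
        rw [div_le_iff₀' C0, dz_up F.leg (by omega)] at this
        rw [← mul_assoc]
        exact mul_le_mul_of_nonneg_right this (sq_nonneg _)
      have b2 : (((S.J - 1 : ℕ) : ℝ) - (S.J - n : ℕ)) * S.v ≤ D := by rw [ex, eb]; linarith
      have b3 := mul_le_mul_of_nonneg_left b1 C0.le
      have b4 := mul_le_mul_of_nonneg_left b2 (show 0 ≤ S.C ^ 5 * D ^ 2 by positivity)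
      have b5 := mul_le_mul_of_nonneg_right (c (show 2 ≤ 6 by norm_num)) (pow_pos D0 3).le
      have b6 := mul_le_mul_of_nonneg_right (c (show 5 ≤ 6 by norm_num)) (pow_pos D0 3).le
      linarith) (by
      have b1 := d1 (S.J - n) (by omega) (by omega)
      have b2 := Ap63.q_slow H (show S.J - n ≤ S.Jp by omega) le_rfl
      have b3 := (H.s_tel (show S.J - n ≤ S.J by omega) le_rfl).2
      rw [ex] at b3
      have b4 := mul_le_mul_of_nonneg_left (show n * S.v ≤ 2 * D by linarith) C0.le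
      have b5 : S.C * D ≤ S.C ^ 2 * D := by
        have := le_self_pow₀ C1 two_ne_zero; gcongr
      have b6 : S.C ^ 2 * D ≤ S.C ^ 2 * Z := by gcongr
      have b7 := le_mul_of_one_le_left Z0.le (c1 2)
      linarith) (fun k hk κ α e a1 a2 a3 a4 a5 => by
      have b1 := hW k κ e (ms k hk).1 (ms k hk).2 a1 a4 fun i b1 b2 => a5 i b1 (by omega)
      have b2 : κ ^ ((2 : ℝ) / 3) * w ≤ α := le_of_pow_le_pow_left₀ three_ne_zero a2 (by
        rw [mul_pow, rp23 (by linarith)]; linarith)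
      rw [← div_le_iff₀' l0] at b1
      linarith)
  obtain ⟨r2, r3, r4⟩ := r2 _ _ rfl rfl
  have wA : w ≤ w * y ^ 2 := le_mul_of_one_le_right w0.le (one_le_pow₀ y1)
  have t0 : 0 < w * √(w * Z) := by positivity
  have gen : ∀ q ≤ 2, ∑ k ∈ s, M.dz m a k * u4 M m a k ^ (q + 2) ≤ 64 * lam ^ 4 *
      (256 * (w * y ^ 2) ^ (q + 2) + 10 ^ 7 * S.C ^ 9 * (w * √(w * Z) * Z ^ (q + 1)) +
        ∑ k ∈ s, M.dz m a k * u2 k ^ (q + 2)) := fun q hq => by
    have a1 := h_sum s (dz := M.dz m a) (h := h) (ρ := w * √(w * Z) / Z) v0 (by positivity) Z0.le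
      C0.le (fun k hk => (ms k hk).2) hz (fun k hk => by
        rw [show Z * (w * √(w * Z) / Z) ^ 2 = w ^ 3 by
          rw [div_pow, mul_pow, sq_sqrt (by positivity)]; field_simp]
        exact hh k (ms k hk).2) q
    rw [show w * √(w * Z) / Z * Z ^ (q + 2) = w * √(w * Z) * Z ^ (q + 1) by field_simp; ring] at a1
    have a2 : √(2 * w) * √(12 * S.C ^ 2 * Z) ≤ 5 * S.C * √(w * Z) := by
      rw [← sqrt_mul (by positivity)]
      refine sqrt_le_iff.2 ⟨by positivity, ?_⟩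
      rw [mul_pow, sq_sqrt (by positivity)]
      nlinarith [show 0 ≤ S.C ^ 2 * (w * Z) by positivity]
    have a3 : (12 * S.C ^ 2) ^ (q + 1) ≤ (12 * S.C ^ 2) ^ 3 :=
      pow_le_pow_right₀ (by linarith [c1 2]) (by omega)
    have a4 : (2 : ℝ) ^ (q + 2) ≤ 2 ^ 4 := pow_le_pow_right₀ one_le_two (by omega)
    have a5 : (3 : ℝ) ^ (q + 1) ≤ 3 ^ 3 := pow_le_pow_right₀ (by norm_num) (by omega)
    have a6 : ∑ k ∈ s, M.dz m a k * u1 k ^ (q + 2) ≤ 256 * (w * y ^ 2) ^ (q + 2) +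
        8847360 * S.C ^ 8 * (w * √(w * Z) * Z ^ (q + 1)) :=
      calc _ ≤ _ := r1 q
        _ = 2 ^ (q + 2) * (2 ^ (q + 2) * w ^ (q + 2) + 64 * S.C * w *
            (√(2 * w) * √(12 * S.C ^ 2 * Z)) * ((12 * S.C ^ 2) ^ (q + 1) * Z ^ (q + 1))) := by
          rw [mul_pow (2 : ℝ) w, ← mul_pow _ Z]; ring
        _ ≤ 2 ^ 4 * (2 ^ 4 * (w * y ^ 2) ^ (q + 2) + 64 * S.C * w *
            (5 * S.C * √(w * Z)) * ((12 * S.C ^ 2) ^ 3 * Z ^ (q + 1))) := by gcongr
        _ = _ := by ring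
    have T0 : 0 ≤ w * √(w * Z) * Z ^ (q + 1) := by positivity
    have a7 : ∑ k ∈ s, M.dz m a k * h k ^ (q + 2) ≤
        12 * S.C * 3 ^ 3 * (w * √(w * Z) * Z ^ (q + 1)) := a1.trans (by gcongr)
    have a8 := mul_le_mul_of_nonneg_right (c (show 8 ≤ 9 by norm_num)) T0
    have a9 := mul_le_mul_of_nonneg_right (c (show 1 ≤ 9 by norm_num)) T0
    have a10 : 0 ≤ S.C ^ 9 * (w * √(w * Z) * Z ^ (q + 1)) := by positivity
    calc _ ≤ ∑ k ∈ s, 64 * lam ^ 4 * (M.dz m a k * u1 k ^ (q + 2) + M.dz m a k * u2 k ^ (q + 2) +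
          M.dz m a k * h k ^ (q + 2)) := sum_le_sum fun k hk => by
          obtain ⟨b1, b2, b3⟩ := n0 k hk
          refine (mul_le_mul_of_nonneg_left (pow3 (u4_nn k) b1 b2 (hh k (ms k hk).2).1 l1 ?_ hq)
            (hz k hk).1).trans_eq (by ring)
          rw [← div_le_iff₀' l0]
          linarith
      _ ≤ _ := by
          rw [← mul_sum, sum_add_distrib, sum_add_distrib]
          refine mul_le_mul_of_nonneg_left ?_ (by positivity)
          linarith
  have fin : ∀ {x A B T : ℝ}, 0 ≤ A → 0 ≤ B → 0 ≤ T → x ≤ 12 * 10 ^ 9 * S.C ^ 9 * (A + B) →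
      64 * lam ^ 4 * (256 * A + 10 ^ 7 * S.C ^ 9 * T + x) ≤
        10 ^ 12 * S.C ^ 9 * lam ^ 4 * (A + B + T) := fun {x A B T} A0 B0 T0 e => by
    have a1 := mul_le_mul_of_nonneg_right (c1 9) A0
    have a2 : 0 ≤ S.C ^ 9 * B := by positivity
    have a3 : 0 ≤ S.C ^ 9 * T := by positivity
    calc _ = lam ^ 4 * (64 * (256 * A + 10 ^ 7 * S.C ^ 9 * T + x)) := by ring
      _ ≤ lam ^ 4 * (10 ^ 12 * S.C ^ 9 * (A + B + T)) := by gcongr ?_ * ?_; linarith
      _ = _ := by ring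
  have q0 : 0 ≤ D ^ 3 / y ^ 3 := by positivity
  rw [mul_div_assoc] at r2 r3 r4
  refine ⟨(gen 0 (by norm_num)).trans ?_, (gen 1 (by norm_num)).trans ?_, fun e => ?_⟩
  · rw [zero_add 1, pow_one]
    refine fin (by positivity) q0 (by positivity) (r2.trans ?_)
    generalize D ^ 3 / y ^ 3 = B at *
    have a1 := mul_le_mul_of_nonneg_right (c (show 2 ≤ 9 by norm_num)) (sq_nonneg (w * y ^ 2))
    have a2 := mul_le_mul_of_nonneg_right (c (show 6 ≤ 9 by norm_num)) q0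
    have a3 : 0 ≤ S.C ^ 9 * B := by positivity
    have a4 : 0 ≤ S.C ^ 9 * (w * y ^ 2) ^ 2 := by positivity
    rw [zero_add 2]
    linarith
  · refine fin (by positivity) (by positivity) (by positivity) (r3.trans ?_)
    have A0 : 0 ≤ w * y ^ 2 := by positivity
    generalize D ^ 3 / y ^ 3 = B at *
    generalize w * y ^ 2 = A at *
    have a1 := mul_le_mul_of_nonneg_right (c (show 3 ≤ 9 by norm_num)) (pow_nonneg A0 3)
    have a2 := mul_le_mul_of_nonneg_right (c (show 7 ≤ 9 by norm_num)) (mul_nonneg A0 q0)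
    have a3 : 0 ≤ S.C ^ 9 * (A * B) := by positivity
    have a4 : 0 ≤ S.C ^ 9 * A ^ 3 := by positivity
    rw [show (1 + 2 : ℕ) = 3 from rfl]
    linarith
  · subst e
    have g := gen 2 le_rfl
    simp only [one_pow, mul_one, div_one, one_mul] at r4 g
    have a0 : √(6 * S.C * w * (2 * (8 * S.C ^ 2 * D))) ≤ 10 * S.C ^ 2 * √(w * Z) := by
      refine sqrt_le_iff.2 ⟨by positivity, ?_⟩
      rw [mul_pow, sq_sqrt (by positivity)]
      have b1 : S.C ^ 3 * (w * D) ≤ S.C ^ 4 * (w * Z) := by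
        have := c (show 3 ≤ 4 by norm_num); gcongr
      nlinarith [show 0 ≤ S.C ^ 4 * (w * Z) by positivity]
    have a1 := mul_le_mul_of_nonneg_right (c (show 4 ≤ 9 by norm_num)) (pow_pos w0 4).le
    have a2 : 6 * S.C * w * √(6 * S.C * w * (2 * (8 * S.C ^ 2 * D))) *
        (19 * (1284 * S.C ^ 6 * D ^ 3)) ≤
        6 * S.C * w * (10 * S.C ^ 2 * √(w * Z)) * (19 * (1284 * S.C ^ 6 * Z ^ 3)) := by gcongr
    have a3 : 0 ≤ S.C ^ 9 * (w * √(w * Z) * Z ^ 3) := by positivity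
    have a4 : 0 ≤ S.C ^ 9 * w ^ 4 := by positivity
    have a5 := mul_le_mul_of_nonneg_right (c1 9) (pow_pos w0 4).le
    refine g.trans ?_
    calc _ = lam ^ 4 * (64 * (256 * w ^ 4 + 10 ^ 7 * S.C ^ 9 * (w * √(w * Z) * Z ^ 3) +
          ∑ k ∈ s, M.dz m a k * u2 k ^ 4)) := by ring
      _ ≤ lam ^ 4 * (10 ^ 12 * S.C ^ 9 * (w ^ 4 + w * √(w * Z) * Z ^ 3)) := by
          gcongr ?_ * ?_; linarith
      _ = _ := by ring

theorem le_lam {x y l l' : ℝ} (x0 : 0 ≤ x) (l1 : 1 ≤ l) (h : l ≤ l') (H : x ≤ l * y) :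
    x ≤ l' * y :=
  H.trans (mul_le_mul_of_nonneg_right h (nonneg_of_mul_nonneg_right (x0.trans H) (by linarith)))

/-- **`SzV` from `SzW`** -/
theorem _root_.Crest.Agent.T156.Alt.SzT98.szV_of (hW : SzT98.SzW) : SzT98.SzV := by
  refine ((CL.and hW CL_fn).glue' (R := fun E Λ S M m a => Fn S M m a ∧ _) ?_ 0 le_rfl 1 5
    fun C _ ε η _ _ => ⟨10 ^ 16 * C ^ 17, fun S M m a G _ b1 _ _ _ ⟨H, F⟩ => ⟨F, ?_⟩⟩).mono
    fun _ _ _ _ _ _ _ _ _ _ h => h.2
  · rintro E Λ Λ' S M m a l1 h ⟨F, H⟩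
    refine ⟨F, fun l0 X Xp Vt γ u1 j Lp a1 a2 a3 a4 w a5 => ?_⟩
    obtain ⟨r2, r3, r4⟩ := H l0 X Xp Vt γ u1 j Lp a1 a2 a3 a4 w a5
    have n : ∀ i : ℕ, 0 ≤ ∑ k ∈ (range S.J).filter fun k => 2 * S.J ≤ 3 * k,
        M.dz m a k * u4 M m a k ^ i := fun i =>
      sum_nonneg fun k _ => mul_nonneg (F.lg.dz_nonneg k) (pow_nonneg (u4_nn k) i)
    exact ⟨le_lam (n 2) l1 h r2, le_lam (n 3) l1 h r3, le_lam (n 4) l1 h r4⟩
  have b2 := G.K_le
  have b3 := Pre29.rp_le G.n1 (show _ ≤ _ by simpa using b1)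
  rw [← G.hC] at b2
  rw [pow_one]
  generalize (S.n : ℝ) ^ η = lam at H b2 b3 ⊢
  generalize (S.n : ℝ) ^ ε = E at H b3 ⊢
  intro l0 X Xp Vt γ u1 j Lp fa ap X0 X1 w hw
  have C0 := F.C0
  have C1 := F.C1
  have v0 := F.v0
  have c : ∀ {i j : ℕ}, i ≤ j → S.C ^ i ≤ S.C ^ j := fun e => pow_le_pow_right₀ C1 e
  have c1 : ∀ i : ℕ, 1 ≤ S.C ^ i := fun i => one_le_pow₀ C1
  have l1 : 1 ≤ lam := by linarith [c1 17]
  have hE : ∀ (x : ℝ) (i : ℕ), x ≤ 10 ^ 16 → i ≤ 17 → x * S.C ^ i ≤ E := fun x i a1 a2 =>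
    (mul_le_mul a1 (c a2) (by positivity) (by positivity)).trans (b2.trans b3)
  have w3 := F.w3_pos one_pos
  have w0 : 0 < w := by rw [hw]; positivity
  have e3 : w ^ 3 = S.w3 1 := by rw [hw, rp3 w3.le]
  have vw : S.v ≤ S.C ^ 2 * w := by rw [hw]; exact B61.v_le_w F one_pos C1
  have γ0 : 0 ≤ γ := (sub_nonneg.2 (F.sm F.i3)).trans fa.γ0
  have u0 := fa.u0
  have Xp0 := fa.Xp0.1
  have R3 := rp3 X0.le
  have R0 : 0 < X ^ ((1 : ℝ) / 3) := by positivity
  have v1 : 12 * S.C ^ 3 * S.v ≤ 1 := by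
    have a1 := (F.s_mem F.toCl.jl_lt.le).1
    have a2 : (1 : ℝ) ≤ S.jl := by exact_mod_cast F.i0.trans F.i1
    have a3 := (mul_le_mul_of_nonneg_right (hE 12 4 (by norm_num) (by norm_num))
      (F.s_nonneg S.jl)).trans fa.jl
    nlinarith [mul_le_mul_of_nonneg_left ((le_mul_of_one_le_left v0.le a2).trans a1)
      (pow_pos C0 3).le]
  have v2 : S.v ≤ 1 := by nlinarith [mul_le_mul_of_nonneg_right (c1 3) v0.le]
  have v3 : S.v ^ 3 ≤ S.C ^ 4 * w ^ 2 :=
    calc _ = S.v * S.v ^ 2 := by ring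
      _ ≤ 1 * (S.C ^ 2 * w) ^ 2 := by gcongr
      _ = _ := by ring
  obtain ⟨D, RD, vD, D1, D3, D4⟩ : ∃ D, X ^ ((1 : ℝ) / 3) ≤ D ∧ S.v ≤ D ∧ 12 * S.C ^ 3 * D ≤ 1 ∧
      D ^ 3 ≤ X + S.C ^ 4 * w ^ 2 ∧ w * √(w * D) * D ^ 3 ≤
        S.C ^ 5 * w ^ 4 + w ^ ((3 : ℝ) / 2) * X ^ ((7 : ℝ) / 6) := by
    rcases le_total S.v (X ^ ((1 : ℝ) / 3)) with e | e
    · refine ⟨_, le_rfl, e, le_of_pow_le_pow_left₀ three_ne_zero zero_le_one ?_,
        R3.le.trans (le_add_of_nonneg_right (by positivity)),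
        le_add_of_nonneg_of_le (by positivity) (le_of_eq ?_)⟩
      · rw [mul_pow, R3]
        linarith [mul_le_mul_of_nonneg_right (hE 1728 9 (by norm_num) (by norm_num)) X0.le]
      · rw [R3, sqrt_eq_rpow, mul_rpow w0.le (by positivity), ← rpow_mul X0.le,
          show (3 : ℝ) / 2 = 1 + 1 / 2 by norm_num, rpow_add w0, rpow_one,
          show (7 : ℝ) / 6 = 1 / 3 * (1 / 2) + 1 by norm_num, rpow_add_one' X0.le (by norm_num)]
        ring
    · refine ⟨_, e, le_rfl, v1, le_add_of_nonneg_of_le X0.le v3,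
        le_add_of_le_of_nonneg ?_ (by positivity)⟩
      have b1 : √(w * S.v) ≤ S.C * w :=
        sqrt_le_iff.2 ⟨by positivity, by nlinarith [mul_le_mul_of_nonneg_left vw w0.le]⟩
      calc _ ≤ w * (S.C * w) * (S.C ^ 4 * w ^ 2) := by gcongr
        _ = _ := by ring
  have D0 := v0.trans_le vD
  have np := fun q (hq : q ≤ 2) => np_ge F fa (hE 27 3 (by norm_num) (by norm_num)) ap.jn w0 e3 rfl hq
  have g1 := le_max_left (w ^ 3 / S.u0 ^ 2) γ
  have g2 := le_max_right (w ^ 3 / S.u0 ^ 2) γ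
  generalize max (w ^ 3 / S.u0 ^ 2) γ = Z at np g1 g2
  have Z0 := γ0.trans g2
  have sm := fun y (y1 : 1 ≤ y) => sums (Z := max D Z) (y := y) (h := fun k => min (S.w3 1 /
    (((S.J : ℝ) - k) * S.v) ^ 2) (S.w3 1 / S.u0 ^ 2 + min X Xp ^ ((1 : ℝ) / 3) + γ)) F
    (jl16 F (hE 48 4 (by norm_num) (by norm_num)) fa.jl) fa.γ0 l1
    (ap.all.trans (R3.ge.trans (pow_le_pow_left₀ R0.le RD 3))) vD D1 w0 y1 (le_max_left _ _)
    (g2.trans (le_max_right _ _)) (fun k _ => by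
      have a1 : min X Xp ^ ((1 : ℝ) / 3) ≤ X ^ ((1 : ℝ) / 3) :=
        rpow_le_rpow (le_min X0.le Xp0.le) (min_le_left _ _) (by norm_num)
      have a2 : 0 ≤ min X Xp ^ ((1 : ℝ) / 3) := rpow_nonneg (le_min X0.le Xp0.le) _
      refine ⟨le_min (by positivity) (by positivity), by rw [e3]; exact min_le_left _ _,
        (min_le_right _ _).trans ?_⟩
      rw [← e3]
      linarith [le_max_left D Z, le_max_right D Z])
    (by rw [hw]; exact H l0 X Xp Vt γ u1 j Lp fa ap)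
  have mx : ∀ q ≤ 2, w * √(w * max D Z) * max D Z ^ (q + 1) ≤
      w * √(w * D) * D ^ (q + 1) + 256 * S.C ^ 8 * Np M S Xp Vt γ u1 Lp (q + 2) ∧
      0 ≤ S.C ^ 8 * Np M S Xp Vt γ u1 Lp (q + 2) := fun q hq => by
    have a1 := np q hq
    have a2 : 0 ≤ w * √(w * Z) * Z ^ (q + 1) := by positivity
    have a3 : 0 ≤ w * √(w * D) * D ^ (q + 1) := by positivity
    refine ⟨?_, by linarith⟩
    rcases max_choice D Z with e | e <;> rw [e] <;> linarith
  have fin : ∀ {x B N : ℝ}, 0 ≤ B → 0 ≤ S.C ^ 8 * N → x ≤ 1000 * (S.C ^ 8 * B + S.C ^ 8 * N) →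
      10 ^ 12 * S.C ^ 9 * lam ^ 4 * x ≤ lam ^ 5 * (B + N) := fun {x B N} B0 N0 e => by
    have N1 : 0 ≤ N := nonneg_of_mul_nonneg_right N0 (by positivity)
    calc _ ≤ 10 ^ 12 * S.C ^ 9 * lam ^ 4 * (1000 * (S.C ^ 8 * B + S.C ^ 8 * N)) := by gcongr
      _ = 10 ^ 15 * S.C ^ 17 * (lam ^ 4 * (B + N)) := by ring
      _ ≤ lam * (lam ^ 4 * (B + N)) := by gcongr; linarith [c1 17]
      _ = _ := by ring
  have D2 : D ≤ 1 := by nlinarith [mul_le_mul_of_nonneg_right (c1 3) D0.le]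
  have dy : ∀ y : ℝ, 1 ≤ y → D ^ 3 / y ^ 3 ≤ S.C ^ 8 * (X / y ^ 3 + w ^ 2 / y ^ 3) := fun y y1 => by
    have y0 : 0 < y := by linarith
    rw [← add_div, ← mul_div_assoc]
    gcongr
    nlinarith [mul_le_mul_of_nonneg_right (c1 8) X0.le,
      mul_le_mul_of_nonneg_right (c (show 4 ≤ 8 by norm_num)) (sq_nonneg w)]
  refine ⟨?_, ?_, ((sm 1 le_rfl).2.2 rfl).trans ?_⟩
  · obtain ⟨y, y1, hy⟩ := opt2 (A := w ^ 2) (r := 3 / 7) (s := 4 / 7) (by positivity) X0.le 4 3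
      (by norm_num) (by norm_num) (by norm_num)
    obtain ⟨a1, a2⟩ := mx 0 (by norm_num)
    rw [zero_add 1, pow_one, pow_one, zero_add 2] at a1
    refine (sm y y1).1.trans (fin (by positivity) a2 ?_)
    rw [zero_add 2] at a2
    have a3 := (T_le w0 y1 D0.le D2).1
    have a4 := dy y y1
    have a5 : w ^ 2 / y ^ 3 ≤ w ^ 2 * y ^ 4 := (div_le_self (by positivity) (one_le_pow₀ y1)).trans
      (le_mul_of_one_le_right (by positivity) (one_le_pow₀ y1))
    have a6 := mul_le_mul_of_nonneg_left a5 (pow_pos C0 8).le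
    have a7 := mul_le_mul_of_nonneg_left hy (pow_pos C0 8).le
    have a8 := mul_le_mul_of_nonneg_right (c1 8) (show 0 ≤ w ^ 2 * y ^ 4 by positivity)
    have a9 : 0 ≤ S.C ^ 8 * (X / y ^ 3) := by positivity
    have a10 : 0 ≤ w ^ 2 * y ^ 4 := by positivity
    linarith
  · obtain ⟨y, y1, hy⟩ := opt2 (A := w ^ 3) (B := w * X) (r := 1 / 7) (s := 6 / 7)
      (by positivity) (by positivity) 6 1 (by norm_num) (by norm_num) (by norm_num)
    have y0 : 0 < y := by linarith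
    obtain ⟨a1, a2⟩ := mx 1 (by norm_num)
    rw [show (1 + 1 : ℕ) = 2 from rfl, show (1 + 2 : ℕ) = 3 from rfl] at a1
    refine (sm y y1).2.1.trans (fin (by positivity) a2 ?_)
    rw [show (1 + 2 : ℕ) = 3 from rfl] at a2
    rw [pow_one] at hy
    have a3 := (T_le w0 y1 D0.le D2).2
    have a4 := mul_le_mul_of_nonneg_left (dy y y1) (show 0 ≤ w * y ^ 2 by positivity)
    rw [show w * y ^ 2 * (S.C ^ 8 * (X / y ^ 3 + w ^ 2 / y ^ 3)) =
      S.C ^ 8 * (w * X / y + w ^ 3 / y) by field_simp] at a4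
    have a5 : w ^ 3 / y ≤ w ^ 3 * y ^ 6 := (div_le_self (by positivity) y1).trans
      (le_mul_of_one_le_right (by positivity) (one_le_pow₀ y1))
    have a6 := mul_le_mul_of_nonneg_left a5 (pow_pos C0 8).le
    have a7 := mul_le_mul_of_nonneg_left hy (pow_pos C0 8).le
    have a8 := mul_le_mul_of_nonneg_right (c1 8) (show 0 ≤ w ^ 3 * y ^ 6 by positivity)
    have a9 : 0 ≤ S.C ^ 8 * (w * X / y) := by positivity
    have a10 : 0 ≤ w ^ 3 * y ^ 6 := by positivity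
    linarith
  · obtain ⟨a1, a2⟩ := mx 2 le_rfl
    rw [show (2 + 1 : ℕ) = 3 from rfl, show (2 + 2 : ℕ) = 4 from rfl] at a1
    refine fin (by positivity) a2 ?_
    rw [show (2 + 2 : ℕ) = 4 from rfl] at a2
    have a3 := mul_le_mul_of_nonneg_right (c (show 5 ≤ 8 by norm_num)) (pow_pos w0 4).le
    have a4 := mul_le_mul_of_nonneg_right (c1 8) (pow_pos w0 4).le
    have a5 : 0 ≤ w ^ ((3 : ℝ) / 2) * X ^ ((7 : ℝ) / 6) := by positivity
    have a6 := mul_le_mul_of_nonneg_right (c1 8) a5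
    have a7 := (pow_pos w0 4).le
    linarith

end Crest.Agent.T156.Alt.V32

end
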