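import Crest.Agent.T156.TermCD_28
import Crest.Agent.T156.TermG_92

-- ▼ part T156/TermCa_28
section

/-!
# Row 156, SR, terminal statement: the corner (helper28)
-/

set_option autoImplicit false
set_option linter.unusedSectionVars false

noncomputable section

namespace Crest.Agent.T156.Alt.Tc28

open Real Finset Filter Pre29 Sr L69 Tm92

variable {E : ℝ} {S : Sc} {M : Md} {l lm Ys Y u D η1 : ℝ} (X : Tx E S M l lm Ys Y u)
include X

theorem w_eq : (Su E S M Y D u).w3 1 = E ^ 9 / (S.n * (S.θ + u)) := by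
  change E ^ 9 / (S.n * 1 * (S.θ + u)) = _
  rw [mul_one]
omit X in
theorem gg_eq : gg (Su E S M Y D u) 1 = E ^ 9 / (S.n * (S.θ + u)) := rfl
omit X in
theorem mf_eq : mf (Su E S M Y D u) 1 = (S.θ + u) / E ^ 9 := rfl
theorem w0 : 0 < (Su E S M Y D u).w3 1 := by
  have := X.E0; have := X.N0; have := th0 X
  rw [w_eq X]; positivity
theorem lg_w : logb S.n ((Su E S M Y D u).w3 1) = 9 * logb S.n E - 1 - logb S.n (S.θ + u) := by
  have := X.E0; have := X.N0; have := th0 X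
  rw [w_eq X]; lg_norm; rw [X.lg_n]; ring
theorem th2 : S.θ + u ≤ 2 := by
  have a : S.θ ≤ 1 := by nlinarith [X.cx.Cθ, X.cl.C1, X.cl.θ0]
  linarith [X.u1.trans (div_le_one_of_le₀ X.E1 X.E0.le)]
theorem lg_th : logb S.n (mu0 E u) + 9 * logb S.n E ≤ logb S.n (S.θ + u) ∧
    logb S.n (S.θ + u) ≤ logb S.n E :=
  ⟨X.lg_u ▸ X.lg_mono X.u_pos (le_add_of_nonneg_left X.cl.θ0.le),
    X.lg_mono (th0 X) ((th2 X).trans (by linarith [X.cx.E3]))⟩
theorem lg_xx : logb S.n (xx E Y) = logb S.n (Xx E Y) / 3 := by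
  have := X.X0
  rw [xx]; lg_norm; ring
theorem lg_B6 : logb S.n (B6 E S Y u) =
    4 / 3 * logb S.n (Tt E Y) + 2 / 3 * logb S.n (S.θ + u) - 4000 * logb S.n E := by
  have := X.T0; have := th0 X; have := X.E0
  rw [B6]; lg_norm

theorem Bc_hi : logb S.n (Bc E S Y u) ≤
      logb S.n (Tt E Y) + logb S.n (S.θ + u) + 290000 * logb S.n E ∨
    logb S.n (Bc E S Y u) ≤ 10 ^ 7 * logb S.n E - 203 / 300 := by
  have := X.T0; have := X.mu_pos; have := X.Z0; have := X.nu0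
  obtain ⟨e0, e1⟩ := X.lg_E
  obtain ⟨p0, p1⟩ := lg_th X
  have m := X.lg_mu.1
  rw [lg_Bc X]
  rcases max_choice (logb S.n (Xi E S Y u)) (10 ^ 7 * logb S.n E - 203 / 300) with h | h <;> rw [h]
  · left
    rw [Xi, logb_mul (by positivity) (by positivity), lg_max X.N1 (by positivity) (by positivity)]
    lg_norm
    rw [X.lg_Z, X.lg_nu]
    have : max (logb S.n (mu0 E u)) (29 * (10000 * logb S.n E) + -1 / 3) ≤
      logb S.n (S.θ + u) + 290000 * logb S.n E := max_le (by linarith) (by linarith)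
    linarith
  · right
    linarith

theorem Z_Lc : Zz E ≤ Lc E S Y u := (le_max_left _ _).trans (le_max_left _ _)
theorem Lc0 : 0 < Lc E S Y u := X.Z0.trans_le (Z_Lc X)

theorem lg_Lc : logb S.n (Lc E S Y u) = max (max (10000 * logb S.n E)
    (logb S.n (Xx E Y) / 3 + (logb S.n (S.θ + u) - logb S.n (Bc E S Y u)) / 3))
    (max (-1 / 3 + logb S.n (S.θ + u) + logb S.n (Xx E Y) / 3 - logb S.n (Bc E S Y u))
      (logb S.n (Xx E Y) / 3 - 2 / 9 * logb S.n (Bc E S Y u))) := by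
  have := X.Z0; have := th0 X; have := Bc0 X; have := xx0 X; have := X.nu0
  rw [Lc, lg_max X.N1 (by positivity) (by positivity), lg_max X.N1 (by positivity) (by positivity),
    lg_max X.N1 (by positivity) (by positivity)]
  lg_norm
  rw [X.lg_Z, X.lg_nu, lg_xx X]
  congr 2
  ring

theorem Lc_lo : logb S.n (Xx E Y) / 3 + (logb S.n (S.θ + u) - logb S.n (Bc E S Y u)) / 3 ≤
      logb S.n (Lc E S Y u) ∧
    -1 / 3 + logb S.n (S.θ + u) + logb S.n (Xx E Y) / 3 - logb S.n (Bc E S Y u) ≤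
      logb S.n (Lc E S Y u) ∧
    logb S.n (Xx E Y) / 3 - 2 / 9 * logb S.n (Bc E S Y u) ≤ logb S.n (Lc E S Y u) := by
  rw [lg_Lc X]
  exact ⟨(le_max_right _ _).trans (le_max_left _ _), (le_max_left _ _).trans (le_max_right _ _),
    (le_max_right _ _).trans (le_max_right _ _)⟩

theorem Lc_hi : logb S.n (Lc E S Y u) = 10000 * logb S.n E ∨ logb S.n (Lc E S Y u) =
      logb S.n (Xx E Y) / 3 + (logb S.n (S.θ + u) - logb S.n (Bc E S Y u)) / 3 ∨
    logb S.n (Lc E S Y u) =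
      -1 / 3 + logb S.n (S.θ + u) + logb S.n (Xx E Y) / 3 - logb S.n (Bc E S Y u) ∨
    logb S.n (Lc E S Y u) = logb S.n (Xx E Y) / 3 - 2 / 9 * logb S.n (Bc E S Y u) := by
  rw [lg_Lc X]
  rcases max_choice (max (10000 * logb S.n E)
    (logb S.n (Xx E Y) / 3 + (logb S.n (S.θ + u) - logb S.n (Bc E S Y u)) / 3))
    (max (-1 / 3 + logb S.n (S.θ + u) + logb S.n (Xx E Y) / 3 - logb S.n (Bc E S Y u))
      (logb S.n (Xx E Y) / 3 - 2 / 9 * logb S.n (Bc E S Y u))) with h | h <;> rw [h]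
  · exact (max_choice _ _).imp_right .inl
  · exact .inr (.inr (max_choice _ _))

theorem uc0 : 0 < uc E S M Y D u := mul_pos (rpow_pos_of_pos (Lc0 X) _) (rpow_pos_of_pos (w0 X) _)
theorem lg_uc : logb S.n (uc E S M Y D u) =
    2 / 3 * logb S.n (Lc E S Y u) + (9 * logb S.n E - 1 - logb S.n (S.θ + u)) / 3 := by
  have := Lc0 X; have := w0 (D := D) X
  rw [uc]; lg_norm; rw [lg_w X]; ring

theorem Lc_n : Lc E S Y u ≤ S.n := by
  refine X.le_of_lg (Lc0 X) X.N0 ?_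
  obtain ⟨e0, e1⟩ := X.lg_E
  obtain ⟨p0, p1⟩ := lg_th X
  obtain ⟨x0, x1⟩ := X.lg_X
  obtain ⟨y0, y1⟩ := X.lg_Y
  obtain ⟨b1, b2, b3⟩ := Bc_lo X
  rw [X.lg_n]
  rcases Lc_hi X with h | h | h | h <;> linarith

theorem uc_mf : E ^ 360 * uc E S M Y D u ^ 2 ≤ mf (Su E S M Y D u) 1 := by
  have := uc0 (D := D) X; have := X.E0; have := th0 X
  rw [mf_eq]
  refine X.le_of_lg (by positivity) (by positivity) ?_
  lg_norm
  rw [lg_uc X]
  obtain ⟨e0, e1⟩ := X.lg_E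
  obtain ⟨p0, p1⟩ := lg_th X
  obtain ⟨x0, x1⟩ := X.lg_X
  obtain ⟨y0, y1⟩ := X.lg_Y
  obtain ⟨m0, m1, m2⟩ := X.lg_mu
  obtain ⟨b1, b2, b3⟩ := Bc_lo X
  have t := X.lg_T
  rcases Lc_hi X with h | h | h | h <;> linarith

/-- an admissible part of the residual at the corner -/
structure Gd (E : ℝ) (S : Sc) (Y u h : ℝ) : Prop where
  m : h ≤ max (Bc E S Y u ^ ((2 : ℝ) / 3)) √((S.θ + u) * Bc E S Y u)
  a : E ^ 12 * h ≤ (S.θ + u) * xx E Y
  b : E ^ 9 * h ≤ (S.θ + u) * (Bc E S Y u / (S.θ + u)) ^ ((1 : ℝ) / 3)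
  c : nu S * (E ^ 9 * h) ≤ Bc E S Y u + B6 E S Y u
  d : E ^ 9 * h ≤ (S.θ + u) * Bc E S Y u ^ ((2 : ℝ) / 9)

theorem Gd.mono {h h' : ℝ} (g : Gd E S Y u h) (k : h' ≤ h) : Gd E S Y u h' := by
  have := X.E0; have := X.nu0
  exact ⟨k.trans g.m, le_trans (by gcongr) g.a, le_trans (by gcongr) g.b, le_trans (by gcongr) g.c,
    le_trans (by gcongr) g.d⟩

omit X in
theorem gm_le {a b : ℝ} (ha : 0 ≤ a) (hb : 0 ≤ b) : √(a * b) ≤ a + b :=
  sqrt_le_iff.2 ⟨by positivity, by nlinarith [mul_nonneg ha hb]⟩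

theorem gd_mass : Gd E S Y u √((S.θ + u) * Bc E S Y u) := by
  have := X.E0; have := th0 X; have := Bc0 X; have := xx0 X; have := X.nu0; have := B60 X
  obtain ⟨e0, e1⟩ := X.lg_E
  obtain ⟨p0, p1⟩ := lg_th X
  obtain ⟨x0, x1⟩ := X.lg_X
  obtain ⟨y0, y1⟩ := X.lg_Y
  obtain ⟨m0, m1, m2⟩ := X.lg_mu
  have t := X.lg_T
  refine ⟨le_max_right _ _, ?_, ?_, le_trans ?_ (gm_le (Bc0 X).le (B60 X).le), ?_⟩ <;>
    refine X.le_of_lg (by positivity) (by positivity) ?_ <;> lg_norm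
  · rw [lg_xx X]
    rcases Bc_hi X with h | h <;> linarith
  · rcases Bc_hi X with h | h <;> linarith
  · rw [lg_B6 X, X.lg_nu]
    linarith
  · rcases Bc_hi X with h | h <;> linarith

theorem gd_spec : Gd E S Y u (√(Lc E S Y u * gg (Su E S M Y D u) 1) * √(X2 E S M Y u)) := by
  have := X.E0; have := th0 X; have := Bc0 X; have := xx0 X; have := X.nu0; have := B60 X
  have := Lc0 X; have := X.X20; have := X.N0
  obtain ⟨e0, e1⟩ := X.lg_E
  obtain ⟨p0, p1⟩ := lg_th X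
  obtain ⟨x0, x1⟩ := X.lg_X
  obtain ⟨y0, y1⟩ := X.lg_Y
  obtain ⟨m0, m1, m2⟩ := X.lg_mu
  obtain ⟨b1, b2, b3⟩ := Bc_lo X
  obtain ⟨a1, a2, a3⟩ := X.lg_X2
  have t := X.lg_T
  rw [gg_eq]
  by_cases h : logb S.n (Lc E S Y u) = logb S.n (Xx E Y) / 3 - 2 / 9 * logb S.n (Bc E S Y u)
  · refine ⟨le_max_of_le_left ?_, ?_, ?_, le_trans ?_ (le_add_of_nonneg_right (B60 X).le), ?_⟩ <;>
      refine X.le_of_lg (by positivity) (by positivity) ?_ <;> lg_norm <;> rw [X.lg_n]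
    · linarith
    · rw [lg_xx X]; linarith
    · linarith
    · rw [X.lg_nu]; linarith
    · linarith
  · refine (gd_mass X).mono X (X.le_of_lg (by positivity) (by positivity) ?_)
    lg_norm
    rw [X.lg_n]
    rcases Lc_hi X with h' | h' | h' | h'
    · linarith
    · linarith
    · linarith
    · exact absurd h' h

theorem parts : uc E S M Y D u ^ 3 ≤ √((S.θ + u) * Bc E S Y u) ∧
    uc E S M Y D u ^ 2 * (S.θ + u) ≤ √((S.θ + u) * Bc E S Y u) ∧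
    uc E S M Y D u ^ 2 * xx E Y ≤ √((S.θ + u) * Bc E S Y u) ∧
    √(Lc E S Y u * gg (Su E S M Y D u) 1) * uc E S M Y D u ≤ √((S.θ + u) * Bc E S Y u) ∧
    G0 E S M Y u * uc E S M Y D u ≤ √((S.θ + u) * Bc E S Y u) := by
  have := X.E0; have := th0 X; have := Bc0 X; have := xx0 X; have := uc0 (D := D) X
  have := Lc0 X; have := X.G00; have := X.N0
  obtain ⟨e0, e1⟩ := X.lg_E
  obtain ⟨p0, p1⟩ := lg_th X
  obtain ⟨x0, x1⟩ := X.lg_X
  obtain ⟨y0, y1⟩ := X.lg_Y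
  obtain ⟨m0, m1, m2⟩ := X.lg_mu
  obtain ⟨b1, b2, b3⟩ := Bc_lo X
  obtain ⟨a1, a2, a3⟩ := X.lg_X2
  have t := X.lg_T
  rw [gg_eq]
  refine ⟨?_, ?_, ?_, ?_, ?_⟩ <;> refine X.le_of_lg (by positivity) (by positivity) ?_ <;>
    lg_norm <;> rw [lg_uc X]
  · rcases Lc_hi X with h | h | h | h <;> linarith
  · rcases Lc_hi X with h | h | h | h <;> linarith
  · rw [lg_xx X]
    rcases Lc_hi X with h | h | h | h <;> linarith
  · rw [X.lg_n]
    rcases Lc_hi X with h | h | h | h <;> linarith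
  · rcases X.lg_G0 with g | g | ⟨g, -⟩ <;> rcases Lc_hi X with h | h | h | h <;> linarith

end Crest.Agent.T156.Alt.Tc28

end
end

-- ▼ part T156/TermCb_28
section

/-!
# Row 156, SR, terminal statement: scalar costs at the corner (helper28)
-/

set_option autoImplicit false
set_option linter.unusedSectionVars false

noncomputable section

namespace Crest.Agent.T156.Alt.Tc28

open Real Finset Filter Pre29 Sr L69 Tm92

theorem cub3 {x : ℝ} (hx : 0 ≤ x) : (x ^ ((1 : ℝ) / 3)) ^ 3 = x := by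
  rw [← rpow_natCast, ← rpow_mul hx]; norm_num

/-- the cost of a residual -/
theorem mc_le {e θ B k : ℝ} (hθ : 0 < θ) (hB : 0 ≤ B) (hk : 1 ≤ k) (e0 : 0 ≤ e)
    (h : e ≤ k * max (B ^ ((2 : ℝ) / 3)) √(θ * B)) :
    min (e ^ ((3 : ℝ) / 2)) (e ^ 2 / θ) ≤ k ^ 2 * B := by
  have k0 : 0 ≤ k := by linarith
  rcases max_choice (B ^ ((2 : ℝ) / 3)) √(θ * B) with g | g <;> rw [g] at h
  · refine (min_le_left _ _).trans ((rpow_le_rpow e0 h (by norm_num)).trans ?_)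
    rw [mul_rpow k0 (by positivity), ← rpow_mul hB, show (2 : ℝ) / 3 * (3 / 2) = 1 by norm_num,
      rpow_one, ← rpow_natCast]
    exact mul_le_mul_of_nonneg_right (rpow_le_rpow_of_exponent_le hk (by norm_num)) hB
  · refine (min_le_right _ _).trans ?_
    rw [div_le_iff₀ hθ]
    refine (pow_le_pow_left₀ e0 h 2).trans_eq ?_
    rw [mul_pow, sq_sqrt (by positivity)]
    ring

theorem mx_mono {θ B B' : ℝ} (hθ : 0 ≤ θ) (hB : 0 ≤ B) (h : B ≤ B') :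
    max (B ^ ((2 : ℝ) / 3)) √(θ * B) ≤ max (B' ^ ((2 : ℝ) / 3)) √(θ * B') :=
  max_le_max (rpow_le_rpow hB h (by norm_num)) (sqrt_le_sqrt (mul_le_mul_of_nonneg_left h hθ))

variable {E : ℝ} {S : Sc} {M : Md} {l lm Ys Y u D η1 : ℝ} (X : Tx E S M l lm Ys Y u)
include X

theorem sizes : √(Xx E Y) ≤ xx E Y ∧ √(Tt E Y) ≤ xx E Y ∧ ll E S M Y u ^ 2 ≤ xx E Y ∧
    E * (Su E S M Y D u).w3 1 ^ ((1 : ℝ) / 3) ≤ xx E Y ∧ E ^ 361 * xx E Y ≤ 1 := by
  have := X.E0; have := xx0 X; have := X.X0; have := X.T0; have := X.l0; have := w0 (D := D) X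
  obtain ⟨e0, e1⟩ := X.lg_E
  obtain ⟨p0, p1⟩ := lg_th X
  obtain ⟨x0, x1⟩ := X.lg_X
  obtain ⟨y0, y1⟩ := X.lg_Y
  obtain ⟨m0, m1, m2⟩ := X.lg_mu
  obtain ⟨l1, -, -, l4⟩ := X.lg_l_hi
  have t := X.lg_T
  refine ⟨?_, ?_, ?_, ?_, ?_⟩ <;> refine X.le_of_lg (by positivity) (by positivity) ?_ <;>
    lg_norm <;> rw [lg_xx X]
  · linarith
  · linarith
  · linarith
  · rw [lg_w X]; linarith
  · linarith

theorem jj0 : 0 < jj E S M Y u := by
  have := X.l0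
  unfold jj; positivity
theorem jj_le : jj E S M Y u ≤ 3 * xx E Y := by
  obtain ⟨a, b, c, -⟩ := sizes (D := 0) X
  unfold jj; linarith

/-- sizes against `B ^ (2/9)` -/
theorem sizes' : √(Xx E Y) ≤ Bc E S Y u ^ ((2 : ℝ) / 9) ∧ √(Tt E Y) ≤ Bc E S Y u ^ ((2 : ℝ) / 9) ∧
    ll E S M Y u ^ 2 ≤ Bc E S Y u ^ ((2 : ℝ) / 9) ∧ nu S ≤ Bc E S Y u ^ ((2 : ℝ) / 9) ∧
    (Su E S M Y D u).w3 1 ^ ((1 : ℝ) / 3) ≤ Bc E S Y u ^ ((2 : ℝ) / 9) ∧
    xx E Y / Lc E S Y u ≤ Bc E S Y u ^ ((2 : ℝ) / 9) ∧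
    X2 E S M Y u ≤ (Bc E S Y u ^ ((2 : ℝ) / 9)) ^ 2 ∧
    X2 E S M Y u * xx E Y ≤ (Bc E S Y u ^ ((2 : ℝ) / 9)) ^ 3 ∧
    (E * (Bc E S Y u ^ ((2 : ℝ) / 9)) ^ 2) ^ 3 ≤ Bc E S Y u := by
  have := X.E0; have := xx0 X; have := X.X0; have := X.T0; have := X.l0; have := w0 (D := D) X
  have := Bc0 X; have := X.nu0; have := Lc0 X; have := X.X20
  obtain ⟨e0, e1⟩ := X.lg_E
  obtain ⟨p0, p1⟩ := lg_th X
  obtain ⟨x0, x1⟩ := X.lg_X
  obtain ⟨y0, y1⟩ := X.lg_Y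
  obtain ⟨m0, m1, m2⟩ := X.lg_mu
  obtain ⟨l1, -, l3, l4⟩ := X.lg_l_hi
  obtain ⟨b1, b2, b3⟩ := Bc_lo X
  obtain ⟨c1, c2, c3⟩ := Lc_lo X
  obtain ⟨a1, a2, a3⟩ := X.lg_X2
  have t := X.lg_T
  refine ⟨?_, ?_, ?_, ?_, ?_, ?_, ?_, ?_, ?_⟩ <;>
    refine X.le_of_lg (by positivity) (by positivity) ?_ <;> lg_norm
  · linarith
  · linarith
  · linarith
  · rw [X.lg_nu]; linarith
  · rw [lg_w X]; linarith
  · rw [lg_xx X]; linarith
  · linarith
  · rw [lg_xx X]; linarith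
  · rcases Bc_hi X with h | h <;> linarith

theorem sizes'' : xx E Y / Lc E S Y u ≤ (Bc E S Y u / (S.θ + u)) ^ ((1 : ℝ) / 3) ∧
    (Su E S M Y D u).w3 1 ^ ((1 : ℝ) / 3) ≤ (Bc E S Y u / (S.θ + u)) ^ ((1 : ℝ) / 3) ∧
    nu S * (S.θ + u) * (xx E Y / Lc E S Y u) ≤ Bc E S Y u ∧
    nu S * (S.θ + u) * (Su E S M Y D u).w3 1 ^ ((1 : ℝ) / 3) ≤ B6 E S Y u ∧
    E * (xx E Y / Lc E S Y u) ≤ xx E Y := by
  have := X.E0; have := xx0 X; have := w0 (D := D) X; have := th0 X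
  have := Bc0 X; have := X.nu0; have := Lc0 X; have := B60 X
  obtain ⟨e0, e1⟩ := X.lg_E
  obtain ⟨p0, p1⟩ := lg_th X
  obtain ⟨y0, y1⟩ := X.lg_Y
  obtain ⟨b1, b2, b3⟩ := Bc_lo X
  obtain ⟨c1, c2, c3⟩ := Lc_lo X
  have t := X.lg_T
  have z := X.lg_mono X.Z0 (Z_Lc X)
  rw [X.lg_Z] at z
  refine ⟨?_, ?_, ?_, ?_, ?_⟩ <;>
    refine X.le_of_lg (by positivity) (by positivity) ?_ <;> lg_norm
  · rw [lg_xx X]; linarith
  · rw [lg_w X]; linarith
  · rw [lg_xx X, X.lg_nu]; linarith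
  · rw [lg_w X, X.lg_nu, lg_B6 X]; linarith
  · linarith

section
variable (h0 : 0 ≤ η1) (h1 : η1 ≤ √((S.θ + u) * Bc E S Y u))
include h0

theorem ec0 : 0 < ec E S M Y D u η1 := by
  have := uc0 (D := D) X; have := th0 X; have := jj0 X; have := xx0 X; have := X.G00
  have := X.X20
  unfold ec; positivity

theorem tc0 : 0 < tc E S M Y D u η1 := by
  have := ec0 (D := D) X h0; have := xx0 X; have := Lc0 X; have := w0 (D := D) X; have := th0 X
  have := X.E0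
  rw [tc, mf_eq]; positivity

include h1

theorem ec_gd : Gd E S Y u (ec E S M Y D u η1 / 11) := by
  obtain ⟨a, b, c, d, e⟩ := parts (D := D) X
  have u0 := uc0 (D := D) X
  have j := mul_le_mul_of_nonneg_left (jj_le X) (sq_nonneg (uc E S M Y D u))
  have g : X2 E S M Y u * uc E S M Y D u ≤ G0 E S M Y u * uc E S M Y D u := by
    have := X.Gp0; have := X.E0; have := X.nu0
    refine mul_le_mul_of_nonneg_right ?_ u0.le
    have : 0 ≤ E ^ 5001 * nu S := by positivity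
    unfold G0; linarith
  have k : Gd E S Y u (max √((S.θ + u) * Bc E S Y u)
      (√(Lc E S Y u * gg (Su E S M Y D u) 1) * √(X2 E S M Y u))) := by
    rcases max_choice √((S.θ + u) * Bc E S Y u)
      (√(Lc E S Y u * gg (Su E S M Y D u) 1) * √(X2 E S M Y u)) with h | h <;> rw [h]
    exacts [gd_mass X, gd_spec X]
  refine k.mono X ?_
  have m1 := le_max_left √((S.θ + u) * Bc E S Y u)
    (√(Lc E S Y u * gg (Su E S M Y D u) 1) * √(X2 E S M Y u))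
  have m2 := le_max_right √((S.θ + u) * Bc E S Y u)
    (√(Lc E S Y u * gg (Su E S M Y D u) 1) * √(X2 E S M Y u))
  unfold ec
  linarith

theorem ec_mf {x : ℝ} (h : E ^ 9 * (ec E S M Y D u η1 / 11) ≤ (S.θ + u) * x) :
    ec E S M Y D u η1 / mf (Su E S M Y D u) 1 ≤ 11 * x := by
  rw [mf_eq, div_div_eq_mul_div, div_le_iff₀ (th0 X)]
  linarith

theorem tc_x : 100 * tc E S M Y D u η1 ≤ xx E Y := by
  have E3 := X.cx.E3
  have x0 := xx0 X
  have E0 := X.E0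
  have a := (sizes'' (D := D) X).2.2.2.2
  have b := (sizes (D := D) X).2.2.2.1
  have c := ec_mf (D := D) X h0 h1 (x := xx E Y / E ^ 3) (by
    rw [← mul_div_assoc (S.θ + u), le_div_iff₀ (by positivity)]
    linarith [(ec_gd (D := D) X h0 h1).a])
  have d : xx E Y / E ^ 3 ≤ xx E Y / 1000 ^ 3 := by gcongr
  have f := mul_le_mul_of_nonneg_right E3 (div_pos x0 (Lc0 X)).le
  have g := mul_le_mul_of_nonneg_right E3 (rpow_pos_of_pos (w0 (D := D) X) ((1 : ℝ) / 3)).le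
  unfold tc
  linarith

theorem tc_b : tc E S M Y D u η1 ≤ 13 * (Bc E S Y u / (S.θ + u)) ^ ((1 : ℝ) / 3) := by
  obtain ⟨a, b, -⟩ := sizes'' (D := D) X
  have c := ec_mf X h0 h1 (ec_gd (D := D) X h0 h1).b
  unfold tc
  linarith

theorem tc_d : tc E S M Y D u η1 ≤ 13 * Bc E S Y u ^ ((2 : ℝ) / 9) := by
  obtain ⟨-, -, -, -, a, b, -⟩ := sizes' (D := D) X
  have c := ec_mf X h0 h1 (ec_gd (D := D) X h0 h1).d
  unfold tc
  linarith

theorem c3 : (S.θ + u) * tc E S M Y D u η1 ^ 3 ≤ 2197 * Bc E S Y u := by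
  have := th0 X; have := Bc0 X
  refine (mul_le_mul_of_nonneg_left (pow_le_pow_left₀ (tc0 X h0).le (tc_b X h0 h1) 3)
    (th0 X).le).trans_eq ?_
  rw [mul_pow, cub3 (by positivity)]
  field_simp
  norm_num

theorem c6 : nu S * (S.θ + u) * tc E S M Y D u η1 ≤ 12 * (Bc E S Y u + B6 E S Y u) := by
  obtain ⟨-, -, a, b, -⟩ := sizes'' (D := D) X
  have c := (ec_gd (D := D) X h0 h1).c
  have := th0 X; have := X.E0
  have e : nu S * (S.θ + u) * (ec E S M Y D u η1 / mf (Su E S M Y D u) 1) =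
      11 * (nu S * (E ^ 9 * (ec E S M Y D u η1 / 11))) := by
    rw [mf_eq]; field_simp
  unfold tc
  linarith

theorem c8 : min (ec E S M Y D u η1 ^ ((3 : ℝ) / 2)) (ec E S M Y D u η1 ^ 2 / (S.θ + u)) ≤
    11 ^ 2 * Bc E S Y u :=
  mc_le (th0 X) (Bc0 X).le (by norm_num) (ec0 X h0).le (by linarith [(ec_gd (D := D) X h0 h1).m])

theorem thx4 : (S.θ + u) * xx E Y ^ 4 ≤ Bc E S Y u + B6 E S Y u := by
  have := X.E0; have := xx0 X; have := th0 X; have := Bc0 X; have := B60 X; have := X.u_pos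
  obtain ⟨e0, e1⟩ := X.lg_E
  obtain ⟨x0, x1⟩ := X.lg_X
  obtain ⟨y0, y1⟩ := X.lg_Y
  have t := X.lg_T
  have b1 := (Bc_lo X).1
  have c := (X.lg_num (x := 2) (by norm_num) (by norm_num)).2
  rcases le_total S.θ u with h | h
  · refine le_trans (X.le_of_lg (by positivity) (Bc0 X) ?_) (le_add_of_nonneg_right (B60 X).le)
    have a := X.lg_mono (th0 X) (show S.θ + u ≤ 2 * u by linarith)
    revert a
    lg_norm
    rw [lg_xx X, X.lg_u]
    intro a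
    linarith
  · refine le_trans (X.le_of_lg (by positivity) (B60 X) ?_) (le_add_of_nonneg_left (Bc0 X).le)
    have s1 : M.s S.jl ≤ 1 := X.le_of_lg X.sj0 one_pos (by rw [logb_one]; linarith [X.lg_sj.2.2])
    have m := X.sx.ml 1 s1
    have a := X.lg_mono (show 0 < E ^ (60 * KK) * (S.θ + u) by positivity)
      (show _ ≤ 2 by change _ * S.θ ≤ _ at m; nlinarith [pow_pos X.E0 (60 * KK)])
    have k : ((60 * KK : ℕ) : ℝ) = 600000 := by norm_num [KK]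
    rw [logb_mul (by positivity) (by positivity), logb_pow, k] at a
    lg_norm
    rw [lg_xx X, lg_B6 X]
    linarith

theorem c5 {A B : ℝ} (hA : A = S.θ + u + jj E S M Y u + tc E S M Y D u η1 + nu S)
    (hB : B = X2 E S M Y u * xx E Y + A * min A (xx E Y) ^ 2) :
    min (B ^ ((3 : ℝ) / 2)) (B ^ 2 / (S.θ + u)) ≤ 6000 ^ 2 * (Bc E S Y u + B6 E S Y u) ∧
      ((X2 E S M Y u + A * min A (xx E Y)) ^ 3 ≤ Bc E S Y u ∨
        E ^ 360 * (X2 E S M Y u + A * min A (xx E Y)) ≤ S.θ + u) := by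
  obtain ⟨a1, a2, a3, a4, -, -, a7, a8, a9⟩ := sizes' (D := D) X
  have t := tc_d (D := D) X h0 h1
  have t0 := tc0 (D := D) X h0
  have j0 := jj0 X
  have θ0 := th0 X
  have x0 := xx0 X
  have n0 := X.nu0
  have y0 := X.X20
  have b0 := Bc0 X
  have b6 := B60 X
  have E3 := X.cx.E3
  have e3 : (Bc E S Y u ^ ((2 : ℝ) / 9)) ^ 3 = Bc E S Y u ^ ((2 : ℝ) / 3) := by
    rw [← rpow_natCast, ← rpow_mul b0.le]; norm_num
  have β0 := rpow_pos_of_pos b0 ((2 : ℝ) / 9)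
  have mm := mx_mono θ0.le b0.le (le_add_of_nonneg_right b6.le)
  have m1 := (le_max_left _ _).trans mm
  rw [← e3] at m1
  generalize Bc E S Y u ^ ((2 : ℝ) / 9) = β at *
  have A0 : 0 < A := by rw [hA]; positivity
  have A1 : A ≤ S.θ + u + 17 * β := by rw [hA, jj]; linarith
  have k0 : 0 < min A (xx E Y) := lt_min A0 x0
  have B0 : 0 ≤ B := by rw [hB]; positivity
  rcases le_total (S.θ + u) β with h | h
  · have A2 : A ≤ 18 * β := by linarith
    have k1 := (min_le_left A (xx E Y)).trans A2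
    have f : A * min A (xx E Y) ^ 2 ≤ 18 * β * (18 * β) ^ 2 := by gcongr
    have g : A * min A (xx E Y) ≤ 18 * β * (18 * β) := by gcongr
    refine ⟨mc_le θ0 (by positivity) (by norm_num) B0 (by
      rw [hB]; nlinarith [pow_pos β0 3]), .inl (le_trans (pow_le_pow_left₀ (by positivity) ?_ 3) a9)⟩
    nlinarith [pow_pos β0 2]
  · have A2 : A ≤ 18 * (S.θ + u) := by linarith
    have k1 := min_le_right A (xx E Y)
    have f : A * min A (xx E Y) ^ 2 ≤ 18 * (S.θ + u) * xx E Y ^ 2 := by gcongr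
    have g : A * min A (xx E Y) ≤ 18 * (S.θ + u) * xx E Y := by gcongr
    have m2 : (S.θ + u) * xx E Y ^ 2 ≤ _ := le_trans (le_sqrt_of_sq_le (by
      nlinarith [mul_le_mul_of_nonneg_left (thx4 X h0 h1) θ0.le])) (le_max_right
        ((Bc E S Y u + B6 E S Y u) ^ ((2 : ℝ) / 3)) √((S.θ + u) * (Bc E S Y u + B6 E S Y u)))
    refine ⟨mc_le θ0 (by positivity) (by norm_num) B0 (by
      rw [hB]; nlinarith [pow_pos β0 3]), .inr ?_⟩
    have E0 := X.E0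
    have p : E ^ 361 * X2 E S M Y u ≤ S.θ + u := X.le_of_lg (by positivity) θ0 (by
      lg_norm
      linarith [X.lg_X2.1, (lg_th X).1, X.lg_E.1, X.lg_E.2])
    have q := mul_le_mul_of_nonneg_left (sizes (D := D) X).2.2.2.2 θ0.le
    have r := mul_le_mul_of_nonneg_right E3 (show 0 ≤ E ^ 360 * (X2 E S M Y u +
      (S.θ + u) * xx E Y) by positivity)
    have s := mul_le_mul_of_nonneg_left g (pow_pos E0 360).le
    have : 0 ≤ E ^ 360 * X2 E S M Y u := by positivity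
    rw [pow_succ E 360] at p q
    generalize E ^ 360 = G at *
    linarith

end

end Crest.Agent.T156.Alt.Tc28

end
end

-- ▼ part T156/TermCc_28

/-!
# Row 156, SR, terminal statement: the corner fields and the costs `LC` (helper28)
-/

set_option autoImplicit false
set_option linter.unusedSectionVars false

noncomputable section

namespace Crest.Agent.T156.Alt.Tc28

open Real Finset Filter Pre29 Sr L69 Tm92

section num

variable {E : ℝ} {S : Sc} {M : Md} {l lm Ys Y u D η1 r1 r2 : ℝ} (X : Tx E S M l lm Ys Y u)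
include X

theorem c2n : (S.θ + u) * nu S ^ 2 ≤ B6 E S Y u := by
  have := th0 X; have := X.nu0
  refine X.le_of_lg (by positivity) (B60 X) ?_
  lg_norm
  rw [lg_B6 X, X.lg_nu]
  linarith [X.lg_E.1, (lg_th X).2, X.lg_T, X.lg_Y.1]

theorem c9 : ((Su E S M Y D u).w3 1 * Xx E Y) ^ ((3 : ℝ) / 4) +
    (S.θ + u) * (jj E S M Y u ^ 9 + Xx E Y ^ 3) ≤ 20000 * Bc E S Y u := by
  have := th0 X; have := xx0 X; have := X.X0; have := w0 (D := D) X; have b0 := Bc0 X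
  obtain ⟨e0, e1⟩ := X.lg_E
  obtain ⟨p0, p1⟩ := lg_th X
  obtain ⟨x0, x1⟩ := X.lg_X
  obtain ⟨y0, y1⟩ := X.lg_Y
  obtain ⟨m0, m1, m2⟩ := X.lg_mu
  obtain ⟨b1, b2, b3⟩ := Bc_lo X
  have t := X.lg_T
  have a : ((Su E S M Y D u).w3 1 * Xx E Y) ^ ((3 : ℝ) / 4) ≤ Bc E S Y u :=
    X.le_of_lg (by positivity) b0 (by lg_norm; rw [lg_w X]; linarith)
  have b : (S.θ + u) * xx E Y ^ 9 ≤ Bc E S Y u :=
    X.le_of_lg (by positivity) b0 (by lg_norm; rw [lg_xx X]; linarith)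
  have c : (S.θ + u) * Xx E Y ^ 3 ≤ Bc E S Y u :=
    X.le_of_lg (by positivity) b0 (by lg_norm; linarith)
  have d := mul_le_mul_of_nonneg_left (pow_le_pow_left₀ (jj0 X).le (jj_le X) 9) (th0 X).le
  linarith

theorem c1p {V N2 : ℝ} (h0 : 0 ≤ η1) (h1 : η1 ≤ √((S.θ + u) * Bc E S Y u)) (V0 : 0 ≤ V)
    (hV : V ≤ Tt46.V2 E S Y u) (N0 : 0 ≤ N2) (hN : N2 ≤ Bu E S M Y u ^ ((2 : ℝ) / 3)) {e : ℝ}
    (he : e = η1 + G0 E S M Y u ^ 2 + N2 + X2 E S M Y u * (xx E Y + V)) :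
    min (e ^ ((3 : ℝ) / 2)) (e ^ 2 / (S.θ + u)) ≤ 8 ^ 2 * Bu E S M Y u := by
  have θ0 := th0 X; have := xx0 X; have y0 := X.X20; have b0 := Bc0 X; have := Bu0 X
  have := X.G00; have E0 := X.E0; have := X.N0
  obtain ⟨e0, e1⟩ := X.lg_E
  obtain ⟨p0, p1⟩ := lg_th X
  obtain ⟨x0, x1⟩ := X.lg_X
  obtain ⟨y0, y1⟩ := X.lg_Y
  obtain ⟨m0, m1, m2⟩ := X.lg_mu
  obtain ⟨b1, b2, b3⟩ := Bc_lo X
  obtain ⟨a1, a2, a3⟩ := X.lg_X2
  have a4 := X.lg_X2'
  have t := X.lg_T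
  have k1 : G0 E S M Y u ^ 2 ≤ Bc E S Y u ^ ((2 : ℝ) / 3) :=
    X.le_of_lg (by positivity) (by positivity) (by
      lg_norm
      rcases X.lg_G0 with g | g | ⟨g, -⟩ <;> linarith)
  have k2 : E ^ 50000 * (X2 E S M Y u * xx E Y) ≤ Bc E S Y u ^ ((2 : ℝ) / 3) :=
    X.le_of_lg (by positivity) (by positivity) (by lg_norm; rw [lg_xx X]; linarith)
  have k3 : E ^ 50000 * (X2 E S M Y u * √(S.θ + u)) ≤ √((S.θ + u) * Bc E S Y u) :=
    X.le_of_lg (by positivity) (by positivity) (by lg_norm; linarith)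
  have k4 : E ^ 50000 * (X2 E S M Y u * (S.n : ℝ) ^ (-(1 : ℝ) / 11)) ≤
      Bu E S M Y u ^ ((2 : ℝ) / 3) :=
    X.le_of_lg (by positivity) (by positivity) (by lg_norm; rw [X.lg_n, lg_Bu X]; linarith)
  have g1 : 1 ≤ E ^ 50000 := one_le_pow₀ X.E1
  have s1 : √u ≤ √(S.θ + u) := sqrt_le_sqrt (le_add_of_nonneg_left X.cl.θ0.le)
  have s2 : min (√S.θ) ((S.n : ℝ) ^ (-(21 : ℝ) / 400)) ≤ √(S.θ + u) :=
    (min_le_left _ _).trans (sqrt_le_sqrt (le_add_of_nonneg_right X.u_pos.le))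
  have v : V ≤ E ^ 50000 * ((S.n : ℝ) ^ (-(1 : ℝ) / 11) + √(S.θ + u) + √(S.θ + u) + xx E Y) :=
    hV.trans (mul_le_mul_of_nonneg_left (add_le_add (add_le_add (add_le_add le_rfl s2) s1) le_rfl)
      (by positivity))
  have v' := mul_le_mul_of_nonneg_left v X.X20.le
  have v'' := mul_le_mul_of_nonneg_right g1 (mul_pos X.X20 (xx0 X)).le
  have mm := mx_mono θ0.le b0.le (Bc_le X)
  have n1 := (le_max_left _ _).trans mm
  have n2 := (le_max_right _ _).trans mm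
  have n3 := le_max_left (Bu E S M Y u ^ ((2 : ℝ) / 3)) √((S.θ + u) * Bu E S M Y u)
  refine mc_le θ0 (Bu0 X).le (by norm_num) (by rw [he]; positivity) ?_
  rw [he]
  generalize E ^ 50000 = G at *
  linarith

set_option maxHeartbeats 800000 in
theorem c4 {G w : ℝ} (T : Tp KK E S M lm Y r1 r2) (r0 : 0 < r2) (h0 : 0 ≤ η1)
    (h1 : η1 ≤ √((S.θ + u) * Bc E S Y u)) (w0 : 0 ≤ w) (w1 : w ≤ u)
    (hG : G ≤ 8 * Zz E * S.g2 + 4 * (u ^ 2 * Yd KK E Y) + 113 * (w ^ 2 * (E ^ 100 * Y))) :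
    (2 * r2) ^ 2 + 2 * r2 * (η1 + X2 E S M Y u + √(G / (2 * r2)) + (S.θ + u) * nu S) +
      (2 * r2 * (S.θ + u)) ^ ((3 : ℝ) / 2) + nu S * (η1 + X2 E S M Y u) + nu S ^ ((15 : ℝ) / 7) ≤
      30 * (Bu E S M Y u + B6 E S Y u) := by
  have θ0 := th0 X; have := X.X20; have b0 := Bc0 X; have := Bu0 X; have := B60 X
  have E0 := X.E0; have := X.N0; have n0 := X.nu0; have := X.Yd0; have u0 := X.u_pos
  have := X.Y0; have := X.Z0
  obtain ⟨e0, e1⟩ := X.lg_E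
  obtain ⟨y0, y1⟩ := X.lg_Y
  obtain ⟨m0, m1, m2⟩ := X.lg_mu
  obtain ⟨b1, b2, b3⟩ := Bc_lo X
  obtain ⟨a1, a2, a3⟩ := X.lg_X2
  have a4 := X.lg_X2'
  have a5 := X.lg_Bd.2.2.1
  have t := X.lg_T
  have yd := X.lg_Yd
  have lu := X.lg_u
  have c2 := (X.lg_num (x := 2) (by norm_num) (by norm_num)).2
  have lr := X.lg_mono r0 T.a4
  have lρ : logb S.n r2 + logb S.n (S.θ + u) ≤ logb S.n E - 1 / 2 ∨
      logb S.n (S.θ + u) ≤ logb S.n E + logb S.n u := by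
    rcases le_total S.θ u with h | h
    · have a := X.lg_mono θ0 (show S.θ + u ≤ 2 * u by linarith)
      rw [logb_mul two_ne_zero u0.ne'] at a
      exact .inr (by linarith)
    · have a := X.lg_mono (mul_pos r0 θ0) (show _ ≤ 2 * (S.n : ℝ) ^ (-(1 : ℝ) / 2) by
        linarith [T.a6, mul_le_mul_of_nonneg_left h r0.le])
      rw [logb_mul two_ne_zero (by positivity), logb_mul r0.ne' θ0.ne', X.lg_rp] at a
      exact .inl (by linarith)
  have k1 : (2 * r2) ^ 2 ≤ Bc E S Y u :=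
    X.le_of_lg (by positivity) b0 (by lg_norm; linarith)
  have k2 : 2 * r2 * √((S.θ + u) * Bc E S Y u) ≤ Bc E S Y u :=
    X.le_of_lg (by positivity) b0 (by lg_norm; rcases lρ with h | h <;> linarith)
  have k3 : 2 * r2 * X2 E S M Y u ≤ Bc E S Y u :=
    X.le_of_lg (by positivity) b0 (by lg_norm; linarith)
  have k4 : 2 * r2 * ((S.θ + u) * nu S) ≤ Bc E S Y u :=
    X.le_of_lg (by positivity) b0 (by lg_norm; rw [X.lg_nu]; rcases lρ with h | h <;> linarith)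
  have k5 : (2 * r2 * (S.θ + u)) ^ ((3 : ℝ) / 2) ≤ Bc E S Y u :=
    X.le_of_lg (by positivity) b0 (by lg_norm; rcases lρ with h | h <;> linarith)
  have k6 : nu S * η1 ≤ Bc E S Y u + B6 E S Y u := le_trans (mul_le_mul_of_nonneg_left
    (h1.trans (le_mul_of_one_le_left (sqrt_nonneg _) (one_le_pow₀ X.E1))) n0.le) (gd_mass X).c
  have k7 : nu S * X2 E S M Y u ≤ Bu E S M Y u :=
    X.le_of_lg (by positivity) (Bu0 X) (by lg_norm; rw [X.lg_nu, lg_Bu X]; linarith)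
  have k8 : nu S ^ ((15 : ℝ) / 7) ≤ Bc E S Y u :=
    X.le_of_lg (by positivity) b0 (by lg_norm; rw [X.lg_nu]; linarith)
  have q1 : Zz E * (S.n : ℝ) ^ (-(137 : ℝ) / 100) ≤ Bc E S Y u ^ 2 :=
    X.le_of_lg (by positivity) (by positivity) (by lg_norm; rw [X.lg_Z, X.lg_n]; linarith)
  have q2 : r2 * (u ^ 2 * Yd KK E Y) ≤ Bc E S Y u ^ 2 :=
    X.le_of_lg (by positivity) (by positivity) (by lg_norm; linarith)
  have q3 : r2 * (u ^ 2 * (E ^ 100 * Y)) ≤ Bc E S Y u ^ 2 :=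
    X.le_of_lg (by positivity) (by positivity) (by lg_norm; linarith)
  have q4 : r2 * (w ^ 2 * (E ^ 100 * Y)) ≤ r2 * (u ^ 2 * (E ^ 100 * Y)) := by gcongr
  have q5 := mul_le_mul_of_nonneg_left T.a5 X.Z0.le
  have q6 := mul_le_mul_of_nonneg_left hG r0.le
  have k9 : √(G / (2 * r2)) ≤ 16 * Bc E S Y u / (2 * r2) := by
    refine sqrt_le_iff.2 ⟨by positivity, ?_⟩
    rw [div_pow, div_le_div_iff₀ (by positivity) (by positivity)]
    have : 2 * r2 * G ≤ (16 * Bc E S Y u) ^ 2 := by linarith [sq_nonneg (Bc E S Y u)]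
    linarith [mul_le_mul_of_nonneg_left this r0.le]
  rw [le_div_iff₀' (by positivity)] at k9
  linarith [mul_le_mul_of_nonneg_left h1 r0.le, Bc_le X]

theorem le_Nc {x k : ℝ} (hk : k ≤ 10 ^ 9) (h : x ≤ k * (Bu E S M Y u + B6 E S Y u)) :
    x + (S.θ + u) * S.u0 ^ 3 ≤ Nc E S M Y u := by
  have a : (1000 : ℝ) ^ 8 ≤ E ^ 8 := pow_le_pow_left₀ (by norm_num) X.cx.E3 8
  have b := mul_le_mul_of_nonneg_right (show k ≤ E ^ 8 by linarith) (add_pos (Bu0 X) (B60 X)).le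
  unfold Nc
  linarith

end num

section

variable {E : ℝ} {S : Sc} {M : Md} {l lm Ys Y : ℝ} {c : ℕ → ℝ} {D u : ℝ} {F : ℕ → ℝ}
  (Z : Tm71.Tx KK E S M l lm Ys Y c D u F)
include Z

theorem et_lo : (G0 E S M Y u + X2 E S M Y u) * √(X2 E S M Y u) + X3n E S M Y u + 1 / S.n ≤
    M15.et E S M Y D u 1 := by
  have X := tx Z
  have L := (bk Z).ln
  have l1 : ll E S M Y u ≤ 1 := (le_mul_of_one_le_left X.l0.le (one_le_pow₀ X.E1)).trans L.l1
  refine le_trans ?_ (L.ηb 1 l1 Z.cl'.C1)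
  have := X.G00; have := X.X20; have := X.Z0; have := w0 (D := D) X
  have m := Z.cl'.ms_pos zero_le_one
  have c0 : 0 < cr (Su E S M Y D u) 1 := one_pos.trans_le (le_max_left _ _)
  have u0 : 0 ≤ uw (Su E S M Y D u) (Zz E) 1 := by unfold uw; positivity
  have p1 : 0 ≤ uw (Su E S M Y D u) (Zz E) 1 ^ 2 * min ((Su E S M Y D u).ms 1 / 1) 1 :=
    mul_nonneg (sq_nonneg _) (le_min (div_nonneg m.le zero_le_one) zero_le_one)
  have p2 : (G0 E S M Y u + X2 E S M Y u) * √(X2 E S M Y u) ≤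
      (√(Zz E * cr (Su E S M Y D u) 1 * gg (Su E S M Y D u) 1) + G0 E S M Y u + X2 E S M Y u) *
        (uw (Su E S M Y D u) (Zz E) 1 + √(X2 E S M Y u)) :=
    mul_le_mul (by linarith [sqrt_nonneg (Zz E * cr (Su E S M Y D u) 1 * gg (Su E S M Y D u) 1)])
      (by linarith) (sqrt_nonneg _)
      (add_nonneg (add_nonneg (sqrt_nonneg _) X.G00.le) X.X20.le)
  change _ ≤ _ + _ + _ + _ + 1 / (S.n : ℝ)
  linarith [pow_nonneg u0 3]

theorem et0 : 0 ≤ M15.et E S M Y D u 1 := by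
  have X := tx Z
  have := X.G00; have := X.X20; have := X.X3n0
  exact le_trans (by positivity) (et_lo Z)

theorem et1 : M15.et E S M Y D u 1 ≤ √((S.θ + u) * Bc E S Y u) := by
  have X := tx Z
  have := th0 X; have := X.E0; have := X.Xi0
  refine le_sqrt_of_sq_le ((Bk.η1 Z (bk Z)).trans ?_)
  rw [mf_eq, Bc]
  calc _ = (S.θ + u) * (Xi E S Y u / E ^ 11) := by field_simp
    _ ≤ _ := by gcongr; exacts [le_max_left _ _, X.E1, by norm_num]

end

end Crest.Agent.T156.Alt.Tc28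

namespace Crest.Agent.T156.Alt.Tm92

open Real Finset Filter Pre29 Sr L69 Tc28

/-- **the corner** -/
theorem hCn : HCn := fun E S M l lm Ys Y c D u F Z _ _ _ => by
  have X := tx Z
  have h0 := et0 Z
  have h1 := et1 Z
  have t := tc_x (D := D) X h0 h1
  have t0 := tc0 (D := D) X h0
  have W := w0 (D := D) X
  have p : 0 ≤ xx E Y / Lc E S Y u + ec E S M Y D u (M15.et E S M Y D u 1) /
      mf (Su E S M Y D u) 1 :=
    (add_pos (div_pos (xx0 X) (Lc0 X)) (div_pos (ec0 X h0) (X.mf_pos zero_le_one))).le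
  refine ⟨(cub3 W.le).ge.trans (pow_le_pow_left₀ (by positivity) (le_add_of_nonneg_left p) 3),
    ⟨Z_Lc X, Lc_n X⟩, ?_, le_add_of_nonneg_right (rpow_pos_of_pos W _).le,
    show _ ≤ xx E Y by linarith, ?_⟩
  · rintro _ rfl
    refine ⟨?_, uc_mf X⟩
    have a := et_lo Z
    change uc E S M Y D u ^ 3 + uc E S M Y D u ^ 2 * (S.θ + u + Tc28.jj E S M Y u + xx E Y) +
      (√(Lc E S Y u * gg (Su E S M Y D u) 1) + G0 E S M Y u + X2 E S M Y u) *
        (uc E S M Y D u + √(X2 E S M Y u)) + X3n E S M Y u + 1 / (S.n : ℝ) ≤ _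
    unfold ec
    linarith
  · have a := (sizes (D := D) X).2.2.2.2
    have b := mul_le_mul_of_nonneg_left (show Tc28.jj E S M Y u + tc E S M Y D u
      (M15.et E S M Y D u 1) ≤ E * xx E Y by
        linarith [jj_le X, mul_le_mul_of_nonneg_right X.cx.E3 (xx0 X).le]) (pow_pos X.E0 360).le
    rw [pow_succ E 360] at a
    linarith

/-- the sum of `c1` -/
def HS1 : Prop := AllZ fun E S M _ _ _ Y _ _ u _ Z _ r2 =>
  ∑ k ∈ (Icc Z.S'.J Z.S'.Jp).filter fun k => 2 * r2 ≤ du Z.N k,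
    dx Z.N k * min ((Zz E ^ 2 * ap Z.N Z.S' (Xx E Y) (V21 E S Y u) (nu S) k) ^ 3)
      ((Zz E ^ 2 * ap Z.N Z.S' (Xx E Y) (V21 E S Y u) (nu S) k) ^ 4 / Z.S'.θ) ≤ Bu E S M Y u

/-- the quadratic sum -/
def HS2 : Prop := AllZ fun E S M _ _ _ Y _ _ u _ Z r1 _ =>
  Np Z.N Z.S' (Xx E Y) (Vt1 E S Y u) (nu S) (8 * r1) (Zz E ^ 3) 2 ≤ Bu E S M Y u ^ ((2 : ℝ) / 3)

/-- **the costs** from the two plateau sums -/
theorem hLC_of (s1 : HS1) (s2 : HS2) : HLC := fun E S M l lm Ys Y c D u F Z r1 r2 T => by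
  have X := tx Z
  have h0 := et0 Z
  have h1 := et1 Z
  have H := Z.cl'
  have θ0 := th0 X
  have r0 := r_pos Z T
  have r3 : 0 < r2 := (mul_pos (pow_pos X.E0 _) r0).trans_le T.a3
  have b0 := Bc0 X
  have b1 := Bc_le X
  have b6 := B60 X
  have V0 : 0 ≤ V21 E S Y u := le_min zero_le_one (Tt46.V2_pos X).le
  have Vt0 : V21 E S Y u ≤ Vt1 E S Y u := min_le_min_left _ (Tt46.V2_le X)
  have g0 : 0 ≤ Z.GN := div_nonneg (add_nonneg (add_nonneg (Tm71.GP_nn H) (Tm71.GS_nn H _ _))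
    (sq_nonneg _)) H.θ0.le
  have u3 : 0 ≤ (S.θ + u) * S.u0 ^ 3 := (mul_pos θ0 (pow_pos X.cx.sh.u0.1 3)).le
  have K : ∀ {x k : ℝ}, k ≤ 10 ^ 9 → x ≤ k * (Bu E S M Y u + B6 E S Y u) →
      x ≤ Nc E S M Y u + Z.GN := fun a b => by linarith [le_Nc X a b]
  refine ⟨⟨V0, Vt0⟩, K (k := 1) (by norm_num) ?_, fun e he => K (k := 8 ^ 2) (by norm_num) ?_, ?_,
    ?_, K (k := 30) (by norm_num) ?_, K (k := 12) (by norm_num) ?_,
    K (k := 11 ^ 2) (by norm_num) ?_, K (k := 20000) (by norm_num) ?_, fun A B hA hB => ?_⟩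
  · linarith [s1 _ _ _ _ _ _ _ _ _ _ _ Z r1 r2 T]
  · have n0 : 0 ≤ Np Z.N Z.S' (Xx E Y) (Vt1 E S Y u) (nu S) (8 * r1) (Zz E ^ 3) 2 := by
      have := X.Z0
      refine add_nonneg (by positivity) (sum_nonneg fun k _ => mul_nonneg
        (Sr.C71.dx_nn H k) (add_nonneg (sq_nonneg _) (le_min (by positivity)
          (mul_nonneg (sqrt_nonneg _) (rpow_nonneg ?_ _)))))
      exact add_nonneg (add_nonneg (sqrt_nonneg _) (le_min (V0.trans Vt0) (sqrt_nonneg _)))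
        X.nu0.le
    exact (c1p X h0 h1 V0 (min_le_right _ _) n0 (s2 _ _ _ _ _ _ _ _ _ _ _ Z r1 r2 T) he).trans
      (by linarith)
  · rw [add_div]
    change Z.GN + ((S.θ + u) * nu S) ^ 2 / (S.θ + u) ≤ _
    have e : ((S.θ + u) * nu S) ^ 2 / (S.θ + u) = (S.θ + u) * nu S ^ 2 := by field_simp
    linarith [le_Nc X (k := 1) (by norm_num) (x := (S.θ + u) * nu S ^ 2) (by linarith [c2n X])]
  · change (S.θ + u) * (_ + S.u0 ^ 3) ≤ _
    linarith [le_Nc X (k := 2197) (by norm_num) ((c3 (D := D) X h0 h1).trans (by linarith))]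
  · refine c4 X T r3 h0 h1 Z.w0.le (min_le_left u D) ?_
    have a := (Tm71.GP_le H).trans Z.sqG_split
    have b : M.sq S Z.gy ≤ _ := Z.k0.res
    have d := mul_le_mul_of_nonneg_left Z.sx.big.ck (sq_nonneg u)
    have e : Z.G1 ^ 2 = 81 * (min u D ^ 2 * (E ^ 100 * Y)) := by
      have := X.E0; have := X.Y0
      rw [Tm71.Tx.G1, mul_pow, mul_pow, sq_sqrt (by positivity)]; ring
    have f : M.sq S M.G ≤ 2 * Zz E * S.g2 := Z.sqG_g2
    linarith
  · exact (c6 (D := D) X h0 h1).trans (by linarith)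
  · exact (c8 (D := D) X h0 h1).trans (by linarith)
  · exact (c9 (D := D) X).trans (by linarith)
  · obtain ⟨a, b⟩ := c5 (D := D) X h0 h1 hA hB
    exact ⟨K (k := 6000 ^ 2) (by norm_num) (a.trans (by linarith)),
      b.imp_left fun b => K (k := 1) (by norm_num) (b.trans (by linarith))⟩

end Crest.Agent.T156.Alt.Tm92

end
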