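import Crest.Agent.T156.LocG_69
import Crest.Agent.T156.ClTh_9

-- ▼ part T156/TkA_20
section

/-!
# Row 156, block (L): the thick pass in normalised form (helper20)

Frame free; `r ^ 2` is the mass, `P` bounds all the constants.
-/

set_option autoImplicit false

namespace Crest.Agent.T156.Rig

open Set Real

/-- a multiple of `|u|` in the error is absorbed in the mass -/
theorem absorb_20 {w μ u e o d D : ℝ} (h : |w - μ * u| ≤ e + o * |u|) (he : 0 ≤ e) (ho : 0 ≤ o)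
    (h1 : d + o ≤ μ) (h2 : μ + o ≤ D) : ∃ μ', d ≤ μ' ∧ μ' ≤ D ∧ |w - μ' * u| ≤ e := by
  rcases eq_or_ne u 0 with rfl | hu
  · exact ⟨μ, by linarith, by linarith, by simpa using h⟩
  have u0 : 0 < |u| := abs_pos.2 hu
  set x := w - μ * u with hx
  have k : |x - max (-e) (min x e)| ≤ o * |u| := by
    have p0 := mul_nonneg ho u0.le
    have := abs_le.1 h
    rcases le_total x e with a | a
    · rw [min_eq_left a]
      rcases le_total (-e) x with b | b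
      · rw [max_eq_right b]; simpa using p0
      · rw [max_eq_left b]; exact abs_le.2 ⟨by linarith, by linarith⟩
    · rw [min_eq_right a, max_eq_right (by linarith)]; exact abs_le.2 ⟨by linarith, by linarith⟩
  have k2 : |(x - max (-e) (min x e)) / u| ≤ o := by rwa [abs_div, div_le_iff₀ u0]
  refine ⟨μ + (x - max (-e) (min x e)) / u, by linarith [(abs_le.1 k2).1],
    by linarith [(abs_le.1 k2).2], ?_⟩
  rw [show w - (μ + (x - max (-e) (min x e)) / u) * u = max (-e) (min x e) by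
    rw [hx]; field_simp; ring]
  exact abs_le.2 ⟨le_max_left _ _, max_le (by linarith) (min_le_right _ _)⟩

namespace Tk

variable {S : Finset ℝ} {a b : ℝ} {W ω ν u : ℝ → ℝ} {gp : ℝ → ℝ → Prop}
  {b₀ b₁ p₀ d D err C₁ δ : ℝ}

/-- **one pass**, normalised: `Z` bounds all the errors -/
theorem one_20 (h : Tk S a b W ω ν u gp b₀ b₁ p₀ d D err C₁ δ) {P r Γ R N Z : ℝ} (P1 : 1 ≤ P)
    (r0 : 0 < r) (hd : r ^ 2 ≤ P * d) (hD : D ≤ P * r ^ 2) (hb1 : b₁ ≤ P) (hC : C₁ ≤ P)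
    (hb0 : 1 ≤ b₀ * P) (Γ0 : 0 ≤ Γ) (hΓ : P * Γ ≤ r) (hs : Sh a b gp a b Γ) (N0 : 0 ≤ N)
    (hR : ∀ t ∈ Icc a b, |u t| ≤ R) (he : 0 ≤ err) (hab : a ≤ b)
    (hZ : P * Γ + δ + p₀ + R * exp (-N) + err / r ^ 2 ≤ Z) :
    (∀ t ∈ Icc (a + N * P * r) (b - N * P * r), |W t| ≤ 5 * P ^ 2 * r ^ 2 * Z) ∧
    (∀ t ∈ Icc (a + N * P * r + Γ) (b - N * P * r), |u t| ≤ 7 * P ^ 3 * Z) ∧
    ∀ t ∈ Icc (a + N * P * r + Γ) (b - N * P * r - r), |ω t| ≤ 18 * P ^ 4 * r * Z := by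
  have P0 : 0 < P := by linarith
  have r2 : 0 < r ^ 2 := by positivity
  have d0 := h.d0
  have D0 : 0 ≤ D := d0.le.trans h.dD
  have R0 : 0 ≤ R := (abs_nonneg _).trans (hR a ⟨le_rfl, hab⟩)
  have δ0 := h.δ0
  have p0 := h.p0
  have b10 := h.b1
  have C0 := h.C0
  have x0 : 0 ≤ R * exp (-N) := by positivity
  have x1 : 0 ≤ err / r ^ 2 := by positivity
  have x2 : 0 ≤ P * Γ := by positivity
  have Z0 : 0 ≤ Z := by linarith
  have e1 : err ≤ r ^ 2 * Z := by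
    have : err / r ^ 2 ≤ Z := by linarith
    rwa [div_le_iff₀' r2] at this
  have PP : P ≤ P ^ 2 := le_self_pow₀ P1 two_ne_zero
  have P2 : 1 ≤ P ^ 2 := P1.trans PP
  have g1 : P ^ 2 * Γ ^ 2 ≤ r ^ 2 := by rw [← mul_pow]; exact pow_le_pow_left₀ x2 hΓ 2
  have g2 : b₁ * Γ ^ 2 ≤ 4 * d := by
    have a1 : P * (b₁ * Γ ^ 2) ≤ P * d := by
      have := mul_le_mul_of_nonneg_right hb1 (mul_nonneg P0.le (sq_nonneg Γ))
      linarith only [this, g1, hd]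
    have := le_of_mul_le_mul_left a1 P0
    linarith
  have o1 : C₁ * Γ + δ ≤ Z := by linarith [mul_le_mul_of_nonneg_right hC Γ0]
  have o0 : 0 ≤ C₁ * Γ + δ := by positivity
  have l0 : 0 ≤ N * P * r := by positivity
  have kl : 1 / (P * r) * (N * P * r) = N := by field_simp
  have k1 : (1 / (P * r)) ^ 2 * D ≤ 2 * b₀ := by
    have a1 : (1 / (P * r)) ^ 2 * (P * r ^ 2) = 1 / P := by field_simp
    have a2 := mul_le_mul_of_nonneg_left hD (sq_nonneg (1 / (P * r)))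
    have a3 : 1 / P ≤ b₀ := by rwa [div_le_iff₀ P0]
    linarith [h.b0]
  have k2 : p₀ ≤ (1 / (P * r)) ^ 2 * (P ^ 2 * r ^ 2 * p₀) := le_of_eq (by field_simp)
  have E : eP b₁ p₀ D err C₁ δ Γ + P ^ 2 * r ^ 2 * p₀ + 2 * (D * R) * exp (-N) ≤
      5 * P ^ 2 * r ^ 2 * Z := by
    have a1 : D * (C₁ * Γ + δ) ≤ P ^ 2 * r ^ 2 * (P * Γ + δ) :=
      mul_le_mul (hD.trans (mul_le_mul_of_nonneg_right PP r2.le))
        (by linarith [mul_le_mul_of_nonneg_right hC Γ0]) o0 (by positivity)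
    have a2 : Γ ^ 2 * b₁ ≤ r ^ 2 := by
      have := mul_le_mul_of_nonneg_left (hb1.trans PP) (sq_nonneg Γ)
      linarith
    have a3 : Γ ^ 2 ≤ r ^ 2 := (le_mul_of_one_le_left (sq_nonneg Γ) P2).trans g1
    have a4 : Γ ^ 2 * b₁ * (C₁ * Γ + δ) ≤ r ^ 2 * Z := mul_le_mul a2 o1 o0 r2.le
    have a5 : Γ ^ 2 * p₀ ≤ r ^ 2 * Z := mul_le_mul a3 (by linarith) p0 r2.le
    have a6 : D * (R * exp (-N)) ≤ P ^ 2 * r ^ 2 * (R * exp (-N)) :=
      mul_le_mul_of_nonneg_right (hD.trans (mul_le_mul_of_nonneg_right PP r2.le)) x0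
    have a7 : r ^ 2 * Z ≤ P ^ 2 * r ^ 2 * Z := by
      rw [mul_assoc]; exact le_mul_of_one_le_left (by positivity) P2
    have a8 : P ^ 2 * r ^ 2 * (P * Γ + δ + p₀ + R * exp (-N)) ≤ P ^ 2 * r ^ 2 * Z :=
      mul_le_mul_of_nonneg_left (by linarith) (by positivity)
    have a9 : P ^ 2 * r ^ 2 * (R * exp (-N)) ≤ P ^ 2 * r ^ 2 * Z :=
      mul_le_mul_of_nonneg_left (by linarith) (by positivity)
    have b1 : 0 ≤ r ^ 2 * Z := by positivity
    have b2 : 0 ≤ Γ ^ 2 * p₀ := by positivity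
    unfold eP
    linarith only [a1, a4, a5, a6, a7, a8, a9, e1, b1, b2]
  have c1 := h.abs_W le_rfl le_rfl hs g2 ⟨le_rfl, hab⟩ (hR a ⟨le_rfl, hab⟩)
  have c2 := h.abs_W le_rfl le_rfl hs g2 ⟨hab, le_rfl⟩ (hR b ⟨hab, le_rfl⟩)
  have q0 : 0 ≤ P ^ 2 * r ^ 2 * p₀ := by positivity
  have w1 : ∀ t ∈ Icc (a + N * P * r) (b - N * P * r), |W t| ≤ 5 * P ^ 2 * r ^ 2 * Z :=
    fun t ht => by
      have := h.pass le_rfl le_rfl hs g2 (by positivity) k1 k2 q0 (mul_nonneg D0 R0) (by linarith)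
        (by linarith) l0 ht
      rw [kl] at this
      exact this.trans E
  have s1 : Sh a b gp (a + N * P * r) (b - N * P * r) Γ := fun s s' hg h1 h2 h3 _ _ =>
    hs s s' hg h1 h2 h3 (h2.trans h3) (h1.trans h2)
  have u1 : ∀ t ∈ Icc (a + N * P * r + Γ) (b - N * P * r), |u t| ≤ 7 * P ^ 3 * Z := fun t ht => by
    refine (h.label (by linarith) (by linarith) Γ0 s1 w1 ht).trans ?_
    have a1 : (5 * P ^ 2 * r ^ 2 * Z + err) / d ≤ 6 * P ^ 3 * Z := by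
      rw [div_le_iff₀ d0]
      have a2 : r ^ 2 * Z ≤ P ^ 2 * r ^ 2 * Z := by
        rw [mul_assoc]; exact le_mul_of_one_le_left (by positivity) P2
      have a3 := mul_le_mul_of_nonneg_left hd (by positivity : 0 ≤ 6 * P ^ 2 * Z)
      linarith only [a2, a3, e1]
    have a4 : Z ≤ P ^ 3 * Z := le_mul_of_one_le_left Z0 (one_le_pow₀ P1)
    linarith
  refine ⟨w1, u1, fun t ht => ?_⟩
  refine (h.slope (a' := a + N * P * r + Γ) (b' := b - N * P * r) (by linarith) (by linarith) r0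
    (fun x hx => w1 x ⟨by linarith [hx.1], hx.2⟩) u1 ht).trans ?_
  have a1 : 2 * (5 * P ^ 2 * r ^ 2 * Z) / r = 10 * (P ^ 2 * (r * Z)) := by field_simp; ring
  have rZ : 0 ≤ r * Z := by positivity
  have a2 : P ^ 2 * (r * Z) ≤ P ^ 4 * (r * Z) :=
    mul_le_mul_of_nonneg_right (pow_le_pow_right₀ P1 (by norm_num)) rZ
  have a3 : b₁ * (P ^ 3 * (r * Z)) ≤ P * (P ^ 3 * (r * Z)) :=
    mul_le_mul_of_nonneg_right hb1 (by positivity)
  have a4 : p₀ * r ≤ Z * r := mul_le_mul_of_nonneg_right (by linarith) r0.le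
  have a5 : r * Z ≤ P ^ 4 * (r * Z) := le_mul_of_one_le_left rZ (one_le_pow₀ P1)
  rw [a1]
  linarith only [a2, a3, a4, a5, rZ]

/-- **short gap** inside the zone of small slope -/
theorem short_20 (h : Tk S a b W ω ν u gp b₀ b₁ p₀ d D err C₁ δ) {s s' Ω e₂ μ₁ : ℝ} (h1 : a ≤ s)
    (h2 : s ≤ s') (h3 : s' ≤ b) (hω : ∀ t ∈ Icc s s', |ω t| ≤ Ω) (hΩ : 2 * Ω ≤ μ₁)
    (hlen : W s' - W s ≤ e₂ - μ₁ * (s' - s)) : μ₁ * (s' - s) ≤ 2 * e₂ := by
  have hp : PC2 S s s' (fun t => W t - (-Ω) * t) (fun t => ω t - (-Ω)) fun t => ν t - 0 :=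
    (h.pc.mono h1 h3 (Finset.Subset.refl S)).sub (PC2.of_smooth S s s'
      (fun t => ((hasDerivAt_id' t).const_mul (-Ω)).congr_deriv (mul_one _))
      fun t => hasDerivAt_const t _)
  have hm := hp.W_le le_rfl h2 le_rfl fun r hr _ => by
    have := (abs_le.1 (hω r ⟨hr.1.le, hr.2.le⟩)).1
    show 0 ≤ ω r - -Ω
    linarith
  have h7 : 0 ≤ (μ₁ - 2 * Ω) * (s' - s) := mul_nonneg (by linarith) (by linarith)
  nlinarith

end Tk

end Crest.Agent.T156.Rig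
end

-- ▼ part T156/TkB_20

/-!
# Row 156, block (L): the thick pass from node data (helper20)

`Nw`: (E1) in difference form with the terms `o |Γ''|` and a label clock.
-/

set_option autoImplicit false

noncomputable section

namespace Crest.Agent.T156.Alt.Mp9

open MeasureTheory Set Real
open Crest.Agent.R164.GC Crest.Agent.R339.B Crest.Agent.R339.Var Crest.Agent.T157.Pf
open Crest.Agent.T156.Pp.Area50 Crest.Agent.T156.Spl27 Crest.Agent.T156.Zb9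

/-- node data on the window `[u, v]` -/
structure Nw (S : Sc) (M : Md) (m : ℕ) (a T : ℝ) (Gn : ℕ → Prop) (u v : ℕ)
    (a' b' δ θ e o lam g : ℝ) (c : ℕ → ℝ) : Prop where
  at' : At S M m a T
  ju : S.jl < u
  uv : u ≤ v
  gu : Gn u
  gv : Gn v
  a0 : 0 < a'
  b1 : b' < M.s S.J
  su : a' ≤ M.s u
  sv : M.s v ≤ b'
  bu : a' ≤ sb M m a (u + 1)
  bv : sb M m a (v + 1) ≤ b'
  δ0 : 0 ≤ δ
  θ0 : 0 ≤ θ
  e0 : 0 ≤ e
  o0 : 0 ≤ o
  lam0 : 0 ≤ lam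
  gap : ∀ i k, Nx Gn u v i k → M.z k ≤ M.z i + (δ + θ * (sb M m a (k + 1) - sb M m a (i + 1)))
  cc : ∀ i k y, Nx Gn u v i k → i ≤ y → y ≤ k →
    c y ≤ o + lam * (sb M m a (k + 1) - sb M m a (i + 1)) ^ 2
  e1 : ∀ i k, u ≤ i → i ≤ k → k ≤ v → Gn i → Gn k → |res M S m a T k - res M S m a T i| ≤
    e + o * (|L0.Gd (lb M S m a T) (sb M m a (i + 1))| + |L0.Gd (lb M S m a T) (sb M m a (k + 1))|) +
      (o * (sb M m a (k + 1) - sb M m a (i + 1)) +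
        ∑ y ∈ Finset.Ioo i k, (M.z y - M.z (y - 1)) * c y)
  hg : ∀ k, u ≤ k → k ≤ v → Gn k → |M.G k| ≤ g

theorem Nx.up {Gn : ℕ → Prop} {u v u' v' i k : ℕ} (n : Nx Gn u' v' i k) (h1 : u ≤ u') (h2 : v' ≤ v) :
    Nx Gn u v i k := ⟨h1.trans n.1, n.2.1, n.2.2.1.trans h2, n.2.2.2⟩

/-- every node of the window lies in a gap -/
theorem exists_nx' {Gn : ℕ → Prop} {u v y : ℕ} (gu : Gn u) (gv : Gn v) (h1 : u ≤ y) (h2 : y ≤ v) :
    ∃ i k, Nx Gn u v i k ∧ i ≤ y ∧ y ≤ k := by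
  obtain ⟨i, k, n, p, q⟩ := exists_nx (σ := fun k => (k : ℝ)) (t := y) (h1.trans h2) gu gv
    (by exact_mod_cast h1) (by exact_mod_cast h2)
  exact ⟨i, k, n, by exact_mod_cast p, by exact_mod_cast q⟩

theorem At.abs_uu_one {S : Sc} {M : Md} {m : ℕ} {a T : ℝ} (A : At S M m a T) (t : ℝ) :
    |uu M S m a T t| ≤ 1 := by
  have p1 := Pp.Ode3.lvr_pos A.okb.1.1 t
  have p2 := Pp.Ode3.lvr_pos A.okh.1.1 t
  have p3 := Pp.Ode3.lvr_le_one A.okb.1.1 t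
  have p4 := Pp.Ode3.lvr_le_one A.okh.1.1 t
  unfold uu
  exact abs_le.2 ⟨by linarith, by linarith⟩

/-- `Γ''` of the mean profile -/
theorem gd_le (T0 : ℝ) : ∃ K : ℝ, 1 ≤ K ∧ ∀ {S : Sc} {M : Md} {m : ℕ} {a T : ℝ}, At S M m a T →
    T ≤ T0 → ∀ {a' b' t : ℝ}, 0 < a' → b' < M.s S.J → t ∈ Icc a' b' →
    |L0.Gd (lb M S m a T) t| ≤ S.C * (S.ms b' / a') + K * Rig.Hp (lh M T) (lb M S m a T) t +
      2 * |uu M S m a T t| := by
  obtain ⟨K, K1, H⟩ := Rig.rel T0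
  refine ⟨K, K1, fun {S M m a T} A hT {a' b' t} a0 b1 ht => ?_⟩
  have tT : t ∈ Icc 0 (TT (lh M T)) := by
    rw [A.okh.2]
    exact ⟨a0.le.trans ht.1, ((ht.2.trans b1.le).trans (A.cl.sm A.cl.i3)).trans A.t2⟩
  obtain ⟨⟨p1, p2⟩, p3, -⟩ := H _ _ (ap_of_ok A.okb.1) (ap_of_ok A.okh.1)
    (A.okb.2.trans A.okh.2.symm) (by rwa [A.okh.2]) 1 zero_le_one t tT
  rw [Rig.nuf_eq, Rig.nuf_eq, one_mul, one_mul, one_mul, mul_one] at p3
  rw [one_mul] at p1 p2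
  have q := A.gd_h' a0.le b1 ht
  have q2 : S.ms b' / max a' (M.s S.j0) ≤ S.ms b' / a' :=
    div_le_div_of_nonneg_left (A.ms_pos (a0.le.trans (ht.1.trans ht.2))).le a0 (le_max_left _ _)
  have q3 := mul_le_mul_of_nonneg_left q2 A.c_pos.le
  have r : |2 * Pp.Ode3.Am (lh M T) t * uu M S m a T t| ≤ 2 * |uu M S m a T t| := by
    rw [abs_mul]
    refine mul_le_mul_of_nonneg_right (abs_le.2 ⟨?_, ?_⟩) (abs_nonneg _) <;>
      linarith [exp_pos (-(4 * T0))]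
  unfold uu at r ⊢
  have := abs_le.1 p3; have := abs_le.1 q; have := abs_le.1 r
  exact abs_le.2 ⟨by linarith, by linarith⟩

namespace Nw
variable {S : Sc} {M : Md} {m : ℕ} {a T : ℝ} {Gn : ℕ → Prop} {u v : ℕ} {a' b' δ θ e o lam g : ℝ}
  {c : ℕ → ℝ} (W : Nw S M m a T Gn u v a' b' δ θ e o lam g c)
include W

theorem sub {u' v' : ℕ} (h1 : u ≤ u') (h2 : u' ≤ v') (h3 : v' ≤ v) (g1 : Gn u') (g2 : Gn v') :
    Nw S M m a T Gn u' v' a' b' δ θ e o lam g c :=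
  ⟨W.at', W.ju.trans_le h1, h2, g1, g2, W.a0, W.b1, W.su.trans (W.at'.cl.sm h1),
    (W.at'.cl.sm h3).trans W.sv, W.bu.trans (W.at'.sb_mono (Nat.succ_le_succ h1)),
    (W.at'.sb_mono (Nat.succ_le_succ h3)).trans W.bv, W.δ0, W.θ0, W.e0, W.o0, W.lam0,
    fun i k n => W.gap i k (n.up h1 h3), fun i k y n => W.cc i k y (n.up h1 h3),
    fun i k p q r => W.e1 i k (h1.trans p) q (r.trans h3),
    fun k p q => W.hg k (h1.trans p) (q.trans h3)⟩

/-- the window data with any residual bound -/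
theorem wd {c0 er j : ℝ} (h1 : ∀ k, u ≤ k → k ≤ v → Gn k → |res M S m a T k - c0| ≤ er)
    (hp : ∀ t ∈ Icc (sb M m a (u + 1)) (sb M m a (v + 1)), Rig.Hp (lh M T) (lb M S m a T) t ≤ j) :
    Wd S M m a T Gn u v a' b' δ θ c0 er g j :=
  ⟨W.at', W.ju, W.uv, W.gu, W.gv, W.a0.le, W.b1, W.su, W.sv, W.bu, W.bv, W.δ0, W.θ0, W.gap, h1, W.hg,
    hp⟩

theorem vJ : v < S.J :=
  lt_of_not_ge fun h => absurd (W.at'.cl.sm h) (not_le.2 (W.sv.trans_lt W.b1))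

theorem mb {k : ℕ} (h1 : u ≤ k) (h2 : k ≤ v) : sb M m a (k + 1) ∈ Icc a' b' :=
  ⟨W.bu.trans (W.at'.sb_mono (Nat.succ_le_succ h1)),
    (W.at'.sb_mono (Nat.succ_le_succ h2)).trans W.bv⟩

/-- the label clock between two nodes -/
theorem clk {cm : ℝ} (c0 : 0 ≤ cm) {i k : ℕ} (h2 : i ≤ k) (hc : ∀ y, i ≤ y → y ≤ k → c y ≤ cm) :
    ∑ y ∈ Finset.Ioo i k, (M.z y - M.z (y - 1)) * c y ≤ cm * (M.z k - M.z i) := by
  rw [← At.sum_dz M h2, Finset.mul_sum]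
  refine (Finset.sum_le_sum fun y hy => ?_).trans (Finset.sum_le_sum_of_subset_of_nonneg
    Finset.Ioo_subset_Ioc_self fun y _ _ => mul_nonneg c0 (W.at'.dz_nn y))
  rw [mul_comm cm]
  exact mul_le_mul_of_nonneg_left (hc y (Finset.mem_Ioo.1 hy).1.le (Finset.mem_Ioo.1 hy).2.le)
    (W.at'.dz_nn y)

theorem c_le {Γ : ℝ} (hΓ : ∀ i k, Nx Gn u v i k → sb M m a (k + 1) - sb M m a (i + 1) ≤ Γ) {y : ℕ}
    (h1 : u ≤ y) (h2 : y ≤ v) : c y ≤ o + lam * Γ ^ 2 := by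
  obtain ⟨i, k, n, p, q⟩ := exists_nx' W.gu W.gv h1 h2
  refine (W.cc i k y n p q).trans (add_le_add le_rfl (mul_le_mul_of_nonneg_left ?_ W.lam0))
  exact pow_le_pow_left₀ (sub_nonneg.2 (W.at'.sb_mono (Nat.succ_le_succ n.2.1))) (hΓ i k n) 2

/-- labels against times -/
theorem z_le {i k : ℕ} (h1 : u ≤ i) (h2 : i ≤ k) (h3 : k ≤ v) : M.z k - M.z i ≤
    S.C * (sb M m a (k + 1) - sb M m a (i + 1)) + S.C * S.v +
      (|uu M S m a T (sb M m a (i + 1))| + |uu M S m a T (sb M m a (k + 1))|) := by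
  have A := W.at'
  have vp := W.vJ.le.trans A.cl.i3
  have p := (A.sl W.b1 _ _ (W.a0.le.trans (W.mb h1 (h2.trans h3)).1)
    (A.sb_mono (Nat.succ_le_succ h2)) (W.mb (h1.trans h2) h3).2).2
  unfold uu
  rw [A.lvb_node (W.ju.le.trans h1) ((h2.trans h3).trans vp),
    A.lvb_node (W.ju.le.trans (h1.trans h2)) (h3.trans vp)]
  linarith [le_abs_self (M.z k - lvr 1 (lh M T) (sb M m a (k + 1))),
    neg_abs_le (M.z i - lvr 1 (lh M T) (sb M m a (i + 1)))]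

/-- the anchor: the good node where `|u|` is minimal -/
theorem anchor {Γ Q Wl : ℝ}
    (hΓ : ∀ i k, Nx Gn u v i k → sb M m a (k + 1) - sb M m a (i + 1) ≤ Γ)
    (hQ : ∀ k, u ≤ k → k ≤ v → |L0.Gd (lb M S m a T) (sb M m a (k + 1))| ≤
      Q + 2 * |uu M S m a T (sb M m a (k + 1))|)
    (hW : sb M m a (v + 1) - sb M m a (u + 1) ≤ Wl) : ∃ c0, ∀ k, u ≤ k → k ≤ v → Gn k →
      |res M S m a T k - c0| ≤ e + 2 * o * Q + o * Wl + (o + lam * Γ ^ 2) * (S.C * Wl + S.C * S.v) +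
        (6 * o + 2 * (lam * Γ ^ 2)) * |uu M S m a T (sb M m a (k + 1))| := by
  classical
  have A := W.at'
  obtain ⟨i, hi, H⟩ := Finset.exists_min_image ((Finset.Icc u v).filter Gn)
    (fun k => |uu M S m a T (sb M m a (k + 1))|)
    ⟨u, Finset.mem_filter.2 ⟨Finset.mem_Icc.2 ⟨le_rfl, W.uv⟩, W.gu⟩⟩
  obtain ⟨hi, gi⟩ := Finset.mem_filter.1 hi
  obtain ⟨i1, i2⟩ := Finset.mem_Icc.1 hi
  have cm : 0 ≤ o + lam * Γ ^ 2 := add_nonneg W.o0 (mul_nonneg W.lam0 (sq_nonneg _))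
  have key : ∀ p q, u ≤ p → p ≤ q → q ≤ v → Gn p → Gn q → ∀ y,
      |uu M S m a T (sb M m a (p + 1))| ≤ y → |uu M S m a T (sb M m a (q + 1))| ≤ y →
      |res M S m a T q - res M S m a T p| ≤ e + 2 * o * Q + o * Wl +
        (o + lam * Γ ^ 2) * (S.C * Wl + S.C * S.v) + (6 * o + 2 * (lam * Γ ^ 2)) * y := by
    intro p q h1 h2 h3 g1 g2 y y1 y2
    have a1 := W.e1 p q h1 h2 h3 g1 g2
    have a2 := W.clk cm h2 fun y p1 p2 => W.c_le hΓ (h1.trans p1) (p2.trans h3)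
    have a3 : sb M m a (q + 1) - sb M m a (p + 1) ≤ Wl := by
      linarith [A.sb_mono (Nat.succ_le_succ h1), A.sb_mono (Nat.succ_le_succ h3)]
    have a4 : M.z q - M.z p ≤ S.C * Wl + S.C * S.v + 2 * y := by
      linarith [W.z_le h1 h2 h3, mul_le_mul_of_nonneg_left a3 A.c_pos.le]
    have a5 := mul_le_mul_of_nonneg_left a4 cm
    have a6 := mul_le_mul_of_nonneg_left a3 W.o0
    have a7 := mul_le_mul_of_nonneg_left (show |L0.Gd (lb M S m a T) (sb M m a (p + 1))| +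
      |L0.Gd (lb M S m a T) (sb M m a (q + 1))| ≤ 2 * Q + 4 * y by
        linarith [hQ p h1 (h2.trans h3), hQ q (h1.trans h2) h3]) W.o0
    linarith
  refine ⟨res M S m a T i, fun k h1 h2 gk => ?_⟩
  have hk := H k (Finset.mem_filter.2 ⟨Finset.mem_Icc.2 ⟨h1, h2⟩, gk⟩)
  rcases le_total i k with h | h
  · exact key i k i1 h h2 gi gk _ hk le_rfl
  · rw [abs_sub_comm]; exact key k i h1 h i2 gk gi _ le_rfl hk

end Nw

/-- **the rigidity data**, the multiples of `|u|` being absorbed in the mass -/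
theorem Nw.tk (T0 : ℝ) : ∃ K : ℝ, 1 ≤ K ∧ ∀ {S : Sc} {M : Md} {m : ℕ} {a T : ℝ} {Gn : ℕ → Prop}
    {u v : ℕ} {a' b' δ θ e o lam g : ℝ} {c : ℕ → ℝ}, Nw S M m a T Gn u v a' b' δ θ e o lam g c →
    T ≤ T0 → ∀ {c0 er om j : ℝ}, 0 ≤ er → 0 ≤ om → S.C * om ≤ S.ms a' / (2 * S.C ^ 2) →
    (∀ k, u ≤ k → k ≤ v → Gn k →
      |res M S m a T k - c0| ≤ er + om * |uu M S m a T (sb M m a (k + 1))|) →
    (∀ t ∈ Icc (sb M m a (u + 1)) (sb M m a (v + 1)), Rig.Hp (lh M T) (lb M S m a T) t ≤ j) →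
    Rig.Tk (Rig.brk (lb M S m a T) ∪ Rig.brk (lh M T)) (sb M m a (u + 1)) (sb M m a (v + 1))
      (WW M S m a T c0) (fun t => Rig.muf M.b (lb M S m a T) t - Rig.muf M.b (lh M T) t)
      (fun t => Rig.nuf M.b (lb M S m a T) t - Rig.nuf M.b (lh M T) t) (uu M S m a T)
      (gp (fun k => sb M m a (k + 1)) Gn u v) (exp (-(4 * T0))) S.C (K * S.C * j)
      (S.ms a' / (2 * S.C ^ 2)) (2 * (S.C ^ 2 * S.ms b')) (errW S m b' er g) (θ + S.C)
      (δ + S.C * S.v) := by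
  obtain ⟨K, K1, H⟩ := Wd.tk T0
  refine ⟨K, K1, fun {S M m a T Gn u v a' b' δ θ e o lam g c} W hT {c0 er om j} e0 o0 ho h1 hp => ?_⟩
  have A := W.at'
  have C0 := A.c_pos
  have W' := W.wd (c0 := c0) (er := er + om) (fun k p q r => (h1 k p q r).trans
    (add_le_add le_rfl (mul_le_of_le_one_right o0 (A.abs_uu_one _)))) hp
  have tk := H W' hT
  have p1 := A.ms_pos W.a0.le
  have dd : S.ms a' / S.C ^ 2 = 2 * (S.ms a' / (2 * S.C ^ 2)) := by field_simp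
  have d0 : 0 < S.ms a' / (2 * S.C ^ 2) := by positivity
  have dD := tk.dD
  have nd : ∀ k, u ≤ k → k ≤ v → Gn k → ∃ μ, S.ms a' / (2 * S.C ^ 2) ≤ μ ∧
      μ ≤ 2 * (S.C ^ 2 * S.ms b') ∧ |WW M S m a T c0 (sb M m a (k + 1)) -
        μ * uu M S m a T (sb M m a (k + 1))| ≤ errW S m b' er g := fun k p q r => by
    obtain ⟨μ, m1, m2⟩ := A.W_rep W.a0.le W.b1 (W.ju.trans_le p) (W'.ms p q) (W'.mb p q)
    have b1 : |M.b * res M S m a T k - M.b * c0| ≤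
        S.C * (er + om * |uu M S m a T (sb M m a (k + 1))|) := by
      rw [← mul_sub, abs_mul, abs_of_nonneg (by linarith [A.b_mem.1])]
      exact mul_le_mul A.b_mem.2 (h1 k p q r) (abs_nonneg _) C0.le
    have g1 := W.hg k p q r
    have g0 := (abs_nonneg _).trans g1
    have := v_pos A.cl
    have := A.ms_pos (W.a0.le.trans W'.ab)
    refine Rig.absorb_20 (μ := μ) (o := S.C * om) ?_ (by unfold errW; positivity) (by positivity)
      (by linarith [m1.1]) (by linarith [m1.2])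
    unfold WW errW
    refine abs_le.2 ⟨?_, ?_⟩ <;>
      linarith [(abs_le.1 m2).1, (abs_le.1 m2).2, (abs_le.1 b1).1, (abs_le.1 b1).2]
  refine ⟨tk.pc, tk.b0, tk.b1, tk.p0, d0, by linarith, tk.C0, tk.δ0, tk.rel, tk.cov, ?_, ?_, tk.osc⟩
  · rintro _ _ ⟨i, k, n, rfl, rfl⟩ - - -
    exact nd i n.1 (n.2.1.trans n.2.2.1) n.2.2.2.1
  · rintro _ _ ⟨i, k, n, rfl, rfl⟩ - - -
    exact nd k (n.1.trans n.2.1) n.2.2.1 n.2.2.2.2.1

/-- the drop of the potential on one gap -/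
theorem Nw.len {S : Sc} {M : Md} {m : ℕ} {a T : ℝ} {Gn : ℕ → Prop} {u v : ℕ}
    {a' b' δ θ e o lam g : ℝ} {c : ℕ → ℝ} (W : Nw S M m a T Gn u v a' b' δ θ e o lam g c)
    {j : ℝ}
    (hp : ∀ t ∈ Icc (sb M m a (u + 1)) (sb M m a (v + 1)), Rig.Hp (lh M T) (lb M S m a T) t ≤ j)
    {i k : ℕ} (n : Nx Gn u v i k) {Γ Q : ℝ} (c0 : ℝ) (hΓ : sb M m a (k + 1) - sb M m a (i + 1) ≤ Γ)
    (hi : |L0.Gd (lb M S m a T) (sb M m a (i + 1))| ≤ Q)
    (hk : |L0.Gd (lb M S m a T) (sb M m a (k + 1))| ≤ Q) :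
    WW M S m a T c0 (sb M m a (k + 1)) - WW M S m a T c0 (sb M m a (i + 1)) ≤
      S.C ^ 2 * S.ms b' * (δ + S.C * S.v) + 2 * g + S.C * (e + 2 * o * Q + (o + lam * Γ ^ 2) * δ) -
      (S.ms a' / S.C - S.C ^ 2 * S.ms b' * θ - S.C * (o + (o + lam * Γ ^ 2) * θ)) *
        (sb M m a (k + 1) - sb M m a (i + 1)) := by
  have A := W.at'
  obtain ⟨n1, n2, n3, n4, n5, -⟩ := id n
  have vp := W.vJ.le.trans A.cl.i3
  have W' := W.wd (c0 := 0) (er := ∑ y ∈ Finset.Icc u v, |res M S m a T y - 0|)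
    (fun y p q _ => Finset.single_le_sum (f := fun y => |res M S m a T y - 0|)
      (fun _ _ => abs_nonneg _) (Finset.mem_Icc.2 ⟨p, q⟩)) hp
  have mi := W.mb n1 (n2.trans n3)
  have mk := W.mb (n1.trans n2) n3
  have ik := A.sb_mono (Nat.succ_le_succ n2)
  have p := (A.Mf_sl W.a0.le (W.b1.le.trans (A.cl.sm A.cl.i3)) _ _ mi.1 ik mk.2).1
  have q := W'.H_le n1 n2 n3
  have r := W.gap i k n
  have cm : 0 ≤ o + lam * Γ ^ 2 := add_nonneg W.o0 (mul_nonneg W.lam0 (sq_nonneg _))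
  have a1 := W.e1 i k n1 n2 n3 n4 n5
  have a2 := W.clk cm n2 fun y p1 p2 => (W.cc i k y n p1 p2).trans (add_le_add le_rfl
    (mul_le_mul_of_nonneg_left (pow_le_pow_left₀ (sub_nonneg.2 ik) hΓ 2) W.lam0))
  have a3 := mul_le_mul_of_nonneg_left (show M.z k - M.z i ≤
    δ + θ * (sb M m a (k + 1) - sb M m a (i + 1)) by linarith) cm
  have a4 := mul_le_mul_of_nonneg_left (add_le_add hi hk) W.o0
  have a5 : |M.b * res M S m a T k - M.b * res M S m a T i| ≤ S.C * (e + o * (Q + Q) +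
      (o * (sb M m a (k + 1) - sb M m a (i + 1)) +
        (o + lam * Γ ^ 2) * (δ + θ * (sb M m a (k + 1) - sb M m a (i + 1))))) := by
    rw [← mul_sub, abs_mul, abs_of_nonneg (by linarith [A.b_mem.1])]
    exact mul_le_mul A.b_mem.2 (by linarith) (abs_nonneg _) A.c_pos.le
  have g1 := abs_le.1 (W.hg i n1 (n2.trans n3) n4)
  have g2 := abs_le.1 (W.hg k (n1.trans n2) n3 n5)
  have t1 : M.b * M.rb m a i / (m + 1) ≤ M.b * M.rb m a k / (m + 1) :=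
    div_le_div_of_nonneg_right (mul_le_mul_of_nonneg_left (rb_mono A.m_pos n2)
      (by linarith [A.b_mem.1])) (by positivity)
  have D0 : 0 ≤ S.C ^ 2 * S.ms b' := mul_nonneg (sq_nonneg _) (A.ms_pos (W.a0.le.trans W'.ab)).le
  have t2 := mul_le_mul_of_nonneg_left (show M.z k - M.z i + S.C * S.v ≤ δ + S.C * S.v +
    θ * (sb M m a (k + 1) - sb M m a (i + 1)) by linarith) D0
  simp only [WW]
  rw [A.Mf_b (W.ju.trans_le (n1.trans n2)) (n3.trans vp),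
    A.Mf_b (W.ju.trans_le n1) ((n2.trans n3).trans vp)]
  linarith [(abs_le.1 a5).1]

end Crest.Agent.T156.Alt.Mp9

end
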