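import Crest.Agent.T156.Cvx_25
import Crest.Agent.T156.ClNd_9

/-!
Row 156 (helper25): the top end of the plateau.  Where `Γ` is uniformly concave, the first cavity
equation in difference form bounds the rise of the mean overlap between two nodes.
-/

set_option autoImplicit false

namespace Crest.Agent.T156.Pr.Cv25

open MeasureTheory Set
open Crest.Agent.R164.GC Crest.Agent.R339.B Crest.Agent.R339.Var Crest.Agent.T157.Pf
open Crest.Agent.T156.Pr.Reg48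

/-- `c D² / 2 ≤ x D + y` -/
theorem le_of_quad {c D x y : ℝ} (hc : 0 < c) (hx : 0 ≤ x) (hy : 0 ≤ y)
    (h : c / 2 * D ^ 2 ≤ x * D + y) : D ≤ 2 / c * x + √(2 / c) * √y := by
  by_contra hn
  have hn := not_le.1 hn
  have s0 := Real.sqrt_nonneg (2 / c)
  have s1 := Real.sqrt_nonneg y
  have e0 : √(2 / c) ^ 2 = 2 / c := Real.sq_sqrt (by positivity)
  have e1 : √y ^ 2 = y := Real.sq_sqrt hy
  set w := √(2 / c) * √y with hw
  have w0 : 0 ≤ w := by positivity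
  have w2 : c / 2 * w ^ 2 = y := by
    rw [hw, mul_pow, e0, e1]; field_simp
  have x2 : 0 ≤ 2 / c * x := by positivity
  have d0 : 0 < D := by linarith
  have a1 : c / 2 * (D - w) > x := by
    have : c / 2 * (2 / c * x) = x := by field_simp
    nlinarith
  have a2 : c / 2 * (D - w) * D > x * D := mul_lt_mul_of_pos_right a1 d0
  have a3 : c / 2 * w * w ≤ c / 2 * w * D :=
    mul_le_mul_of_nonneg_left (by linarith) (by positivity)
  nlinarith

/-- rise of `M` on an interval where `Γ'' ≤ -c` -/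
theorem Mf_conc {l : List (ℝ × ℝ)} {p t b c g : ℝ} (h : Ok l) (hb : 0 ≤ b) (hp : 0 ≤ p)
    (hpt : p ≤ t) (ht : t ≤ TT l) (hK : ∀ s ∈ Ico p t, Gd l s ≤ -c) (hg : b * GG l p ≤ 1 + g) :
    b * (c / 2 * (t - p) ^ 2) - g * (t - p) ≤ Rig.Mf b l t - Rig.Mf b l p := by
  have a := mul_le_mul_of_nonneg_left (Gam_up h hp hpt ht hK) hb
  have d := mul_le_mul_of_nonneg_right hg (sub_nonneg.2 hpt)
  change _ ≤ t - b * Gam l t - (p - b * Gam l p)
  nlinarith

end Crest.Agent.T156.Pr.Cv25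

namespace Crest.Agent.T156.Alt.Mp9.At

open Set
open Crest.Agent.R164.GC Crest.Agent.R339.B Crest.Agent.R339.Var Crest.Agent.T157.Pf
open Crest.Agent.T156.Pr.Cv25 Crest.Agent.T156.Pr.Reg48

variable {S : Sc} {M : Md} {m : ℕ} {a T : ℝ}

/-- `b G` of the mean profile from the `H⁻¹` size -/
theorem bG_le (T0 : ℝ) : ∃ C : ℝ, 1 ≤ C ∧ ∀ {S : Sc} {M : Md} {m : ℕ} {a T : ℝ},
    At S M m a T → T ≤ T0 → ∀ t ∈ Icc 0 T, ∀ p0, Rig.Hp (lh M T) (lb M S m a T) t ≤ p0 →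
      M.b * Pr.GG (lb M S m a T) t ≤ 1 + C * M.b * p0 := by
  obtain ⟨C, c1, hC⟩ := Rig.rel T0
  refine ⟨C, c1, fun {S M m a T} A hT t ht p0 hp => ?_⟩
  have r := (hC (lb M S m a T) (lh M T) (Spl27.ap_of_ok A.okb.1) (Spl27.ap_of_ok A.okh.1)
    (A.okb.2.trans A.okh.2.symm) (by rw [A.okh.2]; exact hT) M.b A.b_pos.le t
    (by rw [A.okh.2]; exact ht)).2.2.1
  have e := A.e_nonneg ht
  have b0 := A.b_pos
  have q := mul_le_mul_of_nonneg_left hp (by positivity : 0 ≤ C * M.b)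
  have r1 := (abs_le.1 r).1
  change _ ≤ 1 - M.b * Pr.GG (lb M S m a T) t - (1 - M.b * Pr.GG (lh M T) t) at r1
  linarith

/-- **(E1) in difference form on a concave stretch**, concavity as a hypothesis -/
theorem diff_conc (A : At S M m a T) {i j : ℕ} {c g er la dH : ℝ} (h1 : S.jl < i) (h : i ≤ j)
    (h2 : j ≤ S.Jp) (hc : 0 < c) (g0 : 0 ≤ g) (l0 : 0 ≤ la) (e0 : 0 ≤ er)
    (hK : ∀ s ∈ Ico (sb M m a (i + 1)) (sb M m a (j + 1)), Pr.Reg48.Gd (lb M S m a T) s ≤ -c)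
    (hg : M.b * Pr.GG (lb M S m a T) (sb M m a (i + 1)) ≤ 1 + M.b * g)
    (hE : res M S m a T i - res M S m a T j ≤ er + la * (sb M m a (j + 1) - sb M m a (i + 1)))
    (hH : M.H j - M.H i ≤ dH) :
    sb M m a (j + 1) - sb M m a (i + 1) ≤ 2 / c * (g + la) + √(2 / c) * √(dH + er) := by
  have mo : sb M m a (i + 1) ≤ sb M m a (j + 1) := A.sb_mono (Nat.succ_le_succ h)
  have r := Mf_conc A.okb.1 A.b_pos.le (A.sb_mem (h.trans h2)).1 mo
    (by rw [A.okb.2]; exact (A.sb_mem h2).2) hK hg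
  rw [A.Mf_b (h1.trans_le h) h2, A.Mf_b h1 (h.trans h2)] at r
  have b0 := A.b_pos
  have b1 : 1 ≤ M.b := (d_mem A.cl (le_refl M.N)).1
  have H0 := A.cl.leg.Hm h
  have rm := rb_mono (M := M) (a := a) A.m_pos h
  have t1 : M.b * M.rb m a i / (m + 1) ≤ M.b * M.rb m a j / (m + 1) :=
    div_le_div_of_nonneg_right (mul_le_mul_of_nonneg_left rm b0.le) (by positivity)
  have t2 := mul_le_mul_of_nonneg_left hE b0.le
  have t3 : dH ≤ M.b * dH := le_mul_of_one_le_left (by linarith) b1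
  refine le_of_quad hc (by linarith) (by linarith) (le_of_mul_le_mul_left ?_ b0)
  nlinarith

/-- **TopQ, difference form**: from a node `i` of label `≥ 1 - u0` to a node `j ≥ i` -/
theorem top_diff (T0 : ℝ) : ∃ K u0 : ℝ, 1 ≤ K ∧ 0 < u0 ∧ ∀ {S : Sc} {M : Md} {m : ℕ} {a T : ℝ},
    At S M m a T → T ≤ T0 → ∀ {i j : ℕ} {p0 er la dH : ℝ}, S.jl < i → i ≤ j → j ≤ S.Jp →
      1 - u0 ≤ M.z i → 0 ≤ la → 0 ≤ er →
      Rig.Hp (lh M T) (lb M S m a T) (sb M m a (i + 1)) ≤ p0 →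
      res M S m a T i - res M S m a T j ≤ er + la * (sb M m a (j + 1) - sb M m a (i + 1)) →
      M.H j - M.H i ≤ dH →
      sb M m a (j + 1) - sb M m a (i + 1) ≤ K * (p0 + la + √(dH + er)) ∧
        ∀ k ≤ j, M.rb m a k ≤ M.rb m a i + 2 * K * (p0 + la + √(dH + er)) := by
  obtain ⟨C, c1, hC⟩ := bG_le T0
  obtain ⟨u0, c, u1, c0, hu⟩ := Gd_neg T0
  have s0 := Real.sqrt_nonneg (2 / c)
  have k0 : 0 < 2 / c := by positivity
  refine ⟨1 + 2 / c * C + √(2 / c), u0, by nlinarith, u1,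
    fun {S M m a T} A hT i j p0 er la dH h1 h h2 hz l0 e0 hp hE hH => ?_⟩
  have p00 : 0 ≤ p0 := le_trans (add_nonneg (abs_nonneg _) (intervalIntegral.integral_nonneg
    (by rw [A.okh.2]; exact (A.sb_mem h2).1.trans (A.sb_mem h2).2) fun _ _ => abs_nonneg _)) hp
  have g := hC A hT _ (A.sb_mem (h.trans h2)) p0 hp
  have d := A.diff_conc (g := C * p0) h1 h h2 c0 (by positivity) l0 e0 (fun s hs =>
    hu _ A.okb.1 (by rw [A.okb.2]; exact hT) s ((A.sb_mem (h.trans h2)).1.trans hs.1)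
      (by rw [A.okb.2]; exact hs.2.trans_le (A.sb_mem h2).2) (hz.trans (by
        rw [← A.lvb_node h1.le (h.trans h2)]
        exact Pp.Ode3.lvr_mono A.okb.1.1 hs.1))) (by linarith) hE hH
  have w0 := Real.sqrt_nonneg (dH + er)
  have d2 : sb M m a (j + 1) - sb M m a (i + 1) ≤
      (1 + 2 / c * C + √(2 / c)) * (p0 + la + √(dH + er)) := by
    have x1 : 2 / c * la ≤ 2 / c * C * la := by
      rw [mul_assoc]; exact mul_le_mul_of_nonneg_left (le_mul_of_one_le_left l0 c1) k0.le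
    have x2 : 0 ≤ 2 / c * C * √(dH + er) := by positivity
    have x3 : 0 ≤ √(2 / c) * (p0 + la) := by positivity
    nlinarith
  refine ⟨d2, fun k hk => ?_⟩
  have r := A.sb_rb h (A.jp_le h2)
  have H0 := A.cl.leg.Hm h
  have rm := rb_mono (M := M) (a := a) A.m_pos hk
  linarith

/-- the reference overlaps increase, by at most the times -/
theorem q_inc (A : At S M m a T) {i k : ℕ} (h : i ≤ k) (hk : k ≤ S.Jp) :
    0 ≤ M.q k - M.q i ∧ M.q k - M.q i ≤ M.s k - M.s i := by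
  have s0 := s_nn A.cl i
  have sm := A.cl.sm h
  have sT : M.s k ≤ T := (A.cl.sm hk).trans A.t2
  have b1 : 1 ≤ M.b := (d_mem A.cl (le_refl M.N)).1
  have lo : 0 ≤ M.q k - M.q i := by
    have := Gam_inc_lo A.okh.1 s0 sm (by rw [A.okh.2]; exact sT) (K := 0) fun r _ =>
      Pp.Ode3.Gp_nonneg _ r
    rw [A.gam_h hk, A.gam_h (h.trans hk)] at this
    linarith
  refine ⟨lo, ?_⟩
  have := A.Mf_mono ⟨s0, sm.trans sT⟩ ⟨s0.trans sm, sT⟩ sm
  change M.s i - M.b * Pr.Gam (lh M T) (M.s i) ≤ M.s k - M.b * Pr.Gam (lh M T) (M.s k) at this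
  rw [A.gam_h hk, A.gam_h (h.trans hk)] at this
  nlinarith

/-- `del` of every node from `del` at one node and a bound on `rb` -/
theorem del_up (A : At S M m a T) {i k : ℕ} {D : ℝ} (hi : i ≤ S.Jp) (hk : k ≤ S.Jp)
    (h : M.rb m a k ≤ M.rb m a i + D) :
    M.del m a k ≤ M.del m a i + D + |M.s k - M.s i| := by
  unfold Md.del
  rcases le_total i k with c | c
  · linarith [(A.q_inc c hk).1, abs_nonneg (M.s k - M.s i)]
  · linarith [(A.q_inc c hi).2, neg_abs_le (M.s k - M.s i)]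


/-- the difference form with the linear term: `b G ≤ 1 - μ + b g` -/
theorem diff_lin (A : At S M m a T) {i j : ℕ} {c g μ er la dH : ℝ} (h1 : S.jl < i) (h : i ≤ j)
    (h2 : j ≤ S.Jp) (hc : 0 < c) (g0 : 0 ≤ g) (μ0 : 0 < μ) (l0 : 0 ≤ la) (e0 : 0 ≤ er)
    (hK : ∀ s ∈ Ico (sb M m a (i + 1)) (sb M m a (j + 1)), Pr.Reg48.Gd (lb M S m a T) s ≤ -c)
    (hg : M.b * Pr.GG (lb M S m a T) (sb M m a (i + 1)) ≤ 1 - μ + M.b * g)
    (hE : res M S m a T i - res M S m a T j ≤ er + la * (sb M m a (j + 1) - sb M m a (i + 1)))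
    (hH : M.H j - M.H i ≤ dH) :
    sb M m a (j + 1) - sb M m a (i + 1) ≤ 2 / c * (g + la) + √(2 / c) * √er + dH / μ := by
  have mo : sb M m a (i + 1) ≤ sb M m a (j + 1) := A.sb_mono (Nat.succ_le_succ h)
  have r := Mf_conc (g := M.b * g - μ) A.okb.1 A.b_pos.le (A.sb_mem (h.trans h2)).1 mo
    (by rw [A.okb.2]; exact (A.sb_mem h2).2) hK (by linarith)
  rw [A.Mf_b (h1.trans_le h) h2, A.Mf_b h1 (h.trans h2)] at r
  have b0 := A.b_pos
  have H0 := A.cl.leg.Hm h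
  have rm := rb_mono (M := M) (a := a) A.m_pos h
  have t1 : M.b * M.rb m a i / (m + 1) ≤ M.b * M.rb m a j / (m + 1) :=
    div_le_div_of_nonneg_right (mul_le_mul_of_nonneg_left rm b0.le) (by positivity)
  have t2 := mul_le_mul_of_nonneg_left hE b0.le
  have p1 : 0 ≤ 2 / c * (g + la) + √(2 / c) * √er := by positivity
  have p2 : 0 ≤ dH / μ := div_nonneg (by linarith) μ0.le
  rcases le_or_gt (sb M m a (j + 1) - sb M m a (i + 1)) (dH / μ) with x | x
  · linarith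
  · rw [div_lt_iff₀ μ0] at x
    have := le_of_quad (D := sb M m a (j + 1) - sb M m a (i + 1)) (x := g + la) (y := er) hc
      (by linarith) e0 (le_of_mul_le_mul_left (by nlinarith) b0)
    linarith

/-- **TopQ, difference form with the mass `μ` of the reference** -/
theorem top_diff' (T0 : ℝ) : ∃ K u0 : ℝ, 1 ≤ K ∧ 0 < u0 ∧ ∀ {S : Sc} {M : Md} {m : ℕ} {a T : ℝ},
    At S M m a T → T ≤ T0 → ∀ {i j : ℕ} {p0 μ er la dH : ℝ}, S.jl < i → i ≤ j → j ≤ S.Jp →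
      1 - u0 ≤ M.z i → 0 ≤ la → 0 ≤ er → 0 < μ →
      μ ≤ 1 - M.b * Pr.GG (lh M T) (sb M m a (i + 1)) →
      Rig.Hp (lh M T) (lb M S m a T) (sb M m a (i + 1)) ≤ p0 →
      res M S m a T i - res M S m a T j ≤ er + la * (sb M m a (j + 1) - sb M m a (i + 1)) →
      M.H j - M.H i ≤ dH →
      sb M m a (j + 1) - sb M m a (i + 1) ≤ K * (p0 + la + √er) + dH / μ ∧
        ∀ k ≤ j, M.rb m a k ≤ M.rb m a i + 2 * (K * (p0 + la + √er) + dH / μ) := by
  obtain ⟨C, c1, hC⟩ := Rig.rel T0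
  obtain ⟨u0, c, u1, c0, hu⟩ := Gd_neg T0
  have s0 := Real.sqrt_nonneg (2 / c)
  have k0 : 0 < 2 / c := by positivity
  refine ⟨1 + 2 / c * C + √(2 / c), u0, by nlinarith, u1,
    fun {S M m a T} A hT i j p0 μ er la dH h1 h h2 hz l0 e0 μ0 hμ hp hE hH => ?_⟩
  have p00 : 0 ≤ p0 := le_trans (add_nonneg (abs_nonneg _) (intervalIntegral.integral_nonneg
    (by rw [A.okh.2]; exact (A.sb_mem h2).1.trans (A.sb_mem h2).2) fun _ _ => abs_nonneg _)) hp
  have r := (abs_le.1 (hC (lb M S m a T) (lh M T) (Spl27.ap_of_ok A.okb.1)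
    (Spl27.ap_of_ok A.okh.1) (A.okb.2.trans A.okh.2.symm) (by rw [A.okh.2]; exact hT) M.b
    A.b_pos.le _ (by rw [A.okh.2]; exact A.sb_mem (h.trans h2))).2.2.1).1
  change _ ≤ 1 - M.b * Pr.GG (lb M S m a T) _ - (1 - M.b * Pr.GG (lh M T) _) at r
  have b0 := A.b_pos
  have q := mul_le_mul_of_nonneg_left hp (by positivity : 0 ≤ C * M.b)
  have d := A.diff_lin (g := C * p0) h1 h h2 c0 (by positivity) μ0 l0 e0 (fun s hs =>
    hu _ A.okb.1 (by rw [A.okb.2]; exact hT) s ((A.sb_mem (h.trans h2)).1.trans hs.1)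
      (by rw [A.okb.2]; exact hs.2.trans_le (A.sb_mem h2).2) (hz.trans (by
        rw [← A.lvb_node h1.le (h.trans h2)]
        exact Pp.Ode3.lvr_mono A.okb.1.1 hs.1))) (by linarith) hE hH
  have w0 := Real.sqrt_nonneg er
  have d2 : sb M m a (j + 1) - sb M m a (i + 1) ≤
      (1 + 2 / c * C + √(2 / c)) * (p0 + la + √er) + dH / μ := by
    have x1 : 2 / c * la ≤ 2 / c * C * la := by
      rw [mul_assoc]; exact mul_le_mul_of_nonneg_left (le_mul_of_one_le_left l0 c1) k0.le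
    have x2 : 0 ≤ 2 / c * C * √er := by positivity
    have x3 : 0 ≤ √(2 / c) * (p0 + la) := by positivity
    nlinarith
  refine ⟨d2, fun k hk => ?_⟩
  have r := A.sb_rb h (A.jp_le h2)
  have H0 := A.cl.leg.Hm h
  have rm := rb_mono (M := M) (a := a) A.m_pos hk
  linarith

end Crest.Agent.T156.Alt.Mp9.At

namespace Crest.Agent.T156.Alt

open Finset

variable {S : Sc} {M : Md}

theorem sum_lw_25 (M : Md) {i k : ℕ} (h : i ≤ k) :
    ∑ j ∈ Ioc i k, (M.z j - M.z (j - 1)) = M.z k - M.z i := by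
  induction k, h using Nat.le_induction with
  | base => simp
  | succ j ij ih => rw [Finset.sum_Ioc_succ_top ij, ih, Nat.add_sub_cancel]; ring

/-- **Markov on the plateau**: a node of label `≥ 1 - u0`, away from the top, with a small value -/
theorem Cl.exists_pt_25 (h : Cl S M) {u0 : ℝ} (hu : 0 < u0) {f : ℕ → ℝ} (hf : ∀ k, 0 ≤ f k) :
    ∃ i, S.J ≤ i ∧ i ≤ S.Jp ∧ 1 - u0 ≤ M.z i ∧ M.z (i - 1) ≤ 1 - min u0 (1 / S.C) / 2 ∧
      min u0 (1 / S.C) / 2 * f i ≤ ∑ k ∈ Icc S.J S.Jp, (M.z k - M.z (k - 1)) * f k := by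
  classical
  set c := min u0 (1 / S.C) with hc
  have c0 : 0 < c := lt_min hu (by have := h.C0; positivity)
  have c1 : c ≤ u0 := min_le_left _ _
  have c2 : c ≤ 1 / S.C := min_le_right _ _
  have zt := h.top _ le_rfl
  have J1 : 1 ≤ S.J := by have := h.i2; omega
  have ex1 : ∃ k, S.J ≤ k ∧ 1 - c ≤ M.z k := ⟨S.Jp, h.i3, by linarith⟩
  have ex2 : ∃ k, S.J ≤ k ∧ 1 - c / 2 ≤ M.z k := ⟨S.Jp, h.i3, by linarith⟩
  set k1 := Nat.find ex1
  set k2 := Nat.find ex2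
  obtain ⟨a1, a2⟩ : S.J ≤ k1 ∧ 1 - c ≤ M.z k1 := Nat.find_spec ex1
  obtain ⟨b1, b2⟩ : S.J ≤ k2 ∧ 1 - c / 2 ≤ M.z k2 := Nat.find_spec ex2
  have k12 : k1 ≤ k2 := Nat.find_min' ex1 ⟨b1, by linarith⟩
  have k2p : k2 ≤ S.Jp := Nat.find_min' ex2 ⟨h.i3, by linarith⟩
  have a3 : M.z (k1 - 1) ≤ 1 - c := by
    rcases a1.eq_or_lt with e | e
    · rw [← e]; linarith [h.atom.2]
    · have := Nat.find_min ex1 (show k1 - 1 < k1 by omega)
      exact (not_le.1 fun x => this ⟨by omega, x⟩).le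
  have b3 : M.z (k2 - 1) ≤ 1 - c / 2 := by
    rcases b1.eq_or_lt with e | e
    · rw [← e]; linarith [h.atom.2]
    · have := Nat.find_min ex2 (show k2 - 1 < k2 by omega)
      exact (not_le.1 fun x => this ⟨by omega, x⟩).le
  have w0 : ∀ k, 0 ≤ M.z k - M.z (k - 1) := fun k => sub_nonneg.2 (h.leg.zm (Nat.sub_le _ _))
  obtain ⟨i, hi, hm⟩ := (Ioc (k1 - 1) k2).exists_min_image f ⟨k2, mem_Ioc.2 ⟨by omega, le_rfl⟩⟩
  obtain ⟨i1, i2⟩ := mem_Ioc.1 hi
  refine ⟨i, by omega, by omega, by linarith [h.leg.zm (show k1 ≤ i by omega)],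
    (h.leg.zm (show i - 1 ≤ k2 - 1 by omega)).trans b3, ?_⟩
  calc c / 2 * f i ≤ (∑ j ∈ Ioc (k1 - 1) k2, (M.z j - M.z (j - 1))) * f i := by
        rw [sum_lw_25 M (by omega)]
        exact mul_le_mul_of_nonneg_right (by linarith) (hf i)
    _ ≤ ∑ j ∈ Ioc (k1 - 1) k2, (M.z j - M.z (j - 1)) * f j := by
        rw [sum_mul]
        exact sum_le_sum fun j hj => mul_le_mul_of_nonneg_left (hm j hj) (w0 j)
    _ ≤ _ := sum_le_sum_of_subset_of_nonneg
        (fun j hj => mem_Icc.2 ⟨by have := mem_Ioc.1 hj; omega, by have := mem_Ioc.1 hj; omega⟩)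
        fun j _ _ => mul_nonneg (w0 j) (hf j)


end Crest.Agent.T156.Alt
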