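import Crest.Agent.T156.Cav_22
import Crest.Agent.T156.CaIso_87
import Crest.Agent.T156.CavR_22
import Crest.Agent.T156.SclT_90

-- ▼ part T156/WfA_99
section

/-!
# Row 156 (helper99): one edge in weak form, the weights

`sg_weak`: the signed graft sum of a split-invariant functional is bounded by its size at the old
branching levels and by its partial sums (weights `dm`) along paths.
-/

set_option autoImplicit false
set_option linter.unusedSectionVars false

noncomputable section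

namespace Crest.Agent.T156.Cas

open MeasureTheory Real Set Filter Topology
open Crest.Agent.T157.E Crest.Agent.T157.Casc Crest.Agent.T157.SL

namespace Wf99

open Wt87

variable {Θ : Type}

/-- all initial partial sums with weights `dm` are at most `γ` -/
def Wk (M : List (Lv Θ)) (γ : ℝ) (T : ℕ → ℝ) : Prop :=
  ∀ m ≤ M.length + 1, |∑ k ∈ Finset.range m, dm M 0 k * T k| ≤ γ

/-- bounded by `B`, variation at most `V`, on the levels `0..n` -/
def BV (n : ℕ) (B V : ℝ) (β : ℕ → ℝ) : Prop :=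
  (∀ k ≤ n, |β k| ≤ B) ∧ ∑ k ∈ Finset.range n, |β (k + 1) - β k| ≤ V

theorem Wk.nn {M : List (Lv Θ)} {γ : ℝ} {T : ℕ → ℝ} (H : Wk M γ T) : 0 ≤ γ :=
  (abs_nonneg _).trans (H 0 (Nat.zero_le _))

theorem Wk.mono {M : List (Lv Θ)} {γ γ' : ℝ} {T : ℕ → ℝ} (H : Wk M γ T) (h : γ ≤ γ') :
    Wk M γ' T := fun m hm => (H m hm).trans h

theorem Wk.congr {M : List (Lv Θ)} {γ : ℝ} {T T' : ℕ → ℝ} (H : Wk M γ T)
    (e : ∀ k ≤ M.length, T' k = T k) : Wk M γ T' := fun m hm => by
  refine le_of_eq_of_le (congrArg _ (Finset.sum_congr rfl fun k hk => ?_)) (H m hm)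
  rw [e k (by have := Finset.mem_range.1 hk; omega)]

theorem Wk.add {M : List (Lv Θ)} {γ γ' : ℝ} {T T' : ℕ → ℝ} (H : Wk M γ T) (H' : Wk M γ' T') :
    Wk M (γ + γ') fun k => T k + T' k := fun m hm => by
  simp only [mul_add, Finset.sum_add_distrib]
  exact (abs_add_le _ _).trans (add_le_add (H m hm) (H' m hm))


/-- Abel summation -/
theorem Wk.mul {M : List (Lv Θ)} {γ B V : ℝ} {T β : ℕ → ℝ} (H : Wk M γ T)
    (hβ : BV M.length B V β) : Wk M ((B + V) * γ) fun k => β k * T k := fun m hm => by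
  have h0 := H.nn
  have hB : 0 ≤ B := (abs_nonneg _).trans (hβ.1 0 (Nat.zero_le _))
  have hV : 0 ≤ V := (Finset.sum_nonneg fun _ _ => abs_nonneg _).trans hβ.2
  have e := Finset.sum_range_by_parts β (fun k => dm M 0 k * T k) m
  simp only [smul_eq_mul] at e
  simp only [mul_left_comm (dm M 0 _)]
  rw [e, add_mul]
  refine (abs_sub _ _).trans (add_le_add ?_ ?_)
  · rw [abs_mul]
    exact mul_le_mul (hβ.1 _ (by omega)) (H m hm) (abs_nonneg _) hB
  · refine (Finset.abs_sum_le_sum_abs _ _).trans ?_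
    refine le_trans (Finset.sum_le_sum (g := fun i => |β (i + 1) - β i| * γ) fun i hi => ?_) ?_
    · rw [abs_mul]
      exact mul_le_mul_of_nonneg_left (H _ (by have := Finset.mem_range.1 hi; omega))
        (abs_nonneg _)
    · rw [← Finset.sum_mul]
      refine mul_le_mul_of_nonneg_right (le_trans ?_ hβ.2) h0
      exact Finset.sum_le_sum_of_subset_of_nonneg (Finset.range_subset_range.2 (by omega))
        fun _ _ _ => abs_nonneg _

theorem Wk.cut {M : List (Lv Θ)} {γ : ℝ} {T : ℕ → ℝ} (H : Wk M γ T) (σ : ℕ) :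
    Wk M γ fun k => if k < σ then T k else 0 := fun m hm => by
  refine le_of_eq_of_le (congrArg _ ?_) (H (min m σ) (by omega))
  simp only [mul_ite, mul_zero]
  rw [← Finset.sum_filter]
  congr 1
  ext k
  simp

theorem Wk.ioc {M : List (Lv Θ)} {γ : ℝ} {T : ℕ → ℝ} (H : Wk M γ T) (m : ℕ) :
    |∑ k ∈ Finset.Ioc m M.length, dm M 0 k * T k| ≤ 2 * γ := by
  rcases le_or_gt m M.length with hm | hm
  · have e := Finset.sum_range_add_sum_Ico (fun k => dm M 0 k * T k) (Nat.succ_le_succ hm)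
    rw [show Finset.Ico m.succ M.length.succ = Finset.Ioc m M.length from by
      ext k; simp only [Finset.mem_Ico, Finset.mem_Ioc]; omega] at e
    rw [eq_sub_of_add_eq' e]
    linarith [abs_sub (∑ k ∈ Finset.range M.length.succ, dm M 0 k * T k)
      (∑ k ∈ Finset.range m.succ, dm M 0 k * T k), H _ le_rfl, H m.succ (by omega)]
  · rw [Finset.Ioc_eq_empty (by omega), Finset.sum_empty, abs_zero]
    linarith [H.nn]

theorem ex_nn {M : List (Lv Θ)} (hM : Mono 0 M) (j : ℕ) : 0 ≤ ex M j := by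
  have := sum_dm M 0 j
  rw [sub_zero] at this
  exact this ▸ Finset.sum_nonneg fun k _ => dm_nonneg hM k

theorem ex_le {M : List (Lv Θ)} (hM : Mono 0 M) {j : ℕ} (hj : j ≤ M.length) : ex M j ≤ 1 := by
  have h1 := sum_dm M 0 j
  have h2 := sum_dm M 0 M.length
  rw [ex_length] at h2
  have := Finset.sum_le_sum_of_subset_of_nonneg (f := dm M 0)
    (Finset.range_subset_range.2 (Nat.succ_le_succ hj)) fun k _ _ => dm_nonneg hM k
  linarith

theorem bv_ex {M : List (Lv Θ)} (hM : Mono 0 M) : BV M.length 1 1 (ex M) := by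
  refine ⟨fun k hk => by rw [abs_of_nonneg (ex_nn hM k)]; exact ex_le hM hk, ?_⟩
  have e : ∀ k, |ex M (k + 1) - ex M k| = ex M (k + 1) - ex M k := fun k =>
    abs_of_nonneg (dm_nonneg hM (k + 1))
  simp only [e]
  rw [Finset.sum_range_sub, ex_length]
  linarith [ex_nn hM 0]

theorem wn_aux {γ α : ℝ} (hγ : 0 ≤ γ) (hα : 0 ≤ α) : ∀ (s : Sh) (L : List (Lv Θ)), Mono 0 L →
    ∀ G : s.Lf → ℕ → ℝ, NC s G →
    (∀ a m, |∑ k ∈ Finset.Ioc m L.length, dm L 0 k * G a k| ≤ γ) →
    (∀ a b, a ≠ b → |G a (s.shr a b L.length)| ≤ α) →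
    |Wn s L G - Wn .one L fun _ => G s.fst| ≤ (Fintype.card s.Lf - 1) * (γ + α)
  | .one, L, _, G, _, _, _ => by
      rw [show (Wn .one L fun _ => G Sh.one.fst) = Wn .one L G from rfl, sub_self, abs_zero,
        show Fintype.card Sh.one.Lf = 1 from rfl]
      simp
  | .step s, [], _, G, h, _, H => by
      rw [Wn_nil (.step s) fun a => NC.zero h a s.fst,
        Wn_nil .one (G := fun _ => G (Sh.step s).fst) (c := G s.fst 0) fun _ => rfl,
        show Fintype.card Sh.one.Lf = 1 from rfl, Nat.cast_one, ← sub_mul, abs_mul]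
      have h1 : 1 ≤ Fintype.card (Sh.step s).Lf := Fintype.card_pos_iff.2 ⟨s.fst⟩
      rcases h1.eq_or_lt with h2 | h2
      · rw [← h2]; simp
      · obtain ⟨b, hb⟩ := Fintype.exists_ne_of_one_lt_card h2 s.fst
        have h3 : (0 : ℝ) ≤ Fintype.card (Sh.step s).Lf - 1 := by
          rw [sub_nonneg]; exact_mod_cast h1
        rw [abs_of_nonneg h3]
        exact mul_le_mul_of_nonneg_left ((H s.fst b hb.symm).trans (by linarith)) h3
  | .step s, l :: L, hL, G, h, H1, H2 => by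
      have ih := wn_aux hγ hα s L (Cav22.mono_weak hL.1 hL.2) (fun a j => G a (j + 1)) (NC.step h)
        (fun a m => (congrArg _ (sum_Ioc_cons l L m (G a))).symm.trans_le (H1 a (m + 1)))
        fun a b hab => H2 a b hab
      refine le_of_eq_of_le (congrArg _ ?_) ih
      have e1 := Wn_step_cons s l L G
      have e2 := Wn_one_cons l L fun _ => G s.fst
      exact (congrArg₂ (· - ·) e1 e2).trans (add_sub_add_right_eq_sub _ _ _)
  | .split s t, L, hL, G, h, H1, H2 => by
      have i1 := wn_aux hγ hα s L hL (fun a => G (.inl a)) (NC.inl h) (fun a => H1 (.inl a))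
        fun a b hab => H2 (.inl a) (.inl b) fun e => hab (Sum.inl.inj e)
      have i2 := wn_aux hγ hα t L hL (fun a => G (.inr a)) (NC.inr h) (fun a => H1 (.inr a))
        fun a b hab => H2 (.inr a) (.inr b) fun e => hab (Sum.inr.inj e)
      have i3 := Wn_one' L fun _ => G (.inr t.fst)
      have i4 : |ex L 0 * G (.inr t.fst) 0| ≤ α := by
        rw [abs_mul, abs_of_nonneg (ex_nn hL 0)]
        exact (mul_le_of_le_one_left (abs_nonneg _) (ex_le hL (Nat.zero_le _))).trans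
          (H2 (.inr t.fst) (.inl s.fst) Sum.inr_ne_inl)
      have i5 := H1 (.inr t.fst) 0
      have e1 := Wn_split s t L (G := G) (NC.zero h _ _)
      have e2 : (Fintype.card (Sh.split s t).Lf : ℝ) = Fintype.card s.Lf + Fintype.card t.Lf := by
        exact_mod_cast Fintype.card_sum (α := s.Lf) (β := t.Lf)
      have alg : ∀ {W A B A₁ B₁ x y N p q : ℝ}, W = A + B → N = p + q →
          |A - A₁| ≤ (p - 1) * (γ + α) → |B - B₁| ≤ (q - 1) * (γ + α) → B₁ = x + y → |x| ≤ α →
          |y| ≤ γ → |W - A₁| ≤ (N - 1) * (γ + α) := by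
        intro W A B A₁ B₁ x y N p q h1 h2 h3 h4 h5 h6 h7
        rw [abs_le] at h3 h4 h6 h7 ⊢
        subst h1 h2 h5
        constructor <;> linarith [h3.1, h3.2, h4.1, h4.2, h6.1, h6.2, h7.1, h7.2]
      exact alg e1 e2 i1 i2 i3 i4 i5

/-- the old branching levels -/
def Old (s : Sh) (n j : ℕ) : Prop := ∃ a b : s.Lf, a ≠ b ∧ s.shr a b n = j

/-- **node sums in weak form** -/
theorem abs_Wn_weak {γ α : ℝ} (hα : 0 ≤ α) (s : Sh) {L : List (Lv Θ)} (hL : Mono 0 L)
    {G : s.Lf → ℕ → ℝ} (h : NC s G) (H1 : ∀ a, Wk L γ (G a))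
    (H2 : ∀ a j, Old s L.length j → |G a j| ≤ α) :
    |Wn s L G| ≤ Fintype.card s.Lf * (2 * γ + α) := by
  have hγ := (H1 s.fst).nn
  have h1 := wn_aux (γ := 2 * γ) (by linarith) hα s L hL G h (fun a => (H1 a).ioc)
    fun a b hab => H2 a _ ⟨a, b, hab, rfl⟩
  have h2 : |Wn .one L fun _ => G s.fst| ≤ γ :=
    (congrArg _ (Wn_one L fun _ => G s.fst)).trans_le (H1 s.fst _ le_rfl)
  rw [abs_le] at h1 h2 ⊢
  constructor <;> nlinarith [h1.1, h1.2, h2.1, h2.2]

/-- two new leaves, the second one grafted at level `k` on the path of the first one -/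
def gq (s : Sh) (a : s.Lf) (j k : ℕ) : GT s :=
  ⟨(s.graft a j).graft (s.nw a j) k, fun b => (s.graft a j).emb (s.nw a j) k (s.emb a j b), k,
    (s.graft a j).emb (s.nw a j) k (s.nw a j), (s.graft a j).nw (s.nw a j) k⟩

/-- the functional only sees the split matrix and is symmetric in the marked pair -/
structure Inv {s : Sh} (n : ℕ) (Φ : GT s → ℝ) : Prop where
  i1 : ∀ a j b, j ≤ n → s.shr b a j = j → Φ (.g1 s a j b) = Φ (.g1 s b j b)
  i1' : ∀ a j b, j ≤ n → Φ (.g1' s a j b) = Φ (.g1 s a j b)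
  i2 : ∀ a j b k, k ≤ j → j ≤ n → s.shr a b k = k → Φ (.g2 s a j b k) = Φ (gq s a j k)
  i2' : ∀ a j b k, j ≤ n → k ≤ n → Φ (.g2 s a j b k) = Φ (.g2 s b k a j)
  i3 : ∀ a b j, j ≤ n → s.shr a b j = j → Φ (gq s a j j) = Φ (gq s b j j)

theorem Inv.comp₂ {s : Sh} {n : ℕ} {Φ Ψ : GT s → ℝ} (h : Inv n Φ) (h' : Inv n Ψ)
    (f : ℝ → ℝ → ℝ) : Inv n fun τ => f (Φ τ) (Ψ τ) :=
  ⟨fun a j b x y => congrArg₂ f (h.i1 a j b x y) (h'.i1 a j b x y),
   fun a j b x => congrArg₂ f (h.i1' a j b x) (h'.i1' a j b x),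
   fun a j b k x y z => congrArg₂ f (h.i2 a j b k x y z) (h'.i2 a j b k x y z),
   fun a j b k x y => congrArg₂ f (h.i2' a j b k x y) (h'.i2' a j b k x y),
   fun a b j x y => congrArg₂ f (h.i3 a b j x y) (h'.i3 a b j x y)⟩

theorem Inv.mul {s : Sh} {n : ℕ} {Φ Ψ : GT s → ℝ} (h : Inv n Φ) (h' : Inv n Ψ) :
    Inv n fun τ => Φ τ * Ψ τ := h.comp₂ h' (· * ·)

/-- functions of the level -/
theorem inv_lev (s : Sh) (n : ℕ) (c : ℕ → ℝ) : Inv n fun τ : GT s => c τ.j :=
  ⟨fun _ j b _ e => congrArg c (e.trans (shr_self s b j).symm),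
   fun a j b _ => congrArg c (shr_comm s a b j),
   fun a j b k x _ e => congrArg c (by
     show s.shr a b (min j k) = k
     rw [min_eq_right x, e]),
   fun a j b k _ _ => congrArg c (by
     show s.shr a b (min j k) = s.shr b a (min k j)
     rw [shr_comm, min_comm]),
   fun _ _ _ _ _ => rfl⟩

theorem on_iff (s : Sh) (a b : s.Lf) {k n : ℕ} (hk : k ≤ n) :
    s.shr a b k = k ↔ k < s.shr a b n + 1 := by
  have := shr_min s a b k n
  rw [min_eq_left hk] at this
  omega

theorem old_of_ne (s : Sh) {a b : s.Lf} {k n : ℕ} (hk : k ≤ n) (h : s.shr a b k ≠ k) :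
    Old s n (s.shr a b k) := by
  refine ⟨a, b, fun e => h (by rw [e, shr_self]), ?_⟩
  have := shr_min s a b k n
  rw [min_eq_left hk] at this
  omega

theorem gq_old {s : Sh} {n : ℕ} {Φ : GT s → ℝ} (I : Inv n Φ) {α : ℝ}
    (HO : ∀ τ : GT s, τ.Mem s n → Old s n τ.j → |Φ τ| ≤ α) (a : s.Lf) {j k : ℕ} (hk : k ≤ j)
    (hj : j ≤ n) (h : Old s n k) : |Φ (gq s a j k)| ≤ α := by
  rw [← I.i2 a j a k hk hj (shr_self _ _ _)]
  refine HO _ (.g2 a a hj (hk.trans hj)) ?_
  show Old s n (s.shr a a (min j k))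
  rwa [shr_self, min_eq_right hk]

theorem old_le {s : Sh} {n j : ℕ} (h : Old s n j) : j ≤ n := by
  obtain ⟨a, b, -, rfl⟩ := h
  exact shr_le _ _ _ _

/-- nodes on the path of `a` below `σ` -/
theorem abs_Wn_on {γ α : ℝ} (hα : 0 ≤ α) (s : Sh) {L : List (Lv Θ)} (hL : Mono 0 L) (a : s.Lf)
    (σ : ℕ) {T : ℕ → ℝ} (H1 : Wk L γ T) (H2 : ∀ k < σ, Old s L.length k → |T k| ≤ α) :
    |Wn s L fun b k => if s.shr a b k = k ∧ k < σ then T k else 0| ≤
      Fintype.card s.Lf * (2 * γ + α) := by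
  refine abs_Wn_weak hα s hL (fun b c k e => ?_) (fun b => ?_) fun b k hk => ?_
  · simp only [shr_congr s e a]
  · refine (H1.cut (min (s.shr a b L.length + 1) σ)).congr fun k hk => ?_
    simp only [on_iff s a b hk, lt_min_iff]
  · split_ifs with e
    · exact H2 k e.2 hk
    · rw [abs_zero]; exact hα

/-- **one edge in weak form, pure weights** -/
theorem sg_weak {s : Sh} {M : List (Lv Θ)} (hM : Mono 0 M) {Φ : GT s → ℝ} (I : Inv M.length Φ)
    {γ α : ℝ} (hα : 0 ≤ α)
    (HO : ∀ τ : GT s, τ.Mem s M.length → Old s M.length τ.j → |Φ τ| ≤ α)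
    (W1 : ∀ b, Wk M γ fun j => Φ (.g1 s b j b))
    (W2 : ∀ a j, j ≤ M.length → Wk M γ fun k => Φ (gq s a j k))
    (W3 : ∀ a, Wk M γ fun j => Φ (gq s a j j)) :
    |sg (-1) M s Φ| ≤ (Fintype.card s.Lf : ℝ) ^ 2 * (14 * γ + 9 * α) := by
  have hγ := (W1 s.fst).nn
  set N : ℝ := (Fintype.card s.Lf : ℝ) with hN
  have N1 : 1 ≤ N := by
    rw [hN]; exact_mod_cast Fintype.card_pos_iff.2 ⟨s.fst⟩
  have r : ∀ {j}, j ∈ Finset.range (M.length + 1) → j ≤ M.length := fun h =>
    Nat.lt_succ_iff.1 (Finset.mem_range.1 h)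
  have t0 : |∑ a, ∑ b ∈ Finset.univ.erase a, Φ (.g0 s M.length a b)| ≤ N * (N * α) := by
    refine (Finset.abs_sum_le_sum_abs _ _).trans ((Finset.sum_le_card_nsmul _ _ (N * α)
      fun a _ => ?_).trans (by rw [nsmul_eq_mul, Finset.card_univ]))
    refine (Finset.abs_sum_le_sum_abs _ _).trans ((Finset.sum_le_card_nsmul _ _ α
      fun b hb => ?_).trans ?_)
    · have hb' := Finset.ne_of_mem_erase hb
      exact HO _ (.g0 hb') ⟨a, b, hb'.symm, rfl⟩
    · rw [nsmul_eq_mul]
      refine mul_le_mul_of_nonneg_right ?_ hα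
      rw [hN]
      exact_mod_cast Finset.card_le_univ _
  have t1 : ∀ b, |Wn s M fun a j => Φ (.g1 s a j b)| ≤ N * (2 * γ + α) + N * α := fun b => by
    have e := Wn_congr s M (G := fun a j => Φ (.g1 s a j b)) (G' := fun a j =>
      (if s.shr b a j = j ∧ j < M.length + 1 then Φ (.g1 s b j b) else 0) +
        if s.shr b a j = j then 0 else Φ (.g1 s a j b)) fun a j hj => by
        by_cases h : s.shr b a j = j
        · rw [if_pos ⟨h, by omega⟩, if_pos h, add_zero, I.i1 a j b hj h]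
        · rw [if_neg fun h' => h h'.1, if_neg h, zero_add]
    rw [e, Wn_add]
    refine (abs_add_le _ _).trans (add_le_add (abs_Wn_on hα s hM b _ (W1 b) fun k hk h =>
      HO _ (.g1 b b (by omega)) ?_) ?_)
    · show Old s M.length (s.shr b b k)
      rwa [shr_self]
    · refine (abs_Wn_le s hM (G' := fun _ _ => α) fun a j hj => ?_).trans (Wn_const s M α).le
      split_ifs with h
      · rw [abs_zero]; exact hα
      · exact HO _ (.g1 a b hj) (old_of_ne s hj h)
  have wc : ∀ {G : s.Lf → ℕ → ℝ} {c : ℝ}, (∀ a j, j ≤ M.length → |G a j| ≤ c) →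
      |Wn s M G| ≤ N * c := fun {G c} h =>
    (abs_Wn_le s hM (G' := fun _ _ => c) h).trans (Wn_const s M c).le
  have e1 : ∑ a, ∑ j ∈ Finset.range (M.length + 1), cw s M a j *
      (∑ b, Φ (.g1 s a j b) + ∑ b, Φ (.g1' s a j b)) =
      2 * ∑ b, Wn s M fun a j => Φ (.g1 s a j b) := by
    simp only [← sum_cw_eq]
    rw [Finset.sum_comm (s := Finset.univ) (t := Finset.univ), Finset.mul_sum]
    refine Finset.sum_congr rfl fun a _ => ?_
    rw [Finset.sum_comm (s := Finset.univ), Finset.mul_sum]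
    refine Finset.sum_congr rfl fun j hj => ?_
    simp only [fun b => I.i1' a j b (r hj), ← Finset.mul_sum]
    ring
  have t1' : |∑ b, Wn s M fun a j => Φ (.g1 s a j b)| ≤ N * (N * (2 * γ + α) + N * α) :=
    (Finset.abs_sum_le_sum_abs _ _).trans ((Finset.sum_le_card_nsmul _ _ _
      fun b _ => t1 b).trans (by rw [nsmul_eq_mul, Finset.card_univ]))
  have tA : ∀ f : ℕ → ℕ, (∀ j, f j ≤ j + 1) → |Wn s M fun a j => Wn s M fun b k =>
      if s.shr a b k = k ∧ k < f j then Φ (gq s a j k) else 0| ≤ N * (N * (2 * γ + α)) :=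
    fun f hf => wc fun a j hj => abs_Wn_on hα s hM a _ (W2 a j hj) fun k hk h =>
      gq_old I HO a (by have := hf j; omega) hj h
  have tC : |Wn s M fun a j => Wn s M fun b k => if (s.shr a b k = k ∧ k < j + 1) ∨
      (s.shr b a j = j ∧ j < k) then 0 else Φ (.g2 s a j b k)| ≤ N * (N * α) :=
    wc fun a j hj => wc fun b k hk => by
      split_ifs with h
      · rw [abs_zero]; exact hα
      · refine HO _ (.g2 a b hj hk) ?_
        show Old s M.length (s.shr a b (min j k))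
        rcases le_or_gt k j with c | c
        · rw [min_eq_right c]
          exact old_of_ne s hk fun e => h (.inl ⟨e, by omega⟩)
        · rw [min_eq_left c.le]
          exact old_of_ne s hj fun e => h (.inr ⟨(shr_comm s b a j).trans e, c⟩)
  have tD : |Wn s M fun a j => if j ≤ M.length then ex M j * Φ (gq s a j j) else 0| ≤
      N * (2 * ((1 + 1) * γ) + α) := by
    refine abs_Wn_weak hα s hM (fun a b j e => ?_)
      (fun a => ((W3 a).mul (bv_ex hM)).congr fun k hk => if_pos hk) fun a j h => ?_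
    · split_ifs with hj
      · rw [I.i3 a b j hj e]
      · rfl
    · rw [if_pos (old_le h), abs_mul, abs_of_nonneg (ex_nn hM j)]
      exact (mul_le_of_le_one_left (abs_nonneg _) (ex_le hM (old_le h))).trans
        (gq_old I HO a le_rfl (old_le h) h)
  have tE : |Wn s M fun a j => ∑ k ∈ Finset.Ioc j M.length, dm M 0 k * Φ (gq s a j k)| ≤
      N * (2 * γ) := wc fun a j hj => (W2 a j hj).ioc j
  have eB : (Wn s M fun a j => Wn s M fun b k =>
      if s.shr b a j = j ∧ j < k then Φ (gq s b k j) else 0) = Wn s M fun a j => Wn s M fun b k =>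
      if s.shr a b k = k ∧ k < j then Φ (gq s a j k) else 0 := by
    simp only [← sum_cw_eq]
    exact Iso87.swap4 _ _ fun a j b k => if s.shr a b k = k ∧ k < j then Φ (gq s a j k) else 0
  have e2 : ∑ a, ∑ j ∈ Finset.range (M.length + 1), cw s M a j *
      (∑ b, ∑ k ∈ Finset.range (M.length + 1), cw s M b k * Φ (.g2 s a j b k) +
        ∑ i ∈ Finset.range (M.length - j + 1), dm (M.drop j) 0 i * Φ (.g3 s a j i)) =
      (Wn s M fun a j => Wn s M fun b k =>
        if s.shr a b k = k ∧ k < j + 1 then Φ (gq s a j k) else 0) +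
      (Wn s M fun a j => Wn s M fun b k =>
        if s.shr b a j = j ∧ j < k then Φ (gq s b k j) else 0) +
      (Wn s M fun a j => Wn s M fun b k => if (s.shr a b k = k ∧ k < j + 1) ∨
        (s.shr b a j = j ∧ j < k) then 0 else Φ (.g2 s a j b k)) +
      ((Wn s M fun a j => if j ≤ M.length then ex M j * Φ (gq s a j j) else 0) +
      Wn s M fun a j => ∑ k ∈ Finset.Ioc j M.length, dm M 0 k * Φ (gq s a j k)) := by
    rw [sum_cw_eq]
    simp only [← Wn_add]
    refine Wn_congr s M fun a j hj => ?_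
    rw [sum_cw_eq, if_pos hj, ← sum_dm_drop M hj fun k => Φ (gq s a j k)]
    congr 1
    refine Wn_congr s M fun b k hk => ?_
    by_cases h1 : s.shr a b k = k ∧ k < j + 1
    · rw [if_pos h1, if_neg (fun h => by omega), if_pos (.inl h1), add_zero, add_zero,
        I.i2 a j b k (by omega) hj h1.1]
    · by_cases h2 : s.shr b a j = j ∧ j < k
      · rw [if_neg h1, if_pos h2, if_pos (.inr h2), add_zero, zero_add, I.i2' a j b k hj hk,
          I.i2 b k a j h2.2.le hk h2.1]
      · rw [if_neg h1, if_neg h2, if_neg (not_or.2 ⟨h1, h2⟩), add_zero, zero_add]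
  have tA1 := tA (· + 1) fun _ => le_rfl
  have tA2 := tA id fun j => Nat.le_succ j
  rw [sg, e1, e2, eB]
  have n1 : N * γ ≤ N * N * γ := by
    rw [mul_assoc]; exact le_mul_of_one_le_left (by positivity) N1
  have n2 : N * α ≤ N * N * α := by
    rw [mul_assoc]; exact le_mul_of_one_le_left (by positivity) N1
  simp only [id] at tA2
  rw [abs_le] at t0 t1' tA1 tA2 tC tD tE ⊢
  constructor <;> linarith [t0.1, t0.2, t1'.1, t1'.2, tA1.1, tA1.2, tA2.1, tA2.2, tC.1, tC.2,
    tD.1, tD.2, tE.1, tE.2]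

end Wf99

end Crest.Agent.T156.Cas

end
end

-- ▼ part T156/WfB_99

/-!
# Row 156 (helper99): one edge in weak form, tree laws

`sg_wf`: the signed graft sum of `c τ · E (F · K)` is bounded by the pointwise size of the kernel at
the old branching levels and by the `L²` norms of its `dm`-weighted partial sums along one path.
-/

set_option autoImplicit false
set_option linter.unusedSectionVars false

noncomputable section

namespace Crest.Agent.T156.Cas

open MeasureTheory Real Set Filter Topology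
open Crest.Agent.T157.E Crest.Agent.T157.Casc Crest.Agent.T157.SL

namespace Wf99

open Wt87

variable {Ω Θ : Type} [Fintype Ω] {w : Ω → ℝ}

/-- Cauchy–Schwarz for tree expectations -/
theorem tX_cs (hw : Wt w) (s : Sh) (L : List (Lv Ω)) (h : Ω → ℝ)
    {F G : (NT s L → ℝ) → (s.Lf → Ω) → ℝ} (hF : ∀ x, Eg fun g => F g x)
    (hG : ∀ x, Eg fun g => G g x) {A B : ℝ} (hA : 0 ≤ A) (hB : 0 ≤ B)
    (HA : tX w s L h (fun g x => F g x ^ 2) ≤ A ^ 2)
    (HB : tX w s L h (fun g x => G g x ^ 2) ≤ B ^ 2) :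
    |tX w s L h fun g x => F g x * G g x| ≤ A * B := by
  have f2 : ∀ x, Eg fun g => F g x ^ 2 := fun x => by simpa only [sq] using (hF x).mul (hF x)
  have g2 : ∀ x, Eg fun g => G g x ^ 2 := fun x => by simpa only [sq] using (hG x).mul (hG x)
  have fg := fun x => (hF x).mul (hG x)
  have key : ∀ t : ℝ, 0 ≤ A ^ 2 * (t * t) + 2 * (tX w s L h fun g x => F g x * G g x) * t +
      B ^ 2 := fun t => by
    have h1 := Sd.tX_nonneg hw s L h (F := fun g x => (t * t) * F g x ^ 2 +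
      ((2 * t) * (F g x * G g x) + G g x ^ 2)) fun g x => by nlinarith [sq_nonneg (t * F g x + G g x)]
    rw [Sd.tX_add hw s L h (fun x => (f2 x).const_mul _)
      fun x => ((fg x).const_mul _).add (g2 x), Sd.tX_add hw s L h (fun x => (fg x).const_mul _) g2,
      Sd.tX_const_mul, Sd.tX_const_mul] at h1
    nlinarith [mul_le_mul_of_nonneg_left HA (mul_self_nonneg t)]
  have := discrim_le_zero key
  rw [discrim] at this
  exact abs_le_of_sq_le_sq' (by nlinarith) (mul_nonneg hA hB) |> abs_le.2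

/-- Hölder for tree expectations of functions of the leaves -/
theorem TE_holder (hw : Wt w) (s : Sh) (L : List (Lv Ω)) (h : Ω → ℝ) {p q : ℝ}
    (hpq : p.HolderConjugate q) (F G : (s.Lf → Ω) → ℝ) :
    |TE w s L h fun x => F x * G x| ≤ TE w s L h (fun x => |F x| ^ p) ^ (1 / p) *
      TE w s L h (fun x => |G x| ^ q) ^ (1 / q) := by
  refine (Law.abs_TE_le hw s L h _).trans ?_
  have h0 := Law.PT_nonneg hw s L h
  have h1 := Real.inner_le_Lp_mul_Lq Finset.univ (fun x => PT w s L h x ^ (1 / p) * |F x|)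
    (fun x => PT w s L h x ^ (1 / q) * |G x|) hpq
  have e : ∀ {r : ℝ}, 0 < r → ∀ (F : (s.Lf → Ω) → ℝ) x,
      |PT w s L h x ^ (1 / r) * (|F x|)| ^ r = PT w s L h x * |F x| ^ r := fun {r} hr F x => by
    have h2 : 0 ≤ PT w s L h x ^ (1 / r) := rpow_nonneg (h0 x) _
    rw [abs_of_nonneg (mul_nonneg h2 (abs_nonneg _)), mul_rpow h2 (abs_nonneg _),
      ← rpow_mul (h0 x), one_div_mul_cancel hr.ne', rpow_one]
  simp only [e hpq.pos, e hpq.symm.pos] at h1
  simp only [Law.TE_eq hw]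
  refine le_of_eq_of_le (Finset.sum_congr rfl fun x _ => ?_) h1
  rw [mul_mul_mul_comm, ← rpow_add' (h0 x) (by rw [hpq.one_div_add_one_div]; simp),
    hpq.one_div_add_one_div, abs_mul]
  simp

/-- one term, pointwise -/
theorem abs_ev_le (hw : Wt w) {s : Sh} {L : List (Lv Ω)} {τ : GT s} (H : τ.Mem s L.length)
    (h : Ω → ℝ) {p q : ℝ} (hpq : p.HolderConjugate q) (K : ℕ → Ω → Ω → ℝ)
    (F : (s.Lf → Ω) → ℝ) : |TE w τ.sh L h (τ.ev K F)| ≤
      TE w s L h (fun x => |F x| ^ p) ^ (1 / p) *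
        pi2 w L τ.j (fun x y => |K τ.j x y| ^ q) h ^ (1 / q) := by
  refine (TE_holder hw τ.sh L h hpq _ _).trans (le_of_eq ?_)
  rw [H.TE_e hw L h fun x => |F x| ^ p, H.TE_pair hw h fun x y => |K τ.j x y| ^ q]

theorem g1_eq (hw : Wt w) (s : Sh) (a : s.Lf) (j : ℕ) (b : s.Lf) (L : List (Lv Ω)) (h : Ω → ℝ)
    (K : ℕ → Ω → Ω → ℝ) (F : (s.Lf → Ω) → ℝ) :
    TE w (GT.g1 s a j b).sh L h ((GT.g1 s a j b).ev K F) = tX w s L h fun g x =>
      F x * Pf w (L.drop j) (stT s L h g a j) (K (s.shr b a j) (x b)) := by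
  refine (graft_leaf hw s a j L h fun x y => F x * K (s.shr b a j) (x b) y).trans ?_
  simp only [Pf, Finset.mul_sum, mul_left_comm]

theorem g2_eq (hw : Wt w) (s : Sh) (a : s.Lf) (j : ℕ) (b : s.Lf) (k : ℕ) (L : List (Lv Ω))
    (h : Ω → ℝ) (K : ℕ → Ω → Ω → ℝ) (F : (s.Lf → Ω) → ℝ) :
    TE w (GT.g2 s a j b k).sh L h ((GT.g2 s a j b k).ev K F) = tX w s L h fun g x =>
      F x * ∑ y, ∑ y', P w (L.drop j) (stT s L h g a j) y * P w (L.drop k) (stT s L h g b k) y' *
        K (s.shr a b (min j k)) y y' := by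
  refine (graft_leaf hw (s.graft b k) (s.emb b k a) j L h fun x y =>
    F (fun c => x (s.emb b k c)) * K (s.shr a b (min j k)) y (x (s.nw b k))).trans ?_
  refine (tX_graft hw s b k L h (fun p x y' => ∑ y, P w (L.drop j) (p a j) y *
    (F x * K (s.shr a b (min j k)) y y')) fun x y' =>
      Gf.egP_new hw (F := fun _ y => F x * K (s.shr a b (min j k)) y y')
        (fun y => .const _) _ a j).trans ?_
  congr 1
  funext g x
  simp only [Finset.mul_sum]
  rw [Finset.sum_comm]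
  exact Finset.sum_congr rfl fun y _ => Finset.sum_congr rfl fun y' _ => by ring

theorem gq_eq (hw : Wt w) (s : Sh) (a : s.Lf) {j k : ℕ} (hk : k ≤ j) (L : List (Lv Ω))
    (h : Ω → ℝ) (K : ℕ → Ω → Ω → ℝ) (F : (s.Lf → Ω) → ℝ) :
    TE w (gq s a j k).sh L h ((gq s a j k).ev K F) = tX w s L h fun g x =>
      F x * ∑ y, ∑ y', P w (L.drop j) (stT s L h g a j) y * P w (L.drop k) (stT s L h g a k) y' *
        K k y y' := by
  refine (graft_leaf hw (s.graft a j) (s.nw a j) k L h fun x y =>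
    F (fun c => x (s.emb a j c)) * K k (x (s.nw a j)) y).trans ?_
  have e : ∀ g, stT (s.graft a j) L h g (s.nw a j) k = stT (s.graft a j) L h g (s.emb a j a) k :=
    fun g => stT_of_shr _ L h g _ _ k (by rw [shr_nw', shr_self, min_eq_right hk])
  simp only [e]
  refine (tX_graft hw s a j L h (fun p x y => ∑ y', P w (L.drop k) (p a k) y' *
    (F x * K k y y')) fun x y => Gf.egP_new hw (F := fun _ y' => F x * K k y y')
      (fun y => .const _) _ a k).trans ?_
  congr 1
  funext g x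
  simp only [Finset.mul_sum]
  exact Finset.sum_congr rfl fun y _ => Finset.sum_congr rfl fun y' _ => by ring

/-- tree expectations of a symmetric kernel are invariant -/
theorem inv_TE (hw : Wt w) (s : Sh) (L : List (Lv Ω)) (h : Ω → ℝ) {K : ℕ → Ω → Ω → ℝ}
    (hK : ∀ j x y, K j x y = K j y x) (F : (s.Lf → Ω) → ℝ) (n : ℕ) :
    Inv n fun τ : GT s => TE w τ.sh L h (τ.ev K F) := by
  refine ⟨fun a j b _ e => ?_, fun a j b _ => ?_, fun a j b k hk _ e => ?_,
    fun a j b k _ _ => ?_, fun a b j _ e => ?_⟩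
  · rw [g1_eq hw, g1_eq hw, e, shr_self]
    simp only [fun g => stT_of_shr s L h g b a j e]
  · refine congrArg (TE w (s.graft a j) L h) (funext fun x => ?_)
    show _ * K (s.shr a b j) _ _ = _ * K (s.shr b a j) _ _
    rw [shr_comm s a b, hK]
    rfl
  · rw [g2_eq hw, gq_eq hw s a hk, min_eq_right hk, e]
    simp only [fun g => stT_of_shr s L h g a b k e]
  · rw [g2_eq hw, g2_eq hw, shr_comm s b a, min_comm k j]
    congr 1
    funext g x
    rw [Finset.sum_comm]
    simp only [hK _ _ _, mul_comm (P w (L.drop j) _ _)]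
  · rw [gq_eq hw s a le_rfl, gq_eq hw s b le_rfl]
    simp only [fun g => stT_of_shr s L h g a b j e]

/-- second moment of the partial sums of the kernel between a leaf and the nodes of its path -/
def G1 (w : Ω → ℝ) (L : List (Lv Ω)) (h : Ω → ℝ) (K : ℕ → Ω → Ω → ℝ) (m : ℕ) : ℝ :=
  pE w L h fun g x => (∑ j ∈ Finset.range m, dm L 0 j * Pf w (L.drop j) (st L j h g) (K j x)) ^ 2

/-- second moment of the partial sums of the node values of the kernel along a path -/
def G2 (w : Ω → ℝ) (L : List (Lv Ω)) (h : Ω → ℝ) (K : ℕ → Ω → Ω → ℝ) (m : ℕ) : ℝ :=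
  pE w L h fun g _ => (∑ j ∈ Finset.range m, dm L 0 j * qf (P w (L.drop j) (st L j h g)) (K j)) ^ 2

/-- a function of the leaves against a path functional of one leaf -/
theorem abs_path_le (hw : Wt w) (s : Sh) (a : s.Lf) (L : List (Lv Ω)) (h : Ω → ℝ)
    (F : (s.Lf → Ω) → ℝ) (J : Finset ℕ) (c : ℕ → ℝ) {Y : ℕ → Ω → (Ω → ℝ) → ℝ}
    (hY : ∀ j x, Eg (Y j x)) {A Γ : ℝ} (hA : 0 ≤ A) (hΓ : 0 ≤ Γ)
    (HA : TE w s L h (fun x => F x ^ 2) ≤ A ^ 2)
    (HΓ : pE w L h (fun g x => (∑ j ∈ J, c j * Y j x (st L j h g)) ^ 2) ≤ Γ ^ 2) :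
    |∑ j ∈ J, c j * tX w s L h fun g x => F x * Y j (x a) (stT s L h g a j)| ≤ A * Γ := by
  have e1 : ∀ j x, Eg fun g => Y j x (stT s L h g a j) := fun j x =>
    Sp38.eg_node s L h (hY j x) a j
  simp only [← Sd.tX_const_mul]
  rw [← Sd.tX_sum hw s L h J fun j _ x => ((e1 j (x a)).const_mul _).const_mul _]
  simp only [mul_left_comm (c _), ← Finset.mul_sum]
  refine tX_cs hw s L h (F := fun _ x => F x) (fun x => Eg.const _) (fun x => Eg.sum _ fun j _ => (e1 j _).const_mul _)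
    hA hΓ HA (le_of_eq_of_le ?_ HΓ)
  have e2 : ∀ y, EgP fun p : Pa Unit Ω => ∑ j ∈ J, c j * Y j y (p () j) := fun y =>
    .sum _ fun j _ => (EgP.const _).mul (.state (hY j y) () j)
  refine (tF_marg hw s a L h (fun p y => (∑ j ∈ J, c j * Y j y (p () j)) ^ 2) fun y => ?_).trans
    (Tr.tX_one w L h _)
  simpa only [sq] using (e2 y).mul (e2 y)

theorem wk1 (hw : Wt w) (s : Sh) (b : s.Lf) (L : List (Lv Ω)) (h : Ω → ℝ) (K : ℕ → Ω → Ω → ℝ)
    (F : (s.Lf → Ω) → ℝ) {A Γ : ℝ} (hA : 0 ≤ A) (hΓ : 0 ≤ Γ)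
    (HA : TE w s L h (fun x => F x ^ 2) ≤ A ^ 2) (H : ∀ m ≤ L.length + 1, G1 w L h K m ≤ Γ ^ 2) :
    Wk L (A * Γ) fun j => TE w (GT.g1 s b j b).sh L h ((GT.g1 s b j b).ev K F) := fun m hm => by
  simp only [g1_eq hw, shr_self]
  exact abs_path_le hw s b L h F _ _ (Y := fun j x z => Pf w (L.drop j) z (K j x))
    (fun j x => Eg.sum _ fun y _ => (eg_P hw _ y).mul_const _) hA hΓ HA (H m hm)



/-- the coefficient is invariant, bounded by `B`, of variation at most `V` along paths -/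
structure Cf {s : Sh} (n : ℕ) (B V : ℝ) (c : GT s → ℝ) : Prop where
  inv : Inv n c
  bd : ∀ τ : GT s, τ.Mem s n → |c τ| ≤ B
  v1 : ∀ b, BV n B V fun j => c (.g1 s b j b)
  v2 : ∀ a j, j ≤ n → BV n B V fun k => c (gq s a j k)
  v3 : ∀ a, BV n B V fun j => c (gq s a j j)



end Wf99

end Crest.Agent.T156.Cas

end
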